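import Vale.Agent.P057L.WeylA

/-! The list of large frequencies of a bounded sequence, popular values. -/

set_option linter.all false

open Finset
open scoped BigOperators

namespace Vale.Agent.P057T.Lst

open Vale.Agent.P057L.WA

theorem bessel (L : ℕ) (hL : 1 ≤ L) (D : ℕ → ℂ) {B δ : ℝ} (hB : ∀ t, ‖D t‖ ≤ B) (δ0 : 0 < δ)
    (S : Finset ℝ) (h1 : ∀ θ ∈ S, δ * L ≤ ‖∑ t ∈ range L, D t * ee (θ * t)‖)
    (h2 : ∀ θ ∈ S, ∀ θ' ∈ S, θ ≠ θ' → B ^ 2 / (δ ^ 2 * L) ≤ nz (θ - θ')) :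
    (S.card : ℝ) * δ ^ 2 ≤ 2 * B ^ 2 := by
  classical
  have L0 : (0 : ℝ) < L := by exact_mod_cast hL
  have B0 : 0 ≤ B := (norm_nonneg _).trans (hB 0)
  rcases S.eq_empty_or_nonempty with rfl | hne
  · simp; positivity
  have n0 : (0 : ℝ) < S.card := by exact_mod_cast hne.card_pos
  have Bp : 0 < B := by
    obtain ⟨θ, hθ⟩ := hne
    rcases B0.lt_or_eq with h | h
    · exact h
    · have : ∀ t, D t = 0 := fun t => norm_le_zero_iff.1 (h ▸ hB t)
      have := h1 θ hθ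
      simp [*] at this
      nlinarith [mul_pos δ0 L0]
  choose u hu using fun θ : ℝ => Complex.exists_norm_eq_mul_self (∑ t ∈ range L, D t * ee (θ * t))
  set g : ℕ → ℂ := fun t => ∑ θ ∈ S, u θ * ee (θ * t) with hg
  have a1 : (S.card : ℝ) * (δ * L) ≤ B * ∑ t ∈ range L, ‖g t‖ := by
    have e : ∑ θ ∈ S, ((‖∑ t ∈ range L, D t * ee (θ * t)‖ : ℝ) : ℂ) = ∑ t ∈ range L, D t * g t := by
      simp only [hg, mul_sum]
      rw [sum_comm]
      refine sum_congr rfl fun θ _ => ?_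
      rw [(hu θ).2, mul_sum]
      exact sum_congr rfl fun t _ => by ring
    calc _ ≤ ∑ θ ∈ S, ‖∑ t ∈ range L, D t * ee (θ * t)‖ := by
          rw [← nsmul_eq_mul]; exact card_nsmul_le_sum _ _ _ h1
      _ ≤ ‖∑ t ∈ range L, D t * g t‖ := by
          rw [← e, ← Complex.ofReal_sum, Complex.norm_real]; exact le_abs_self _
      _ ≤ _ := by
          rw [mul_sum]
          refine (norm_sum_le _ _).trans (sum_le_sum fun t _ => ?_)
          rw [norm_mul]; exact mul_le_mul_of_nonneg_right (hB t) (norm_nonneg _)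
  have a2 : (∑ t ∈ range L, ‖g t‖) ^ 2 ≤ L * ∑ t ∈ range L, ‖g t‖ ^ 2 := by
    simpa using sq_sum_le_card_mul_sum_sq (s := range L) (f := fun t => ‖g t‖)
  have a3 : ∑ t ∈ range L, ‖g t‖ ^ 2 ≤ S.card * (L + S.card * (δ ^ 2 * L / (2 * B ^ 2))) := by
    have e : ((∑ t ∈ range L, ‖g t‖ ^ 2 : ℝ) : ℂ) = ∑ θ ∈ S, ∑ θ' ∈ S,
        u θ * (starRingEnd ℂ) (u θ') * ∑ t ∈ range L, ee ((θ - θ') * t + 0) := by
      push_cast
      simp only [← Complex.mul_conj', hg, map_sum, sum_mul_sum]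
      simp only [mul_sum]
      rw [sum_comm]
      refine sum_congr rfl fun θ _ => ?_
      rw [sum_comm]
      refine sum_congr rfl fun θ' _ => sum_congr rfl fun t _ => ?_
      rw [add_zero, sub_mul, ee_sub, map_mul]; ring
    have : ∑ t ∈ range L, ‖g t‖ ^ 2 ≤ ‖((∑ t ∈ range L, ‖g t‖ ^ 2 : ℝ) : ℂ)‖ := by
      rw [Complex.norm_real]; exact le_abs_self _
    refine this.trans ?_
    rw [e, ← nsmul_eq_mul]
    refine (norm_sum_le _ _).trans (sum_le_card_nsmul _ _ _ fun θ hθ => ?_)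
    refine (norm_sum_le _ _).trans ?_
    have b : ∀ θ' ∈ S, ‖u θ * (starRingEnd ℂ) (u θ') * ∑ t ∈ range L, ee ((θ - θ') * t + 0)‖ ≤
        (if θ = θ' then (L : ℝ) else 0) + δ ^ 2 * L / (2 * B ^ 2) := by
      intro θ' hθ'
      rw [norm_mul, norm_mul, Complex.norm_conj, (hu θ).1, (hu θ').1, one_mul, one_mul]
      split_ifs with h
      · refine (norm_sum_le _ _).trans ?_
        simp only [norm_ee, sum_const, card_range, nsmul_eq_mul, mul_one]
        have : 0 ≤ δ ^ 2 * L / (2 * B ^ 2) := by positivity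
        linarith
      · have c1 := geom_bound (θ - θ') 0 L
        have c2 := h2 θ hθ θ' hθ' h
        rw [zero_add, le_div_iff₀ (by positivity)]
        rw [div_le_iff₀ (by positivity)] at c2
        have c3 := norm_nonneg (∑ t ∈ range L, ee ((θ - θ') * t + 0))
        have c4 : 0 < δ ^ 2 * L := by positivity
        nlinarith [mul_le_mul_of_nonneg_left c2 c3, mul_le_mul_of_nonneg_left c1 c4.le]
    refine (sum_le_sum b).trans ?_
    rw [sum_add_distrib, sum_ite_eq, if_pos hθ]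
    simp
  have a4 : ((S.card : ℝ) * (δ * L)) ^ 2 ≤ B ^ 2 * (L * (S.card * (L + S.card * (δ ^ 2 * L / (2 * B ^ 2))))) := by
    refine (pow_le_pow_left₀ (by positivity) a1 2).trans ?_
    rw [mul_pow]
    exact mul_le_mul_of_nonneg_left (a2.trans (mul_le_mul_of_nonneg_left a3 L0.le)) (by positivity)
  have a5 : B ^ 2 * (L * (S.card * (L + S.card * (δ ^ 2 * L / (2 * B ^ 2))))) =
      (S.card * L ^ 2) * (B ^ 2 + S.card * δ ^ 2 / 2) := by field_simp
  have a6 : ((S.card : ℝ) * (δ * L)) ^ 2 = (S.card * L ^ 2) * (S.card * δ ^ 2) := by ring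
  rw [a5, a6] at a4
  have := le_of_mul_le_mul_left a4 (by positivity)
  linarith

/-- a maximal separated set -/
theorem cover {α : Type} (p : α → Prop) (far : α → α → Prop) (hs : ∀ x y, far x y → far y x)
    (M : ℝ) (h : ∀ S : Finset α, (∀ x ∈ S, p x) → (∀ x ∈ S, ∀ y ∈ S, x ≠ y → far x y) →
      (S.card : ℝ) ≤ M) :
    ∃ S : Finset α, (S.card : ℝ) ≤ M ∧ (∀ x ∈ S, p x) ∧ ∀ x, p x → ∃ y ∈ S, x = y ∨ ¬ far x y := by
  classical
  let P : ℕ → Prop := fun n => ∃ S : Finset α, S.card = n ∧ (∀ x ∈ S, p x) ∧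
    ∀ x ∈ S, ∀ y ∈ S, x ≠ y → far x y
  have h0 : P 0 := ⟨∅, rfl, by simp, by simp⟩
  have hb : ∀ n, P n → n ≤ ⌊M⌋₊ := fun n ⟨S, e, a, b⟩ => Nat.le_floor (e ▸ h S a b)
  obtain ⟨S, e, a, b⟩ : P (Nat.findGreatest P ⌊M⌋₊) := Nat.findGreatest_spec (Nat.zero_le _) h0
  refine ⟨S, h S a b, a, fun x hx => ?_⟩
  by_contra hn
  push Not at hn
  have hxS : x ∉ S := fun h => (hn x h).1 rfl
  have : P (S.card + 1) := by
    refine ⟨insert x S, card_insert_of_notMem hxS, ?_, ?_⟩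
    · intro y hy
      rcases mem_insert.1 hy with rfl | hy
      exacts [hx, a y hy]
    · intro y hy z hz hne
      rcases mem_insert.1 hy with e1 | hy' <;> rcases mem_insert.1 hz with e2 | hz'
      · exact absurd (e1.trans e2.symm) hne
      · exact e1 ▸ (hn z hz').2
      · exact e2 ▸ hs _ _ (hn y hy').2
      · exact b y hy' z hz' hne
  have := Nat.le_findGreatest (hb _ this) this
  omega

/-- **the list** -/
theorem lst (L : ℕ) (hL : 1 ≤ L) (D : ℕ → ℂ) {B δ : ℝ} (hB : ∀ t, ‖D t‖ ≤ B) (δ0 : 0 < δ) :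
    ∃ Λ : Finset ℝ, (Λ.card : ℝ) ≤ 2 * B ^ 2 / δ ^ 2 ∧
      ∀ θ : ℝ, δ * L ≤ ‖∑ t ∈ range L, D t * ee (θ * t)‖ →
        ∃ lam ∈ Λ, nz (θ - lam) ≤ B ^ 2 / (δ ^ 2 * L) := by
  obtain ⟨S, h1, -, h3⟩ := cover (fun θ : ℝ => δ * L ≤ ‖∑ t ∈ range L, D t * ee (θ * t)‖)
    (fun θ θ' => B ^ 2 / (δ ^ 2 * L) ≤ nz (θ - θ')) (fun x y h => by rwa [← nz_neg, neg_sub])
    (2 * B ^ 2 / δ ^ 2) fun S a b => by
      rw [le_div_iff₀ (by positivity)]; exact bessel L hL D hB δ0 S a b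
  refine ⟨S, h1, fun θ hθ => ?_⟩
  obtain ⟨y, hy, h | h⟩ := h3 θ hθ
  · refine ⟨y, hy, ?_⟩
    rw [h, sub_self, nz_eq]
    simp; positivity
  · exact ⟨y, hy, (not_le.1 h).le⟩

theorem orth {N : ℕ} {k : ℤ} (h0 : k ≠ 0) (h1 : |k| < N) :
    ∑ l ∈ range N, ee ((l : ℝ) / N * k) = 0 := by
  have N0 : (0 : ℝ) < N := by
    have : (0 : ℤ) < N := (abs_nonneg k).trans_lt h1
    exact_mod_cast this
  have e : ∀ l : ℕ, ee ((l : ℝ) / N * k) = ee (k / N) ^ l := fun l => by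
    rw [← ee_nat_mul]; congr 1; ring
  have h2 : ee ((k : ℝ) / N) ≠ 1 := by
    intro h
    have h3 := four_nz_le ((k : ℝ) / N)
    rw [h, sub_self, norm_zero, nz_eq] at h3
    have h4 : (k : ℝ) / N = round ((k : ℝ) / N) := by
      have := abs_nonneg ((k : ℝ) / N - round ((k : ℝ) / N))
      exact sub_eq_zero.1 (abs_eq_zero.1 (by linarith))
    rw [div_eq_iff N0.ne'] at h4
    have h5 : k = round ((k : ℝ) / N) * N := by exact_mod_cast h4
    exact h0 (Int.eq_zero_of_abs_lt_dvd ⟨_, h5.trans (mul_comm _ _)⟩ h1)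
  simp only [e]
  rw [geom_sum_eq h2, ← ee_nat_mul, mul_div_cancel₀ _ N0.ne', ee_int, sub_self, zero_div]

theorem pars {L N : ℕ} (hN : L ≤ N) (D : ℕ → ℂ) :
    ∑ l ∈ range N, ‖∑ t ∈ range L, D t * ee ((l : ℝ) / N * t)‖ ^ 2 = N * ∑ t ∈ range L, ‖D t‖ ^ 2 := by
  apply Complex.ofReal_injective
  push_cast
  simp only [← Complex.mul_conj', map_sum, sum_mul_sum]
  rw [sum_comm, mul_sum]
  refine sum_congr rfl fun t ht => ?_
  rw [sum_comm]
  have e : ∀ t' ∈ range L, ∑ l ∈ range N, D t * ee ((l : ℝ) / N * t) *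
      (starRingEnd ℂ) (D t' * ee ((l : ℝ) / N * t')) =
      if t = t' then N * (D t * (starRingEnd ℂ) (D t)) else 0 := by
    intro t' ht'
    have e1 : ∀ l : ℕ, D t * ee ((l : ℝ) / N * t) * (starRingEnd ℂ) (D t' * ee ((l : ℝ) / N * t')) =
        D t * (starRingEnd ℂ) (D t') * ee ((l : ℝ) / N * ((t - t' : ℤ) : ℝ)) := fun l => by
      push_cast
      rw [mul_sub, ee_sub, map_mul]; ring
    simp only [e1]
    rw [← mul_sum]
    split_ifs with h
    · subst h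
      simp [ee_zero, mul_comm]
    · rw [orth (by omega) (by rw [mem_range] at ht ht'; rw [abs_lt]; omega), mul_zero]
  rw [sum_congr rfl e, sum_ite_eq, if_pos ht]

open Classical in
/-- the labels of the large frequencies -/
noncomputable def Lab (L N : ℕ) (δ : ℝ) (D : ℕ → ℂ) : Finset ℕ :=
  (range N).filter fun l => δ * L ≤ 2 * ‖∑ t ∈ range L, D t * ee ((l : ℝ) / N * t)‖

theorem lab_card {L N : ℕ} (hL : 1 ≤ L) (hN : L ≤ N) (D : ℕ → ℂ) {B δ : ℝ} (hB : ∀ t, ‖D t‖ ≤ B)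
    (δ0 : 0 ≤ δ) : ((Lab L N δ D).card : ℝ) * (δ ^ 2 * L) ≤ 4 * B ^ 2 * N := by
  have L0 : (0 : ℝ) < L := by exact_mod_cast hL
  have h1 : ((Lab L N δ D).card : ℝ) * (δ * L / 2) ^ 2 ≤ N * (L * B ^ 2) := by
    calc _ ≤ ∑ l ∈ Lab L N δ D, ‖∑ t ∈ range L, D t * ee ((l : ℝ) / N * t)‖ ^ 2 := by
          rw [← nsmul_eq_mul]
          refine card_nsmul_le_sum _ _ _ fun l hl => pow_le_pow_left₀ (by positivity) ?_ 2
          have := (mem_filter.1 hl).2
          linarith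
      _ ≤ ∑ l ∈ range N, ‖∑ t ∈ range L, D t * ee ((l : ℝ) / N * t)‖ ^ 2 :=
          sum_le_sum_of_subset_of_nonneg (filter_subset _ _) fun _ _ _ => sq_nonneg _
      _ ≤ _ := by
          rw [pars hN]
          refine mul_le_mul_of_nonneg_left ?_ (Nat.cast_nonneg _)
          refine (sum_le_card_nsmul _ _ (B ^ 2) fun t _ =>
            pow_le_pow_left₀ (norm_nonneg _) (hB t) 2).trans ?_
          simp
  have h2 : (((Lab L N δ D).card : ℝ) * (δ ^ 2 * L)) * L ≤ (4 * B ^ 2 * N) * L := by nlinarith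
  exact le_of_mul_le_mul_right h2 L0

/-- the label of a real number -/
noncomputable def lb (N : ℕ) (θ : ℝ) : ℕ := ⌊N * Int.fract θ⌋₊

theorem lb_lt {N : ℕ} (hN : 1 ≤ N) (θ : ℝ) : lb N θ < N := by
  have N0 : (0 : ℝ) < N := by exact_mod_cast hN
  rw [lb, Nat.floor_lt (mul_nonneg N0.le (Int.fract_nonneg _))]
  nlinarith [Int.fract_lt_one θ]

theorem lb_near {N : ℕ} (hN : 1 ≤ N) (θ : ℝ) : |θ - ⌊θ⌋ - (lb N θ : ℝ) / N| ≤ 1 / N := by
  have N0 : (0 : ℝ) < N := by exact_mod_cast hN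
  have h1 := Nat.floor_le (mul_nonneg N0.le (Int.fract_nonneg θ))
  have h2 := Nat.lt_floor_add_one (N * Int.fract θ)
  have e : θ - ⌊θ⌋ - (lb N θ : ℝ) / N = (N * Int.fract θ - lb N θ) / N := by
    rw [Int.fract]; field_simp
  rw [e, abs_div, abs_of_pos N0]
  refine div_le_div_of_nonneg_right (abs_le.2 ⟨?_, ?_⟩) N0.le <;> simp only [lb] <;> linarith

theorem lb_nz {N : ℕ} (hN : 1 ≤ N) (θ : ℝ) : nz (θ - (lb N θ : ℝ) / N) ≤ 1 / N := by
  refine (nz_le_abs_sub_int _ ⌊θ⌋).trans (le_trans (le_of_eq ?_) (lb_near hN θ))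
  congr 1; ring

/-- the label of a large frequency is in the list -/
theorem lb_mem {L N : ℕ} (hN : 1 ≤ N) (D : ℕ → ℂ) {B δ : ℝ} (hB : ∀ t, ‖D t‖ ≤ B)
    (h : 14 * B * L ≤ δ * N) (θ : ℝ) (hθ : δ * L ≤ ‖∑ t ∈ range L, D t * ee (θ * t)‖) :
    lb N θ ∈ Lab L N δ D := by
  have N0 : (0 : ℝ) < N := by exact_mod_cast hN
  have B0 : 0 ≤ B := (norm_nonneg _).trans (hB 0)
  refine mem_filter.2 ⟨mem_range.2 (lb_lt hN θ), ?_⟩
  have h1 : ‖∑ t ∈ range L, D t * ee (θ * t) - ∑ t ∈ range L, D t * ee ((lb N θ : ℝ) / N * t)‖ ≤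
      L * (B * (7 * (L / N))) := by
    rw [← sum_sub_distrib]
    refine (norm_sum_le _ _).trans ((sum_le_card_nsmul _ _ (B * (7 * (L / N))) fun t ht => ?_).trans
      (by simp))
    rw [← mul_sub, norm_mul]
    refine mul_le_mul (hB t) ?_ (norm_nonneg _) B0
    rw [← ee_sub_int (θ * t) (⌊θ⌋ * t)]
    refine (norm_ee_sub_le _ _).trans ?_
    have e : θ * t - ((⌊θ⌋ * t : ℤ) : ℝ) - (lb N θ : ℝ) / N * t =
        (θ - ⌊θ⌋ - (lb N θ : ℝ) / N) * t := by push_cast; ring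
    have ht' : (t : ℝ) ≤ L := by exact_mod_cast (mem_range.1 ht).le
    rw [e, abs_mul, Nat.abs_cast]
    have := mul_le_mul (lb_near hN θ) ht' (Nat.cast_nonneg _) (by positivity)
    refine mul_le_mul (by linarith [Real.pi_lt_d2]) (this.trans_eq (by ring)) (by positivity)
      (by norm_num)
  have h2 := norm_sub_norm_le (∑ t ∈ range L, D t * ee (θ * t))
    (∑ t ∈ range L, D t * ee ((lb N θ : ℝ) / N * t))
  have h3 : B * (7 * (L / N)) ≤ δ / 2 := by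
    rw [← mul_div_assoc, ← mul_div_assoc, div_le_iff₀ N0]; linarith
  have h4 := mul_le_mul_of_nonneg_left h3 (Nat.cast_nonneg (α := ℝ) L)
  linarith

end Vale.Agent.P057T.Lst
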