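import Vale.Agent.P057L.Core0

/-! The complex box inequality and simultaneous correlation. -/

set_option linter.all false

open Finset
open scoped BigOperators

namespace Vale.Agent.P057T.Ten

open Vale.Agent.P057L

noncomputable section

/-- conjugation according to the parity of the vertex -/
def cj {j : ℕ} (e : Fin j → Bool) : ℂ →+* ℂ := starRingEnd ℂ ^ (∑ i, if e i then 1 else 0)

/-- a vertex of the cube spanned by two points -/
def mix {G : Type} {j : ℕ} (e : Fin j → Bool) (W W' : Fin j → G) : Fin j → G :=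
  fun i => if e i then W i else W' i

theorem cj_true {j : ℕ} (e : Fin j → Bool) (z : ℂ) :
    cj (Fin.cons true e : Fin (j + 1) → Bool) z = cj e (starRingEnd ℂ z) := by
  simp only [cj, Fin.sum_univ_succ, Fin.cons_zero, Fin.cons_succ, if_true]
  rw [add_comm, pow_succ]
  rfl

theorem cj_false {j : ℕ} (e : Fin j → Bool) (z : ℂ) :
    cj (Fin.cons false e : Fin (j + 1) → Bool) z = cj e z := by
  simp only [cj, Fin.sum_univ_succ, Fin.cons_zero, Fin.cons_succ, Bool.false_eq_true, if_false,
    zero_add]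

theorem norm_cj {j : ℕ} (e : Fin j → Bool) (z : ℂ) : ‖cj e z‖ = ‖z‖ := by
  unfold cj
  generalize (∑ i, if e i then 1 else 0) = n
  induction n generalizing z with
  | zero => simp
  | succ n ih =>
    rw [pow_succ]
    exact (ih (starRingEnd ℂ z)).trans (Complex.norm_conj z)

theorem exp_cons {G : Type} [Fintype G] {j : ℕ} (f : (Fin (j + 1) → G) → ℂ) :
    𝔼 W, f W = 𝔼 W : Fin j → G, 𝔼 a : G, f (Fin.cons a W) := by
  classical
  rw [expect_comm, ← expect_product', univ_product_univ]
  exact (Fintype.expect_equiv (Fin.consEquiv fun _ => G) _ _ fun _ => rfl).symm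

theorem nle {Z : Type} (s : Finset Z) (f : Z → ℂ) : ‖𝔼 z ∈ s, f z‖ ≤ 𝔼 z ∈ s, ‖f z‖ := by
  rw [expect_eq_sum_div_card, expect_eq_sum_div_card, norm_div, Complex.norm_natCast]
  exact div_le_div_of_nonneg_right (norm_sum_le _ _) (Nat.cast_nonneg _)

theorem sq_le {Z : Type} [Fintype Z] (f c : Z → ℂ) (hc : ∀ z, ‖c z‖ ≤ 1) :
    ‖𝔼 z, f z * c z‖ ^ 2 ≤ ‖𝔼 z, f z * starRingEnd ℂ (f z)‖ := by
  have e : (𝔼 z, f z * starRingEnd ℂ (f z)) = ((𝔼 z, ‖f z‖ ^ 2 : ℝ) : ℂ) := by
    simp only [Fintype.expect_eq_sum_div_card]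
    push_cast
    simp only [Complex.mul_conj, Complex.normSq_eq_norm_sq]
    push_cast
    rfl
  rw [e, Complex.norm_real, Real.norm_eq_abs, abs_of_nonneg (expect_nonneg fun _ _ => sq_nonneg _)]
  have h1 : ‖𝔼 z, f z * c z‖ ≤ 𝔼 z, ‖f z‖ * 1 :=
    (nle _ _).trans (expect_le_expect fun z _ => by
      rw [norm_mul]; exact mul_le_mul_of_nonneg_left (hc z) (norm_nonneg _))
  refine (pow_le_pow_left₀ (norm_nonneg _) h1 2).trans ?_
  refine (expect_mul_sq_le_sq_mul_sq univ (fun z => ‖f z‖) fun _ => (1 : ℝ)).trans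
    (mul_le_of_le_one_right (expect_nonneg fun _ _ => sq_nonneg _) ?_)
  rcases isEmpty_or_nonempty Z with h | h
  · simp
  · simp

/-- **the complex box inequality** -/
theorem box {G : Type} [Fintype G] [Nonempty G] (j : ℕ) : ∀ (Z : Type) [Fintype Z]
    (F : (Fin j → G) → Z → ℂ) (c : Fin j → (Fin j → G) → Z → ℂ), (∀ l W z, ‖c l W z‖ ≤ 1) →
    (∀ l W a z, c l (Function.update W l a) z = c l W z) →
    ‖𝔼 z, 𝔼 W, F W z * ∏ l, c l W z‖ ^ (2 ^ j) ≤
      ‖𝔼 z, 𝔼 W', 𝔼 W, ∏ e : Fin j → Bool, cj e (F (mix e W W') z)‖ := by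
  classical
  induction j with
  | zero =>
    intro Z _ F c _ _
    have e : ∀ (e : Fin 0 → Bool) (W W' : Fin 0 → G), mix e W W' = W := fun _ _ _ =>
      Subsingleton.elim _ _
    simp [e, cj]
  | succ j ih =>
    intro Z _ F c h1 h2
    obtain ⟨a0⟩ := ‹Nonempty G›
    have c0 : ∀ (a : G) (W : Fin j → G) z, c 0 (Fin.cons a W) z = c 0 (Fin.cons a0 W) z := by
      intro a W z
      rw [← h2 0 (Fin.cons a W) a0 z, Fin.update_cons_zero]
    let P : Z × (Fin j → G) → ℂ := fun p =>
      𝔼 a : G, F (Fin.cons a p.2) p.1 * ∏ l : Fin j, c l.succ (Fin.cons a p.2) p.1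
    have e1 : 𝔼 z, 𝔼 W, F W z * ∏ l, c l W z = 𝔼 p : Z × (Fin j → G),
        P p * c 0 (Fin.cons a0 p.2) p.1 := by
      rw [← univ_product_univ, expect_product]
      refine expect_congr rfl fun z _ => ?_
      rw [exp_cons]
      refine expect_congr rfl fun W _ => ?_
      rw [expect_mul]
      refine expect_congr rfl fun a _ => ?_
      rw [Fin.prod_univ_succ, c0]
      ring
    have e2 : 𝔼 p : Z × (Fin j → G), P p * starRingEnd ℂ (P p) = 𝔼 z : Z × G × G,
        𝔼 W : Fin j → G,
        (F (Fin.cons z.2.1 W) z.1 * starRingEnd ℂ (F (Fin.cons z.2.2 W) z.1)) *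
          ∏ l : Fin j, (c l.succ (Fin.cons z.2.1 W) z.1 *
            starRingEnd ℂ (c l.succ (Fin.cons z.2.2 W) z.1)) := by
      rw [← univ_product_univ, ← univ_product_univ (β := G × G), expect_product, expect_product]
      refine expect_congr rfl fun z _ => ?_
      rw [expect_comm]
      refine expect_congr rfl fun W _ => ?_
      simp only [P]
      rw [core0_conj, expect_mul_expect, ← univ_product_univ, expect_product]
      refine expect_congr rfl fun a _ => expect_congr rfl fun b _ => ?_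
      rw [prod_mul_distrib, map_mul, map_prod]
      ring
    have k := ih (Z × G × G)
      (fun W z => F (Fin.cons z.2.1 W) z.1 * starRingEnd ℂ (F (Fin.cons z.2.2 W) z.1))
      (fun l W z => c l.succ (Fin.cons z.2.1 W) z.1 *
        starRingEnd ℂ (c l.succ (Fin.cons z.2.2 W) z.1))
      (fun l W z => by
        rw [norm_mul, Complex.norm_conj]
        exact mul_le_one₀ (h1 _ _ _) (norm_nonneg _) (h1 _ _ _))
      (fun l W a z => by simp only [Fin.cons_update, h2])
    rw [e1, pow_succ', pow_mul]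
    refine (pow_le_pow_left₀ (sq_nonneg _) (sq_le P _ fun p => h1 _ _ _) _).trans ?_
    rw [e2]
    refine k.trans (le_of_eq (congrArg norm ?_))
    rw [← univ_product_univ (β := G × G), expect_product]
    refine expect_congr rfl fun z _ => ?_
    rw [exp_cons, expect_comm]
    refine expect_congr rfl fun W' _ => ?_
    rw [← univ_product_univ, expect_product]
    refine expect_congr rfl fun b _ => ?_
    rw [exp_cons, expect_comm]
    refine expect_congr rfl fun W _ => expect_congr rfl fun a _ => ?_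
    rw [← (Fin.consEquiv fun _ : Fin (j + 1) => Bool).prod_comp, Fintype.prod_prod_type,
      Fintype.prod_bool]
    have m1 : ∀ e : Fin j → Bool, mix (Fin.consEquiv (fun _ => Bool) (true, e)) (Fin.cons a W)
        (Fin.cons b W') = Fin.cons a (mix e W W') := fun e => by
      funext i
      refine Fin.cases rfl (fun i => rfl) i
    have m2 : ∀ e : Fin j → Bool, mix (Fin.consEquiv (fun _ => Bool) (false, e)) (Fin.cons a W)
        (Fin.cons b W') = Fin.cons b (mix e W W') := fun e => by
      funext i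
      refine Fin.cases rfl (fun i => rfl) i
    have m3 : ∀ (e : Fin j → Bool) (x : ℂ), cj (Fin.consEquiv (fun _ => Bool) (true, e)) x =
        cj e (starRingEnd ℂ x) := fun e x => cj_true e x
    have m4 : ∀ (e : Fin j → Bool) (x : ℂ), cj (Fin.consEquiv (fun _ => Bool) (false, e)) x =
        cj e x := fun e x => cj_false e x
    simp only [m1, m2, m3, m4, map_mul, prod_mul_distrib]
    exact mul_comm _ _

variable {V S ι : Type} [AddCommGroup V] [Fintype S] [Fintype ι] {j : ℕ}

/-- the partial shift -/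
def sh (e : Fin j → Bool) (h : Fin j → V) : Fin j → V := fun i => if e i then h i else 0

/-- the cube correlation of f at the difference h, normalised by n -/
def ph (P : Finset (Fin j → V)) (n : ℕ) (f : (Fin j → V) → S → ℂ) (h : Fin j → V) : ℂ :=
  (∑ x ∈ P, 𝔼 s, ∏ e : Fin j → Bool, cj e (f (x + sh e h) s)) / n

theorem tr (P D : Finset (Fin j → V)) (w : Fin j → V) (hD : ∀ x ∈ P, x - w ∈ D)
    (φ : (Fin j → V) → ℂ) (hφ : ∀ x, x ∉ P → φ x = 0) :
    𝔼 v : D, φ (v.1 + w) = (∑ x ∈ P, φ x) / D.card := by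
  classical
  rw [Fintype.expect_eq_sum_div_card, Fintype.card_coe, sum_coe_sort D fun v => φ (v + w)]
  congr 1
  rw [← sum_image (s := D) (g := fun v => v + w) (f := φ) fun a _ b _ e => add_right_cancel e]
  refine (sum_subset (fun x hx => mem_image.2 ⟨x - w, hD x hx, sub_add_cancel _ _⟩) ?_).symm
  exact fun x _ hx => hφ x hx

theorem ex_pi {α : Type} (A : Finset α) (φ : (Fin j → α) → ℂ) :
    𝔼 W : Fin j → A, φ (fun i => (W i).1) = 𝔼 W ∈ Fintype.piFinset (fun _ : Fin j => A), φ W := by
  classical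
  refine expect_bij (fun W _ => fun i => (W i).1) (fun W _ => ?_) (fun _ _ => rfl)
    (fun W _ W' _ e => ?_) (fun W hW => ?_)
  · exact Fintype.mem_piFinset.2 fun i => (W i).2
  · exact funext fun i => Subtype.ext (congrFun e i)
  · exact ⟨fun i => ⟨W i, Fintype.mem_piFinset.1 hW i⟩, mem_univ _, rfl⟩

/-- **simultaneous correlation**: one box inequality for the tensor product -/
theorem ten (A : Finset V) (hA : A.Nonempty) (P D : Finset (Fin j → V))
    (hD : ∀ w ∈ Fintype.piFinset (fun _ : Fin j => A), ∀ x ∈ P, x - w ∈ D)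
    (f : ι → (Fin j → V) → S → ℂ) (hf : ∀ k x s, x ∉ P → f k x s = 0)
    (c : ι → Fin j → (Fin j → V) → S → ℂ) (h1 : ∀ k l x s, ‖c k l x s‖ ≤ 1)
    (h2 : ∀ k l x a s, c k l (Function.update x l a) s = c k l x s) :
    (∏ k, ‖(∑ x ∈ P, 𝔼 s, f k x s * ∏ l, c k l x s) / D.card‖) ^ (2 ^ j) ≤
      ‖𝔼 w' ∈ Fintype.piFinset (fun _ : Fin j => A), 𝔼 w ∈ Fintype.piFinset (fun _ : Fin j => A),
        ∏ k, ph P D.card (f k) (w - w')‖ := by
  classical
  haveI : Nonempty A := hA.to_subtype
  have key := box (G := A) j (ι → D × S)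
    (fun W z => ∏ k, f k ((z k).1.1 + fun i => (W i).1) (z k).2)
    (fun l W z => ∏ k, c k l ((z k).1.1 + fun i => (W i).1) (z k).2)
    (fun l W z => by
      rw [norm_prod]
      exact prod_le_one (fun _ _ => norm_nonneg _) fun k _ => h1 _ _ _ _)
    (fun l W a z => prod_congr rfl fun k _ => by
      have e : ((z k).1.1 + fun i => (Function.update W l a i).1) =
          Function.update ((z k).1.1 + fun i => (W i).1) l ((z k).1.1 l + a.1) := by
        funext i
        by_cases h : i = l
        · subst h; simp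
        · simp [Function.update_of_ne h]
      rw [e, h2])
  have mem : ∀ W : Fin j → A, (fun i => (W i).1) ∈ Fintype.piFinset (fun _ : Fin j => A) :=
    fun W => Fintype.mem_piFinset.2 fun i => (W i).2
  have spl : ∀ φ : D × S → ℂ, 𝔼 p, φ p = 𝔼 v : D, 𝔼 s, φ (v, s) := fun φ => by
    rw [← univ_product_univ, expect_product]
  refine le_trans (le_of_eq ?_) (key.trans (le_of_eq (congrArg norm ?_)))
  · congr 1
    rw [← norm_prod, expect_comm]
    congr 1
    symm
    refine (expect_congr rfl fun W _ => ?_).trans (Fintype.expect_const _)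
    have e : ∀ z : ι → D × S, (∏ k, f k ((z k).1.1 + fun i => (W i).1) (z k).2) *
        ∏ l, ∏ k, c k l ((z k).1.1 + fun i => (W i).1) (z k).2 =
        ∏ k, (f k ((z k).1.1 + fun i => (W i).1) (z k).2 *
          ∏ l, c k l ((z k).1.1 + fun i => (W i).1) (z k).2) := fun z => by
      rw [prod_mul_distrib, prod_comm]
    simp only [e]
    rw [core0_prod fun k (p : D × S) => f k (p.1.1 + fun i => (W i).1) p.2 *
      ∏ l, c k l (p.1.1 + fun i => (W i).1) p.2]
    refine prod_congr rfl fun k _ => ?_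
    rw [spl]
    exact tr P D _ (hD _ (mem W)) (fun x => 𝔼 s, f k x s * ∏ l, c k l x s) fun x hx => by
      simp [hf k x _ hx]
  · rw [expect_comm, ← ex_pi A fun w' => 𝔼 w ∈ Fintype.piFinset (fun _ : Fin j => A),
      ∏ k, ph P D.card (f k) (w - w')]
    refine expect_congr rfl fun W' _ => ?_
    rw [expect_comm, ← ex_pi A fun w => ∏ k, ph P D.card (f k) (w - fun i => (W' i).1)]
    refine expect_congr rfl fun W _ => ?_
    have e : ∀ z : ι → D × S, (∏ e : Fin j → Bool,
        cj e (∏ k, f k ((z k).1.1 + fun i => (mix e W W' i).1) (z k).2)) =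
        ∏ k, ∏ e : Fin j → Bool, cj e (f k (((z k).1.1 + fun i => (W' i).1) +
          sh e ((fun i => (W i).1) - fun i => (W' i).1)) (z k).2) := fun z => by
      rw [prod_comm]
      refine prod_congr rfl fun e _ => ?_
      rw [map_prod]
      refine prod_congr rfl fun k _ => congrArg (fun x => cj e (f k x (z k).2)) ?_
      funext i
      by_cases h : e i <;> simp [mix, sh, h]
    simp only [e]
    rw [core0_prod fun k (p : D × S) => ∏ e : Fin j → Bool, cj e (f k ((p.1.1 + fun i => (W' i).1) +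
      sh e ((fun i => (W i).1) - fun i => (W' i).1)) p.2)]
    refine prod_congr rfl fun k _ => ?_
    rw [spl]
    refine tr P D _ (hD _ (mem W')) (fun x => 𝔼 s, ∏ e : Fin j → Bool,
      cj e (f k (x + sh e ((fun i => (W i).1) - fun i => (W' i).1)) s)) fun x hx => ?_
    refine expect_eq_zero fun s _ => prod_eq_zero (mem_univ fun _ => false) ?_
    have : x + sh (fun _ : Fin j => false) ((fun i => (W i).1) - fun i => (W' i).1) = x := by
      funext i; simp [sh]
    rw [this, hf k x s hx, map_zero]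

/-- from a large mean of a product to a dense set on which every factor is large -/
theorem dense {α : Type} (X : Finset α) (φ : ι → α → ℂ) {B Δ : ℝ} (hB : 1 ≤ B) (hΔ : 0 < Δ)
    (hφ : ∀ k x, ‖φ k x‖ ≤ B) (h : Δ ≤ ‖𝔼 x ∈ X, ∏ k, φ k x‖) :
    ∃ E ⊆ X, Δ * X.card ≤ 2 * B ^ Fintype.card ι * E.card ∧
      ∀ x ∈ E, ∀ k, Δ ≤ 2 * B ^ Fintype.card ι * ‖φ k x‖ := by
  classical
  have pb : ∀ x, ‖∏ k, φ k x‖ ≤ B ^ Fintype.card ι := fun x => by
    rw [norm_prod, ← card_univ, ← prod_const]
    exact prod_le_prod (fun _ _ => norm_nonneg _) fun k _ => hφ k x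
  refine ⟨X.filter fun x => Δ / 2 ≤ ‖∏ k, φ k x‖, filter_subset _ _, ?_, fun x hx k => ?_⟩
  · rcases X.eq_empty_or_nonempty with rfl | hX
    · simp
    have X0 : (0 : ℝ) < X.card := by exact_mod_cast card_pos.2 hX
    have a := h.trans (nle _ _)
    rw [expect_eq_sum_div_card, le_div_iff₀ X0] at a
    have b : ∑ x ∈ X, ‖∏ k, φ k x‖ ≤
        ∑ x ∈ X, (Δ / 2 + if Δ / 2 ≤ ‖∏ k, φ k x‖ then B ^ Fintype.card ι else 0) :=
      sum_le_sum fun x _ => by
        have := pb x
        split_ifs with c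
        · linarith
        · linarith [not_le.1 c]
    rw [sum_add_distrib, sum_const, ← sum_filter, sum_const, nsmul_eq_mul, nsmul_eq_mul] at b
    linarith
  · have a := (mem_filter.1 hx).2
    rw [norm_prod, ← mul_prod_erase univ _ (mem_univ k)] at a
    have b : ∏ k' ∈ univ.erase k, ‖φ k' x‖ ≤ B ^ Fintype.card ι := by
      refine (prod_le_prod (fun _ _ => norm_nonneg _) fun k' _ => hφ k' x).trans ?_
      rw [prod_const]
      exact pow_le_pow_right₀ hB ((card_le_card (erase_subset _ _)).trans card_univ.le)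
    have := mul_le_mul_of_nonneg_left b (norm_nonneg (φ k x))
    linarith

end

end Vale.Agent.P057T.Ten
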