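import Vale.Agent.P057T.Gb.Defs
import Vale.Agent.P057T.TenH48
import Vale.Agent.P057T.Lst32

/-! Inside one box: common differences for all kept frequencies, lines and labels. -/

set_option linter.all false

open Finset
open scoped BigOperators

namespace Vale.Agent.P057T.B0

open Vale.Agent.P057L Vale.Agent.P057T.Gkh Vale.Agent.P057T.Loc Vale.Agent.P057T.Gb
  Vale.Agent.P057T.Ten

noncomputable section

variable {j p m : ℕ}

theorem mbz {q N : ℕ} {v : Vz q} : v ∈ bz q N ↔ ∀ l, 0 ≤ v l ∧ v l < N := by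
  simp [bz, rg, Fintype.mem_piFinset]

theorem cbz (q N : ℕ) : (bz q N).card = N ^ q := by simp [bz, rg, Fintype.card_piFinset]

theorem cbp (j q N : ℕ) : (bp j q N).card = N ^ (j * q) := by
  simp [bp, Fintype.card_piFinset, cbz, ← pow_mul, mul_comm]

theorem csz (q N : ℕ) : (sz q N).card = (2 * N - 1) ^ q := by
  have : (sy N).card = 2 * N - 1 := by simp [sy]; omega
  simp [sz, Fintype.card_piFinset, this]

/-- replace the copies `c` -/
def rp (c : Fin j → Fin p) (W : Pt j (p * m)) (w : Pt j m) : Pt j (p * m) := fun i x =>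
  if (finProdFinEquiv.symm x).1 = c i then w i (finProdFinEquiv.symm x).2 else W i x

theorem bk_rp (c : Fin j → Fin p) (W : Pt j (p * m)) (w : Pt j m) (i : Fin j) (a : Fin p) :
    bk (rp c W w i) a = if a = c i then w i else bk (W i) a := by
  funext l
  by_cases h : a = c i <;> simp [bk, rp, h]

theorem pr_rp (c : Fin j → Fin p) (W : Pt j (p * m)) (w : Pt j m) : pr c (rp c W w) = w := by
  funext i; simp [pr, bk_rp]

theorem rp_rp (c : Fin j → Fin p) (W : Pt j (p * m)) (w : Pt j m) :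
    rp c (rp c W w) (pr c W) = W := by
  funext i x
  simp only [rp, pr, bk]
  split_ifs with h
  · rw [← h]; exact congrArg (W i) (finProdFinEquiv.apply_symm_apply x)
  · rfl

theorem rp_mem {N : ℕ} (c : Fin j → Fin p) {W : Pt j (p * m)} {w : Pt j m}
    (hW : W ∈ bp j (p * m) N) (hw : w ∈ bp j m N) : rp c W w ∈ bp j (p * m) N := by
  simp only [bp, Fintype.mem_piFinset, mbz] at *
  intro i x
  simp only [rp]
  split_ifs
  exacts [hw _ _, hW _ _]

theorem pr_mem {N : ℕ} (c : Fin j → Fin p) {W : Pt j (p * m)} (hW : W ∈ bp j (p * m) N) :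
    pr c W ∈ bp j m N := by
  simp only [bp, Fintype.mem_piFinset, mbz] at *
  exact fun i l => hW _ _

theorem rp_sub (c : Fin j → Fin p) (W : Pt j (p * m)) (x h : Pt j m) :
    rp c W (x + h) - rp c W x = em c h := by
  funext i y
  simp only [Pi.sub_apply, rp, Gb.em, ib, Pi.add_apply]
  split_ifs <;> simp

theorem resample {N : ℕ} (hN : 1 ≤ N) (c : Fin j → Fin p) (Φ : Pt j (p * m) → ℂ) {δ : ℝ}
    (h : δ * (N : ℝ) ^ (j * (p * m)) ≤ ‖∑ W ∈ bp j (p * m) N, Φ W‖) :
    ∃ W, δ * (N : ℝ) ^ (j * m) ≤ ‖∑ w ∈ bp j m N, Φ (rp c W w)‖ := by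
  have N0 : (0 : ℝ) < N := by exact_mod_cast hN
  have e : ∑ W ∈ bp j (p * m) N, ∑ w ∈ bp j m N, Φ (rp c W w) =
      ∑ W ∈ bp j (p * m) N, ∑ w ∈ bp j m N, Φ W := by
    rw [← sum_product', ← sum_product']
    refine sum_nbij' (fun u => (rp c u.1 u.2, pr c u.1)) (fun u => (rp c u.1 u.2, pr c u.1))
      ?_ ?_ ?_ ?_ fun _ _ => rfl
    · intro u hu
      rw [mem_product] at hu ⊢
      exact ⟨rp_mem c hu.1 hu.2, pr_mem c hu.1⟩
    · intro u hu
      rw [mem_product] at hu ⊢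
      exact ⟨rp_mem c hu.1 hu.2, pr_mem c hu.1⟩
    · intro u _; simp [rp_rp, pr_rp]
    · intro u _; simp [rp_rp, pr_rp]
  by_contra hn
  push Not at hn
  have ne : (bp j (p * m) N).Nonempty := card_pos.1 (by rw [cbp]; positivity)
  have h1 := (norm_sum_le _ _).trans_lt (sum_lt_sum_of_nonempty ne fun W _ => hn W)
  rw [e] at h1
  simp only [sum_const, cbp, nsmul_eq_mul] at h1
  rw [← mul_sum, norm_mul] at h1
  push_cast at h1
  rw [norm_pow, Complex.norm_natCast] at h1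
  have := mul_le_mul_of_nonneg_left h (pow_pos N0 (j * m)).le
  nlinarith

/-- the product over the vertices of a cube -/
def Dc (g : Vz m → ℝ) (h : Pt j m) (y : Vz m) : ℝ := ∏ e : Fin j → Bool, g (y + ∑ i, sh e h i)

def sj (e : Fin j → Bool) : Finset (Fin j) := univ.filter fun i => e i = true

theorem cj_re (e : Fin j → Bool) (r : ℝ) : cj e (r : ℂ) = r := by
  unfold cj
  generalize (∑ i, if e i then 1 else 0) = n
  induction n with
  | zero => simp
  | succ n ih => rw [pow_succ]; simpa using ih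

theorem cj_ee (e : Fin j → Bool) (t : ℝ) : cj e (WA.ee t) = WA.ee ((-1) ^ (sj e).card * t) := by
  have : (∑ i, if e i then 1 else 0) = (sj e).card := by simp [sj]
  unfold cj
  rw [this]
  generalize (sj e).card = n
  induction n generalizing t with
  | zero => simp
  | succ n ih =>
    rw [pow_succ, RingHom.mul_def, RingHom.comp_apply, ← WA.ee_neg, ih]
    congr 1; ring

theorem ee_sum {α : Type} (s : Finset α) (f : α → ℝ) : ∏ a ∈ s, WA.ee (f a) = WA.ee (∑ a ∈ s, f a) := by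
  classical
  induction s using Finset.induction_on with
  | empty => simp [WA.ee_zero]
  | insert a s h ih => rw [prod_insert h, sum_insert h, WA.ee_add, ih]

theorem alt (f : Finset (Fin j) → ℝ) :
    ∑ e : Fin j → Bool, (-1) ^ (sj e).card * f (sj e) = (-1) ^ j * Val.dl univ f := by
  rw [Val.dl, powerset_univ, mul_sum]
  refine sum_nbij' sj (fun J i => decide (i ∈ J)) (by simp) (by simp) ?_ ?_ fun e _ => ?_
  · intro e _; funext i; simp [sj]
  · intro J _; ext i; simp [sj]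
  · have : (univ \ sj e).card + (sj e).card = j := by
      rw [card_sdiff_add_card_eq_card (subset_univ _)]; simp
    rw [← mul_assoc]
    congr 1
    have e1 : (-1 : ℝ) ^ j = (-1) ^ (univ \ sj e).card * (-1) ^ (sj e).card := by
      rw [← pow_add, this]
    rw [e1, mul_right_comm, ← mul_pow]; simp

theorem sb_rp (c : Fin j → Fin p) (W : Pt j (p * m)) (x h : Pt j m) (e : Fin j → Bool) :
    Gkh.sb (sj e) (rp c W x) (rp c W (x + h)) = rp c W (x + sh e h) := by
  funext i y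
  cases hi : e i <;> simp [Gkh.sb, sj, rp, sh, hi]

theorem sj_surj (J : Finset (Fin j)) : ∃ e, sj e = J := ⟨fun i => decide (i ∈ J), by ext i; simp [sj]⟩

/-- **common differences** -/
theorem good {N : ℕ} (hN : 1 ≤ N) {κ : Type} [Fintype κ] (L Lt : List (Cd j (p * m)))
    (F X : κ → Fin m → Pt j (p * m) → ℝ) (s0 : Cd j (p * m) → ℝ) (ρ δ : ℝ)
    (Ω : Finset (Pt j (p * m))) (u : κ → Pt j (p * m) → ℂ) (g : κ → (Fin j → Fin p) → Vz m → ℝ)
    (c : κ → Fin j → Fin p) (hm : 1 ≤ m) (hT : ∀ k l, Tp L Lt univ (F k l) (X k l)) (ρ0 : 0 ≤ ρ)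
    (ρ1 : 2 ^ j * ρ ≤ 1 / 4) (hΩ : ∀ W ∈ Ω, Ar L s0 ρ W) (u1 : ∀ k W, ‖u k W‖ ≤ 1)
    (u0 : ∀ k W, W ∉ Ω → u k W = 0) (g1 : ∀ k c x, |g k c x| ≤ 1) (δ0 : 0 < δ)
    (hc : ∀ k, δ * (N : ℝ) ^ (j * (p * m) + m) ≤ ‖∑ W ∈ bp j (p * m) N, ∑ s ∈ bz m N,
      u k W * (∏ c', (g k c' (s + ∑ i, bk (W i) (c' i)) : ℂ)) * ee (∑ l, F k l W * (s l : ℝ))‖) :
    ∃ Gd : Finset (Pt j m), Gd ⊆ Fintype.piFinset (fun _ => sz m N) ∧
      ((δ / 2 ^ (j * m)) ^ Fintype.card κ) ^ 2 ^ j * (N : ℝ) ^ (j * m) ≤ 2 * Gd.card ∧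
      ∀ h ∈ Gd, ∀ k, Vl Lt (2 ^ j * ρ) (em (c k) h) ∧ ∃ x ∈ bp j m N,
        ((δ / 2 ^ (j * m)) ^ Fintype.card κ) ^ 2 ^ j * (N : ℝ) ^ m ≤
          2 * ‖∑ s ∈ bz m N, (Dc (g k (c k)) h (s + ∑ i, x i) : ℂ) *
            WA.ee (∑ l, X k l (em (c k) h) * (s l : ℝ))‖ := by
  classical
  have N0 : (0 : ℝ) < N := by exact_mod_cast hN
  have Ane : (bz m N).Nonempty := card_pos.1 (by rw [cbz]; positivity)
  haveI : Nonempty (bz m N) := Ane.to_subtype
  choose W0 hW0 using fun k => resample hN (c k) _ (δ := δ * (N : ℝ) ^ m)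
    (by rw [mul_assoc, ← pow_add, add_comm]; exact hc k)
  obtain ⟨D, hD⟩ : ∃ D : Finset (Pt j m), D = Fintype.piFinset (fun _ => sz m N) := ⟨_, rfl⟩
  have Dc1 : (N : ℝ) ^ (j * m) ≤ D.card ∧ (D.card : ℝ) ≤ 2 ^ (j * m) * (N : ℝ) ^ (j * m) := by
    have : D.card = (2 * N - 1) ^ (j * m) := by
      simp [hD, Fintype.card_piFinset, csz, ← pow_mul, mul_comm]
    rw [this, ← mul_pow]
    push_cast
    constructor
    · exact pow_le_pow_left₀ N0.le (by exact_mod_cast (by omega : N ≤ 2 * N - 1)) _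
    · exact pow_le_pow_left₀ (by positivity) (by exact_mod_cast (by omega : 2 * N - 1 ≤ 2 * N)) _
  have D0 : (0 : ℝ) < D.card := (pow_pos N0 _).trans_le Dc1.1
  have hsub : ∀ w ∈ Fintype.piFinset (fun _ : Fin j => bz m N), ∀ x ∈ bp j m N, x - w ∈ D := by
    intro w hw x hx
    simp only [hD, bp, sz, sy, Fintype.mem_piFinset, mbz, mem_Ioo, Pi.sub_apply] at *
    intro i l
    have := hw i l; have := hx i l
    omega
  -- the index at which another cell differs
  have hix : ∀ k (c' : Fin j → Fin p), c' ≠ c k → ∃ i, c' i ≠ c k i := fun k c' h =>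
    Function.ne_iff.1 h
  let f : κ → Pt j m → bz m N → ℂ := fun k w s => if w ∈ bp j m N then
    u k (rp (c k) (W0 k) w) * (g k (c k) (s.1 + ∑ i, w i) : ℂ) *
      WA.ee (∑ l, F k l (rp (c k) (W0 k) w) * (s.1 l : ℝ)) else 0
  let fa : κ → Fin j → Pt j m → bz m N → ℂ := fun k l w s =>
    ∏ c' ∈ (univ.erase (c k)).filter (fun c' => c' l ≠ c k l ∧ ∀ l' < l, c' l' = c k l'),
      (g k c' (s.1 + ∑ i, bk (rp (c k) (W0 k) w i) (c' i)) : ℂ)
  have f1 : ∀ k w s, ‖f k w s‖ ≤ 1 := by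
    intro k w s
    simp only [f]
    split_ifs
    · rw [norm_mul, norm_mul, WA.norm_ee, mul_one, Complex.norm_real]
      exact mul_le_one₀ (u1 _ _) (norm_nonneg _) (g1 _ _ _)
    · simp
  have T := ten (bz m N) Ane (bp j m N) D hsub f (fun k x s hx => if_neg hx) fa
    (fun k l x s => by
      rw [norm_prod]
      exact prod_le_one (fun _ _ => norm_nonneg _) fun _ _ => by
        rw [Complex.norm_real]; exact g1 _ _ _)
    (fun k l x a s => prod_congr rfl fun c' hc' => by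
      congr 3
      refine sum_congr rfl fun i _ => ?_
      rw [bk_rp, bk_rp]
      split_ifs with h
      · rw [Function.update_of_ne]
        rintro rfl
        exact (mem_filter.1 hc').2.1 h
      · rfl)
  have T1 : ∀ k, δ / 2 ^ (j * m) ≤
      ‖(∑ x ∈ bp j m N, 𝔼 s, f k x s * ∏ l, fa k l x s) / D.card‖ := by
    intro k
    have e : ∑ x ∈ bp j m N, 𝔼 s, f k x s * ∏ l, fa k l x s =
        (∑ w ∈ bp j m N, ∑ s ∈ bz m N, u k (rp (c k) (W0 k) w) *
          (∏ c', (g k c' (s + ∑ i, bk (rp (c k) (W0 k) w i) (c' i)) : ℂ)) *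
          ee (∑ l, F k l (rp (c k) (W0 k) w) * (s l : ℝ))) / (N : ℂ) ^ m := by
      rw [sum_div]
      refine sum_congr rfl fun w hw => ?_
      rw [Fintype.expect_eq_sum_div_card, Fintype.card_coe, cbz, ← sum_coe_sort (bz m N)]
      push_cast
      congr 1
      refine sum_congr rfl fun s _ => ?_
      simp only [f, if_pos hw, fa]
      rw [← mul_prod_erase univ _ (mem_univ (c k)), ← prod_biUnion]
      · have e1 : (univ : Finset (Fin j)).biUnion (fun l => (univ.erase (c k)).filter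
            (fun c' => c' l ≠ c k l ∧ ∀ l' < l, c' l' = c k l')) = univ.erase (c k) := by
          ext c'
          simp only [mem_biUnion, mem_univ, true_and, mem_filter]
          refine ⟨fun ⟨_, h, _⟩ => h, fun h => ?_⟩
          have hne : (univ.filter fun i => c' i ≠ c k i).Nonempty :=
            (hix k c' (ne_of_mem_erase h)).imp fun i hi => by simp [hi]
          refine ⟨min' _ hne, h, (mem_filter.1 (min'_mem _ hne)).2, fun l' hl' => ?_⟩
          by_contra hn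
          exact absurd (min'_le _ l' (by simp [hn])) (not_le.2 hl')
        rw [e1]
        simp only [bk_rp, if_true]
        change _ = _ * _ * WA.ee _
        ring
      · intro l _ l' _ hne
        refine disjoint_left.2 fun c' h1 h2 => ?_
        rcases lt_or_gt_of_ne hne with h | h
        · exact (mem_filter.1 h1).2.1 ((mem_filter.1 h2).2.2 l h)
        · exact (mem_filter.1 h2).2.1 ((mem_filter.1 h1).2.2 l' h)
    rw [e, norm_div, norm_div, norm_pow, Complex.norm_natCast, Complex.norm_natCast, div_div,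
      div_le_div_iff₀ (by positivity) (by positivity)]
    have := hW0 k
    have h2 := mul_le_mul_of_nonneg_left Dc1.2 (by positivity : 0 ≤ δ * (N : ℝ) ^ m)
    have h3 := mul_le_mul_of_nonneg_right this (by positivity : (0 : ℝ) ≤ 2 ^ (j * m))
    nlinarith
  obtain ⟨Δ, hΔ⟩ : ∃ Δ, Δ = ((δ / 2 ^ (j * m)) ^ Fintype.card κ) ^ 2 ^ j := ⟨_, rfl⟩
  rw [← hΔ]
  have Δ0 : 0 < Δ := by rw [hΔ]; positivity
  have T2 : Δ ≤ _ := le_trans (by
    rw [hΔ]
    refine pow_le_pow_left₀ (by positivity) ?_ _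
    rw [← card_univ, ← prod_const]
    exact prod_le_prod (fun _ _ => by positivity) fun k _ => T1 k) T
  have Pne : (Fintype.piFinset fun _ : Fin j => bz m N).Nonempty :=
    Fintype.piFinset_nonempty.2 fun _ => Ane
  obtain ⟨w', hw', T3⟩ := exists_le_of_le_expect Pne (T2.trans (nle _ _))
  have ph1 : ∀ k h, ‖ph (bp j m N) D.card (f k) h‖ ≤ 1 := by
    intro k h
    rw [ph, norm_div, Complex.norm_natCast, div_le_one D0]
    refine (norm_sum_le _ _).trans ((sum_le_card_nsmul _ _ 1 fun x _ => ?_).trans ?_)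
    · refine (nle _ _).trans (expect_le univ_nonempty fun s _ => ?_)
      rw [norm_prod]
      exact prod_le_one (fun _ _ => norm_nonneg _) fun e _ => by rw [norm_cj]; exact f1 _ _ _
    · simpa [cbp] using Dc1.1
  obtain ⟨E, E1, E2, E3⟩ := dense _ (fun k w => ph (bp j m N) D.card (f k) (w - w')) le_rfl Δ0
    (fun k w => ph1 k _) T3
  refine ⟨E.image (· - w'), fun h hh => ?_, ?_, fun h hh k => ?_⟩
  · obtain ⟨w, hw, rfl⟩ := mem_image.1 hh
    exact hD ▸ hsub w' hw' w (E1 hw)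
  · rw [card_image_of_injective _ sub_left_injective]
    have := cbp j m N
    simp only [bp] at this
    rw [this] at E2
    simpa using E2
  obtain ⟨w, hw, rfl⟩ := mem_image.1 hh
  have E4 := E3 w hw k
  generalize w - w' = h at E4 ⊢
  rw [one_pow, mul_one, ph, norm_div, Complex.norm_natCast] at E4
  obtain ⟨x, hx, E5⟩ : ∃ x ∈ bp j m N, Δ ≤ 2 * ‖𝔼 s, ∏ e : Fin j → Bool, cj e (f k (x + sh e h) s)‖ := by
    by_contra hn
    push Not at hn
    have ne : (bp j m N).Nonempty := card_pos.1 (by rw [cbp]; positivity)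
    have h1 := sum_lt_sum_of_nonempty ne hn
    rw [← mul_sum, sum_const, cbp, nsmul_eq_mul] at h1
    push_cast at h1
    rw [← mul_div_assoc, le_div_iff₀ D0] at E4
    have h2 := norm_sum_le (bp j m N) fun x => 𝔼 s, ∏ e : Fin j → Bool, cj e (f k (x + sh e h) s)
    nlinarith [Dc1.1]
  have hin : ∀ e, x + sh e h ∈ bp j m N ∧ rp (c k) (W0 k) (x + sh e h) ∈ Ω := by
    intro e
    by_contra hn
    have : ∀ s, ∏ e : Fin j → Bool, cj e (f k (x + sh e h) s) = 0 := fun s =>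
      prod_eq_zero (mem_univ e) (by
        simp only [f]
        split_ifs with h1
        · rw [u0 _ _ fun h2 => hn ⟨h1, h2⟩]; simp
        · simp)
    simp [this] at E5
    linarith
  have hv := fun l => (hT k l).2 s0 ρ (rp (c k) (W0 k) (x + h)) (rp (c k) (W0 k) x) ρ0 ρ1 fun J => by
    obtain ⟨e, rfl⟩ := sj_surj J
    rw [sb_rp]; exact hΩ _ (hin e).2
  simp only [rp_sub] at hv
  refine ⟨(hv ⟨0, hm⟩).1, x, hx, ?_⟩
  have e2 : ∀ s : bz m N, ∏ e : Fin j → Bool, cj e (f k (x + sh e h) s) =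
      (∏ e : Fin j → Bool, cj e (u k (rp (c k) (W0 k) (x + sh e h)))) *
        ((Dc (g k (c k)) h (s.1 + ∑ i, x i) : ℂ) *
          WA.ee ((-1) ^ j * ∑ l, X k l (em (c k) h) * (s.1 l : ℝ))) := by
    intro s
    simp only [f, fun e => (hin e).1, if_true, map_mul, cj_re, cj_ee, prod_mul_distrib]
    rw [mul_assoc, ee_sum, Dc]
    push_cast
    congr 2
    · exact prod_congr rfl fun e _ => by simp only [Pi.add_apply, sum_add_distrib, add_assoc]
    · congr 1
      simp only [mul_sum]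
      rw [sum_comm]
      refine sum_congr rfl fun l _ => ?_
      rw [← mul_assoc, ← (hv l).2, ← alt, sum_mul]
      exact sum_congr rfl fun e _ => by rw [sb_rp, mul_assoc]
  simp only [e2] at E5
  rw [← mul_expect, norm_mul, Fintype.expect_eq_sum_div_card, Fintype.card_coe, cbz,
    sum_coe_sort (bz m N) fun s => (Dc (g k (c k)) h (s + ∑ i, x i) : ℂ) *
      WA.ee ((-1) ^ j * ∑ l, X k l (em (c k) h) * (s l : ℝ)), norm_div, Complex.norm_natCast] at E5
  have e3 : ‖∑ s ∈ bz m N, (Dc (g k (c k)) h (s + ∑ i, x i) : ℂ) *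
      WA.ee ((-1) ^ j * ∑ l, X k l (em (c k) h) * (s l : ℝ))‖ =
      ‖∑ s ∈ bz m N, (Dc (g k (c k)) h (s + ∑ i, x i) : ℂ) *
      WA.ee (∑ l, X k l (em (c k) h) * (s l : ℝ))‖ := by
    rcases neg_one_pow_eq_or ℝ j with h1 | h1
    · simp only [h1, one_mul]
    · rw [← Complex.norm_conj, map_sum]
      simp only [h1, neg_mul, one_mul, WA.ee_neg, map_mul, Complex.conj_ofReal, Complex.conj_conj]
  have u2 : ‖∏ e : Fin j → Bool, cj e (u k (rp (c k) (W0 k) (x + sh e h)))‖ ≤ 1 := by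
    rw [norm_prod]
    exact prod_le_one (fun _ _ => norm_nonneg _) fun e _ => by rw [norm_cj]; exact u1 _ _
  rw [e3] at E5
  push_cast at E5
  rw [← le_div_iff₀ (by positivity), mul_div_assoc]
  refine E5.trans (mul_le_mul_of_nonneg_left ?_ (by norm_num))
  exact mul_le_of_le_one_left (by positivity) u2

/-! ### lines -/

/-- a sub-box -/
def sbx (α β : Vz m) : Finset (Vz m) := Fintype.piFinset fun l => Ico (α l) (β l)

theorem edge {N S : ℕ} (α β : Vz m) (hs : ∀ l, β l ≤ α l + N) (v : Vz m) (hv : ∀ l, |v l| ≤ S) :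
    ((sbx α β).filter fun s => s + v ∉ sbx α β).card * N ≤ m * S * N ^ m := by
  classical
  have h1 : ((sbx α β).filter fun s => s + v ∉ sbx α β) ⊆ univ.biUnion fun l : Fin m =>
      Fintype.piFinset (Function.update (fun l => Ico (α l) (β l)) l
        ((Ico (α l) (β l)).filter fun x => x + v l ∉ Ico (α l) (β l))) := by
    intro s hs
    obtain ⟨a, b⟩ := mem_filter.1 hs
    simp only [sbx, Fintype.mem_piFinset, not_forall] at a b
    obtain ⟨l, hl⟩ := b
    refine mem_biUnion.2 ⟨l, mem_univ _, Fintype.mem_piFinset.2 fun i => ?_⟩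
    by_cases e : i = l
    · subst e; rw [Function.update_self]; exact mem_filter.2 ⟨a i, hl⟩
    · rw [Function.update_of_ne e]; exact a i
  have h2 : ∀ l : Fin m, (Fintype.piFinset (Function.update (fun l => Ico (α l) (β l)) l
      ((Ico (α l) (β l)).filter fun x => x + v l ∉ Ico (α l) (β l)))).card * N ≤ S * N ^ m := by
    intro l
    have c1 : ((Ico (α l) (β l)).filter fun x => x + v l ∉ Ico (α l) (β l)).card ≤ S := by
      have := abs_le.1 (hv l)
      rcases le_total 0 (v l) with h | h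
      · refine (card_le_card (t := Ico (β l - S) (β l)) fun x hx => ?_).trans (by simp)
        simp only [mem_filter, mem_Ico] at hx ⊢
        omega
      · refine (card_le_card (t := Ico (α l) (α l + S)) fun x hx => ?_).trans (by simp)
        simp only [mem_filter, mem_Ico] at hx ⊢
        omega
    rw [Fintype.card_piFinset, ← mul_prod_erase univ _ (mem_univ l), Function.update_self, mul_assoc]
    refine Nat.mul_le_mul c1 ?_
    have c2 : ∏ i ∈ univ.erase l, (Function.update (fun l => Ico (α l) (β l)) l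
        ((Ico (α l) (β l)).filter fun x => x + v l ∉ Ico (α l) (β l)) i).card ≤ N ^ (univ.erase l).card := by
      refine prod_le_pow_card _ _ _ fun i hi => ?_
      rw [Function.update_of_ne (ne_of_mem_erase hi), Int.card_Ico]
      have := hs i
      omega
    refine (Nat.mul_le_mul_right _ c2).trans ?_
    rw [← pow_succ, card_erase_add_one (mem_univ l)]
    simp
  refine (Nat.mul_le_mul_right _ ((card_le_card h1).trans card_biUnion_le)).trans ?_
  rw [sum_mul, mul_assoc]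
  exact (sum_le_card_nsmul univ _ _ fun l _ => h2 l).trans (by simp)

theorem shift {N S : ℕ} (α β : Vz m) (hs : ∀ l, β l ≤ α l + N) (v : Vz m) (hv : ∀ l, |v l| ≤ S)
    (φ : Vz m → ℂ) (hφ : ∀ x, ‖φ x‖ ≤ 1) :
    ‖∑ s ∈ sbx α β, φ s - ∑ s ∈ sbx α β, φ (s + v)‖ * N ≤ 2 * (m * S * N ^ m) := by
  classical
  have e1 : ∑ s ∈ (sbx α β).filter (fun s => s + v ∈ sbx α β), φ (s + v) =
      ∑ s ∈ (sbx α β).filter (fun s => s + -v ∈ sbx α β), φ s :=
    sum_nbij' (· + v) (· + -v) (fun s hs => by simpa [and_comm] using hs)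
      (fun s hs => by simpa [and_comm] using hs) (by simp) (by simp) fun _ _ => rfl
  rw [← sum_filter_add_sum_filter_not _ (fun s => s + -v ∈ sbx α β),
    ← sum_filter_add_sum_filter_not _ (fun s => s + v ∈ sbx α β) fun s => φ (s + v), e1,
    add_sub_add_left_eq_sub]
  have a1 : (((sbx α β).filter fun s => s + v ∉ sbx α β).card : ℝ) * N ≤ m * S * N ^ m := by
    exact_mod_cast edge α β hs v hv
  have a2 : (((sbx α β).filter fun s => s + -v ∉ sbx α β).card : ℝ) * N ≤ m * S * N ^ m := by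
    exact_mod_cast edge α β hs (-v) fun l => by simpa using hv l
  have b : ∀ (T : Finset (Vz m)) (ψ : Vz m → ℂ), (∀ x, ‖ψ x‖ ≤ 1) → ‖∑ s ∈ T, ψ s‖ ≤ T.card :=
    fun T ψ h => (norm_sum_le _ _).trans ((sum_le_card_nsmul _ _ 1 fun x _ => h x).trans (by simp))
  have b1 := mul_le_mul_of_nonneg_right (b ((sbx α β).filter fun s => s + v ∉ sbx α β) _
    fun x => hφ (x + v)) (Nat.cast_nonneg (α := ℝ) N)
  have b2 := mul_le_mul_of_nonneg_right (b ((sbx α β).filter fun s => s + -v ∉ sbx α β) _ hφ)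
    (Nat.cast_nonneg (α := ℝ) N)
  refine (mul_le_mul_of_nonneg_right (norm_sub_le _ _) (Nat.cast_nonneg _)).trans ?_
  rw [add_mul]
  linarith

theorem sbx_card {N : ℕ} (α β : Vz m) (hs : ∀ l, β l ≤ α l + N) : (sbx α β).card ≤ N ^ m := by
  rw [sbx, Fintype.card_piFinset]
  refine (prod_le_pow_card _ _ N fun i _ => ?_).trans (by simp)
  rw [Int.card_Ico]
  have := hs i
  omega

open Classical in
/-- **from a box to its lines** -/
theorem lines {N S L : ℕ} (hN : 1 ≤ N) (hL : 1 ≤ L) (α β : Vz m) (hs : ∀ l, β l ≤ α l + N)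
    (D : Vz m → ℂ) (hD : ∀ x, ‖D x‖ ≤ 1) (χ : Fin m → ℝ) {δ : ℝ} (δ0 : 0 ≤ δ)
    (h : δ * (N : ℝ) ^ m ≤ ‖∑ s ∈ sbx α β, D s * WA.ee (∑ l, χ l * (s l : ℝ))‖) (a : Vz m)
    (ha : ∀ l, |a l| ≤ S) (hS : 4 * (m * (L * S) : ℝ) ≤ δ * N) :
    δ / 4 * (N : ℝ) ^ m ≤ ((sbx α β).filter fun s => δ / 4 * L ≤
      ‖∑ t ∈ range L, D (s + (t : ℤ) • a) * WA.ee ((∑ l, χ l * (a l : ℝ)) * t)‖).card := by
  have N0 : (0 : ℝ) < N := by exact_mod_cast hN
  have L0 : (0 : ℝ) < L := by exact_mod_cast hL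
  obtain ⟨φ, hφ⟩ : ∃ φ : Vz m → ℂ, φ = fun s => D s * WA.ee (∑ l, χ l * (s l : ℝ)) := ⟨_, rfl⟩
  have φ1 : ∀ x, ‖φ x‖ ≤ 1 := fun x => by rw [hφ, norm_mul, WA.norm_ee, mul_one]; exact hD x
  have a1 : ∀ t ∈ range L, ‖∑ s ∈ sbx α β, φ s - ∑ s ∈ sbx α β, φ (s + (t : ℤ) • a)‖ ≤
      δ / 2 * (N : ℝ) ^ m := by
    intro t ht
    have := shift (S := L * S) α β hs ((t : ℤ) • a) (fun l => by
      simp only [Pi.smul_apply, smul_eq_mul, abs_mul, Nat.abs_cast]
      push_cast
      exact mul_le_mul (by exact_mod_cast (mem_range.1 ht).le) (ha l) (abs_nonneg _) (by positivity))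
      φ φ1
    push_cast at this
    refine le_of_mul_le_mul_right (this.trans ?_) N0
    nlinarith [mul_le_mul_of_nonneg_right hS (pow_pos N0 m).le]
  have a2 : L * (δ / 2 * (N : ℝ) ^ m) ≤ ‖∑ t ∈ range L, ∑ s ∈ sbx α β, φ (s + (t : ℤ) • a)‖ := by
    have b1 : ‖∑ t ∈ range L, ∑ s ∈ sbx α β, φ s - ∑ t ∈ range L, ∑ s ∈ sbx α β, φ (s + (t : ℤ) • a)‖ ≤
        L * (δ / 2 * (N : ℝ) ^ m) := by
      rw [← sum_sub_distrib]
      exact (norm_sum_le _ _).trans ((sum_le_card_nsmul _ _ _ a1).trans (by simp))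
    have b2 := norm_sub_norm_le (∑ t ∈ range L, ∑ s ∈ sbx α β, φ s)
      (∑ t ∈ range L, ∑ s ∈ sbx α β, φ (s + (t : ℤ) • a))
    rw [sum_const, card_range, nsmul_eq_mul] at b2 b1
    rw [norm_mul, Complex.norm_natCast] at b2
    have b3 : δ * (N : ℝ) ^ m ≤ ‖∑ s ∈ sbx α β, φ s‖ := by rw [hφ]; exact h
    nlinarith [mul_le_mul_of_nonneg_left b3 L0.le]
  have a3 : ∀ s, ‖∑ t ∈ range L, φ (s + (t : ℤ) • a)‖ =
      ‖∑ t ∈ range L, D (s + (t : ℤ) • a) * WA.ee ((∑ l, χ l * (a l : ℝ)) * t)‖ := by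
    intro s
    have : ∀ t : ℕ, φ (s + (t : ℤ) • a) = WA.ee (∑ l, χ l * (s l : ℝ)) *
        (D (s + (t : ℤ) • a) * WA.ee ((∑ l, χ l * (a l : ℝ)) * t)) := fun t => by
      rw [hφ, mul_left_comm, ← WA.ee_add, sum_mul, ← sum_add_distrib]
      simp only [Pi.add_apply, Pi.smul_apply, smul_eq_mul]
      congr 2
      refine sum_congr rfl fun l _ => ?_
      push_cast; ring
    simp only [this]
    rw [← mul_sum, norm_mul, WA.norm_ee, one_mul]
  rw [sum_comm] at a2
  have a4 := a2.trans (norm_sum_le _ _)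
  simp only [a3] at a4
  have a5 : ∀ s ∈ sbx α β,
      ‖∑ t ∈ range L, D (s + (t : ℤ) • a) * WA.ee ((∑ l, χ l * (a l : ℝ)) * t)‖ ≤ δ / 4 * L +
      if δ / 4 * L ≤ ‖∑ t ∈ range L, D (s + (t : ℤ) • a) * WA.ee ((∑ l, χ l * (a l : ℝ)) * t)‖
        then (L : ℝ) else 0 := by
    intro s _
    split_ifs with c
    · have : ‖∑ t ∈ range L, D (s + (t : ℤ) • a) * WA.ee ((∑ l, χ l * (a l : ℝ)) * t)‖ ≤ L := by
        refine (norm_sum_le _ _).trans ((sum_le_card_nsmul _ _ 1 fun t _ => ?_).trans (by simp))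
        rw [norm_mul, WA.norm_ee, mul_one]; exact hD _
      have : 0 ≤ δ / 4 * L := by positivity
      linarith
    · linarith [not_le.1 c]
  have a6 := a4.trans (sum_le_sum a5)
  rw [sum_add_distrib, sum_const, ← sum_filter, sum_const, nsmul_eq_mul, nsmul_eq_mul] at a6
  have a7 : ((sbx α β).card : ℝ) ≤ (N : ℝ) ^ m := by exact_mod_cast sbx_card α β hs
  have a8 := mul_le_mul_of_nonneg_right a7 (by positivity : 0 ≤ δ / 4 * L)
  refine le_of_mul_le_mul_right ?_ L0
  nlinarith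

open Classical in
/-- the cut function on a box is the full function on a sub-box -/
theorem cutb (N R : ℕ) (G : Vz m → ℝ) (h : Pt j m) (y : Vz m) (ψ : Vz m → ℂ) :
    ∃ α β : Vz m, (∀ l, 0 ≤ α l ∧ β l ≤ N) ∧
      ∑ s ∈ bz m N, (Dc (fun v => if v ∈ bz m R then G v else 0) h (s + y) : ℂ) * ψ s =
        ∑ s ∈ sbx α β, (Dc G h (s + y) : ℂ) * ψ s := by
  let α : Vz m := fun l => max 0 (univ.sup' univ_nonempty fun e : Fin j → Bool =>
    -(y + ∑ i, sh e h i) l)
  let β : Vz m := fun l => min N (univ.inf' univ_nonempty fun e : Fin j → Bool =>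
    R - (y + ∑ i, sh e h i) l)
  have key : ∀ s, s ∈ sbx α β ↔ s ∈ bz m N ∧ ∀ e : Fin j → Bool, s + y + ∑ i, sh e h i ∈ bz m R := by
    intro s
    simp only [sbx, Fintype.mem_piFinset, mem_Ico, mbz, α, β, max_le_iff, lt_min_iff, sup'_le_iff,
      lt_inf'_iff, mem_univ, true_imp_iff, Pi.add_apply]
    constructor
    · intro H
      refine ⟨fun l => ⟨(H l).1.1, (H l).2.1⟩, fun e l => ?_⟩
      have := (H l).1.2 e; have := (H l).2.2 e
      omega
    · intro H l
      refine ⟨⟨(H.1 l).1, fun e => ?_⟩, (H.1 l).2, fun e => ?_⟩ <;> have := H.2 e l <;> omega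
  refine ⟨α, β, fun l => ⟨le_max_left _ _, min_le_left _ _⟩, ?_⟩
  have e : sbx α β = (bz m N).filter fun s => ∀ e : Fin j → Bool, s + y + ∑ i, sh e h i ∈ bz m R := by
    ext s; rw [key, mem_filter]
  rw [e, sum_filter]
  refine sum_congr rfl fun s _ => ?_
  split_ifs with c
  · congr 2
    exact prod_congr rfl fun e _ => if_pos (c e)
  · obtain ⟨e, he⟩ := not_forall.1 c
    rw [Dc, prod_eq_zero (mem_univ e) (if_neg he)]
    simp

theorem Dc_le {g : Vz m → ℝ} (hg : ∀ x, |g x| ≤ 1) (h : Pt j m) (y : Vz m) : |Dc g h y| ≤ 1 := by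
  rw [Dc, abs_prod]
  exact prod_le_one (fun _ _ => abs_nonneg _) fun _ _ => hg _

open Classical in
/-- **labels**: on many lines the label of the value is in the list of the line -/
theorem labels {N R S L M : ℕ} (hN : 1 ≤ N) (hL : 1 ≤ L) (hM : 1 ≤ M) (G : Vz m → ℝ)
    (hG : ∀ x, |G x| ≤ 1) (h : Pt j m) (y : Vz m) (χ : Fin m → ℝ) {δ : ℝ} (δ0 : 0 ≤ δ)
    (hc : δ * (N : ℝ) ^ m ≤ ‖∑ s ∈ bz m N,
      (Dc (fun v => if v ∈ bz m R then G v else 0) h (s + y) : ℂ) * WA.ee (∑ l, χ l * (s l : ℝ))‖)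
    (a : Vz m) (ha : ∀ l, |a l| ≤ S) (hS : 4 * (m * (L * S) : ℝ) ≤ δ * N) (hM' : 56 * (L : ℝ) ≤ δ * M) :
    δ / 4 * (N : ℝ) ^ m ≤ ((bz m N).filter fun s => Lst.lb M (∑ l, χ l * (a l : ℝ)) ∈
      Lst.Lab L M (δ / 4) fun t => (Dc G h (s + y + (t : ℤ) • a) : ℂ)).card := by
  obtain ⟨α, β, h1, h2⟩ := cutb N R G h y fun s => WA.ee (∑ l, χ l * (s l : ℝ))
  rw [h2] at hc
  have b : ∀ x, ‖(Dc G h x : ℂ)‖ ≤ 1 := fun x => by rw [Complex.norm_real]; exact Dc_le hG h x
  refine (lines hN hL α β (fun l => by have := h1 l; omega) (fun s => (Dc G h (s + y) : ℂ))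
    (fun x => b _) χ δ0 hc a ha hS).trans (Nat.cast_le.2 (card_le_card fun s hs => ?_))
  obtain ⟨s1, s2⟩ := mem_filter.1 hs
  refine mem_filter.2 ⟨mbz.2 fun l => ?_, Lst.lb_mem hM _ (B := 1) (fun t => b _) (by linarith) _ ?_⟩
  · have := mem_Ico.1 (Fintype.mem_piFinset.1 s1 l)
    have := h1 l
    omega
  · simpa only [add_right_comm s y] using s2

end

end Vale.Agent.P057T.B0
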