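import Vale.Agent.P057Z.Km.All
import Vale.Agent.P057Z.Fr.Bog

/-! Almost periodicity and Bogolyubov for abstract systems of balls and for lattices. -/

set_option linter.all false

open Finset
open scoped BigOperators

namespace Vale.Agent.P057T.BogH81

open Vale.Agent.P057Z Vale.Agent.P057Z.Km Vale.Agent.P057Z.Km.Apb

/-- a system of balls in an abelian group -/
structure Sys {G : Type} [AddCommGroup G] (B : ℕ → Finset G) : Prop where
  zero : ∀ a, (0 : G) ∈ B a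
  add : ∀ a b x y, x ∈ B a → y ∈ B b → x + y ∈ B (a + b)
  neg : ∀ a x, x ∈ B a → -x ∈ B a

section
variable {G : Type} [AddCommGroup G] {B : ℕ → Finset G}

theorem Sys.mono (h : Sys B) {a b : ℕ} (hab : a ≤ b) : B a ⊆ B b := fun x hx => by
  have := h.add a (b - a) x 0 hx (h.zero _)
  rwa [add_zero, Nat.add_sub_cancel' hab] at this

theorem Sys.sub (h : Sys B) {a b : ℕ} {x y : G} (hx : x ∈ B a) (hy : y ∈ B b) :
    x - y ∈ B (a + b) := by
  rw [sub_eq_add_neg]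
  exact h.add _ _ _ _ hx (h.neg _ _ hy)

theorem Sys.sum (h : Sys B) {a k : ℕ} {d : Fin k → G} (hd : ∀ i, d i ∈ B a) :
    ∑ i, d i ∈ B (k * a) := by
  induction k with
  | zero => simpa using h.zero 0
  | succ k ih =>
    rw [Fin.sum_univ_castSucc, Nat.succ_mul]
    exact h.add _ _ _ _ (ih fun i => hd _) (hd _)

theorem Sys.reg (h : Sys B) (R w : ℕ) (c g : ℝ) (hc : 0 ≤ c)
    (hg : (#(B (2 * (R * w))) : ℝ) ≤ g * #(B (R * w))) (hR : g < c ^ R) :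
    ∃ i, i + 1 ≤ 2 * R ∧ (#(B ((i + 1) * w)) : ℝ) ≤ c * #(B (i * w)) := by
  have h3 : (0 : ℝ) < #(B (R * w)) := by exact_mod_cast card_pos.2 ⟨0, h.zero _⟩
  obtain ⟨i, hi, h4⟩ := pigeon (fun i => #(B ((R + i) * w))) c hc R (by
    show (#(B ((R + R) * w)) : ℝ) < c ^ R * #(B ((R + 0) * w))
    rw [add_zero, show (R + R) * w = 2 * (R * w) by ring]
    exact hg.trans_lt (mul_lt_mul_of_pos_right hR h3))
  exact ⟨R + i, by omega, h4⟩

theorem card_out' [DecidableEq G] {E E' : Finset G} {x : G} {κ : ℝ} (h : E ⊆ E')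
    (hx : ∀ e ∈ E, e + x ∈ E') (hc : (#E' : ℝ) ≤ (1 + κ) * #E) :
    (#{e ∈ E | e + x ∉ E} : ℝ) ≤ κ * #E := by
  have h1 : #{e ∈ E | e + x ∉ E} ≤ #(E' \ E) :=
    card_le_card_of_injOn (· + x) (fun e he => by
      have he' := mem_filter.1 (mem_coe.1 he)
      exact mem_coe.2 (mem_sdiff.2 ⟨hx e he'.1, he'.2⟩)) fun a _ b _ e => add_right_cancel e
  have h2 := card_sdiff_add_card_eq_card h
  have h3 : (#{e ∈ E | e + x ∉ E} : ℝ) + #E ≤ #E' := by exact_mod_cast (by omega)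
  linarith

end

theorem core {G : Type} [AddCommGroup G] [Fintype G] [DecidableEq G] {B : ℕ → Finset G}
    (hB : Sys B) (ε κ K g : ℝ) (Ta k ns j RD RE : ℕ) (A1 A2 S U U2 : Finset G)
    (hk : 1 ≤ k) (hj : 1 ≤ j) (hD : 1 ≤ RD) (hE : 1 ≤ RE)
    (hg : ∀ a, 2 * a ≤ Ta → (#(B (2 * a)) : ℝ) ≤ g * #(B a))
    (gD : g < (1 + 1) ^ RD) (gE : g < (1 + κ) ^ RE)
    (hT : 1 + k * (2 * (2 * RD * (j * (2 * RE)))) ≤ Ta)
    (h1 : A1.Nonempty) (h2 : A2.Nonempty) (hU : (#U : ℝ) ≤ K * #A1) (hU2 : (#U2 : ℝ) ≤ K * #A2)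
    (m2 : ∀ a ∈ A2, ∀ x ∈ B Ta, a + x ∈ U2)
    (m1 : ∀ a ∈ A1, ∀ a' ∈ A2, ∀ x ∈ B Ta, a + a' + x ∈ U) (hκ : 0 ≤ κ) (hε : 0 < ε)
    (hε1 : ε ≤ 1) (n1 : 4 * Real.exp (-(ε ^ 2 * ns / 4)) * K ≤ ε)
    (n2 : 16 * Real.log (8 * K ^ ns) < j) :
    ∃ Λ : Finset (AddChar G ℂ), #Λ ≤ j ∧ ∀ x ∈ B 1, (∀ lam ∈ Λ, ‖lam x - 1‖ ≤ κ) →
      |psi A1 A2 S x - psi A1 A2 S 0| ≤ 8 * k * ε + √K * ((j + 4) * κ + 2 / 4 ^ k) := by
  obtain ⟨w, hw⟩ : ∃ w, w = j * (2 * RE) := ⟨_, rfl⟩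
  rw [← hw] at hT
  obtain ⟨z, hz⟩ : ∃ z, z = 2 * RD * w := ⟨_, rfl⟩
  rw [← hz] at hT
  have top : ∀ a ≤ 1 + k * (2 * z), B a ⊆ B Ta := fun a h => hB.mono (h.trans hT)
  have hw1 : 2 * RE ≤ w := by
    rw [hw]
    exact Nat.le_mul_of_pos_left _ hj
  have hw2 : w ≤ RD * w := Nat.le_mul_of_pos_left _ hD
  have hw3 : 2 * z ≤ k * (2 * z) := Nat.le_mul_of_pos_left _ hk
  have hw4 : z = 2 * (RD * w) := hz.trans (mul_assoc _ _ _)
  obtain ⟨iE, hiE, cE⟩ := hB.reg RE 1 (1 + κ) g (by linarith) (hg _ (by omega)) gE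
  rw [mul_one, mul_one] at cE
  obtain ⟨iD, hiD, cD⟩ := hB.reg RD w (1 + 1) g (by norm_num) (hg _ (by omega)) gD
  have hw5 : iD * w ≤ z := by
    rw [hz]
    exact Nat.mul_le_mul_right _ (by omega)
  have hw6 : j * iE ≤ w := by
    rw [hw]
    exact Nat.mul_le_mul_left _ (by omega)
  have hw7 : 1 + k * (iD * w + iD * w) ≤ 1 + k * (2 * z) :=
    Nat.add_le_add_left (Nat.mul_le_mul_left _ (by omega)) _
  have hw8 : iD * w + j * iE ≤ (iD + 1) * w := by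
    rw [add_mul]
    omega
  have a1 : ∀ a ∈ A2, ∀ t ∈ B (iD * w), a + t ∈ U2 :=
    fun a ha t ht => m2 a ha t (top _ (by omega) ht)
  have a2 : ∀ a ∈ A1, ∀ a' ∈ A2, ∀ x ∈ B 1, ∀ d d' : Fin k → G,
      (∀ i, d i ∈ B (iD * w) ∧ d' i ∈ B (iD * w)) →
      a + a' + x + ∑ i, (d i - d' i) ∈ U := fun a ha a' ha' x hx d d' hd => by
    rw [add_assoc (a + a')]
    exact m1 a ha a' ha' _ (top _ hw7
      (hB.add _ _ _ _ hx (hB.sum fun i => hB.sub (hd i).1 (hd i).2)))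
  have a3 : ∀ x ∈ B (iD * w), ∀ e : Fin j → G, (∀ i, e i ∈ B iE) →
      x - ∑ i, e i ∈ B ((iD + 1) * w) :=
    fun x hx e he => hB.mono hw8 (hB.sub hx (hB.sum he))
  have a4 : ∀ x ∈ B 1, (#{e ∈ B iE | e + x ∉ B iE} : ℝ) ≤ κ * #(B iE) :=
    fun x hx => card_out' (hB.mono (Nat.le_add_right iE 1))
      (fun e he => hB.add _ _ _ _ he hx) cE
  rw [one_add_one_eq_two] at cD
  exact apa_of cs G A1 A2 S _ _ _ _ U U2 ε κ K k ns j h1 h2 ⟨0, hB.zero _⟩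
    ⟨0, hB.zero _⟩ (hB.zero _) a1 a2 hU hU2 a3 cD a4 hκ hε hε1 n1 n2

/-- almost periodicity on an abstract system of balls -/
def APS : Prop := ∀ ε : ℝ, 0 < ε → ∃ X0 : ℝ, ∀ X : ℝ, X0 ≤ X →
  ∀ (G : Type) [AddCommGroup G] [Fintype G] [DecidableEq G] (B : ℕ → Finset G) (Ta : ℕ)
    (A1 A2 S U U2 : Finset G), Sys B → Real.exp (10 * X) ≤ Ta →
    (∀ a, 2 * a ≤ Ta → (#(B (2 * a)) : ℝ) ≤ Real.exp (Real.exp X) * #(B a)) →
    A1.Nonempty → A2.Nonempty → (#U : ℝ) ≤ Real.exp X * #A1 → (#U2 : ℝ) ≤ Real.exp X * #A2 →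
    (∀ a ∈ A2, ∀ x ∈ B Ta, a + x ∈ U2) → (∀ a ∈ A1, ∀ a' ∈ A2, ∀ x ∈ B Ta, a + a' + x ∈ U) →
    ∃ Λ : Finset (AddChar G ℂ), (#Λ : ℝ) ≤ X ^ 6 ∧ ∀ x ∈ B 1,
      (∀ lam ∈ Λ, ‖lam x - 1‖ ≤ 7 * Real.exp (-(3 * X))) →
      |psi A1 A2 S x - psi A1 A2 S 0| ≤ ε

theorem aps : APS := by
  intro ε' hε'
  obtain ⟨ε, hε, hε1, hle⟩ : ∃ ε : ℝ, 0 < ε ∧ ε ≤ 1 ∧ ε ≤ ε' :=
    ⟨min ε' 1, lt_min hε' one_pos, min_le_right _ _, min_le_left _ _⟩
  refine ⟨12288 / ε ^ 2, fun X hX0 G _ _ _ B Ta A1 A2 S U U2 hB hTa hg h1 h2 hU hU2 m2 m1 => ?_⟩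
  have hX1 : 12288 ≤ ε ^ 2 * X := by rwa [div_le_iff₀ (by positivity), mul_comm] at hX0
  have hXp : 0 < X := lt_of_lt_of_le (by positivity) hX0
  have hX2 : 12288 ≤ ε * X := by nlinarith [mul_pos hε hXp]
  have hX : 12288 ≤ X := by nlinarith
  have hk := Nat.le_ceil X
  have hk' : (⌈X⌉₊ : ℝ) ≤ 2 * X := (Nat.ceil_lt_add_one hXp.le).le.trans (by linarith)
  have hk1 : 1 ≤ ⌈X⌉₊ := Nat.ceil_pos.2 hXp
  have hk2 : (1 : ℝ) ≤ ⌈X⌉₊ := by exact_mod_cast hk1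
  have hj : (⌊X ^ 6⌋₊ : ℝ) ≤ X ^ 6 := Nat.floor_le (by positivity)
  have e1 : 1 ≤ Real.exp X := Real.one_le_exp hXp.le
  have e4 : 1 ≤ Real.exp (4 * X) := Real.one_le_exp (by linarith)
  have hκ : 7 * Real.exp (-(3 * X)) ≤ 1 := by
    have h3 := Real.add_one_le_exp (3 * X)
    rw [Real.exp_neg, ← div_eq_mul_inv, div_le_one (Real.exp_pos _)]
    linarith
  have hW := width (RD := ⌈3 * Real.exp X⌉₊) (RE := ⌈Real.exp (4 * X)⌉₊) hX hk' hj
    ((Nat.ceil_lt_add_one (by positivity)).le.trans (by linarith))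
    ((Nat.ceil_lt_add_one (by positivity)).le.trans (by linarith))
  obtain ⟨Λ, hr, h⟩ := core hB (ε / (16 * ⌈X⌉₊))
    (7 * Real.exp (-(3 * X))) (Real.exp X) (Real.exp (Real.exp X)) Ta ⌈X⌉₊ ⌈X ^ 4⌉₊ ⌊X ^ 6⌋₊
    ⌈3 * Real.exp X⌉₊ ⌈Real.exp (4 * X)⌉₊ A1 A2 S U U2 hk1
    (Nat.le_floor (by rw [Nat.cast_one]; exact one_le_pow₀ (by linarith)))
    (Nat.ceil_pos.2 (by positivity)) (Nat.ceil_pos.2 (by positivity)) hg
    (grow zero_le_one le_rfl le_rfl (by have := Nat.le_ceil (3 * Real.exp X); linarith))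
    (grow (by positivity) hκ le_rfl (by
      have h3 : Real.exp (4 * X) * Real.exp (-(3 * X)) = Real.exp X := by
        rw [← Real.exp_add]
        congr 1
        ring
      have h4 := mul_le_mul_of_nonneg_right (Nat.le_ceil (Real.exp (4 * X)))
        (Real.exp_pos (-(3 * X))).le
      linarith))
    (by exact_mod_cast hW.trans hTa)
    h1 h2 hU hU2 m2 m1 (by positivity) (by positivity)
    ((div_le_self hε.le (by linarith)).trans hε1)
    (num1 hε hε1 hX1 hX hk1 hk' (Nat.le_ceil _))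
    (num2 hX (Nat.ceil_lt_add_one (by positivity)).le (Nat.lt_floor_add_one _))
  refine ⟨Λ, le_trans (by exact_mod_cast hr) hj, fun x hx hi => (h x hx hi).trans ?_⟩
  have h3 := num3 hX2 hε hX hk hj
  have h4 : 8 * (⌈X⌉₊ : ℝ) * (ε / (16 * ⌈X⌉₊)) = ε / 2 := by
    field_simp
    norm_num
  linarith

/-- a translate of a ball on which a set with small expansion is dense -/
theorem dense_piece {G : Type} [AddCommGroup G] [DecidableEq G] (S U0 E : Finset G)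
    (hS : S.Nonempty) (hE : E.Nonempty) (hU : ∀ s ∈ S, ∀ e ∈ E, s + e ∈ U0) :
    ∃ x', #S * #E ≤ #U0 * #{s ∈ S | x' - s ∈ E} := by
  obtain ⟨s0, hs0⟩ := hS
  obtain ⟨e0, he0⟩ := hE
  obtain ⟨x', hx', hmax⟩ := exists_max_image U0 (fun x => #{s ∈ S | x - s ∈ E})
    ⟨_, hU s0 hs0 e0 he0⟩
  refine ⟨x', ?_⟩
  have h1 : #(S ×ˢ E) = ∑ x ∈ U0, #{p ∈ S ×ˢ E | p.1 + p.2 = x} :=
    card_eq_sum_card_fiberwise (f := fun p : G × G => p.1 + p.2) fun p hp =>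
      hU _ (mem_product.1 hp).1 _ (mem_product.1 hp).2
  rw [← card_product, h1, ← smul_eq_mul]
  refine sum_le_card_nsmul _ _ _ fun x hx => le_trans ?_ (hmax x hx)
  refine card_le_card_of_injOn (fun p => p.1) (fun p hp => ?_) fun p hp q hq e => ?_
  · have h := mem_filter.1 (mem_coe.1 hp)
    refine mem_coe.2 (mem_filter.2 ⟨(mem_product.1 h.1).1, ?_⟩)
    rw [← h.2, add_sub_cancel_left]
    exact (mem_product.1 h.1).2
  · have h := mem_filter.1 (mem_coe.1 hp)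
    have h' := mem_filter.1 (mem_coe.1 hq)
    have e1 : p.1 = q.1 := e
    refine Prod.ext e1 ?_
    have := h.2.trans h'.2.symm
    rw [e1] at this
    exact add_left_cancel this

/-- Bogolyubov on an abstract system of balls -/
def BOGS : Prop := ∃ X0 : ℝ, ∀ X : ℝ, X0 ≤ X →
  ∀ (G : Type) [AddCommGroup G] [Fintype G] [DecidableEq G] (B : ℕ → Finset G) (W : ℕ)
    (S U0 : Finset G), Sys B → Real.exp (12 * X) ≤ W →
    (∀ a, 2 * a ≤ W → (#(B (2 * a)) : ℝ) ≤ Real.exp (Real.exp X) * #(B a)) →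
    S.Nonempty → 2 * (#U0 : ℝ) ≤ Real.exp X * #S → (∀ s ∈ S, ∀ x ∈ B W, s + x ∈ U0) →
    ∃ Λ : Finset (AddChar G ℂ), (#Λ : ℝ) ≤ X ^ 6 ∧ ∀ x ∈ B 1,
      (∀ lam ∈ Λ, ‖lam x - 1‖ ≤ 7 * Real.exp (-(3 * X))) →
      ∃ s1 ∈ S, ∃ s2 ∈ S, ∃ s3 ∈ S, ∃ s4 ∈ S, x = s1 + s2 - s3 - s4

theorem bogs : BOGS := by
  obtain ⟨X0, hA⟩ := aps (1 / 2) (by norm_num)
  refine ⟨max X0 20, fun X hX G _ _ _ B W S U0 hB hW hg n1 hU hS => ?_⟩
  have hX0 : 20 ≤ X := (le_max_right _ _).trans hX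
  obtain ⟨Ta, hTa⟩ : ∃ Ta, Ta = ⌈Real.exp (10 * X)⌉₊ := ⟨_, rfl⟩
  obtain ⟨R, hR⟩ : ∃ R, R = ⌈3 * Real.exp X⌉₊ := ⟨_, rfl⟩
  have pe := Real.exp_pos X
  have e1 : X + 1 ≤ Real.exp X := Real.add_one_le_exp X
  have e10 : 1 ≤ Real.exp (10 * X) := Real.one_le_exp (by linarith)
  have t1 : Real.exp (10 * X) ≤ Ta := hTa ▸ Nat.le_ceil _
  have t2 : (Ta : ℝ) ≤ 2 * Real.exp (10 * X) := by
    rw [hTa]
    exact (Nat.ceil_lt_add_one (by positivity)).le.trans (by linarith)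
  have r1 : 3 * Real.exp X ≤ R := hR ▸ Nat.le_ceil _
  have r2 : (R : ℝ) ≤ 4 * Real.exp X := by
    rw [hR]
    exact (Nat.ceil_lt_add_one (by positivity)).le.trans (by linarith)
  have w1 : 2 * (R * Ta) ≤ W := by
    have a1 : (R : ℝ) * Ta ≤ 4 * Real.exp X * (2 * Real.exp (10 * X)) := by gcongr
    have a2 : Real.exp (12 * X) = Real.exp X * (Real.exp X * Real.exp (10 * X)) := by
      rw [← Real.exp_add, ← Real.exp_add]
      congr 1
      ring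
    have a3 : 16 * (Real.exp X * Real.exp (10 * X)) ≤
        Real.exp X * (Real.exp X * Real.exp (10 * X)) := by
      gcongr
      linarith
    have a4 : 2 * ((R : ℝ) * Ta) ≤ W := by linarith
    exact_mod_cast a4
  have hR1 : 1 ≤ R := by
    have : (1 : ℝ) ≤ R := by linarith
    exact_mod_cast this
  have w0 : Ta ≤ W := by
    have := Nat.le_mul_of_pos_left Ta hR1
    omega
  obtain ⟨i, hi, cD⟩ := hB.reg R Ta (1 + 1) _ (by norm_num) (hg _ w1)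
    (grow zero_le_one le_rfl le_rfl (by linarith))
  have w2 : (i + 1) * Ta ≤ W := (Nat.mul_le_mul_right _ hi).trans (by rw [mul_assoc]; exact w1)
  have w3 : i * Ta + Ta = (i + 1) * Ta := by ring
  obtain ⟨x', hx'⟩ := dense_piece S U0 (B (i * Ta)) n1 ⟨0, hB.zero _⟩
    fun s hs e he => hS s hs e (hB.mono (by omega) he)
  have p1 : (0 : ℝ) < #S := by exact_mod_cast n1.card_pos
  have p2 : (0 : ℝ) < #(B (i * Ta)) := by exact_mod_cast card_pos.2 ⟨0, hB.zero _⟩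
  have hx'' : (#S : ℝ) * #(B (i * Ta)) ≤ #U0 * #{s ∈ S | x' - s ∈ B (i * Ta)} := by
    exact_mod_cast hx'
  have k1 : 2 * (#(B (i * Ta)) : ℝ) ≤ Real.exp X * #{s ∈ S | x' - s ∈ B (i * Ta)} := by
    have a1 := mul_le_mul_of_nonneg_right hU
      (Nat.cast_nonneg (α := ℝ) #{s ∈ S | x' - s ∈ B (i * Ta)})
    refine le_of_mul_le_mul_left ?_ p1
    linarith
  have n2 : ({s ∈ S | x' - s ∈ B (i * Ta)} : Finset G).Nonempty := by
    rw [← card_pos]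
    have a1 : (0 : ℝ) < Real.exp X * #{s ∈ S | x' - s ∈ B (i * Ta)} := by linarith
    exact_mod_cast (pos_iff_pos_of_mul_pos a1).1 pe
  have m0 : ∀ a ∈ ({s ∈ S | x' - s ∈ B (i * Ta)} : Finset G).image (fun s => -s), ∀ x ∈ B Ta,
      x' + a + x ∈ B ((i + 1) * Ta) := by
    intro a ha x hx
    obtain ⟨s, hs, rfl⟩ := mem_image.1 ha
    rw [← w3, ← sub_eq_add_neg]
    exact hB.add _ _ _ _ (mem_filter.1 hs).2 hx
  obtain ⟨Λ, hr, hξ⟩ := hA X ((le_max_left _ _).trans hX) G B Ta S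
    (({s ∈ S | x' - s ∈ B (i * Ta)} : Finset G).image fun s => -s)
    ((S ×ˢ ({s ∈ S | x' - s ∈ B (i * Ta)} : Finset G).image fun s => -s).image
      fun p => p.1 + p.2)
    (U0.image fun u => u - x') ((B ((i + 1) * Ta)).image fun u => u - x') hB t1
    (fun a ha => hg a (ha.trans w0)) n1 (n2.image _)
    (by
      have a2 : (#(U0.image fun u => u - x') : ℝ) ≤ #U0 := by exact_mod_cast card_image_le
      have a3 : (0 : ℝ) ≤ #U0 := Nat.cast_nonneg _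
      linarith)
    (by
      have a2 : (#((B ((i + 1) * Ta)).image fun u => u - x') : ℝ) ≤ #(B ((i + 1) * Ta)) := by
        exact_mod_cast card_image_le
      rw [card_image_of_injective _ neg_injective]
      linarith)
    (fun a ha x hx => mem_image.2 ⟨_, m0 a ha x hx, by abel⟩)
    (fun a ha a' ha' x hx =>
      mem_image.2 ⟨_, hS a ha _ (hB.mono w2 (m0 a' ha' x hx)), by abel⟩)
  refine ⟨Λ, hr, fun x hx hθ => ?_⟩
  have a1 := hξ x hx hθ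
  rw [Fr.BogA.psi_zero n1 (n2.image _)] at a1
  obtain ⟨a, ha, a', ha', hw⟩ := Fr.BogA.psi_pos (x := x) (by linarith [(abs_le.1 a1).1] :
    0 < Km.psi S (({s ∈ S | x' - s ∈ B (i * Ta)} : Finset G).image fun s => -s)
      ((S ×ˢ ({s ∈ S | x' - s ∈ B (i * Ta)} : Finset G).image fun s => -s).image
        fun p => p.1 + p.2) x)
  obtain ⟨p, hp, e⟩ := mem_image.1 hw
  obtain ⟨s, hs, rfl⟩ := mem_image.1 ha'
  obtain ⟨s', hs', e'⟩ := mem_image.1 (mem_product.1 hp).2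
  refine ⟨p.1, (mem_product.1 hp).1, s, (mem_filter.1 hs).1, a, ha, s', (mem_filter.1 hs').1, ?_⟩
  rw [← e'] at e
  have e2 : x = p.1 + -s' - (a + -s) := by rw [e]; abel
  rw [e2]
  abel

/-- a norm on the lattice together with its finite balls -/
structure Nrm {n : ℕ} (N : (Fin n → ℤ) → ℝ) (B : ℝ → Finset (Fin n → ℤ)) : Prop where
  mem : ∀ r x, x ∈ B r ↔ N x ≤ r
  zero : N 0 ≤ 0
  add : ∀ x y, N (x + y) ≤ N x + N y
  neg : ∀ x, N (-x) ≤ N x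
  four : ∀ x, 4 * N x ≤ N ((4 : ℤ) • x)

/-- balls of a lattice norm have doubling at most four to the rank -/
theorem Nrm.dbl {n : ℕ} {N : (Fin n → ℤ) → ℝ} {B : ℝ → Finset (Fin n → ℤ)} (h : Nrm N B)
    (r : ℝ) : #(B (2 * r)) ≤ 4 ^ n * #(B r) := by
  classical
  have h0 : #(Fintype.piFinset fun _ : Fin n => Ico (0 : ℤ) 4) = 4 ^ n := by simp
  rw [← h0, mul_comm _ #(B r)]
  refine card_le_mul_card_image_of_maps_to (f := fun x : Fin n → ℤ => fun i => x i % 4)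
    (fun x _ => Fintype.mem_piFinset.2 fun i => mem_Ico.2
      (⟨by omega, by omega⟩ : (0 : ℤ) ≤ x i % 4 ∧ x i % 4 < 4)) _ fun c _ => ?_
  by_cases he : ({x ∈ B (2 * r) | (fun i => x i % 4) = c} : Finset _).Nonempty
  · obtain ⟨x0, hx0⟩ := he
    have h1 := mem_filter.1 hx0
    refine card_le_card_of_injOn (fun x => fun i => (x i - x0 i) / 4) (fun x hx => ?_)
      fun x hx y hy e => ?_
    · have h2 := mem_filter.1 (mem_coe.1 hx)
      refine mem_coe.2 ((h.mem _ _).2 ?_)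
      have h3 : (4 : ℤ) • (fun i => (x i - x0 i) / 4 : Fin n → ℤ) = x + -x0 := by
        funext i
        have a1 := congrFun h2.2 i
        have a2 := congrFun h1.2 i
        simp only [Pi.smul_apply, smul_eq_mul, Pi.add_apply, Pi.neg_apply] at a1 a2 ⊢
        omega
      have h4 := h.four (fun i => (x i - x0 i) / 4)
      rw [h3] at h4
      have h5 := h.add x (-x0)
      have h6 := h.neg x0
      have h7 := (h.mem _ _).1 h2.1
      have h8 := (h.mem _ _).1 h1.1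
      show N (fun i => (x i - x0 i) / 4) ≤ r
      linarith
    · have h2 := mem_filter.1 (mem_coe.1 hx)
      have h3 := mem_filter.1 (mem_coe.1 hy)
      funext i
      have a1 := congrFun h2.2 i
      have a2 := congrFun h3.2 i
      have a3 := congrFun h1.2 i
      have a4 := congrFun e i
      simp only at a1 a2 a3 a4
      omega
  · rw [not_nonempty_iff_eq_empty.1 he]
    simp

theorem cs_add {Q n : ℕ} (x y : Fin n → ℤ) : P057Z.cs Q (x + y) = P057Z.cs Q x + P057Z.cs Q y :=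
  funext fun i => by simp [P057Z.cs]

theorem cs_neg {Q n : ℕ} (x : Fin n → ℤ) : P057Z.cs Q (-x) = -P057Z.cs Q x :=
  funext fun i => by simp [P057Z.cs]

theorem cs_sub {Q n : ℕ} (x y : Fin n → ℤ) : P057Z.cs Q (x - y) = P057Z.cs Q x - P057Z.cs Q y :=
  funext fun i => by simp [P057Z.cs]

theorem cs_inj {Q n : ℕ} {x y : Fin n → ℤ} (h : P057Z.cs Q x = P057Z.cs Q y)
    (hb : ∀ i, |x i - y i| < Q) : x = y := by
  funext i
  have h1 : ((x i : ℤ) : ZMod Q) = (y i : ℤ) := congrFun h i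
  have h2 := (ZMod.intCast_eq_intCast_iff_dvd_sub (y i) (x i) Q).1 h1.symm
  have h3 := Int.eq_zero_of_abs_lt_dvd h2 (hb i)
  omega

theorem nm_le {Q n : ℕ} [Fact Q.Prime] (ξ : V Q n) (x : Fin n → ℤ) (m : ℤ) :
    nm (ξ ⬝ᵥ P057Z.cs Q x) ≤ |∑ i, ((ξ i).val : ℝ) / Q * x i - m| := by
  have hQ : (0 : ℝ) < Q := Fr.Qpos
  have h1 : ξ ⬝ᵥ P057Z.cs Q x = ((∑ i, ((ξ i).val : ℤ) * x i - m * Q : ℤ) : ZMod Q) := by
    simp [dotProduct, P057Z.cs]
  rw [h1]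
  refine (Fr.nm_cast_le _).trans (le_of_eq ?_)
  rw [← abs_of_pos hQ, ← abs_div, abs_of_pos hQ]
  congr 1
  push_cast
  rw [sub_div, sum_div, mul_div_assoc, div_self hQ.ne', mul_one]
  congr 1
  exact sum_congr rfl fun i _ => by ring

/-- Bogolyubov in a lattice with an arbitrary norm, with rank free of the dimension -/
def BOGZ : Prop := ∃ X0 : ℝ, ∀ X : ℝ, X0 ≤ X →
  ∀ (n : ℕ) (N : (Fin n → ℤ) → ℝ) (B : ℝ → Finset (Fin n → ℤ)) (τ : ℝ)
    (S U0 : Finset (Fin n → ℤ)), Nrm N B → 0 ≤ τ → 2 * (n : ℝ) ≤ Real.exp X →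
    S.Nonempty → 2 * (#U0 : ℝ) ≤ Real.exp X * #S → (∀ s ∈ S, ∀ x, N x ≤ τ → s + x ∈ U0) →
    ∃ (r : ℕ) (θ : Fin r → Fin n → ℝ), (r : ℝ) ≤ X ^ 6 ∧ ∀ x,
      N x ≤ τ * Real.exp (-(13 * X)) →
      (∀ j, ∃ m : ℤ, |∑ i, θ j i * x i - m| ≤ Real.exp (-(3 * X))) →
      ∃ s1 ∈ S, ∃ s2 ∈ S, ∃ s3 ∈ S, ∃ s4 ∈ S, x = s1 + s2 - s3 - s4

theorem bogz : BOGZ := by
  classical
  obtain ⟨X0, hA⟩ := bogs
  refine ⟨max X0 1, fun X hX n N B τ S U0 hN hτ hn n1 hU hS => ?_⟩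
  have hX0 : 1 ≤ X := (le_max_right _ _).trans hX
  obtain ⟨W, hW⟩ : ∃ W, W = ⌈Real.exp (12 * X)⌉₊ := ⟨_, rfl⟩
  obtain ⟨σ, hσ⟩ : ∃ σ, σ = τ * Real.exp (-(13 * X)) := ⟨_, rfl⟩
  have σ0 : 0 ≤ σ := by rw [hσ]; positivity
  have e1 : X + 1 ≤ Real.exp X := Real.add_one_le_exp X
  have e12 : 1 ≤ Real.exp (12 * X) := Real.one_le_exp (by linarith)
  have t1 : Real.exp (12 * X) ≤ W := hW ▸ Nat.le_ceil _
  have t2 : (W : ℝ) ≤ 2 * Real.exp (12 * X) := by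
    rw [hW]
    exact (Nat.ceil_lt_add_one (by positivity)).le.trans (by linarith)
  have t3 : W * σ ≤ τ := by
    have a2 : Real.exp X * Real.exp (12 * X) * Real.exp (-(13 * X)) = 1 := by
      rw [← Real.exp_add, ← Real.exp_add, ← Real.exp_zero]
      congr 1
      ring
    have a3 : (W : ℝ) ≤ Real.exp X * Real.exp (12 * X) := t2.trans (by gcongr; linarith)
    have a4 : (W : ℝ) * Real.exp (-(13 * X)) ≤ 1 :=
      (mul_le_mul_of_nonneg_right a3 (Real.exp_pos _).le).trans_eq a2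
    rw [hσ, mul_left_comm]
    exact mul_le_of_le_one_right hτ a4
  have W1 : (1 : ℝ) ≤ W := by linarith
  obtain ⟨M, hM⟩ : ∃ M : ℕ, ∀ x ∈ S ∪ B τ, ∀ i, |x i| ≤ M := by
    refine ⟨(S ∪ B τ).sup fun x => univ.sup fun i => (x i).natAbs, fun x hx i => ?_⟩
    have a1 : (x i).natAbs ≤ univ.sup fun i => (x i).natAbs :=
      le_sup (f := fun i => (x i).natAbs) (mem_univ i)
    have a2 := a1.trans (le_sup (f := fun x : Fin n → ℤ => univ.sup fun i => (x i).natAbs) hx)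
    rw [Int.abs_eq_natAbs]
    exact_mod_cast a2
  obtain ⟨Q, hQ, hQp⟩ := Nat.exists_infinite_primes (5 * M + 1)
  haveI : Fact Q.Prime := ⟨hQp⟩
  have hQ' : 5 * (M : ℤ) + 1 ≤ Q := by exact_mod_cast hQ
  have inj : ∀ T : Finset (Fin n → ℤ), T ⊆ S ∪ B τ → #(T.image (P057Z.cs Q)) = #T :=
    fun T hT => card_image_of_injOn fun x hx y hy e => cs_inj e fun i => by
      have a1 := abs_le.1 (hM x (hT hx) i)
      have a2 := abs_le.1 (hM y (hT hy) i)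
      rw [abs_lt]
      constructor <;> omega
  have sub : ∀ r ≤ τ, B r ⊆ S ∪ B τ := fun r hr x hx =>
    mem_union_right _ ((hN.mem _ _).2 (((hN.mem _ _).1 hx).trans hr))
  obtain ⟨Λ, hr, hΛ⟩ := hA X ((le_max_left _ _).trans hX) (V Q n)
    (fun a => (B (a * σ)).image (P057Z.cs Q)) W (S.image (P057Z.cs Q)) (U0.image (P057Z.cs Q))
    ⟨fun a => mem_image.2 ⟨0, (hN.mem _ _).2 (hN.zero.trans (by positivity)),
        funext fun i => by simp [P057Z.cs]⟩,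
      fun a b x y hx hy => by
        obtain ⟨u, hu, rfl⟩ := mem_image.1 hx
        obtain ⟨v, hv, rfl⟩ := mem_image.1 hy
        refine mem_image.2 ⟨u + v, (hN.mem _ _).2 ?_, cs_add u v⟩
        have a1 := (hN.mem _ _).1 hu
        have a2 := (hN.mem _ _).1 hv
        have a3 := hN.add u v
        push_cast
        linarith,
      fun a x hx => by
        obtain ⟨u, hu, rfl⟩ := mem_image.1 hx
        exact mem_image.2 ⟨-u, (hN.mem _ _).2 ((hN.neg u).trans ((hN.mem _ _).1 hu)), cs_neg u⟩⟩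
    t1
    (fun a ha => by
      have a0 : (a : ℝ) ≤ W := by exact_mod_cast (by omega : a ≤ W)
      have a1 : (a : ℝ) * σ ≤ τ := (mul_le_mul_of_nonneg_right a0 σ0).trans t3
      rw [inj _ (sub _ a1)]
      have a2 : #((B (((2 * a : ℕ) : ℝ) * σ)).image (P057Z.cs Q)) ≤ 4 ^ n * #(B (a * σ)) := by
        refine card_image_le.trans ?_
        rw [show ((2 * a : ℕ) : ℝ) * σ = 2 * (a * σ) by push_cast; ring]
        exact hN.dbl _
      have a3 : (4 : ℝ) ^ n ≤ Real.exp (Real.exp X) := by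
        refine le_trans ?_ (Real.exp_le_exp.2 hn)
        rw [mul_comm, Real.exp_nat_mul]
        refine pow_le_pow_left₀ (by norm_num) ?_ _
        have := Real.add_one_le_exp (1 : ℝ)
        rw [show (2 : ℝ) = 1 + 1 by norm_num, Real.exp_add]
        nlinarith
      have a4 : (#((B (((2 * a : ℕ) : ℝ) * σ)).image (P057Z.cs Q)) : ℝ) ≤
          4 ^ n * #(B (a * σ)) := by exact_mod_cast a2
      exact a4.trans (mul_le_mul_of_nonneg_right a3 (Nat.cast_nonneg _)))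
    (n1.image _)
    (by
      rw [inj S subset_union_left]
      have a2 : (#(U0.image (P057Z.cs Q)) : ℝ) ≤ #U0 := by exact_mod_cast card_image_le
      linarith)
    (fun s hs x hx => by
      obtain ⟨u, hu, rfl⟩ := mem_image.1 hs
      obtain ⟨v, hv, rfl⟩ := mem_image.1 hx
      exact mem_image.2 ⟨u + v, hS u hu v (((hN.mem _ _).1 hv).trans t3), cs_add u v⟩)
  choose ξ hξ using Km.char Q n
  refine ⟨#Λ, fun j i => ((ξ (Λ.equivFin.symm j) i).val : ℝ) / Q, hr, fun x hx hi => ?_⟩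
  rw [← hσ] at hx
  obtain ⟨t1, h1, t2, h2, t3', h3, t4, h4, e⟩ := hΛ (P057Z.cs Q x)
    (mem_image.2 ⟨x, (hN.mem _ _).2 (by rwa [Nat.cast_one, one_mul]), rfl⟩)
    fun lam hl => (hξ lam _).trans (by
      obtain ⟨m, hm⟩ := hi (Λ.equivFin ⟨lam, hl⟩)
      simp only [Equiv.symm_apply_apply] at hm
      have := nm_le (ξ lam) x m
      linarith)
  obtain ⟨s1, g1, rfl⟩ := mem_image.1 h1
  obtain ⟨s2, g2, rfl⟩ := mem_image.1 h2
  obtain ⟨s3, g3, rfl⟩ := mem_image.1 h3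
  obtain ⟨s4, g4, rfl⟩ := mem_image.1 h4
  refine ⟨s1, g1, s2, g2, s3, g3, s4, g4, cs_inj (Q := Q) ?_ fun i => ?_⟩
  · rw [e, cs_sub, cs_sub, cs_add]
  · have a0 : σ ≤ τ := (le_mul_of_one_le_left σ0 W1).trans t3
    have a1 := abs_le.1 (hM s1 (mem_union_left _ g1) i)
    have a2 := abs_le.1 (hM s2 (mem_union_left _ g2) i)
    have a3 := abs_le.1 (hM s3 (mem_union_left _ g3) i)
    have a4 := abs_le.1 (hM s4 (mem_union_left _ g4) i)
    have a5 := abs_le.1 (hM x (mem_union_right _ ((hN.mem _ _).2 (hx.trans a0))) i)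
    simp only [Pi.sub_apply, Pi.add_apply]
    rw [abs_lt]
    constructor <;> omega

end Vale.Agent.P057T.BogH81
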