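import Vale.Agent.P057T.OneH31b
import Mathlib.Algebra.MvPolynomial.Variables

/-!
Functions that are affine in every class of a finite set of classes are polynomials.
-/

set_option linter.unusedSectionVars false

namespace Vale.Agent.P057T.Brg

open MvPolynomial Finset Vale.Agent.P057T.L1 Vale.Agent.P057T.One

noncomputable section

variable {α σ : Type} [DecidableEq α] (ty : σ → Finset α)

/-- affine in the variables whose type contains `a` -/
def AffC (a : α) (g : (σ → ℝ) → ℝ) : Prop :=
  ∀ z, ∃ L : (σ → ℝ) →ₗ[ℝ] ℝ, ∀ h, (∀ v, a ∉ ty v → h v = 0) → g (z + h) = g z + L h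

/-- agree on the variables that miss `G` -/
def Ov (G : Finset α) (x x0 : σ → ℝ) : Prop := ∀ v, Disjoint (ty v) G → x v = x0 v

/-- kill the class `a` -/
def kl (a : α) : (σ → ℝ) →ₗ[ℝ] (σ → ℝ) :=
  LinearMap.pi fun v => if a ∈ ty v then 0 else LinearMap.proj v

theorem kl_apply (a : α) (x : σ → ℝ) (v : σ) : kl ty a x v = if a ∈ ty v then 0 else x v := by
  unfold kl
  rw [LinearMap.pi_apply]
  split_ifs <;> rfl

variable {ty}

/-- composition with an affine map that respects the class -/
theorem AffC.comp {ρ β : Type} [DecidableEq β] {ty' : ρ → Finset β} {a : α} {a' : β}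
    {g : (σ → ℝ) → ℝ} (hg : AffC ty a g) (M : (ρ → ℝ) →ₗ[ℝ] (σ → ℝ)) (e : σ → ℝ)
    (hM : ∀ h, (∀ v, a' ∉ ty' v → h v = 0) → ∀ v, a ∉ ty v → M h v = 0) :
    AffC ty' a' fun x => g (M x + e) := by
  intro z
  obtain ⟨L, hL⟩ := hg (M z + e)
  refine ⟨L ∘ₗ M, fun h hh => ?_⟩
  have : M (z + h) + e = M z + e + M h := by rw [map_add]; abel
  simp only [this, LinearMap.comp_apply]
  exact hL _ (hM h hh)

theorem AffC.add {a : α} {g g' : (σ → ℝ) → ℝ} (hg : AffC ty a g) (hg' : AffC ty a g') :
    AffC ty a fun x => g x + g' x := by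
  intro z
  obtain ⟨L, hL⟩ := hg z
  obtain ⟨L', hL'⟩ := hg' z
  refine ⟨L + L', fun h hh => ?_⟩
  simp only [hL h hh, hL' h hh, LinearMap.add_apply]
  ring

theorem AffC.smul {a : α} {g : (σ → ℝ) → ℝ} (hg : AffC ty a g) (c : ℝ) :
    AffC ty a fun x => c * g x := by
  intro z
  obtain ⟨L, hL⟩ := hg z
  refine ⟨c • L, fun h hh => ?_⟩
  simp only [hL h hh, LinearMap.smul_apply, smul_eq_mul]
  ring

theorem AffC.sub {a : α} {g g' : (σ → ℝ) → ℝ} (hg : AffC ty a g) (hg' : AffC ty a g') :
    AffC ty a fun x => g x - g' x := by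
  have := hg.add (hg'.smul (-1))
  simpa only [neg_mul, one_mul, ← sub_eq_add_neg] using this

theorem eval_vars {p : MvPolynomial σ ℝ} {x y : σ → ℝ} (h : ∀ v ∈ p.vars, x v = y v) :
    eval x p = eval y p :=
  eval₂Hom_congr' (f₁ := RingHom.id ℝ) rfl (fun v hv _ => h v hv) rfl

theorem AffC.expand [Fintype σ] [DecidableEq σ] {a : α} {g : (σ → ℝ) → ℝ} (hg : AffC ty a g)
    (x : σ → ℝ) : g x = g (kl ty a x) + ∑ v ∈ univ.filter (fun v => a ∈ ty v),
      x v * (g (kl ty a x + Pi.single v 1) - g (kl ty a x)) := by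
  obtain ⟨L, hL⟩ := hg (kl ty a x)
  have e : x = kl ty a x + ∑ v ∈ univ.filter (fun v => a ∈ ty v),
      x v • (Pi.single v 1 : σ → ℝ) := by
    funext u
    simp only [Pi.add_apply, kl_apply, Finset.sum_apply, Pi.smul_apply, Pi.single_apply,
      smul_eq_mul, mul_ite, mul_one, mul_zero, sum_ite_eq, mem_filter, mem_univ, true_and]
    split_ifs <;> simp
  conv_lhs => rw [e]
  rw [hL, map_sum]
  · congr 1
    refine sum_congr rfl fun v hv => ?_
    rw [map_smul, smul_eq_mul, hL, add_sub_cancel_left]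
    intro u hu
    rw [Pi.single_apply, if_neg]
    rintro rfl
    exact hu (mem_filter.1 hv).2
  · intro u hu
    simp [Finset.sum_apply, Pi.single_apply, hu]

/-- **BRIDGE** -/
theorem exists_poly [Fintype σ] [DecidableEq σ] (G : Finset α) (g : (σ → ℝ) → ℝ)
    (hg : ∀ a ∈ G, AffC ty a g) (x0 : σ → ℝ) : ∃ p : MvPolynomial σ ℝ,
    (∀ v ∈ p.vars, ¬ Disjoint (ty v) G) ∧ p.totalDegree ≤ G.card ∧
    (∀ x, Ov ty G x x0 → eval x p = g x) ∧
    (∀ H, (∀ x, Ov ty G x x0 → (∀ v, ¬ Disjoint (ty v) G → |x v| ≤ 1) → |g x| ≤ H) →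
      nrm p ≤ (2 * Fintype.card σ + 1) ^ G.card * H) ∧
    ((∀ x, Ov ty G x x0 → (∀ v, ¬ Disjoint (ty v) G → ∃ n : ℤ, x v = n) → ∃ n : ℤ, g x = n) →
      IsInt p) := by
  induction G using Finset.induction_on generalizing g with
  | empty =>
    have ov : ∀ x, Ov ty ∅ x x0 → x = x0 := fun x hx => funext fun v => hx v (disjoint_empty_right _)
    have o0 : Ov ty ∅ x0 x0 := fun _ _ => rfl
    refine ⟨C (g x0), by simp, by simp, fun x hx => by rw [ov x hx, eval_C], fun H hH => ?_,
      fun h => ?_⟩
    · simpa using hH x0 o0 (by simp)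
    · obtain ⟨n, hn⟩ := h x0 o0 (by simp)
      rw [hn]; exact isInt_C n
  | insert a G haG ih =>
    have hk : ∀ e : σ → ℝ, ∀ a' ∈ G, AffC ty a' fun x => g (kl ty a x + e) := fun e a' ha' =>
      (hg a' (mem_insert_of_mem ha')).comp (kl ty a) e fun h hh v hv => by
        rw [kl_apply, hh v hv, ite_self]
    choose q q1 q2 q3 q4 q5 using fun e => ih _ (hk e)
    have dj : ∀ v, Disjoint (ty v) (insert a G) ↔ a ∉ ty v ∧ Disjoint (ty v) G := fun v =>
      disjoint_insert_right
    have ev : ∀ e x, Ov ty (insert a G) x x0 → eval x (q e) = g (kl ty a x + e) := by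
      intro e x hx
      have h1 : eval x (q e) = eval (fun v => if Disjoint (ty v) G then x0 v else x v) (q e) :=
        eval_vars fun v hv => by rw [if_neg (q1 e v hv)]
      rw [h1, q3 e _ fun v hv => if_pos hv]
      congr 2
      funext v
      rw [kl_apply, kl_apply]
      split_ifs with h2 h3
      · rfl
      · exact (hx v ((dj v).2 ⟨h2, h3⟩)).symm
      · rfl
    have ovk : ∀ (e : σ → ℝ), (∀ v, a ∉ ty v → e v = 0) → ∀ x, Ov ty G x x0 →
        Ov ty (insert a G) (kl ty a x + e) x0 := by
      intro e he x hx v hv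
      rw [Pi.add_apply, kl_apply, if_neg ((dj v).1 hv).1, he v ((dj v).1 hv).1, add_zero]
      exact hx v ((dj v).1 hv).2
    have se : ∀ v, a ∈ ty v → ∀ u, a ∉ ty u → (Pi.single v 1 : σ → ℝ) u = 0 := by
      intro v hv u hu
      rw [Pi.single_apply, if_neg]
      rintro rfl
      exact hu hv
    have nd : ∀ v, ¬ Disjoint (ty v) (insert a G) → a ∉ ty v → ¬ Disjoint (ty v) G :=
      fun v h1 h2 h3 => h1 ((dj v).2 ⟨h2, h3⟩)
    refine ⟨q 0 + ∑ v ∈ univ.filter (fun v => a ∈ ty v), X v * (q (Pi.single v 1) - q 0),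
      fun v hv => ?_, ?_, fun x hx => ?_, fun H hH => ?_, fun h => ?_⟩
    · have hq : ∀ e, v ∈ (q e).vars → ¬ Disjoint (ty v) (insert a G) := fun e h1 h2 =>
        q1 e v h1 ((dj v).1 h2).2
      rcases mem_union.1 (vars_add_subset _ _ hv) with h | h
      · exact hq _ h
      · obtain ⟨u, hu, h⟩ := mem_biUnion.1 (vars_sum_subset _ _ h)
        rcases mem_union.1 (vars_mul _ _ h) with h | h
        · rw [vars_X, mem_singleton] at h
          subst h
          exact fun h2 => ((dj v).1 h2).1 (mem_filter.1 hu).2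
        · rcases mem_union.1 (vars_sub_subset _ h) with h | h
          · exact hq _ h
          · exact hq _ h
    · rw [card_insert_of_notMem haG]
      refine (totalDegree_add _ _).trans (max_le ((q2 0).trans (Nat.le_succ _)) ?_)
      refine totalDegree_finsetSum_le fun v _ => (totalDegree_mul _ _).trans ?_
      have h1 := (totalDegree_sub (q (Pi.single v 1)) (q 0)).trans (max_le (q2 _) (q2 _))
      rw [totalDegree_X]
      omega
    · rw [(hg a (mem_insert_self _ _)).expand x, map_add, map_sum, ev 0 x hx, add_zero]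
      congr 1
      refine sum_congr rfl fun v _ => ?_
      rw [map_mul, map_sub, eval_X, ev _ x hx, ev 0 x hx, add_zero]
    · have hb : ∀ e : σ → ℝ, (∀ v, a ∉ ty v → e v = 0) → (∀ v, |e v| ≤ 1) →
          nrm (q e) ≤ (2 * Fintype.card σ + 1) ^ G.card * H := by
        intro e he he1
        refine q4 e H fun x hx hx1 => hH _ (ovk e he x hx) fun v hv => ?_
        rw [Pi.add_apply, kl_apply]
        split_ifs with h2
        · rw [zero_add]; exact he1 v
        · rw [he v h2, add_zero]; exact hx1 v (nd v hv h2)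
      have b0 := hb 0 (fun _ _ => rfl) (fun _ => by simp)
      set N := (2 * (Fintype.card σ : ℝ) + 1) ^ G.card * H with hN
      have N0 : 0 ≤ N := (nrm_nonneg _).trans b0
      have b1 : nrm (∑ v ∈ univ.filter (fun v => a ∈ ty v), X v * (q (Pi.single v 1) - q 0)) ≤
          Fintype.card σ * (2 * N) := by
        refine (nrm_sum_le _ _).trans ((sum_le_card_nsmul _ _ (2 * N) fun v hv => ?_).trans ?_)
        · refine (nrm_mul_le _ _).trans ?_
          rw [nrm_X, one_mul]
          have := hb (Pi.single v 1) (se v (mem_filter.1 hv).2) fun u => by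
            rw [Pi.single_apply]; split_ifs <;> simp
          linarith [nrm_sub_le (q (Pi.single v 1)) (q 0)]
        · rw [nsmul_eq_mul]
          exact mul_le_mul_of_nonneg_right (by exact_mod_cast card_le_univ _) (by linarith)
      rw [card_insert_of_notMem haG, pow_succ', mul_assoc, ← hN]
      linarith [nrm_add_le (q 0)
        (∑ v ∈ univ.filter (fun v => a ∈ ty v), X v * (q (Pi.single v 1) - q 0))]
    · have hb : ∀ e : σ → ℝ, (∀ v, a ∉ ty v → e v = 0) → (∀ v, ∃ n : ℤ, e v = n) →
          IsInt (q e) := by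
        intro e he he1
        refine q5 e fun x hx hx1 => h _ (ovk e he x hx) fun v hv => ?_
        rw [Pi.add_apply, kl_apply]
        split_ifs with h2
        · rw [zero_add]; exact he1 v
        · rw [he v h2, add_zero]; exact hx1 v (nd v hv h2)
      have b0 := hb 0 (fun _ _ => rfl) (fun _ => ⟨0, by simp⟩)
      refine b0.add (isInt_sum fun v hv => (isInt_X v).mul (IsInt.sub ?_ b0))
      refine hb _ (se v (mem_filter.1 hv).2) fun u => ?_
      rw [Pi.single_apply]
      split_ifs
      · exact ⟨1, by simp⟩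
      · exact ⟨0, by simp⟩

/-! ### weights -/

/-- weight of the class `a` -/
def wa (ty : σ → Finset α) (a : α) : σ → ℕ := fun v => if a ∈ ty v then 1 else 0

def sw (w : σ → ℕ) (c : ℝ) (p : MvPolynomial σ ℝ) : MvPolynomial σ ℝ :=
  aeval (fun v => C (c ^ w v) * X v) p

theorem coeff_sw (w : σ → ℕ) (c : ℝ) (p : MvPolynomial σ ℝ) (m : σ →₀ ℕ) :
    coeff m (sw w c p) = c ^ Finsupp.weight w m * coeff m p := by
  classical
  have key : ∀ (u : σ →₀ ℕ) (a : ℝ),
      sw w c (monomial u a) = monomial u (c ^ Finsupp.weight w u * a) := by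
    intro u a
    unfold sw
    rw [aeval_monomial, monomial_eq, Finsupp.weight_apply, Finsupp.sum, Finsupp.prod, Finsupp.prod]
    simp only [mul_pow, prod_mul_distrib, ← C_pow, ← pow_mul, algebraMap_eq, ← map_prod,
      prod_pow_eq_pow_sum, smul_eq_mul, map_mul]
    have : ∑ x ∈ u.support, w x * u x = ∑ x ∈ u.support, u x * w x :=
      sum_congr rfl fun _ _ => mul_comm _ _
    rw [this]; ring
  induction p using MvPolynomial.induction_on' with
  | monomial u a =>
    rw [key, coeff_monomial, coeff_monomial]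
    split_ifs with h
    · rw [h]
    · simp
  | add p q hp hq =>
    have : sw w c (p + q) = sw w c p + sw w c q := by simp [sw]
    rw [this, coeff_add, coeff_add, hp, hq]; ring

theorem eval_sw (w : σ → ℕ) (c : ℝ) (p : MvPolynomial σ ℝ) (x : σ → ℝ) :
    eval x (sw w c p) = eval (fun v => c ^ w v * x v) p := by
  unfold sw
  rw [eval_aeval']
  simp

theorem sp_of_aff {a : α} {p : MvPolynomial σ ℝ} (h : AffC ty a fun x => eval x p) :
    Sp (wa ty a) {n | n ≤ 1} p := by
  have e : sw (wa ty a) 2 p + sw (wa ty a) 0 p = C 2 * p := by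
    apply MvPolynomial.funext
    intro x
    obtain ⟨L, hL⟩ := h (kl ty a x)
    have hv : ∀ v, a ∉ ty v → (x - kl ty a x) v = 0 := fun v hv => by
      rw [Pi.sub_apply, kl_apply, if_neg hv, sub_self]
    have h1 := hL _ hv
    have h2 := hL ((2 : ℝ) • (x - kl ty a x)) fun v hv' => by
      rw [Pi.smul_apply, hv v hv', smul_zero]
    have e0 : (fun v => (0 : ℝ) ^ wa ty a v * x v) = kl ty a x := by
      funext v; rw [kl_apply]; unfold wa; split_ifs <;> simp
    have e2 : (fun v => (2 : ℝ) ^ wa ty a v * x v) = kl ty a x + (2 : ℝ) • (x - kl ty a x) := by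
      funext v
      simp only [Pi.add_apply, Pi.smul_apply, Pi.sub_apply, kl_apply, wa]
      split_ifs <;> simp
    rw [add_sub_cancel] at h1
    rw [map_smul, smul_eq_mul] at h2
    rw [map_add, eval_sw, eval_sw, e0, e2, map_mul, eval_C]
    linarith
  intro m hm
  by_contra hc
  have h2 : 2 ≤ Finsupp.weight (wa ty a) m := by
    have : ¬ Finsupp.weight (wa ty a) m ≤ 1 := hc
    omega
  have := congrArg (coeff m) e
  rw [coeff_add, coeff_sw, coeff_sw, coeff_C_mul, zero_pow (by omega), zero_mul, add_zero,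
    ← sub_eq_zero, ← sub_mul] at this
  exact (mul_eq_zero.1 this).elim (two_pow_ne (by omega)) hm

theorem aff_of_sp {a : α} {p : MvPolynomial σ ℝ} (h : Sp (wa ty a) {n | n ≤ 1} p) :
    AffC ty a fun x => eval x p := by
  classical
  have z0 : ∀ (m : σ →₀ ℕ) (c : ℝ), Finsupp.weight (wa ty a) m = 0 → ∀ z k : σ → ℝ,
      (∀ v, a ∉ ty v → k v = 0) → eval (z + k) (monomial m c) = eval z (monomial m c) := by
    intro m c hm z k hk
    rw [eval_monomial, eval_monomial]
    congr 1
    apply Finsupp.prod_congr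
    intro v hv
    rw [Finsupp.weight_apply, Finsupp.sum, sum_eq_zero_iff] at hm
    have := hm v hv
    have hne := Finsupp.mem_support_iff.1 hv
    have : a ∉ ty v := by
      intro h2
      simp [wa, h2] at this
      exact hne this
    rw [Pi.add_apply, hk v this, add_zero]
  have mono : ∀ (m : σ →₀ ℕ) (c : ℝ), Finsupp.weight (wa ty a) m ≤ 1 →
      AffC ty a fun x => eval x (monomial m c) := by
    intro m c hm z
    by_cases h0 : Finsupp.weight (wa ty a) m = 0
    · exact ⟨0, fun k hk => by simp only [z0 m c h0 z k hk, LinearMap.zero_apply, add_zero]⟩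
    obtain ⟨v, hv, hv'⟩ : ∃ v, m v ≠ 0 ∧ a ∈ ty v := by
      by_contra hc
      push Not at hc
      apply h0
      rw [Finsupp.weight_apply, Finsupp.sum, sum_eq_zero_iff]
      intro v hv
      simp [wa, hc v (Finsupp.mem_support_iff.1 hv)]
    obtain ⟨m0, rfl⟩ := exists_add_of_le
      (Finsupp.single_le_iff.2 (Nat.one_le_iff_ne_zero.2 hv) : Finsupp.single v 1 ≤ m)
    have h1 : Finsupp.weight (wa ty a) m0 = 0 := by
      rw [map_add, Finsupp.weight_single] at hm
      have : wa ty a v = 1 := if_pos hv'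
      rw [this, smul_eq_mul, mul_one] at hm
      omega
    have e : (monomial (Finsupp.single v 1 + m0) c : MvPolynomial σ ℝ) = X v * monomial m0 c := by
      rw [X, monomial_mul, one_mul]
    refine ⟨eval z (monomial m0 c) • LinearMap.proj v, fun k hk => ?_⟩
    simp only [e, map_mul, eval_X, z0 m0 c h1 z k hk, Pi.add_apply, LinearMap.smul_apply,
      LinearMap.proj_apply, smul_eq_mul]
    ring
  intro z
  choose L hL using fun m : p.support => mono m (coeff m p) (h m (mem_support_iff.1 m.2)) z
  refine ⟨∑ m, L m, fun k hk => ?_⟩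
  have e : ∀ x, eval x p = ∑ m : p.support, eval x (monomial (m : σ →₀ ℕ) (coeff m p)) := by
    intro x
    conv_lhs => rw [p.as_sum, map_sum]
    exact (sum_coe_sort _ _).symm
  simp only [e, LinearMap.sum_apply, ← sum_add_distrib]
  exact sum_congr rfl fun m _ => hL m k hk

/-- the polynomial of `exists_poly` is affine everywhere -/
theorem aff_poly {G : Finset α} {g : (σ → ℝ) → ℝ} {x0 : σ → ℝ} {p : MvPolynomial σ ℝ}
    (h1 : ∀ v ∈ p.vars, ¬ Disjoint (ty v) G) (h2 : ∀ x, Ov ty G x x0 → eval x p = g x)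
    {a : α} (hg : AffC ty a g) : AffC ty a fun x => eval x p := by
  classical
  let M : (σ → ℝ) →ₗ[ℝ] (σ → ℝ) :=
    LinearMap.pi fun v => if Disjoint (ty v) G then 0 else LinearMap.proj v
  have hM : ∀ x v, M x v = if Disjoint (ty v) G then 0 else x v := by
    intro x v
    simp only [M, LinearMap.pi_apply]
    split_ifs <;> rfl
  have := hg.comp (ty' := ty) (a' := a) M (fun v => if Disjoint (ty v) G then x0 v else 0)
    fun h hh v hv => by rw [hM, hh v hv, ite_self]
  have e : (fun x => eval x p) =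
      fun x => g (M x + fun v => if Disjoint (ty v) G then x0 v else 0) := by
    funext x
    rw [← h2]
    · exact eval_vars fun v hv => by simp [hM, h1 v hv]
    · intro v hv
      simp [hM, hv]
  rw [e]
  exact this

/-- **EXTRAP**: from a small box around `cen` to a box `lam` times larger -/
theorem extrap (G : Finset α) {g : (σ → ℝ) → ℝ} (hg : ∀ a ∈ G, AffC ty a g) (cen : σ → ℝ)
    {lam H : ℝ} (hl : 1 ≤ lam) (x : σ → ℝ)
    (hH : ∀ y, Ov ty G y x → (∀ v, ¬ Disjoint (ty v) G → lam * |y v - cen v| ≤ |x v - cen v|) →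
      |g y| ≤ H) : |g x| ≤ (2 * lam) ^ G.card * H := by
  induction G using Finset.induction_on generalizing x with
  | empty => simpa using hH x (fun _ _ => rfl) (by simp)
  | insert a G haG ih =>
    have dj : ∀ v, Disjoint (ty v) (insert a G) ↔ a ∉ ty v ∧ Disjoint (ty v) G := fun v =>
      disjoint_insert_right
    have l0 : 0 < lam := by linarith
    have key : ∀ s : ℝ, 0 ≤ s → lam * s ≤ 1 →
        |g fun v => if a ∈ ty v then cen v + s * (x v - cen v) else x v| ≤
          (2 * lam) ^ G.card * H := by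
      intro s s0 s1
      have s2 : s ≤ 1 := by nlinarith
      refine ih (fun a' ha' => hg a' (mem_insert_of_mem ha')) _ fun y hy hy' => hH y
        (fun v hv => ?_) fun v hv => ?_
      · rw [hy v ((dj v).1 hv).2]
        exact if_neg ((dj v).1 hv).1
      · have n0 := abs_nonneg (x v - cen v)
        by_cases h1 : Disjoint (ty v) G
        · have h2 : a ∈ ty v := by
            by_contra h2
            exact hv ((dj v).2 ⟨h2, h1⟩)
          rw [hy v h1]
          simp only [if_pos h2, add_sub_cancel_left, abs_mul, abs_of_nonneg s0]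
          nlinarith
        · refine (hy' v h1).trans ?_
          split_ifs
          · rw [add_sub_cancel_left, abs_mul, abs_of_nonneg s0]
            nlinarith
          · exact le_rfl
    have k0 := key 0 le_rfl (by simp)
    have k1 := key lam⁻¹ (inv_nonneg.2 l0.le) (by rw [mul_inv_cancel₀ l0.ne'])
    set z : σ → ℝ := fun v => if a ∈ ty v then cen v + 0 * (x v - cen v) else x v with hz
    obtain ⟨L, hL⟩ := hg a (mem_insert_self _ _) z
    have hv : ∀ v, a ∉ ty v → (x - z) v = 0 := fun v hv => by simp [hz, hv]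
    have h1 := hL _ hv
    have h2 := hL (lam⁻¹ • (x - z)) fun v hv' => by rw [Pi.smul_apply, hv v hv', smul_zero]
    have e : z + lam⁻¹ • (x - z) =
        fun v => if a ∈ ty v then cen v + lam⁻¹ * (x v - cen v) else x v := by
      funext v
      simp only [Pi.add_apply, Pi.smul_apply, Pi.sub_apply, hz]
      split_ifs <;> simp
    rw [add_sub_cancel] at h1
    rw [e, map_smul, smul_eq_mul] at h2
    set B := (2 * lam) ^ G.card * H with hB
    set g1 := g fun v => if a ∈ ty v then cen v + lam⁻¹ * (x v - cen v) else x v with hg1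
    have e3 : g x = lam * g1 - (lam - 1) * g z := by
      rw [h1, h2]; field_simp; ring
    rw [card_insert_of_notMem haG, pow_succ', mul_assoc, ← hB, e3]
    have B0 : 0 ≤ B := (abs_nonneg _).trans k0
    refine (abs_sub _ _).trans ?_
    rw [abs_mul, abs_mul, abs_of_pos l0, abs_of_nonneg (by linarith : 0 ≤ lam - 1)]
    nlinarith [mul_le_mul_of_nonneg_left k1 l0.le,
      mul_le_mul_of_nonneg_left k0 (by linarith : 0 ≤ lam - 1)]

end

end Vale.Agent.P057T.Brg
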