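import Vale.Agent.P057T.Bsym0

/-! A multilinear phase that correlates with a function of the sum is symmetric up to major arcs. -/

set_option linter.all false

open Finset
open scoped BigOperators

namespace Vale.Agent.P057T.Sy

open Vale.Agent.P057L Vale.Agent.P057L.WA
open Vale.Agent.P057T.Vsm (ml)

noncomputable section

variable {d m L r : ℕ}

theorem ee_sum {ι : Type} (s : Finset ι) (f : ι → ℝ) : ee (∑ i ∈ s, f i) = ∏ i ∈ s, ee (f i) := by
  classical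
  induction s using Finset.induction_on with
  | empty => simp [ee_zero]
  | insert a s ha ih => rw [sum_insert ha, prod_insert ha, ee_add, ih]

theorem sum_rg (f : ℤ → ℂ) : ∑ h ∈ rg L, f h = ∑ n ∈ range L, f n := by
  symm
  refine sum_nbij' (fun n : ℕ => (n : ℤ)) Int.toNat ?_ ?_ ?_ ?_ ?_
  · intro n hn
    rw [mem_range] at hn
    exact mem_rg.2 ⟨by positivity, by exact_mod_cast hn⟩
  · intro h hh
    have := mem_rg.1 hh
    rw [mem_range]; omega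
  · intro n _; simp
  · intro h hh
    exact Int.toNat_of_nonneg (mem_rg.1 hh).1
  · intro n _; rfl

theorem nle {ι : Type} (s : Finset ι) (f : ι → ℂ) (h : ∀ i, ‖f i‖ ≤ 1) :
    ‖∑ i ∈ s, f i‖ ≤ s.card :=
  (norm_sum_le _ _).trans ((sum_le_sum fun i _ => h i).trans (by simp))

theorem n2 {a b : ℂ} (ha : ‖a‖ ≤ 1) (hb : ‖b‖ ≤ 1) : ‖a * b‖ ≤ 1 := by
  rw [norm_mul]; exact mul_le_one₀ ha (norm_nonneg _) hb

theorem nc {a : ℂ} (ha : ‖a‖ ≤ 1) : ‖(starRingEnd ℂ) a‖ ≤ 1 := by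
  rw [Complex.norm_conj]; exact ha

theorem ne1 (x : ℝ) : ‖ee x‖ ≤ 1 := (norm_ee x).le

/-- the Dirichlet kernel -/
theorem dir (hL : 1 ≤ L) (β : Fin m → ℝ) {δ : ℝ} (hδ : 0 ≤ δ)
    (h : δ * (L : ℝ) ^ m ≤ ‖∑ y ∈ bz m L, ee (∑ l, (y l : ℝ) * β l)‖) (l : Fin m) :
    δ * (nz (β l) * L) ≤ 1 := by
  classical
  have e : ∑ y ∈ bz m L, ee (∑ l, (y l : ℝ) * β l) = ∏ l, ∑ h ∈ rg L, ee ((h : ℝ) * β l) := by
    rw [prod_univ_sum]
    exact sum_congr rfl fun y _ => ee_sum _ _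
  rw [e, norm_prod, ← mul_prod_erase univ _ (mem_univ l)] at h
  have h2 : ∏ i ∈ univ.erase l, ‖∑ h ∈ rg L, ee ((h : ℝ) * β i)‖ ≤ (L : ℝ) ^ (univ.erase l).card := by
    rw [← prod_const]
    exact prod_le_prod (fun _ _ => norm_nonneg _) fun i _ =>
      (nle _ _ fun _ => ne1 _).trans (by rw [card_rg])
  have h3 : (L : ℝ) ^ m = L * (L : ℝ) ^ (univ.erase l).card := by
    rw [← pow_succ', card_erase_add_one (mem_univ l), card_univ, Fintype.card_fin]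
  have hp : (0 : ℝ) < (L : ℝ) ^ (univ.erase l).card := by positivity
  have h4 : δ * L ≤ ‖∑ h ∈ rg L, ee ((h : ℝ) * β l)‖ := by
    refine le_of_mul_le_mul_right ?_ hp
    rw [mul_assoc, ← h3]
    exact h.trans (mul_le_mul_of_nonneg_left h2 (norm_nonneg _))
  have h5 := geom_bound (β l) 0 L
  have e2 : ∑ h ∈ rg L, ee ((h : ℝ) * β l) = ∑ n ∈ range L, ee (β l * n + 0) := by
    rw [sum_rg]
    exact sum_congr rfl fun n _ => by rw [Int.cast_natCast, add_zero, mul_comm]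
  rw [← e2] at h5
  have h6 := mul_le_mul_of_nonneg_left h4 (nz_nonneg (β l))
  have h7 := mul_nonneg (nz_nonneg (β l)) (norm_nonneg (∑ h ∈ rg L, ee ((h : ℝ) * β l)))
  linarith

theorem one_le {δ : ℝ} (h0 : 0 < δ) (h1 : δ ≤ 1 / 2) {C : ℕ} (hL : 1 ≤ δ ^ C * L) (k : ℕ)
    (hk : k ≤ C) : 1 ≤ δ ^ k * L :=
  hL.trans (mul_le_mul_of_nonneg_right (pw h0 h1 hk) (by positivity))

theorem bz_ne (hL : 1 ≤ L) : (bz m L).Nonempty := by
  rw [← card_pos, card_bz]; positivity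

/-- a bilinear form -/
def bl (τ : Fin m → Fin m → ℝ) (x y : Vz m) : ℝ := ∑ k, (x k : ℝ) * ∑ l, (y l : ℝ) * τ k l

theorem bl_comm (τ : Fin m → Fin m → ℝ) (x y : Vz m) :
    bl τ x y = ∑ l, (y l : ℝ) * ∑ k, (x k : ℝ) * τ k l := by
  simp only [bl, mul_sum]
  rw [sum_comm]
  exact sum_congr rfl fun _ _ => sum_congr rfl fun _ _ => by ring

theorem bl_add (τ : Fin m → Fin m → ℝ) (x y z : Vz m) : bl τ x (y + z) = bl τ x y + bl τ x z := by
  simp only [bl, Pi.add_apply, Int.cast_add, add_mul, sum_add_distrib, mul_add]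

theorem bl_sub (τ μ : Fin m → Fin m → ℝ) (x y : Vz m) :
    bl (fun k l => τ k l - μ k l) x y = bl τ x y - bl μ x y := by
  simp only [bl, mul_sub, sum_sub_distrib]

theorem bl_alt (τ : Fin m → Fin m → ℝ) (x y : Vz m) :
    bl (fun k l => τ k l - τ l k) x y = bl τ x y - bl τ y x := by
  rw [bl_sub, bl_comm τ y x]; rfl

/-- a bilinear phase that correlates with a product -/
theorem bil (τ : Fin m → Fin m → ℝ) (U V : Vz m → ℂ) {δ : ℝ} (h0 : 0 < δ) (h1 : δ ≤ 1 / 2)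
    (hL : 1 ≤ δ ^ 22 * L) (hU : ∀ x, ‖U x‖ ≤ 1) (hV : ∀ x, ‖V x‖ ≤ 1)
    (h : δ * ((L : ℝ) ^ m * (L : ℝ) ^ m) ≤
      ‖∑ y ∈ bz m L, V y * ∑ x ∈ bz m L, U x * ee (bl τ x y)‖) (k l : Fin m) :
    ∃ n : ℕ, 1 ≤ n ∧ δ ^ 22 * n ≤ 1 ∧ δ ^ 22 * (nz (n * τ k l) * ((L : ℝ) * L)) ≤ 1 := by
  have up := one_le h0 h1 hL
  have hL1 : (1 : ℝ) ≤ L := by simpa using up 0 (by omega)
  have hL2 : 1 ≤ L := by exact_mod_cast hL1
  have hP : (0 : ℝ) < (L : ℝ) ^ m := by positivity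
  have k1 := cs (bz m L) (bz m L) V (fun x y => U x * ee (bl τ x y)) hV
  rw [card_bz] at k1
  push_cast at k1
  obtain ⟨x', A, hA, hAc, hAg⟩ := pair (bz m L) (bz_ne hL2)
    (fun x x' => ‖∑ y ∈ bz m L, U x * ee (bl τ x y) * (starRingEnd ℂ) (U x' * ee (bl τ x' y))‖)
    (ρ := δ ^ 3) hP (by positivity)
    (fun x x' => (nle _ _ fun y => n2 (n2 (hU _) (ne1 _)) (nc (n2 (hU _) (ne1 _)))).trans (by
      rw [card_bz]; push_cast; exact le_rfl))
    (by
      have := csn (s := 1) (Z := (L : ℝ) ^ m) h0 h1 hP hP.le le_rfl (by simpa using h) k1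
      rw [card_bz]
      push_cast
      simpa using this)
  rw [card_bz] at hAc
  push_cast at hAc
  exact pig A hA (M := (L : ℝ)) (E := 1) 3 (fun k => τ k l) (-∑ k, (x' k : ℝ) * τ k l) h0 h1
    (by positivity) zero_le_one (up _ (by omega)) (up _ (by omega)) hAc
    (fun x hx => ⟨1, le_rfl, by simpa using pow_le_one₀ h0.le (by linarith), by
      have a := hAg x hx
      have e : ∑ y ∈ bz m L, U x * ee (bl τ x y) * (starRingEnd ℂ) (U x' * ee (bl τ x' y)) =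
          (U x * (starRingEnd ℂ) (U x')) * ∑ y ∈ bz m L, ee (∑ l, (y l : ℝ) *
            (∑ k, (x k : ℝ) * τ k l - ∑ k, (x' k : ℝ) * τ k l)) := by
        rw [mul_sum]
        refine sum_congr rfl fun y _ => ?_
        simp only [mul_sub, sum_sub_distrib]
        rw [ee_sub, ← bl_comm, ← bl_comm, map_mul]
        ring
      rw [e, norm_mul] at a
      have := dir hL2 _ (by positivity)
        (a.trans (mul_le_of_le_one_left (norm_nonneg _) (n2 (hU _) (nc (hU _))))) l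
      simpa only [Nat.cast_one, one_mul, sub_eq_add_neg] using this⟩) k

theorem cs0 {α β : Type} (X : Finset α) (Z : Finset β) (c : α → ℂ) (G : β → α → ℂ)
    (hc : ∀ p, ‖c p‖ ≤ 1) :
    ‖∑ p ∈ X, c p * ∑ z ∈ Z, G z p‖ ^ 2 ≤
      X.card * ‖∑ z' ∈ Z, ∑ z ∈ Z, ∑ p ∈ X, G z p * (starRingEnd ℂ) (G z' p)‖ := by
  have h1 : ‖∑ p ∈ X, c p * ∑ z ∈ Z, G z p‖ ≤ ∑ p ∈ X, ‖∑ z ∈ Z, G z p‖ :=
    (norm_sum_le _ _).trans (sum_le_sum fun p _ => by
      rw [norm_mul]; exact mul_le_of_le_one_left (norm_nonneg _) (hc p))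
  refine (pow_le_pow_left₀ (norm_nonneg _) h1 2).trans (sq_sum_le_card_mul_sum_sq.trans
    (mul_le_mul_of_nonneg_left ?_ (by positivity)))
  have h2 : ((∑ p ∈ X, ‖∑ z ∈ Z, G z p‖ ^ 2 : ℝ) : ℂ) =
      ∑ z' ∈ Z, ∑ z ∈ Z, ∑ p ∈ X, G z p * (starRingEnd ℂ) (G z' p) := by
    push_cast
    simp only [← Complex.mul_conj', map_sum, sum_mul, mul_sum]
    rw [sum_comm]
    refine sum_congr rfl fun z' _ => ?_
    rw [sum_comm]
  rw [← h2, Complex.norm_real]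
  exact le_abs_self _

theorem shift (Φ : Vz m → ℂ) (T : Finset (Vz m)) (x w : Vz m)
    (h0 : ∀ s, s - x ∉ bz m L → Φ s = 0) (hT : ∀ y ∈ bz m L, x + y - w ∈ T) :
    ∑ t ∈ T, Φ (w + t) = ∑ y ∈ bz m L, Φ (x + y) := by
  classical
  have : ∑ y ∈ bz m L, Φ (x + y) = ∑ t ∈ (bz m L).image (fun y => x + y - w), Φ (w + t) := by
    rw [sum_image (fun a _ b _ h => by simpa using h)]
    exact sum_congr rfl fun y _ => by rw [add_sub_cancel]
  rw [this]
  symm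
  refine sum_subset (fun t ht => ?_) fun t _ ht => h0 _ fun h => ht (mem_image.2 ⟨_, h, by abel⟩)
  obtain ⟨y, hy, rfl⟩ := mem_image.1 ht
  exact hT y hy

/-- the swap argument -/
theorem swp (τ : Fin m → Fin m → ℝ) (g A B : Vz m → ℂ) {ρ : ℝ} (h0 : 0 < ρ) (h1 : ρ ≤ 1 / 2)
    (hL : 1 ≤ ρ ^ 44 * L) (hg : ∀ x, ‖g x‖ ≤ 1) (hA : ∀ x, ‖A x‖ ≤ 1) (hB : ∀ x, ‖B x‖ ≤ 1)
    (h : ρ * 2 ^ m * ((L : ℝ) ^ m * (L : ℝ) ^ m) ≤
      ‖∑ x ∈ bz m L, ∑ y ∈ bz m L, g (x + y) * ee (bl τ x y) * (A y * B x)‖) (k l : Fin m) :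
    ∃ n : ℕ, 1 ≤ n ∧ ρ ^ 44 * n ≤ 1 ∧
      ρ ^ 44 * (nz (n * (τ k l - τ l k)) * ((L : ℝ) * L)) ≤ 1 := by
  classical
  have hL1 : (1 : ℝ) ≤ L := by simpa using one_le h0 h1 hL 0 (by omega)
  have hL2 : 1 ≤ L := by exact_mod_cast hL1
  obtain ⟨A', hA'⟩ : ∃ A' : Vz m → ℂ, ∀ y, A' y = if y ∈ bz m L then A y else 0 :=
    ⟨_, fun _ => rfl⟩
  have a0 : ∀ y, y ∉ bz m L → A' y = 0 := fun y hy => by rw [hA', if_neg hy]
  have a1 : ∀ y, ‖A' y‖ ≤ 1 := fun y => by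
    rw [hA']; split_ifs
    · exact hA y
    · simp
  have mz : ∀ {N : ℕ} {x : Vz m}, x ∈ bz m N ↔ ∀ i, 0 ≤ x i ∧ x i < N := Vsm.mem_bz
  have e1 : ∑ x ∈ bz m L, ∑ y ∈ bz m L, g (x + y) * ee (bl τ x y) * (A y * B x) =
      ∑ s ∈ bz m (2 * L), g s * ∑ x ∈ bz m L, ee (bl τ x (s - x)) * (A' (s - x) * B x) := by
    simp only [mul_sum]
    rw [sum_comm (s := bz m (2 * L))]
    refine sum_congr rfl fun x hx => ?_
    have := shift (L := L) (fun s => g s * (ee (bl τ x (s - x)) * (A' (s - x) * B x)))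
      (bz m (2 * L)) x 0 (fun s hs => by simp [a0 _ hs]) (fun y hy => mz.2 fun i => by
        have := mz.1 hx i
        have := mz.1 hy i
        simp only [sub_zero, Pi.add_apply]
        push_cast
        omega)
    simp only [zero_add, add_sub_cancel_left] at this
    rw [this]
    refine sum_congr rfl fun y hy => ?_
    rw [hA', if_pos hy, mul_assoc]
  have k1 := cs0 (bz m (2 * L)) (bz m L) g
    (fun x s => ee (bl τ x (s - x)) * (A' (s - x) * B x)) hg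
  rw [← e1, card_bz] at k1
  obtain ⟨T, hT⟩ : ∃ T : Finset (Vz m), T = Fintype.piFinset fun _ => Ico (-(L : ℤ)) L := ⟨_, rfl⟩
  have cT : T.card = (2 * L) ^ m := by
    rw [hT, Fintype.card_piFinset]
    simp only [Int.card_Ico, prod_const, card_univ, Fintype.card_fin]
    congr 1
    omega
  have e2 : ∑ x' ∈ bz m L, ∑ x ∈ bz m L, ∑ s ∈ bz m (2 * L),
      ee (bl τ x (s - x)) * (A' (s - x) * B x) *
        (starRingEnd ℂ) (ee (bl τ x' (s - x')) * (A' (s - x') * B x')) =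
      ∑ z ∈ T, ∑ x' ∈ bz m L, (A' (x' + z) * (starRingEnd ℂ) (B x' * ee (bl τ x' z))) *
        ∑ x ∈ bz m L, (B x * ee (bl τ x z) * (starRingEnd ℂ) (A' (x + z))) *
          ee (bl (fun k l => τ k l - τ l k) x x') := by
    rw [sum_comm (s := T)]
    refine sum_congr rfl fun x' hx' => ?_
    simp only [mul_sum]
    rw [sum_comm (s := T)]
    refine sum_congr rfl fun x hx => ?_
    have s1 := shift (L := L) (fun s => ee (bl τ x (s - x)) * (A' (s - x) * B x) *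
        (starRingEnd ℂ) (ee (bl τ x' (s - x')) * (A' (s - x') * B x')))
      (bz m (2 * L)) x 0 (fun s hs => by simp [a0 _ hs]) (fun y hy => mz.2 fun i => by
        have := mz.1 hx i
        have := mz.1 hy i
        simp only [sub_zero, Pi.add_apply]
        push_cast
        omega)
    have s2 := shift (L := L) (fun s => ee (bl τ x (s - x)) * (A' (s - x) * B x) *
        (starRingEnd ℂ) (ee (bl τ x' (s - x')) * (A' (s - x') * B x')))
      T x (x + x') (fun s hs => by simp [a0 _ hs]) (fun y hy => by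
        rw [hT, Fintype.mem_piFinset]
        intro i
        have := mz.1 hx' i
        have := mz.1 hy i
        simp only [Pi.sub_apply, Pi.add_apply, mem_Ico]
        omega)
    simp only [zero_add] at s1
    rw [s1, ← s2]
    refine sum_congr rfl fun z _ => ?_
    have b1 : x + x' + z - x = x' + z := by abel
    have b2 : x + x' + z - x' = x + z := by abel
    rw [b1, b2, bl_add, bl_add, bl_alt, ee_sub, ee_add, ee_add]
    simp only [map_mul]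
    ring
  rw [e2] at k1
  have Tne : T.Nonempty := by rw [← card_pos, cT]; positivity
  obtain ⟨z, _, hz⟩ := exists_le_of_sum_le (f := fun _ : Vz m => ρ ^ 2 * ((L : ℝ) ^ m * (L : ℝ) ^ m))
    (g := fun z => ‖∑ x' ∈ bz m L, (A' (x' + z) * (starRingEnd ℂ) (B x' * ee (bl τ x' z))) *
        ∑ x ∈ bz m L, (B x * ee (bl τ x z) * (starRingEnd ℂ) (A' (x + z))) *
          ee (bl (fun k l => τ k l - τ l k) x x')‖) Tne (by
      refine le_trans ?_ (norm_sum_le _ _)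
      have hp : (0 : ℝ) < (((2 * L) ^ m : ℕ) : ℝ) := by positivity
      refine le_of_mul_le_mul_left (le_trans (le_of_eq ?_)
        ((pow_le_pow_left₀ (by positivity) h 2).trans k1)) hp
      rw [sum_const, cT, nsmul_eq_mul]
      push_cast
      rw [mul_pow]
      ring)
  have := bil (fun k l => τ k l - τ l k) _ _ (δ := ρ ^ 2) (by positivity)
    ((pw h0 h1 (show 1 ≤ 2 by omega)).trans (by simpa using h1)) (by rw [← pow_mul]; exact hL)
    (fun x => n2 (n2 (hB _) (ne1 _)) (nc (a1 _))) (fun x => n2 (a1 _) (nc (n2 (hB _) (ne1 _))))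
    hz k l
  rw [← pow_mul] at this
  exact this

/-- one term of the correlation -/
def tm (g : Vz m → ℂ) (τ : Fin m → Fin m → (Fin r → Fin m) → ℝ) (A B : Vz m → Pt r m → ℂ)
    (c : Fin r → Vz m × Vz m → Pt r m → ℂ) (t : Pt r m) (q : Vz m × Vz m) : ℂ :=
  g (q.1 + q.2 + ∑ i, t i) * ee (bl (fun k l => ml (τ k l) t) q.1 q.2) *
    (A q.2 t * B q.1 t * ∏ i, c i q t)

theorem tm_le {g : Vz m → ℂ} (τ : Fin m → Fin m → (Fin r → Fin m) → ℝ) {A B : Vz m → Pt r m → ℂ}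
    {c : Fin r → Vz m × Vz m → Pt r m → ℂ} (hg : ∀ s, ‖g s‖ ≤ 1) (hA : ∀ y t, ‖A y t‖ ≤ 1)
    (hB : ∀ y t, ‖B y t‖ ≤ 1) (hc : ∀ i q t, ‖c i q t‖ ≤ 1) (t : Pt r m) (q : Vz m × Vz m) :
    ‖tm g τ A B c t q‖ ≤ 1 :=
  n2 (n2 (hg _) (ne1 _)) (n2 (n2 (hA _ _) (hB _ _)) (by
    rw [norm_prod]; exact prod_le_one (fun _ _ => norm_nonneg _) fun i _ => hc _ _ _))

theorem tm_mul (g g' : Vz m → ℂ) (τ τ' : Fin m → Fin m → (Fin r → Fin m) → ℝ)
    (A A' B B' : Vz m → Pt r m → ℂ) (c c' : Fin r → Vz m × Vz m → Pt r m → ℂ) (t : Pt r m)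
    (q : Vz m × Vz m) :
    tm g τ A B c t q * (starRingEnd ℂ) (tm g' τ' A' B' c' t q) =
      tm (fun s => g s * (starRingEnd ℂ) (g' s)) (fun k l a => τ k l a - τ' k l a)
        (fun y t => A y t * (starRingEnd ℂ) (A' y t)) (fun y t => B y t * (starRingEnd ℂ) (B' y t))
        (fun i q t => c i q t * (starRingEnd ℂ) (c' i q t)) t q := by
  simp only [tm, ml_sub]
  rw [bl_sub, ee_sub, prod_mul_distrib]
  simp only [map_mul, map_prod]
  ring

theorem tm_cons (g : Vz m → ℂ) (τ : Fin m → Fin m → (Fin (r + 1) → Fin m) → ℝ)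
    (A B : Vz m → Pt (r + 1) m → ℂ) (c : Fin (r + 1) → Vz m × Vz m → Pt (r + 1) m → ℂ)
    (hc : ∀ i q t z, c i q (Function.update t i z) = c i q t) (z : Vz m) (t : Pt r m)
    (q : Vz m × Vz m) :
    tm g τ A B c (Fin.cons z t) q = c 0 q (Fin.cons 0 t) *
      tm (fun s => g (s + z)) (fun k l a => ∑ j, (z j : ℝ) * τ k l (Fin.cons j a))
        (fun y t => A y (Fin.cons z t)) (fun y t => B y (Fin.cons z t))
        (fun i q t => c i.succ q (Fin.cons z t)) t q := by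
  have c0 : c 0 q (Fin.cons z t) = c 0 q (Fin.cons 0 t) := by
    rw [← hc 0 q (Fin.cons z t) 0, Fin.update_cons_zero]
  have e : q.1 + q.2 + ∑ i, (Fin.cons z t : Pt (r + 1) m) i = q.1 + q.2 + ∑ i, t i + z := by
    rw [Fin.sum_univ_succ]
    simp only [Fin.cons_zero, Fin.cons_succ]
    abel
  simp only [tm, ml_cons]
  rw [e, Fin.prod_univ_succ, c0]
  ring

theorem bs (r : ℕ) : ∃ C : ℕ, ∀ (m L : ℕ) (τ : Fin m → Fin m → (Fin r → Fin m) → ℝ)
    (g : Vz m → ℂ) (A B : Vz m → Pt r m → ℂ) (c : Fin r → Vz m × Vz m → Pt r m → ℂ) (ρ : ℝ),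
    0 < ρ → ρ ≤ 1 / 2 → 1 ≤ ρ ^ C * L → (∀ s, ‖g s‖ ≤ 1) → (∀ y t, ‖A y t‖ ≤ 1) →
    (∀ y t, ‖B y t‖ ≤ 1) → (∀ i q t, ‖c i q t‖ ≤ 1) →
    (∀ i q t z, c i q (Function.update t i z) = c i q t) →
    ρ * 2 ^ m * (((L : ℝ) ^ m) ^ r * ((L : ℝ) ^ m * (L : ℝ) ^ m)) ≤
      ‖∑ p ∈ bp r m L ×ˢ (bz m L ×ˢ bz m L), tm g τ A B c p.1 p.2‖ →
    ∀ k l a, ∃ n : ℕ, 1 ≤ n ∧ ρ ^ C * n ≤ 1 ∧
      ρ ^ C * (nz (n * (τ k l a - τ l k a)) * (L : ℝ) ^ (r + 2)) ≤ 1 := by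
  classical
  induction r with
  | zero =>
    refine ⟨44, fun m L τ g A B c ρ h0 h1 hL hg hA hB _ _ h k l a => ?_⟩
    have e : ∑ p ∈ bp 0 m L ×ˢ (bz m L ×ˢ bz m L), tm g τ A B c p.1 p.2 =
        ∑ x ∈ bz m L, ∑ y ∈ bz m L, g (x + y) * ee (bl (fun k l => τ k l a) x y) *
          (A y default * B x default) := by
      have : bp 0 m L = {default} := by
        ext t
        simp [mem_bp, Subsingleton.elim t default]
      rw [sum_product, this, sum_singleton, sum_product]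
      refine sum_congr rfl fun x _ => sum_congr rfl fun y _ => ?_
      simp [tm, Vsm.ml, Subsingleton.elim a default]
    rw [e, pow_zero, one_mul] at h
    have := swp _ g _ _ h0 h1 hL hg (fun _ => hA _ _) (fun _ => hB _ _) h k l
    rw [zero_add, sq]
    exact this
  | succ r ih =>
    obtain ⟨C, ih⟩ := ih
    refine ⟨9 * C + 13, fun m L τ g A B c ρ h0 h1 hL hg hA hB hc hi h k l a => ?_⟩
    have up := one_le h0 h1 hL
    have hL1 : (1 : ℝ) ≤ L := by simpa using up 0 (by omega)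
    have hL2 : 1 ≤ L := by exact_mod_cast hL1
    obtain ⟨G, hG⟩ : ∃ G : Vz m → Pt r m × Vz m × Vz m → ℂ, ∀ z p, G z p =
        tm (fun s => g (s + z)) (fun k l a => ∑ j, (z j : ℝ) * τ k l (Fin.cons j a))
        (fun y t => A y (Fin.cons z t)) (fun y t => B y (Fin.cons z t))
        (fun i q t => c i.succ q (Fin.cons z t)) p.1 p.2 := ⟨_, fun _ _ => rfl⟩
    have G1 : ∀ z p, ‖G z p‖ ≤ 1 := fun z p => by
      rw [hG]
      exact tm_le _ (fun _ => hg _) (fun _ _ => hA _ _) (fun _ _ => hB _ _)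
        (fun _ _ _ => hc _ _ _) _ _
    have e : ∑ p ∈ bp (r + 1) m L ×ˢ (bz m L ×ˢ bz m L), tm g τ A B c p.1 p.2 =
        ∑ p ∈ bp r m L ×ˢ (bz m L ×ˢ bz m L), c 0 p.2 (Fin.cons 0 p.1) * ∑ z ∈ bz m L, G z p := by
      rw [sum_product, sum_cons, sum_product]
      refine sum_congr rfl fun t _ => ?_
      rw [sum_comm]
      refine sum_congr rfl fun q _ => ?_
      rw [mul_sum]
      exact sum_congr rfl fun z _ => by rw [hG]; exact tm_cons g τ A B c hi z t q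
    have k1 := cs (bp r m L ×ˢ (bz m L ×ˢ bz m L)) (bz m L) (fun p => c 0 p.2 (Fin.cons 0 p.1)) G
      (fun _ => hc _ _ _)
    have cX : (((bp r m L ×ˢ (bz m L ×ˢ bz m L)).card : ℕ) : ℝ) =
        ((L : ℝ) ^ m) ^ r * ((L : ℝ) ^ m * (L : ℝ) ^ m) := by
      rw [card_product, card_product, card_bp, card_bz]; push_cast; rfl
    rw [← e, cX] at k1
    have hP : (0 : ℝ) < ((L : ℝ) ^ m) ^ r * ((L : ℝ) ^ m * (L : ℝ) ^ m) := by positivity
    have s1 : (1 : ℝ) ≤ 2 ^ m := one_le_pow₀ (by norm_num)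
    obtain ⟨z', S, hS, hSc, hSg⟩ := pair (bz m L) (bz_ne hL2)
      (fun z z' => ‖∑ p ∈ bp r m L ×ˢ (bz m L ×ˢ bz m L), G z p * (starRingEnd ℂ) (G z' p)‖)
      (ρ := ρ ^ 3 * 2 ^ m) hP (by positivity)
      (fun z z' => (nle _ _ fun p => n2 (G1 _ _) (nc (G1 _ _))).trans cX.le)
      (by
        have := csn (Z := (L : ℝ) ^ m) h0 h1 hP (by positivity) s1
          (le_trans (le_of_eq (by ring)) h) k1
        rw [card_bz]
        push_cast
        exact this)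
    rw [card_bz] at hSc
    push_cast at hSc
    have h3 : ρ ^ 3 ≤ 1 / 2 := (pw h0 h1 (show 1 ≤ 3 by omega)).trans (by simpa using h1)
    obtain ⟨n, g1, g2, g3⟩ := pig S hS (M := (L : ℝ) ^ (r + 2)) (E := 1) (3 * C)
      (fun j => τ k l (Fin.cons j (Fin.tail a)) - τ l k (Fin.cons j (Fin.tail a)))
      (-∑ j, (z' j : ℝ) * (τ k l (Fin.cons j (Fin.tail a)) - τ l k (Fin.cons j (Fin.tail a))))
      h0 h1 (by positivity) zero_le_one
      ((up (2 * (3 * C) + 7) (by omega)).trans (mul_le_mul_of_nonneg_left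
        (le_self_pow₀ hL1 (by omega)) (by positivity)))
      (up _ (by omega))
      (le_trans (mul_le_mul_of_nonneg_right (le_mul_of_one_le_right (by positivity) s1)
        (by positivity)) hSc)
      (fun z hz => by
        have a1 := hSg z hz
        simp only [hG, tm_mul] at a1
        have := ih m L _ _ _ _ _ (ρ ^ 3) (by positivity) h3
          (by rw [← pow_mul]; exact up _ (by omega))
          (fun _ => n2 (hg _) (nc (hg _))) (fun _ _ => n2 (hA _ _) (nc (hA _ _)))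
          (fun _ _ => n2 (hB _ _) (nc (hB _ _))) (fun _ _ _ => n2 (hc _ _ _) (nc (hc _ _ _)))
          (fun i q t x => by simp only [Fin.cons_update, hi]) a1 k l (Fin.tail a)
        rw [← pow_mul] at this
        have e3 : ∑ j, (z j : ℝ) * (τ k l (Fin.cons j (Fin.tail a)) -
            τ l k (Fin.cons j (Fin.tail a))) + -∑ j, (z' j : ℝ) *
            (τ k l (Fin.cons j (Fin.tail a)) - τ l k (Fin.cons j (Fin.tail a))) =
            ∑ j, (z j : ℝ) * τ k l (Fin.cons j (Fin.tail a)) -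
              ∑ j, (z' j : ℝ) * τ k l (Fin.cons j (Fin.tail a)) -
            (∑ j, (z j : ℝ) * τ l k (Fin.cons j (Fin.tail a)) -
              ∑ j, (z' j : ℝ) * τ l k (Fin.cons j (Fin.tail a))) := by
          simp only [mul_sub, sum_sub_distrib]
          ring
        rw [e3]
        exact this) (a 0)
    rw [Fin.cons_self_tail] at g3
    have e9 : 3 * (3 * C) + 13 = 9 * C + 13 := by ring
    rw [e9] at g2 g3
    exact ⟨n, g1, g2, by rw [show r + 1 + 2 = r + 2 + 1 from rfl, pow_succ (L : ℝ) (r + 2)]; exact g3⟩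

theorem ml_two (τ : (Fin (r + 2) → Fin m) → ℝ) (x y : Vz m) (t : Pt r m) :
    ml τ (Fin.cons x (Fin.cons y t)) =
      bl (fun k l => ml (fun a => τ (Fin.cons k (Fin.cons l a))) t) x y := by
  rw [ml_cons, ml_cons]
  simp only [Vsm.ml, bl, mul_sum, sum_mul]
  rw [sum_comm (s := univ) (t := (univ : Finset (Fin m)))]
  rw [sum_comm]
  rw [sum_comm (s := (univ : Finset (Fin m))) (t := (univ : Finset (Fin m)))]
  conv_lhs => rw [sum_comm]
  refine sum_congr rfl fun l _ => ?_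
  rw [sum_comm]
  exact sum_congr rfl fun k _ => sum_congr rfl fun a _ => by ring

theorem swap01 {α : Type} (a : Fin (r + 2) → α) :
    a ∘ Equiv.swap 0 1 = Fin.cons (a 1) (Fin.cons (a 0) (Fin.tail (Fin.tail a))) := by
  funext i
  refine Fin.cases ?_ (fun i => Fin.cases ?_ (fun i => ?_) i) i
  · simp
  · simp
  · have h0 : (i.succ.succ : Fin (r + 2)) ≠ 0 := Fin.succ_ne_zero _
    have h1 : (i.succ.succ : Fin (r + 2)) ≠ 1 := fun h =>
      Fin.succ_ne_zero i (Fin.succ_injective _ h)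
    simp only [Function.comp, Equiv.swap_apply_of_ne_of_ne h0 h1, Fin.cons_succ]
    rfl

/-- the symmetry in the first two classes -/
theorem bsym0 (r : ℕ) : ∃ C : ℕ, ∀ (m L : ℕ) (τ : (Fin (r + 2) → Fin m) → ℝ) (g : Vz m → ℂ)
    (u : Fin (r + 2) → Pt (r + 2) m → ℂ) (ρ : ℝ), 0 < ρ → ρ ≤ 1 / 2 → 1 ≤ ρ ^ C * L →
    (∀ s, ‖g s‖ ≤ 1) → (∀ i t, ‖u i t‖ ≤ 1) → (∀ i t z, u i (Function.update t i z) = u i t) →
    ρ * 2 ^ m * ((L : ℝ) ^ m) ^ (r + 2) ≤
      ‖∑ t ∈ bp (r + 2) m L, g (∑ i, t i) * ee (ml τ t) * ∏ i, u i t‖ →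
    ∀ a, ∃ n : ℕ, 1 ≤ n ∧ ρ ^ C * n ≤ 1 ∧
      ρ ^ C * (nz (n * (τ a - τ (a ∘ Equiv.swap 0 1))) * (L : ℝ) ^ (r + 2)) ≤ 1 := by
  obtain ⟨C, hC⟩ := bs r
  refine ⟨C, fun m L τ g u ρ h0 h1 hL hg hu hi h a => ?_⟩
  have e : ∑ t ∈ bp (r + 2) m L, g (∑ i, t i) * ee (ml τ t) * ∏ i, u i t =
      ∑ p ∈ bp r m L ×ˢ (bz m L ×ˢ bz m L), tm g (fun k l a => τ (Fin.cons k (Fin.cons l a)))
        (fun y t => u 0 (Fin.cons 0 (Fin.cons y t))) (fun x t => u 1 (Fin.cons x (Fin.cons 0 t)))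
        (fun i q t => u i.succ.succ (Fin.cons q.1 (Fin.cons q.2 t))) p.1 p.2 := by
    rw [sum_cons, sum_cons, sum_product]
    refine sum_congr rfl fun t _ => ?_
    rw [sum_product, sum_comm]
    refine sum_congr rfl fun x _ => sum_congr rfl fun y _ => ?_
    have c0 : u 0 (Fin.cons x (Fin.cons y t)) = u 0 (Fin.cons 0 (Fin.cons y t)) := by
      rw [← hi 0 (Fin.cons x (Fin.cons y t)) 0, Fin.update_cons_zero]
    have c1 : u 1 (Fin.cons x (Fin.cons y t)) = u 1 (Fin.cons x (Fin.cons 0 t)) := by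
      rw [← hi 1 (Fin.cons x (Fin.cons y t)) 0]
      congr 1
      rw [show (1 : Fin (r + 2)) = Fin.succ 0 from rfl, ← Fin.cons_update, Fin.update_cons_zero]
    have c2 : ∑ i, (Fin.cons x (Fin.cons y t) : Pt (r + 2) m) i = x + y + ∑ i, t i := by
      rw [Fin.sum_univ_succ, Fin.sum_univ_succ]
      simp only [Fin.cons_zero, Fin.cons_succ]
      abel
    rw [ml_two, c2, Fin.prod_univ_succ, Fin.prod_univ_succ, c0,
      show (Fin.succ 0 : Fin (r + 2)) = 1 from rfl, c1]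
    simp only [tm]
    ring
  rw [e] at h
  have := hC m L _ g _ _ _ ρ h0 h1 hL hg (fun _ _ => hu _ _) (fun _ _ => hu _ _)
    (fun _ _ _ => hu _ _) (fun i q t z => by simp only [Fin.cons_update, hi])
    (le_trans (le_of_eq (by ring)) h) (a 0) (a 1) (Fin.tail (Fin.tail a))
  have e1 : (Fin.cons (a 0) (Fin.cons (a 1) (Fin.tail (Fin.tail a))) : Fin (r + 2) → Fin m) = a := by
    funext i
    exact Fin.cases rfl (fun i => Fin.cases rfl (fun _ => rfl) i) i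
  rw [swap01]
  simpa only [e1] using this

theorem ex_perm {i j : Fin (r + 2)} (h : i ≠ j) :
    ∃ σ : Equiv.Perm (Fin (r + 2)), σ 0 = i ∧ σ 1 = j := by
  have h01 : (0 : Fin (r + 2)) ≠ 1 := (Fin.succ_ne_zero (0 : Fin (r + 1))).symm
  refine ⟨(Equiv.swap 1 (Equiv.swap 0 i j)).trans (Equiv.swap 0 i), ?_, ?_⟩
  · have : (0 : Fin (r + 2)) ≠ Equiv.swap 0 i j := fun e => h (by
      have := congrArg (Equiv.swap 0 i) e
      rwa [Equiv.swap_apply_left, Equiv.swap_apply_self] at this)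
    rw [Equiv.trans_apply, Equiv.swap_apply_of_ne_of_ne h01 this, Equiv.swap_apply_left]
  · rw [Equiv.trans_apply, Equiv.swap_apply_left, Equiv.swap_apply_self]

/-- **the symmetry in two classes** -/
theorem bsym (d : ℕ) : ∃ C : ℕ, ∀ (m L : ℕ) (τ : (Fin d → Fin m) → ℝ) (g : Vz m → ℂ)
    (u : Fin d → Pt d m → ℂ) (ρ : ℝ), 0 < ρ → ρ ≤ 1 / 2 → 1 ≤ ρ ^ C * L →
    (∀ s, ‖g s‖ ≤ 1) → (∀ i t, ‖u i t‖ ≤ 1) → (∀ i t z, u i (Function.update t i z) = u i t) →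
    ρ * 2 ^ m * ((L : ℝ) ^ m) ^ d ≤
      ‖∑ t ∈ bp d m L, g (∑ i, t i) * ee (ml τ t) * ∏ i, u i t‖ →
    ∀ (i j : Fin d) (a : Fin d → Fin m), ∃ n : ℕ, 1 ≤ n ∧ ρ ^ C * n ≤ 1 ∧
      ρ ^ C * (nz (n * (τ a - τ (a ∘ Equiv.swap i j))) * (L : ℝ) ^ d) ≤ 1 := by
  have triv : ∀ (d C m L : ℕ) (τ : (Fin d → Fin m) → ℝ) (ρ : ℝ), 0 < ρ → ρ ≤ 1 / 2 →
      ∀ (i : Fin d) (a : Fin d → Fin m), ∃ n : ℕ, 1 ≤ n ∧ ρ ^ C * n ≤ 1 ∧
      ρ ^ C * (nz (n * (τ a - τ (a ∘ Equiv.swap i i))) * (L : ℝ) ^ d) ≤ 1 :=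
    fun d C m L τ ρ h0 h1 i a => ⟨1, le_rfl, by simpa using pow_le_one₀ h0.le (by linarith), by
      simp [nz]⟩
  match d with
  | 0 => exact ⟨0, fun _ _ _ _ _ _ _ _ _ _ _ _ _ i => i.elim0⟩
  | 1 =>
    refine ⟨0, fun m L τ _ _ ρ h0 h1 _ _ _ _ _ i j a => ?_⟩
    rw [Subsingleton.elim j i]
    exact triv 1 0 m L τ ρ h0 h1 i a
  | r + 2 =>
    obtain ⟨C, hC⟩ := bsym0 r
    refine ⟨C, fun m L τ g u ρ h0 h1 hL hg hu hi h i j a => ?_⟩
    by_cases hij : i = j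
    · subst hij; exact triv _ C m L τ ρ h0 h1 i a
    obtain ⟨σ, s0, s1⟩ := ex_perm hij
    have e : ∑ t ∈ bp (r + 2) m L, g (∑ i, t i) * ee (ml τ t) * ∏ i, u i t =
        ∑ t ∈ bp (r + 2) m L, g (∑ i, t i) * ee (ml (fun a => τ (a ∘ σ.symm)) t) *
          ∏ i, u (σ i) (t ∘ σ.symm) := by
      refine sum_nbij' (fun t => t ∘ σ) (fun t => t ∘ σ.symm)
        (fun t ht => mem_bp.2 fun i => mem_bp.1 ht _) (fun t ht => mem_bp.2 fun i => mem_bp.1 ht _)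
        (fun t _ => by funext i; simp) (fun t _ => by funext i; simp) fun t _ => ?_
      have b1 : ∑ i, (t ∘ σ) i = ∑ i, t i := Equiv.sum_comp σ t
      have b2 : (t ∘ σ) ∘ σ.symm = t := by funext i; simp
      have b3 : ml (fun a => τ (a ∘ σ.symm)) (t ∘ σ) = ml τ t := by
        unfold Vsm.ml
        refine sum_nbij' (fun a => a ∘ σ.symm) (fun a => a ∘ σ) (by simp) (by simp)
          (fun a _ => by funext i; simp) (fun a _ => by funext i; simp) fun a _ => ?_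
        congr 1
        rw [← Equiv.prod_comp σ fun x => ((t x ((a ∘ σ.symm) x) : ℤ) : ℝ)]
        simp
      rw [b1, b2, b3, Equiv.prod_comp σ fun i => u i t]
    rw [e] at h
    have := hC m L _ g (fun i t => u (σ i) (t ∘ σ.symm)) ρ h0 h1 hL hg (fun _ _ => hu _ _)
      (fun i t z => by
        show u (σ i) (Function.update t i z ∘ σ.symm) = u (σ i) (t ∘ σ.symm)
        rw [Function.update_comp_equiv, Equiv.symm_symm, hi]) h (a ∘ σ)
    have b2 : (a ∘ σ) ∘ σ.symm = a := by funext i; simp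
    have b3 : ((a ∘ σ) ∘ Equiv.swap 0 1) ∘ σ.symm = a ∘ Equiv.swap i j := by
      funext x
      simp only [Function.comp]
      congr 1
      rw [← s0, ← s1, ← σ.injective.swap_apply, Equiv.apply_symm_apply]
    simpa only [b2, b3] using this

/-- all coefficients and all transpositions with one denominator -/
theorem bsymA (d : ℕ) : ∃ C : ℕ, ∀ (m L : ℕ) (τ : (Fin d → Fin m) → ℝ) (g : Vz m → ℂ)
    (u : Fin d → Pt d m → ℂ) (ρ : ℝ), 0 < ρ → ρ ≤ 1 / 2 → 1 ≤ ρ ^ C * L →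
    (∀ s, ‖g s‖ ≤ 1) → (∀ i t, ‖u i t‖ ≤ 1) → (∀ i t z, u i (Function.update t i z) = u i t) →
    ρ * 2 ^ m * ((L : ℝ) ^ m) ^ d ≤
      ‖∑ t ∈ bp d m L, g (∑ i, t i) * ee (ml τ t) * ∏ i, u i t‖ →
    ∃ n : ℕ, 1 ≤ n ∧ (ρ ^ C) ^ (d * (d * m ^ d)) * n ≤ 1 ∧ ∀ (i j : Fin d) (a : Fin d → Fin m),
      (ρ ^ C) ^ (d * (d * m ^ d)) *
        (nz (n * (τ a - τ (a ∘ Equiv.swap i j))) * (L : ℝ) ^ d) ≤ 1 := by
  obtain ⟨C, hC⟩ := bsym d
  refine ⟨C, fun m L τ g u ρ h0 h1 hL hg hu hi h => ?_⟩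
  obtain ⟨n, g1, g2, g3⟩ := common (ι := Fin d × Fin d × (Fin d → Fin m))
    (fun p => τ p.2.2 - τ (p.2.2 ∘ Equiv.swap p.1 p.2.1)) (η := ρ ^ C) (M := (L : ℝ) ^ d) (E := 1)
    (by positivity) (pow_le_one₀ h0.le (by linarith)) (by positivity) zero_le_one
    fun p => hC m L τ g u ρ h0 h1 hL hg hu hi h p.1 p.2.1 p.2.2
  simp only [Fintype.card_prod, Fintype.card_fin, Fintype.card_fun] at g2 g3
  exact ⟨n, g1, g2, fun i j a => g3 (i, j, a)⟩

end

end Vale.Agent.P057T.Sy
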