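import Vale.Agent.P057T.Vsm

/-! Tools for the symmetry step: rich lines, pigeonhole, Cauchy-Schwarz in one class. -/

set_option linter.all false

open Finset
open scoped BigOperators

namespace Vale.Agent.P057T.Sy

open Vale.Agent.P057L Vale.Agent.P057L.WA
open Vale.Agent.P057T.Vsm (ml)

noncomputable section

variable {d m L : ℕ}

theorem ml_cons (ν : (Fin (d + 1) → Fin m) → ℝ) (y : Vz m) (x : Pt d m) :
    ml ν (Fin.cons y x) = ml (fun a => ∑ l, (y l : ℝ) * ν (Fin.cons l a)) x := by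
  unfold ml
  rw [← (Fin.consEquiv fun _ : Fin (d + 1) => Fin m).sum_comp, Fintype.sum_prod_type, sum_comm]
  refine sum_congr rfl fun a _ => ?_
  rw [sum_mul]
  refine sum_congr rfl fun l _ => ?_
  rw [Fin.prod_univ_succ]
  show ν (Fin.cons l a) * ((y l : ℝ) * ∏ i, (x i (a i) : ℝ)) = _
  ring

theorem ml_sub (ν μ : (Fin d → Fin m) → ℝ) (x : Pt d m) :
    ml (fun a => ν a - μ a) x = ml ν x - ml μ x := by
  simp only [ml, sub_mul, sum_sub_distrib]

theorem mem_rg {h : ℤ} : h ∈ rg L ↔ 0 ≤ h ∧ h < L := by simp [rg]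

theorem mem_bz {x : Vz m} : x ∈ bz m L ↔ ∀ i, x i ∈ rg L := by
  simp [bz, Fintype.mem_piFinset]

theorem mem_bp {x : Pt d m} : x ∈ bp d m L ↔ ∀ i, x i ∈ bz m L := by
  simp [bp, Fintype.mem_piFinset]

theorem card_rg : (rg L).card = L := by simp [rg]

theorem card_bz : (bz m L).card = L ^ m := by
  simp [bz, Fintype.card_piFinset, card_rg]

theorem card_bp : (bp d m L).card = (L ^ m) ^ d := by
  simp [bp, Fintype.card_piFinset, card_bz]

theorem sum_cons {M : Type} [AddCommMonoid M] (f : Pt (d + 1) m → M) :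
    ∑ t ∈ bp (d + 1) m L, f t = ∑ x ∈ bp d m L, ∑ z ∈ bz m L, f (Fin.cons z x) := by
  rw [← sum_product']
  refine sum_nbij' (fun t => (Fin.tail t, t 0)) (fun p => Fin.cons p.2 p.1) ?_ ?_ ?_ ?_ ?_
  · intro t ht
    exact mem_product.2 ⟨mem_bp.2 fun i => mem_bp.1 ht _, mem_bp.1 ht _⟩
  · intro p hp
    obtain ⟨h1, h2⟩ := mem_product.1 hp
    exact mem_bp.2 fun i => Fin.cases h2 (fun i => mem_bp.1 h1 i) i
  · intro t _
    exact Fin.cons_self_tail t
  · intro p _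
    simp
  · intro t _
    simp

/-- a dense set has a rich line in every direction -/
theorem line (hL : 1 ≤ L) (A : Finset (Vz m)) (hA : A ⊆ bz m L) {δ : ℝ}
    (hc : δ * (L : ℝ) ^ m ≤ A.card) (l : Fin m) :
    ∃ x : Vz m, δ * L ≤ (((rg L).filter fun h => Function.update x l h ∈ A).card : ℝ) := by
  classical
  have up : ∀ p ∈ bz m L ×ˢ rg L, (Function.update p.1 l p.2, p.1 l) ∈ bz m L ×ˢ rg L := by
    intro p hp
    obtain ⟨h1, h2⟩ := mem_product.1 hp
    refine mem_product.2 ⟨mem_bz.2 fun i => ?_, mem_bz.1 h1 l⟩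
    by_cases h : i = l
    · subst h; simpa using h2
    · simpa [Function.update_of_ne h] using mem_bz.1 h1 i
  have key : ∑ p ∈ bz m L ×ˢ rg L, (if Function.update p.1 l p.2 ∈ A then (1 : ℝ) else 0) =
      ∑ p ∈ bz m L ×ˢ rg L, (if p.1 ∈ A then (1 : ℝ) else 0) := by
    refine sum_nbij' (fun p => (Function.update p.1 l p.2, p.1 l))
      (fun p => (Function.update p.1 l p.2, p.1 l)) up up ?_ ?_ ?_
    · intro p _; simp
    · intro p _; simp
    · intro p _; rfl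
  rw [sum_product, sum_product, sum_comm (s := bz m L) (t := rg L)
    (f := fun x _ => if x ∈ A then (1 : ℝ) else 0)] at key
  rw [sum_const, card_rg, nsmul_eq_mul, sum_ite_mem (bz m L) A, inter_eq_right.2 hA, sum_const,
    nsmul_eq_mul, mul_one] at key
  have ne : (bz m L).Nonempty := by
    rw [← card_pos, card_bz]; positivity
  obtain ⟨x, _, hx⟩ := exists_le_of_sum_le (f := fun _ : Vz m => δ * L)
    (g := fun x => (((rg L).filter fun h => Function.update x l h ∈ A).card : ℝ)) ne (by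
      simp only [← sum_boole]
      rw [key, sum_const, card_bz, nsmul_eq_mul]
      push_cast
      have : (0 : ℝ) ≤ L := by positivity
      nlinarith [mul_le_mul_of_nonneg_left hc this])
  exact ⟨x, hx⟩

/-- a linear form small on a dense set -/
theorem lin (A : Finset (Vz m)) (hA : A ⊆ bz m L) {δ σ : ℝ} (β : Fin m → ℝ) (c : ℝ)
    (hδ : 0 < δ) (hδ1 : δ ≤ 1) (hσ0 : 0 ≤ σ) (hσ : 16 * σ ≤ δ) (hL : 2 < δ * L)
    (hc : δ * (L : ℝ) ^ m ≤ A.card) (good : ∀ x ∈ A, nz (∑ l, (x l : ℝ) * β l + c) ≤ σ)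
    (l : Fin m) : ∃ q : ℕ, 1 ≤ q ∧ δ * q ≤ 2 ∧ nz (q * β l) * (δ ^ 2 * L) ≤ 96 * σ := by
  classical
  have hL1 : 1 ≤ L := by
    rcases Nat.eq_zero_or_pos L with h | h
    · subst h; norm_num at hL
    · exact h
  obtain ⟨x, hx⟩ := line hL1 A hA hc l
  generalize hH : ((rg L).filter fun h => Function.update x l h ∈ A) = Hs at hx
  have mem : ∀ h ∈ Hs, (0 ≤ h ∧ h < L) ∧ Function.update x l h ∈ A := fun h hh => by
    rw [← hH, mem_filter, mem_rg] at hh; exact hh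
  have ne : Hs.Nonempty := by
    rw [← card_pos]
    have : (0 : ℝ) < Hs.card := by linarith
    exact_mod_cast this
  obtain ⟨h0, hh0, hmin⟩ := exists_min_image Hs id ne
  have ev : ∀ h : ℤ, ∑ i, ((Function.update x l h i : ℤ) : ℝ) * β i =
      h * β l + ∑ i ∈ univ.erase l, (x i : ℝ) * β i := fun h => by
    rw [← add_sum_erase univ _ (mem_univ l), Function.update_self]
    congr 1
    exact sum_congr rfl fun i hi => by rw [Function.update_of_ne (ne_of_mem_erase hi)]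
  obtain ⟨q, h1, h2, h3⟩ := vino (β l) (2 * σ) δ L (Hs.image fun h => (h - h0).toNat)
    (fun a ha => by
      obtain ⟨h, hh, rfl⟩ := mem_image.1 ha
      have := (mem h hh).1
      have := (mem h0 hh0).1
      rw [mem_range]; omega)
    (by linarith)
    (fun a ha => by
      obtain ⟨h, hh, rfl⟩ := mem_image.1 ha
      have e0 : (((h - h0).toNat : ℤ) : ℝ) = ((h - h0 : ℤ) : ℝ) := by
        rw [Int.toNat_of_nonneg (sub_nonneg.2 (show h0 ≤ h from hmin h hh))]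
      have g1 := good _ (mem h hh).2
      have g2 := good _ (mem h0 hh0).2
      rw [ev] at g1 g2
      have e : (((h - h0).toNat : ℕ) : ℝ) * β l =
          (h * β l + ∑ i ∈ univ.erase l, (x i : ℝ) * β i + c) -
            (h0 * β l + ∑ i ∈ univ.erase l, (x i : ℝ) * β i + c) := by
        rw [Int.cast_natCast] at e0
        rw [e0]; push_cast; ring
      rw [e]
      exact (nz_sub_le _ _).trans (by linarith))
    hδ hδ1 (by
      rw [card_image_of_injOn]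
      · exact hx
      · intro a ha b hb hab
        have := hmin a ha
        have := hmin b hb
        simp only [id] at *
        omega)
    (by linarith) hL
  exact ⟨q, h1, h2, by linarith⟩

theorem pw {δ : ℝ} (h0 : 0 < δ) (h1 : δ ≤ 1 / 2) {a b : ℕ} (h : a ≤ b) : δ ^ b ≤ δ ^ a :=
  pow_le_pow_of_le_one h0.le (by linarith) h

theorem pw2 {δ : ℝ} (h0 : 0 < δ) (h1 : δ ≤ 1 / 2) (a k : ℕ) : δ ^ (a + k) * 2 ^ k ≤ δ ^ a := by
  rw [pow_add, mul_assoc, ← mul_pow]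
  exact mul_le_of_le_one_right (by positivity) (pow_le_one₀ (by positivity) (by linarith))

/-- one more class: pigeonhole the denominator, then the linear case -/
theorem pig (A : Finset (Vz m)) (hA : A ⊆ bz m L) {δ M E : ℝ} (K : ℕ) (β : Fin m → ℝ) (c : ℝ)
    (hδ : 0 < δ) (hδ1 : δ ≤ 1 / 2) (hM : 0 < M) (hE0 : 0 ≤ E) (hE : E ≤ δ ^ (2 * K + 7) * M)
    (hL : 1 ≤ δ ^ (K + 5) * L) (hc : δ ^ 3 * (L : ℝ) ^ m ≤ A.card)
    (good : ∀ x ∈ A, ∃ n : ℕ, 1 ≤ n ∧ δ ^ K * n ≤ 1 ∧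
      δ ^ K * (nz (n * (∑ l, (x l : ℝ) * β l + c)) * M) ≤ E) (l : Fin m) :
    ∃ n : ℕ, 1 ≤ n ∧ δ ^ (3 * K + 13) * n ≤ 1 ∧
      δ ^ (3 * K + 13) * (nz (n * β l) * (M * L)) ≤ E := by
  classical
  choose! nn hn1 hn2 hn3 using good
  have hK : 0 < δ ^ K := by positivity
  have hK1 : δ ^ K ≤ 1 := pow_le_one₀ hδ.le (by linarith)
  have hB : δ ^ K * (⌊1 / δ ^ K⌋₊ : ℝ) ≤ 1 := by
    have := Nat.floor_le (by positivity : (0 : ℝ) ≤ 1 / δ ^ K)
    rw [le_div_iff₀ hK] at this; linarith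
  have hB1 : 1 ≤ ⌊1 / δ ^ K⌋₊ := Nat.le_floor (by rw [le_div_iff₀ hK]; simpa using hK1)
  obtain ⟨n, hn, hf⟩ := exists_le_card_fiber_of_nsmul_le_card_of_maps_to (s := A)
    (t := Icc 1 ⌊1 / δ ^ K⌋₊) (f := nn) (b := δ ^ K * (A.card : ℝ))
    (fun x hx => mem_Icc.2 ⟨hn1 x hx, Nat.le_floor (by
      rw [le_div_iff₀ hK]; linarith [hn2 x hx])⟩)
    ⟨1, mem_Icc.2 ⟨le_rfl, hB1⟩⟩ (by
      rw [Nat.card_Icc, nsmul_eq_mul, Nat.add_sub_cancel, ← mul_assoc]
      exact mul_le_of_le_one_left (by positivity) (by linarith))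
  have hnB : δ ^ K * n ≤ 1 :=
    le_trans (mul_le_mul_of_nonneg_left (by exact_mod_cast (mem_Icc.1 hn).2) hK.le) hB
  have hKM : 0 < δ ^ K * M := by positivity
  have p4 := pw2 hδ hδ1 (2 * K + 3) 4
  have p2 := pw2 hδ hδ1 (K + 3) 2
  have hL0 : (0 : ℝ) ≤ L := by positivity
  obtain ⟨q, h1, h2, h3⟩ := lin (A.filter fun x => nn x = n) ((filter_subset _ _).trans hA)
    (δ := δ ^ (K + 3)) (σ := E / (δ ^ K * M)) (fun l => n * β l) (n * c) (by positivity)
    (pow_le_one₀ hδ.le (by linarith)) (by positivity)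
    (by
      rw [← mul_div_assoc, div_le_iff₀ hKM]
      have e : δ ^ (K + 3) * (δ ^ K * M) = δ ^ (2 * K + 3) * M := by ring
      rw [e]
      have := mul_le_mul_of_nonneg_right p4 hM.le
      norm_num at this
      have e2 : δ ^ (2 * K + 3 + 4) = δ ^ (2 * K + 7) := rfl
      rw [e2] at this
      linarith)
    (by
      have := mul_le_mul_of_nonneg_right p2 hL0
      have e2 : δ ^ (K + 3 + 2) = δ ^ (K + 5) := rfl
      rw [e2] at this
      linarith)
    (by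
      refine le_trans ?_ hf
      rw [pow_add, mul_assoc]
      exact mul_le_mul_of_nonneg_left hc hK.le)
    (fun x hx => by
      obtain ⟨hx1, hx2⟩ := mem_filter.1 hx
      have := hn3 x hx1
      rw [hx2] at this
      rw [le_div_iff₀ hKM]
      have e : ∑ l, (x l : ℝ) * (n * β l) + n * c = n * (∑ l, (x l : ℝ) * β l + c) := by
        rw [mul_add, mul_sum]
        congr 1
        exact sum_congr rfl fun _ _ => by ring
      rw [e]; linarith) l
  refine ⟨q * n, Nat.mul_pos h1 (mem_Icc.1 hn).1, ?_, ?_⟩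
  · have a1 := pw hδ hδ1 (show 2 * K + 3 + 1 ≤ 3 * K + 13 by omega)
    have a2 := pw2 hδ hδ1 (2 * K + 3) 1
    have a3 : δ ^ (2 * K + 3) * ((q : ℝ) * n) ≤ 2 := by
      have : δ ^ (2 * K + 3) * ((q : ℝ) * n) = (δ ^ (K + 3) * q) * (δ ^ K * n) := by ring
      rw [this]
      have := mul_le_mul h2 hnB (by positivity) (by norm_num)
      linarith
    have a4 : (0 : ℝ) ≤ (q : ℝ) * n := by positivity
    push_cast
    have a5 := mul_le_mul_of_nonneg_right a1 a4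
    have a6 := mul_le_mul_of_nonneg_right a2 a4
    linarith
  · rw [← mul_div_assoc, le_div_iff₀ hKM] at h3
    have e : (((q * n : ℕ) : ℝ)) * β l = q * (n * β l) := by push_cast; ring
    rw [e]
    have a4 : 0 ≤ nz (q * (n * β l)) * (M * L) := mul_nonneg (nz_nonneg _) (by positivity)
    have a2 := mul_le_mul_of_nonneg_right (pw2 hδ hδ1 (3 * K + 6) 7) a4
    have e2 : δ ^ (3 * K + 6 + 7) = δ ^ (3 * K + 13) := rfl
    rw [e2] at a2
    have e3 : nz (q * (n * β l)) * ((δ ^ (K + 3)) ^ 2 * L) * (δ ^ K * M) =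
        δ ^ (3 * K + 6) * (nz (q * (n * β l)) * (M * L)) := by ring
    rw [e3] at h3
    linarith

/-- Cauchy-Schwarz in one class -/
theorem cs {α β : Type} (X : Finset α) (Z : Finset β) (c : α → ℂ) (G : β → α → ℂ)
    (hc : ∀ p, ‖c p‖ ≤ 1) :
    ‖∑ p ∈ X, c p * ∑ z ∈ Z, G z p‖ ^ 2 ≤
      X.card * ∑ z' ∈ Z, ∑ z ∈ Z, ‖∑ p ∈ X, G z p * (starRingEnd ℂ) (G z' p)‖ := by
  have h1 : ‖∑ p ∈ X, c p * ∑ z ∈ Z, G z p‖ ≤ ∑ p ∈ X, ‖∑ z ∈ Z, G z p‖ :=
    (norm_sum_le _ _).trans (sum_le_sum fun p _ => by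
      rw [norm_mul]; exact mul_le_of_le_one_left (norm_nonneg _) (hc p))
  refine (pow_le_pow_left₀ (norm_nonneg _) h1 2).trans (sq_sum_le_card_mul_sum_sq.trans
    (mul_le_mul_of_nonneg_left ?_ (by positivity)))
  have h2 : ((∑ p ∈ X, ‖∑ z ∈ Z, G z p‖ ^ 2 : ℝ) : ℂ) =
      ∑ z' ∈ Z, ∑ z ∈ Z, ∑ p ∈ X, G z p * (starRingEnd ℂ) (G z' p) := by
    push_cast
    simp only [← Complex.mul_conj', map_sum, sum_mul, mul_sum]
    rw [sum_comm]
    refine sum_congr rfl fun z' _ => ?_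
    rw [sum_comm]
  calc _ ≤ ‖((∑ p ∈ X, ‖∑ z ∈ Z, G z p‖ ^ 2 : ℝ) : ℂ)‖ := by
        rw [Complex.norm_real]; exact le_abs_self _
    _ ≤ _ := by
        rw [h2]
        exact (norm_sum_le _ _).trans (sum_le_sum fun _ _ => norm_sum_le _ _)

/-- a popular base point -/
theorem pair {β : Type} (Z : Finset β) (hZ : Z.Nonempty) (D : β → β → ℝ) {ρ M : ℝ} (hM : 0 < M)
    (hρ : 0 ≤ ρ) (hD : ∀ z z', D z z' ≤ M)
    (h : 2 * ρ * M * (Z.card : ℝ) ^ 2 ≤ ∑ z' ∈ Z, ∑ z ∈ Z, D z z') :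
    ∃ z', ∃ A ⊆ Z, ρ * Z.card ≤ A.card ∧ ∀ z ∈ A, ρ * M ≤ D z z' := by
  classical
  obtain ⟨z', _, hz⟩ := exists_le_of_sum_le (f := fun _ : β => 2 * ρ * M * Z.card)
    (g := fun z' => ∑ z ∈ Z, D z z') hZ (by
      rw [sum_const, nsmul_eq_mul]; linarith)
  refine ⟨z', Z.filter fun z => ρ * M ≤ D z z', filter_subset _ _, ?_,
    fun z hz => (mem_filter.1 hz).2⟩
  have h2 : ∑ z ∈ Z, D z z' ≤ ∑ z ∈ Z, (ρ * M + M * if ρ * M ≤ D z z' then 1 else 0) :=
    sum_le_sum fun z _ => by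
      have := hD z z'
      have : 0 ≤ ρ * M := by positivity
      split_ifs with h
      · linarith
      · linarith [not_le.1 h]
  rw [sum_add_distrib, sum_const, nsmul_eq_mul, ← mul_sum, sum_boole] at h2
  have h3 := hz.trans h2
  exact le_of_mul_le_mul_left (by linarith) hM

/-- numerical part of the Cauchy-Schwarz step -/
theorem csn {δ P Z W T s : ℝ} (h0 : 0 < δ) (h1 : δ ≤ 1 / 2) (hP : 0 < P) (hZ : 0 ≤ Z) (hs : 1 ≤ s)
    (h : δ * s * (Z * P) ≤ W) (hc : W ^ 2 ≤ P * T) : 2 * (δ ^ 3 * s) * P * Z ^ 2 ≤ T := by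
  have a1 : (δ * s * (Z * P)) ^ 2 ≤ P * T :=
    (pow_le_pow_left₀ (by positivity) h 2).trans hc
  have a2 : 2 * δ ≤ s := by linarith
  have a3 := mul_le_mul_of_nonneg_right a2 (by positivity : 0 ≤ δ ^ 2 * s * (Z * P) ^ 2)
  exact le_of_mul_le_mul_left (by nlinarith) hP

/-- a common denominator for finitely many numbers -/
theorem common {ι : Type} [Fintype ι] (θ : ι → ℝ) {η M E : ℝ} (h0 : 0 < η) (h1 : η ≤ 1)
    (hM : 0 ≤ M) (hE : 0 ≤ E)
    (h : ∀ a, ∃ n : ℕ, 1 ≤ n ∧ η * n ≤ 1 ∧ η * (nz (n * θ a) * M) ≤ E) :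
    ∃ n : ℕ, 1 ≤ n ∧ η ^ Fintype.card ι * n ≤ 1 ∧
      ∀ a, η ^ Fintype.card ι * (nz (n * θ a) * M) ≤ E := by
  classical
  choose nn h1 h2 h3 using h
  have pr : ∀ s : Finset ι, η ^ s.card * ((∏ a ∈ s, nn a : ℕ) : ℝ) ≤ 1 := fun s => by
    push_cast
    rw [← prod_const, ← prod_mul_distrib]
    exact prod_le_one (fun _ _ => by positivity) fun a _ => h2 a
  refine ⟨∏ a, nn a, Nat.succ_le_of_lt (prod_pos fun a _ => h1 a), pr univ, fun a => ?_⟩
  have e : ((∏ a, nn a : ℕ) : ℝ) * θ a = ((∏ b ∈ univ.erase a, nn b : ℕ) : ℝ) * (nn a * θ a) := by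
    rw [← mul_prod_erase univ nn (mem_univ a)]; push_cast; ring
  have e2 : η ^ Fintype.card ι = η ^ (univ.erase a).card * η := by
    rw [← pow_succ, card_erase_add_one (mem_univ a), card_univ]
  rw [e, e2]
  have a1 := nz_nat_mul_le (∏ b ∈ univ.erase a, nn b) (nn a * θ a)
  have a2 := mul_le_mul (pr (univ.erase a)) (h3 a)
    (mul_nonneg h0.le (mul_nonneg (nz_nonneg _) hM)) zero_le_one
  have a3 := mul_le_mul_of_nonneg_right a1
    (by positivity : 0 ≤ η ^ (univ.erase a).card * η * M)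
  nlinarith

end

end Vale.Agent.P057T.Sy
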