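import Vale.Agent.P057T.CutH64

/-!
Labels on the edges of a weighted bipartite graph that agree along almost all 4-cycles depend,
on many edges, only on the first end point.
-/

namespace Vale.Agent.P057T.C4

open Vale.Agent.P057T.Cut

noncomputable section

variable {Y Y' S V : Type*}

open Classical in
/-- Indicator of a proposition. -/
def ind (p : Prop) : ℝ := if p then 1 else 0

theorem ind_pos {p : Prop} (h : p) : ind p = 1 := by
  unfold ind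
  rw [if_pos h]

theorem ind_neg {p : Prop} (h : ¬ p) : ind p = 0 := by
  unfold ind
  rw [if_neg h]

theorem ind_nn (p : Prop) : 0 ≤ ind p := by
  by_cases h : p
  · rw [ind_pos h]; exact zero_le_one
  · rw [ind_neg h]

theorem ind_le (p : Prop) : ind p ≤ 1 := by
  by_cases h : p
  · rw [ind_pos h]
  · rw [ind_neg h]; exact zero_le_one

theorem abs_ind (p : Prop) : |ind p| ≤ 1 := by
  rw [abs_of_nonneg (ind_nn p)]
  exact ind_le p

theorem ind_mono {p q : Prop} (h : p → q) : ind p ≤ ind q := by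
  by_cases hp : p
  · rw [ind_pos hp, ind_pos (h hp)]
  · rw [ind_neg hp]; exact ind_nn q

theorem ind_and (p q : Prop) : ind (p ∧ q) = ind p * ind q := by
  by_cases hp : p
  · by_cases hq : q
    · rw [ind_pos hp, ind_pos hq, ind_pos ⟨hp, hq⟩, mul_one]
    · rw [ind_neg hq, ind_neg fun h => hq h.2, mul_zero]
  · rw [ind_neg hp, ind_neg fun h => hp h.1, zero_mul]

theorem ind_split (p q : Prop) : ind p = ind (p ∧ q) + ind (p ∧ ¬ q) := by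
  by_cases hp : p
  · by_cases hq : q
    · rw [ind_pos hp, ind_pos ⟨hp, hq⟩, ind_neg fun h => h.2 hq, add_zero]
    · rw [ind_pos hp, ind_neg fun h => hq h.2, ind_pos ⟨hp, hq⟩, zero_add]
  · rw [ind_neg hp, ind_neg fun h => hp h.1, ind_neg fun h => hp h.1, add_zero]

theorem bd_ind (p : Y → Prop) : Bd fun y => ind (p y) := ⟨1, fun _ => abs_ind _⟩

/-- A probability weight. -/
structure Pr (g : Y → ℝ) : Prop where
  wt : Wt g
  one : ∑' y, g y = 1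

theorem Pr.pw {g : Y → ℝ} {g' : Y' → ℝ} (hg : Pr g) (hg' : Pr g') : Pr (pw g g') :=
  ⟨hg.wt.pw hg'.wt, by rw [mass_pw hg.wt hg'.wt, hg.one, hg'.one, mul_one]⟩

theorem Pr.abs_Ex_le {g h : Y → ℝ} (hg : Pr g) {B : ℝ} (hB : ∀ y, |h y| ≤ B) : |Ex g h| ≤ B := by
  have := Cut.abs_Ex_le hg.wt hB
  rwa [hg.one, one_mul] at this

theorem Pr.Ex_const {g : Y → ℝ} (hg : Pr g) (c : ℝ) : Ex g (fun _ => c) = c := by
  rw [Cut.Ex_const, hg.one, one_mul]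

/-- A point of positive weight where the function is at least its mean. -/
theorem Pr.pop {g h : Y → ℝ} (hg : Pr g) (hh : Bd h) : ∃ y, 0 < g y ∧ Ex g h ≤ h y := by
  by_contra hc
  have hc' : ∀ y, 0 < g y → h y < Ex g h := fun y hy => lt_of_not_ge fun hle => hc ⟨y, hy, hle⟩
  have h0 : ∃ y, 0 < g y := by
    by_contra h0
    have hz : g = fun _ => 0 :=
      funext fun y => le_antisymm (le_of_not_gt fun hy => h0 ⟨y, hy⟩) (hg.wt.nn y)
    have h1 := hg.one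
    rw [hz, tsum_zero] at h1
    exact zero_ne_one h1
  obtain ⟨y0, hy0⟩ := h0
  have hle : ∀ y, g y * h y ≤ g y * Ex g h := fun y => by
    rcases (hg.wt.nn y).eq_or_lt with hz | hp
    · rw [← hz, zero_mul, zero_mul]
    · exact mul_le_mul_of_nonneg_left (hc' y hp).le hp.le
  have hlt : ∑' y, g y * h y < ∑' y, g y * Ex g h :=
    (hg.wt.mul hh).tsum_lt_tsum hle (mul_lt_mul_of_pos_left (hc' y0 hy0) hy0)
      (hg.wt.sm.mul_right _)
  rw [tsum_mul_right, hg.one, one_mul] at hlt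
  exact lt_irrefl _ hlt

/-- Jensen for the fourth power. -/
theorem Pr.pow4 {g h : Y → ℝ} (hg : Pr g) (hh : Bd h) :
    Ex g h ^ 4 ≤ Ex g fun y => h y ^ 4 := by
  have h1 := Ex_cs hg.wt hh
  have h2 := Ex_cs hg.wt (hh.mul hh)
  rw [hg.one, one_mul] at h1 h2
  have e : (fun y => h y * h y * (h y * h y)) = fun y => h y ^ 4 := by
    funext y
    ring
  rw [e] at h2
  calc Ex g h ^ 4 = (Ex g h ^ 2) ^ 2 := by ring
    _ ≤ (Ex g fun y => h y * h y) ^ 2 := pow_le_pow_left₀ (sq_nonneg _) h1 2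
    _ ≤ _ := h2

/-- The four edges of a 4-cycle. -/
def Cyc (E : Y → Y' → Prop) (p : (Y × Y) × (Y' × Y')) : Prop :=
  (E p.1.1 p.2.1 ∧ E p.1.1 p.2.2) ∧ (E p.1.2 p.2.1 ∧ E p.1.2 p.2.2)

/-- The number of 4-cycles. -/
theorem cyc_ge {g : Y → ℝ} {g' : Y' → ℝ} (hg : Pr g) (hg' : Pr g') (E : Y → Y' → Prop) :
    Ex (pw g g') (fun p => ind (E p.1 p.2)) ^ 4 ≤
      Ex (pw (pw g g) (pw g' g')) fun p => ind (Cyc E p) := by
  have h := box4 hg.wt hg'.wt (F := fun _ => 1) (G := fun _ => 1) (fun _ => abs_one.le)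
    (fun _ => abs_one.le) (bd_ind fun p : Y × Y' => E p.1 p.2)
  rw [hg.one, hg'.one] at h
  have e : (fun p : (Y × Y) × (Y' × Y') =>
      ∏ ab : Bool × Bool, ind (E (sel p.1 ab.1) (sel p.2 ab.2))) = fun p => ind (Cyc E p) := by
    funext p
    simp only [Fintype.prod_prod_type, Fintype.prod_bool, sel, cond_true, cond_false, Cyc, ind_and]
    ring
  simp only [one_mul, one_pow] at h
  rwa [e] at h

/-- Cherries with equal labels give a popular label. -/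
theorem cherry {g : Y → ℝ} {g' : Y' → ℝ} (hg : Pr g) (hg' : Pr g') (E : Y → Y' → Prop)
    (l : Y → Y' → V) : ∃ q : Y → Y',
      Ex (pw g (pw g' g')) (fun p => ind ((E p.1 p.2.1 ∧ E p.1 p.2.2) ∧ l p.1 p.2.1 = l p.1 p.2.2)) ≤
        Ex (pw g g') fun p => ind (E p.1 (q p.1) ∧ E p.1 p.2 ∧ l p.1 p.2 = l p.1 (q p.1)) := by
  have key : ∀ y : Y, ∃ q : Y',
      Ex (pw g' g') (fun r => ind ((E y r.1 ∧ E y r.2) ∧ l y r.1 = l y r.2)) ≤
        Ex g' fun z => ind (E y q ∧ E y z ∧ l y z = l y q) := by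
    intro y
    have hb := bd_ind fun r : Y' × Y' => (E y r.1 ∧ E y r.2) ∧ l y r.1 = l y r.2
    obtain ⟨q, -, hq⟩ := hg'.pop (bd_Ex hg'.wt hb)
    refine ⟨q, ?_⟩
    rw [Ex_pw hg'.wt hg'.wt hb]
    refine hq.trans (Ex_mono hg'.wt (bd_ind _) (bd_ind _) fun z => ind_mono fun h => ?_)
    exact ⟨h.1.1, h.1.2, h.2.symm⟩
  choose q hq using key
  refine ⟨q, ?_⟩
  have hb1 := bd_ind fun p : Y × (Y' × Y') =>
    (E p.1 p.2.1 ∧ E p.1 p.2.2) ∧ l p.1 p.2.1 = l p.1 p.2.2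
  have hb2 := bd_ind fun p : Y × Y' => E p.1 (q p.1) ∧ E p.1 p.2 ∧ l p.1 p.2 = l p.1 (q p.1)
  rw [Ex_pw hg.wt (hg'.pw hg').wt hb1, Ex_pw hg.wt hg'.wt hb2]
  exact Ex_mono hg.wt (bd_Ex (hg'.pw hg').wt hb1) (bd_Ex hg'.wt hb2) hq

/-- Forgetting the second left vertex. -/
theorem forget {Z : Type*} {g : Y → ℝ} {k : Z → ℝ} (hg : Pr g) (hk : Pr k) {K : Y × Z → ℝ}
    (hK : Bd K) : Ex (pw (pw g g) k) (fun p => K (p.1.1, p.2)) = Ex (pw g k) K := by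
  rw [Ex_pw (hg.pw hg).wt hk.wt (hK.comp fun p : (Y × Y) × Z => (p.1.1, p.2)),
    Ex_pw hg.wt hk.wt hK]
  have h := Ex_mul_Ex hg.wt hg.wt (bd_Ex hk.wt hK) (Bd.const 1)
  rw [hg.Ex_const, mul_one] at h
  simpa only [mul_one] using h

/-- LEMMA 4C with the base point. -/
theorem c4q {g : Y → ℝ} {g' : Y' → ℝ} (hg : Pr g) (hg' : Pr g') (E : Y → Y' → Prop)
    (l : Y → Y' → V) : ∃ q : Y → Y',
      Ex (pw g g') (fun p => ind (E p.1 p.2)) ^ 4 -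
          Ex (pw (pw g g) (pw g' g')) (fun p => ind (Cyc E p ∧ l p.1.1 p.2.1 ≠ l p.1.1 p.2.2)) ≤
        Ex (pw g g') fun p => ind (E p.1 (q p.1) ∧ E p.1 p.2 ∧ l p.1 p.2 = l p.1 (q p.1)) := by
  obtain ⟨q, hq⟩ := cherry hg hg' E l
  refine ⟨q, ?_⟩
  have h1 := cyc_ge hg hg' E
  have hw := ((hg.pw hg).pw (hg'.pw hg')).wt
  have h2 : (Ex (pw (pw g g) (pw g' g')) fun p => ind (Cyc E p)) =
      Ex (pw (pw g g) (pw g' g')) (fun p => ind (Cyc E p ∧ l p.1.1 p.2.1 = l p.1.1 p.2.2)) +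
      Ex (pw (pw g g) (pw g' g')) (fun p => ind (Cyc E p ∧ l p.1.1 p.2.1 ≠ l p.1.1 p.2.2)) := by
    rw [← Ex_add hw (bd_ind _) (bd_ind _)]
    exact congrArg _ (funext fun p => ind_split _ _)
  have h3 := forget hg (hg'.pw hg') (bd_ind fun p : Y × (Y' × Y') =>
    (E p.1 p.2.1 ∧ E p.1 p.2.2) ∧ l p.1 p.2.1 = l p.1 p.2.2)
  have h4 : Ex (pw (pw g g) (pw g' g'))
      (fun p => ind (Cyc E p ∧ l p.1.1 p.2.1 = l p.1.1 p.2.2)) ≤
      Ex (pw (pw g g) (pw g' g')) (fun p =>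
        ind ((E p.1.1 p.2.1 ∧ E p.1.1 p.2.2) ∧ l p.1.1 p.2.1 = l p.1.1 p.2.2)) :=
    Ex_mono hw (bd_ind _) (bd_ind _) fun p => ind_mono fun h => ⟨h.1.1, h.2⟩
  simp only at h3
  linarith

/-- LEMMA 4C. -/
theorem c4 {g : Y → ℝ} {g' : Y' → ℝ} (hg : Pr g) (hg' : Pr g') (E : Y → Y' → Prop)
    (l : Y → Y' → V) {δ η : ℝ} (hδ : 0 ≤ δ) (hE : δ ≤ Ex (pw g g') fun p => ind (E p.1 p.2))
    (hb : Ex (pw (pw g g) (pw g' g'))
      (fun p => ind (Cyc E p ∧ l p.1.1 p.2.1 ≠ l p.1.1 p.2.2)) ≤ η) :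
    ∃ ka : Y → V, δ ^ 4 - η ≤ Ex (pw g g') fun p => ind (E p.1 p.2 ∧ l p.1 p.2 = ka p.1) := by
  obtain ⟨q, hq⟩ := c4q hg hg' E l
  refine ⟨fun y => l y (q y), ?_⟩
  have h1 := pow_le_pow_left₀ hδ hE 4
  have h2 : (Ex (pw g g') fun p =>
      ind (E p.1 (q p.1) ∧ E p.1 p.2 ∧ l p.1 p.2 = l p.1 (q p.1))) ≤
      Ex (pw g g') fun p => ind (E p.1 p.2 ∧ l p.1 p.2 = l p.1 (q p.1)) :=
    Ex_mono (hg.pw hg').wt (bd_ind _) (bd_ind _) fun p => ind_mono fun h => h.2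
  linarith

/-- LEMMA 4C on fibres. -/
theorem c4_fib {w : S → ℝ} {g : S → Y → ℝ} {g' : S → Y' → ℝ} (hw : Pr w) (hg : ∀ s, Pr (g s))
    (hg' : ∀ s, Pr (g' s)) (E : S → Y → Y' → Prop) (l : S → Y → Y' → V) {δ η : ℝ} (hδ : 0 ≤ δ)
    (hE : δ ≤ Ex w fun s => Ex (pw (g s) (g' s)) fun p => ind (E s p.1 p.2))
    (hb : Ex w (fun s => Ex (pw (pw (g s) (g s)) (pw (g' s) (g' s)))
      fun p => ind (Cyc (E s) p ∧ l s p.1.1 p.2.1 ≠ l s p.1.1 p.2.2)) ≤ η) :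
    ∃ ka : S → Y → V, δ ^ 4 - η ≤
      Ex w fun s => Ex (pw (g s) (g' s)) fun p => ind (E s p.1 p.2 ∧ l s p.1 p.2 = ka s p.1) := by
  have key := fun s => c4 (hg s) (hg' s) (E s) (l s)
    (Ex_nonneg ((hg s).pw (hg' s)).wt fun p => ind_nn _) le_rfl le_rfl
  choose ka hka using key
  refine ⟨ka, ?_⟩
  have b1 : Bd fun s => Ex (pw (g s) (g' s)) fun p => ind (E s p.1 p.2) :=
    ⟨1, fun s => ((hg s).pw (hg' s)).abs_Ex_le fun _ => abs_ind _⟩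
  have b2 : Bd fun s => Ex (pw (pw (g s) (g s)) (pw (g' s) (g' s)))
      fun p => ind (Cyc (E s) p ∧ l s p.1.1 p.2.1 ≠ l s p.1.1 p.2.2) :=
    ⟨1, fun s => (((hg s).pw (hg s)).pw ((hg' s).pw (hg' s))).abs_Ex_le fun _ => abs_ind _⟩
  have b3 : Bd fun s => Ex (pw (g s) (g' s))
      fun p => ind (E s p.1 p.2 ∧ l s p.1 p.2 = ka s p.1) :=
    ⟨1, fun s => ((hg s).pw (hg' s)).abs_Ex_le fun _ => abs_ind _⟩
  have b4 : Bd fun s => (Ex (pw (g s) (g' s)) fun p => ind (E s p.1 p.2)) ^ 4 := by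
    have h := (b1.mul b1).mul (b1.mul b1)
    obtain ⟨B, hB⟩ := h
    refine ⟨B, fun s => ?_⟩
    have e : ∀ x : ℝ, x ^ 4 = x * x * (x * x) := fun x => by ring
    have h5 := hB s
    simp only [← e] at h5
    exact h5
  have h1 := pow_le_pow_left₀ hδ hE 4
  have h2 := hw.pow4 b1
  have h3 := Ex_mono hw.wt (b4.sub b2) b3 hka
  rw [Ex_sub hw.wt b4 b2] at h3
  linarith

end

end Vale.Agent.P057T.C4
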