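import Vale.Agent.P057T.LiftA
import Mathlib.Analysis.PSeries

/-! The remainder is killed by smooth kernels on classes, and the cleaning of a family. -/

set_option linter.all false

open Finset
open scoped BigOperators

namespace Vale.Agent.P057T.H88

open Vale.Agent.P057L Vale.Agent.P057T.LiftC

noncomputable section

variable {ι : Type} [Fintype ι] [DecidableEq ι]

open Classical in
/-- the indicator of the class of r modulo h -/
def cl (h : ℕ) (r x : ι → ℤ) : ℝ := if ∀ i, (h : ℤ) ∣ x i - r i then 1 else 0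

theorem cl_nonneg (h : ℕ) (r x : ι → ℤ) : 0 ≤ cl h r x := by unfold cl; split_ifs <;> norm_num
theorem cl_le (h : ℕ) (r x : ι → ℤ) : cl h r x ≤ 1 := by unfold cl; split_ifs <;> norm_num
theorem cl_one (r x : ι → ℤ) : cl 1 r x = 1 := by simp [cl]

theorem crt1 (g h : ℕ) (a b : ℤ) (hab : ((Nat.gcd g h : ℕ) : ℤ) ∣ b - a) :
    ∃ r : ℤ, (g : ℤ) ∣ r - a ∧ (h : ℤ) ∣ r - b := by
  obtain ⟨c, hc⟩ := hab
  have h1 : ((Nat.gcd g h : ℕ) : ℤ) = g * Nat.gcdA g h + h * Nat.gcdB g h := Nat.gcd_eq_gcd_ab g h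
  refine ⟨a + g * (Nat.gcdA g h * c), ⟨Nat.gcdA g h * c, by ring⟩, ⟨-(Nat.gcdB g h * c), ?_⟩⟩
  have : b = a + (g * Nat.gcdA g h + h * Nat.gcdB g h) * c := by rw [← h1, ← hc]; ring
  rw [this]; ring

theorem cl_mul (g h : ℕ) (y z : ι → ℤ) :
    ∃ r : ι → ℤ, ∀ x, cl g y x * cl h x z = cl (Nat.gcd g h) y z * cl (Nat.lcm g h) r x := by
  classical
  by_cases H : ∀ i, ((Nat.gcd g h : ℕ) : ℤ) ∣ z i - y i
  · choose r hr1 hr2 using fun i => crt1 g h (y i) (z i) (H i)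
    refine ⟨r, fun x => ?_⟩
    have hiff : (∀ i, ((Nat.lcm g h : ℕ) : ℤ) ∣ x i - r i) ↔
        (∀ i, (g : ℤ) ∣ x i - y i) ∧ ∀ i, (h : ℤ) ∣ z i - x i := by
      constructor
      · intro hx
        have hg : (g : ℤ) ∣ (Nat.lcm g h : ℕ) := by exact_mod_cast Nat.dvd_lcm_left g h
        have hh : (h : ℤ) ∣ (Nat.lcm g h : ℕ) := by exact_mod_cast Nat.dvd_lcm_right g h
        refine ⟨fun i => ?_, fun i => ?_⟩
        · have := dvd_add (hg.trans (hx i)) (hr1 i)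
          simpa using this
        · have := dvd_add (hh.trans (hx i)) (hr2 i)
          have h2 : z i - x i = -(x i - r i + (r i - z i)) := by ring
          rw [h2]; exact (dvd_neg).2 this
      · rintro ⟨h1, h2⟩ i
        have a1 : (g : ℤ) ∣ x i - r i := by
          have := dvd_sub (h1 i) (hr1 i)
          simpa using this
        have a2 : (h : ℤ) ∣ x i - r i := by
          have := dvd_add (h2 i) (hr2 i)
          have h3 : x i - r i = -(z i - x i + (r i - z i)) := by ring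
          rw [h3]; exact (dvd_neg).2 this
        have := Int.natCast_dvd.1 a1
        have := Int.natCast_dvd.1 a2
        exact Int.natCast_dvd.2 (Nat.lcm_dvd ‹_› ‹_›)
    unfold cl
    rw [if_pos H, one_mul]
    by_cases h1 : ∀ i, (g : ℤ) ∣ x i - y i
    · by_cases h2 : ∀ i, (h : ℤ) ∣ z i - x i
      · rw [if_pos h1, if_pos h2, if_pos (hiff.2 ⟨h1, h2⟩), one_mul]
      · rw [if_neg h2, if_neg (fun h3 => h2 (hiff.1 h3).2), mul_zero]
    · rw [if_neg h1, if_neg (fun h3 => h1 (hiff.1 h3).1), zero_mul]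
  · refine ⟨0, fun x => ?_⟩
    unfold cl
    rw [if_neg H, zero_mul]
    by_cases h1 : ∀ i, (g : ℤ) ∣ x i - y i
    · rw [if_neg (c := ∀ i, (h : ℤ) ∣ z i - x i), mul_zero]
      intro h2
      refine H fun i => ?_
      have hg : ((Nat.gcd g h : ℕ) : ℤ) ∣ g := by exact_mod_cast Nat.gcd_dvd_left g h
      have hh : ((Nat.gcd g h : ℕ) : ℤ) ∣ h := by exact_mod_cast Nat.gcd_dvd_right g h
      have := dvd_add (hh.trans (h2 i)) (hg.trans (h1 i))
      simpa using this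
    · rw [if_neg h1, zero_mul]

/-- the local class average -/
def Pk (K : (ι → ℤ) → (ι → ℤ) → ℝ) (F : (ι → ℤ) → ℝ) (h : ℕ) (x : ι → ℤ) : ℝ :=
  (h : ℝ) ^ Fintype.card ι * ∑' z, cl h x z * (K x z * F z)

/-- the weighted class sum -/
def Ac (W F : (ι → ℤ) → ℝ) (y : ι → ℤ) (h : ℕ) : ℝ :=
  (h : ℝ) ^ Fintype.card ι * ∑' z, cl h y z * (W z * F z)

/-- the weight is reproduced by the kernel on every class -/
structure Rep (W : (ι → ℤ) → ℝ) (K : (ι → ℤ) → (ι → ℤ) → ℝ) (Ls : ℕ) (δ : ℝ) : Prop where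
  w0 : ∀ x, 0 ≤ W x
  k0 : ∀ x z, 0 ≤ K x z
  sw : Summable W
  sk : ∀ z, Summable fun x => W x * K x z
  rep : ∀ L, 1 ≤ L → L ≤ Ls → ∀ r z,
    |(L : ℝ) ^ Fintype.card ι * (∑' x, cl L r x * (W x * K x z)) - W z| ≤ δ * W z

theorem abs_cl_mul (h : ℕ) (r x : ι → ℤ) (a : ℝ) : |cl h r x * a| ≤ |a| := by
  rw [abs_mul, abs_of_nonneg (cl_nonneg _ _ _)]
  exact mul_le_of_le_one_left (abs_nonneg _) (cl_le _ _ _)

theorem sum_cl {W F : (ι → ℤ) → ℝ} {B : ℝ} (hW : ∀ x, 0 ≤ W x) (sw : Summable W)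
    (hF : ∀ x, |F x| ≤ B) (h : ℕ) (y : ι → ℤ) : Summable fun z => cl h y z * (W z * F z) := by
  refine Summable.of_norm_bounded (sw.mul_right B) fun z => ?_
  rw [Real.norm_eq_abs]
  refine (abs_cl_mul _ _ _ _).trans ?_
  rw [abs_mul, abs_of_nonneg (hW z)]
  exact mul_le_mul_of_nonneg_left (hF z) (hW z)

theorem kill1 {W F : (ι → ℤ) → ℝ} {K : (ι → ℤ) → (ι → ℤ) → ℝ} {Ls : ℕ} {δ B : ℝ}
    (hR : Rep W K Ls δ) (hF : ∀ x, |F x| ≤ B) (g h : ℕ) (hg : 1 ≤ g) (hh : 1 ≤ h)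
    (hL : Nat.lcm g h ≤ Ls) (y : ι → ℤ) :
    Summable (fun x => cl g y x * (W x * Pk K F h x)) ∧
    |Ac W (Pk K F h) y g - Ac W F y (Nat.gcd g h)| ≤
      δ * B * Ac W (fun _ => 1) y (Nat.gcd g h) := by
  have hB : 0 ≤ B := (abs_nonneg _).trans (hF 0)
  have hl1 : 1 ≤ Nat.lcm g h := Nat.lcm_pos hg hh
  have hLs : 1 ≤ Ls := hl1.trans hL
  set D := Fintype.card ι with hD
  set e := Nat.gcd g h with he
  set L := Nat.lcm g h with hLd
  have hprod : Summable fun p : (ι → ℤ) × (ι → ℤ) => W p.2 * K p.2 p.1 := by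
    refine (summable_prod_of_nonneg fun p => mul_nonneg (hR.w0 _) (hR.k0 _ _)).2
      ⟨fun z => hR.sk z, ?_⟩
    refine Summable.of_nonneg_of_le (fun z => tsum_nonneg fun x => mul_nonneg (hR.w0 _)
      (hR.k0 _ _)) (fun z => ?_) (hR.sw.mul_left (1 + δ))
    have := hR.rep 1 le_rfl hLs 0 z
    simp only [cl_one, one_mul, Nat.cast_one, one_pow] at this
    have := (abs_le.1 this).2
    linarith
  let G : (ι → ℤ) × (ι → ℤ) → ℝ := fun p =>
    cl g y p.2 * cl h p.2 p.1 * (W p.2 * K p.2 p.1) * F p.1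
  have hG : Summable G := by
    refine Summable.of_norm_bounded (hprod.mul_right B) fun p => ?_
    rw [Real.norm_eq_abs]
    simp only [G]
    rw [abs_mul]
    refine mul_le_mul ?_ (hF _) (abs_nonneg _) (mul_nonneg (hR.w0 _) (hR.k0 _ _))
    rw [mul_assoc]
    refine (abs_cl_mul _ _ _ _).trans ((abs_cl_mul _ _ _ _).trans ?_)
    rw [abs_of_nonneg (mul_nonneg (hR.w0 _) (hR.k0 _ _))]
  have hx : ∀ x, cl g y x * (W x * Pk K F h x) = (h : ℝ) ^ D * ∑' z, G (z, x) := by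
    intro x
    simp only [Pk, G]
    rw [← hD, mul_left_comm (W x), mul_left_comm (cl g y x), ← tsum_mul_left, ← tsum_mul_left]
    congr 1
    refine tsum_congr fun z => ?_
    ring
  have hsw : Summable fun p : (ι → ℤ) × (ι → ℤ) => G p.swap := hG.prod_symm
  have hs1 : Summable fun x => ∑' z, G (z, x) := hsw.prod
  have hs2 : Summable fun z => ∑' x, G (z, x) := hG.prod
  refine ⟨by simp_rw [hx]; exact hs1.mul_left _, ?_⟩
  have hcomm : ∑' x, ∑' z, G (z, x) = ∑' z, ∑' x, G (z, x) := by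
    exact (Summable.tsum_comm (f := fun z x => G (z, x)) hG)
  have hgh : (g : ℝ) ^ D * (h : ℝ) ^ D = (e : ℝ) ^ D * (L : ℝ) ^ D := by
    rw [← mul_pow, ← mul_pow]
    congr 1
    exact_mod_cast (Nat.gcd_mul_lcm g h).symm
  have hz : ∀ z, |(L : ℝ) ^ D * (∑' x, G (z, x)) - cl e y z * (W z * F z)| ≤
      δ * B * (cl e y z * (W z * 1)) := by
    intro z
    obtain ⟨r, hr⟩ := cl_mul g h y z
    have h1 : ∑' x, G (z, x) = cl e y z * F z * ∑' x, cl L r x * (W x * K x z) := by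
      rw [← tsum_mul_left]
      refine tsum_congr fun x => ?_
      simp only [G]
      rw [hr x]; ring
    have h2 : (L : ℝ) ^ D * (∑' x, G (z, x)) - cl e y z * (W z * F z) =
        cl e y z * (F z * ((L : ℝ) ^ D * (∑' x, cl L r x * (W x * K x z)) - W z)) := by
      rw [h1]; ring
    rw [h2, abs_mul, abs_mul, abs_of_nonneg (cl_nonneg _ _ _)]
    have h3 := hR.rep L hl1 hL r z
    calc _ ≤ cl e y z * (B * (δ * W z)) :=
          mul_le_mul_of_nonneg_left (mul_le_mul (hF z) h3 (abs_nonneg _) hB) (cl_nonneg _ _ _)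
      _ = _ := by ring
  have s1 := sum_cl hR.w0 hR.sw hF e y
  have s2 := sum_cl (F := fun _ => (1 : ℝ)) (B := 1) hR.w0 hR.sw (fun _ => by simp) e y
  have hA : Ac W (Pk K F h) y g = (e : ℝ) ^ D * ∑' z, (L : ℝ) ^ D * ∑' x, G (z, x) := by
    simp only [Ac]
    rw [← hD]
    simp_rw [hx]
    rw [tsum_mul_left, tsum_mul_left, hcomm, ← mul_assoc, hgh, mul_assoc]
  rw [hA]
  simp only [Ac]
  rw [← hD, ← mul_sub, abs_mul, abs_of_nonneg (by positivity : (0 : ℝ) ≤ (e : ℝ) ^ D),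
    ← (hs2.mul_left _).tsum_sub s1, mul_left_comm, ← tsum_mul_left (a := δ * B)]
  refine mul_le_mul_of_nonneg_left ?_ (by positivity)
  have s3 := (hs2.mul_left ((L : ℝ) ^ D)).sub s1
  have := norm_tsum_le_tsum_norm (f := fun z =>
    (L : ℝ) ^ D * (∑' x, G (z, x)) - cl e y z * (W z * F z)) s3.norm
  simp only [Real.norm_eq_abs] at this
  exact this.trans (s3.abs.tsum_le_tsum hz (s2.mul_left _))

/-- the remainder -/
def Rem (P : ℕ → ℝ) (f : ℝ) (n Q : ℕ) : ℝ := f - ∑ n1 ∈ Icc 1 Q, mt (fun d => P (n * d)) n1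

theorem abs_rem (P : ℕ → ℝ) (f B M : ℝ) (n Q : ℕ) (hf : |f| ≤ B) (hP : ∀ h, |P h| ≤ M) :
    |Rem P f n Q| ≤ B + (Q : ℝ) ^ 2 * M := by
  have hM : 0 ≤ M := (abs_nonneg _).trans (hP 0)
  unfold Rem
  refine (abs_sub _ _).trans (add_le_add hf ((abs_sum_le_sum_abs _ _).trans ?_))
  calc _ ≤ ∑ _n1 ∈ Icc 1 Q, (Q : ℝ) * M := by
        refine sum_le_sum fun n1 hn1 => (abs_mt_le _ M n1 fun d => hP _).trans ?_
        exact mul_le_mul_of_nonneg_right (by exact_mod_cast (mem_Icc.1 hn1).2) hM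
    _ = _ := by simp; ring

theorem gcd_aux (g n d : ℕ) : Nat.gcd g (n * d) = Nat.gcd g (n * Nat.gcd d g) := by
  apply Nat.dvd_antisymm
  · refine Nat.dvd_gcd (Nat.gcd_dvd_left _ _) ?_
    rw [← Nat.gcd_mul_left]
    exact Nat.dvd_gcd (Nat.gcd_dvd_right _ _) ((Nat.gcd_dvd_left _ _).mul_left n)
  · exact Nat.dvd_gcd (Nat.gcd_dvd_left _ _)
      ((Nat.gcd_dvd_right _ _).trans (Nat.mul_dvd_mul_left n (Nat.gcd_dvd_left _ _)))

/-- the remainder is killed by a reproduced weight on a class of small modulus -/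
theorem kill {W F : (ι → ℤ) → ℝ} {K : (ι → ℤ) → (ι → ℤ) → ℝ} {Ls : ℕ} {δ B M : ℝ}
    (hR : Rep W K Ls δ) (hδ : 0 ≤ δ) (hF : ∀ x, |F x| ≤ B) (g n Q : ℕ) (hg : 1 ≤ g) (hgQ : g ≤ Q)
    (hn : 1 ≤ n) (hL : n * Q ^ 2 ≤ Ls) (y : ι → ℤ)
    (hM : ∀ e, e ∣ g → Ac W (fun _ => 1) y e ≤ M) :
    |Ac W (fun x => Rem (fun h => Pk K F h x) (F x) n Q) y g| ≤ (Q : ℝ) ^ 2 * (δ * B * M) := by
  have hB : 0 ≤ B := (abs_nonneg _).trans (hF 0)
  have key : ∀ n1 ∈ Icc 1 Q, ∀ d ∈ n1.divisors,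
      Summable (fun x => cl g y x * (W x * Pk K F (n * d) x)) ∧
      |Ac W (Pk K F (n * d)) y g - Ac W F y (Nat.gcd g (n * d))| ≤ δ * B * M := by
    intro n1 hn1 d hd
    have hd1 : 1 ≤ d := Nat.pos_of_mem_divisors hd
    have hdQ : d ≤ Q := (Nat.divisor_le hd).trans (mem_Icc.1 hn1).2
    have hl : Nat.lcm g (n * d) ≤ Ls := by
      refine (Nat.le_of_dvd (by positivity) (Nat.lcm_dvd_mul g (n * d))).trans (le_trans ?_ hL)
      calc g * (n * d) ≤ Q * (n * Q) := Nat.mul_le_mul hgQ (Nat.mul_le_mul_left n hdQ)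
        _ = n * Q ^ 2 := by ring
    obtain ⟨h1, h2⟩ := kill1 hR hF g (n * d) hg (Nat.mul_pos hn hd1) hl y
    exact ⟨h1, h2.trans (mul_le_mul_of_nonneg_left (hM _ (Nat.gcd_dvd_left _ _))
      (mul_nonneg hδ hB))⟩
  have hM0 : 0 ≤ δ * B * M := (abs_nonneg _).trans
    (key 1 (mem_Icc.2 ⟨le_rfl, hg.trans hgQ⟩) 1 (by simp)).2
  have s1 := sum_cl hR.w0 hR.sw hF g y
  have hlin : Ac W (fun x => Rem (fun h => Pk K F h x) (F x) n Q) y g =
      Ac W F y g - ∑ n1 ∈ Icc 1 Q, mt (fun d => Ac W (Pk K F (n * d)) y g) n1 := by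
    have e1 : ∀ x, cl g y x * (W x * Rem (fun h => Pk K F h x) (F x) n Q) =
        cl g y x * (W x * F x) - ∑ n1 ∈ Icc 1 Q, ∑ d ∈ n1.divisors,
          (ArithmeticFunction.moebius (n1 / d) : ℝ) * (cl g y x * (W x * Pk K F (n * d) x)) := by
      intro x
      simp only [Rem, LiftC.mt, mul_sub, mul_sum]
      congr 1
      refine sum_congr rfl fun _ _ => sum_congr rfl fun _ _ => by ring
    have s2 : ∀ n1 ∈ Icc 1 Q, Summable fun x => ∑ d ∈ n1.divisors,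
        (ArithmeticFunction.moebius (n1 / d) : ℝ) * (cl g y x * (W x * Pk K F (n * d) x)) :=
      fun n1 hn1 => summable_sum fun d hd => (key n1 hn1 d hd).1.mul_left _
    simp only [Ac, LiftC.mt]
    simp_rw [e1]
    rw [s1.tsum_sub (summable_sum s2), mul_sub, Summable.tsum_finsetSum s2, mul_sum]
    congr 1
    refine sum_congr rfl fun n1 hn1 => ?_
    rw [Summable.tsum_finsetSum fun d hd => (key n1 hn1 d hd).1.mul_left _, mul_sum]
    refine sum_congr rfl fun d _ => ?_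
    rw [tsum_mul_left]; ring
  have hmain : ∑ n1 ∈ Icc 1 Q, mt (fun d => Ac W F y (Nat.gcd g (n * d))) n1 = Ac W F y g := by
    have := moebsum (fun e => Ac W F y (Nat.gcd g (n * e))) g Q hg hgQ
    simp only [← gcd_aux] at this
    rw [this, Nat.gcd_eq_left (Dvd.intro_left n rfl)]
  rw [hlin, ← hmain, ← sum_sub_distrib]
  refine (abs_sum_le_sum_abs _ _).trans ?_
  calc _ ≤ ∑ _n1 ∈ Icc 1 Q, (Q : ℝ) * (δ * B * M) := by
        refine sum_le_sum fun n1 hn1 => ?_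
        unfold LiftC.mt
        rw [← sum_sub_distrib]
        refine (abs_sum_le_sum_abs _ _).trans ?_
        calc _ ≤ ∑ _d ∈ n1.divisors, δ * B * M := by
              refine sum_le_sum fun d hd => ?_
              rw [← mul_sub, abs_mul, abs_sub_comm]
              have h1 : |(ArithmeticFunction.moebius (n1 / d) : ℝ)| ≤ 1 := by
                have := ArithmeticFunction.abs_moebius_le_one (n := n1 / d)
                exact_mod_cast this
              calc _ ≤ 1 * (δ * B * M) :=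
                    mul_le_mul h1 (key n1 hn1 d hd).2 (abs_nonneg _) zero_le_one
                _ = _ := one_mul _
          _ = n1.divisors.card * (δ * B * M) := by rw [sum_const, nsmul_eq_mul]
          _ ≤ Q * (δ * B * M) := by
              refine mul_le_mul_of_nonneg_right ?_ hM0
              exact_mod_cast (Nat.card_divisors_le_self n1).trans (mem_Icc.1 hn1).2
    _ = _ := by simp; ring

/-- the common divisor of the coordinates -/
def gv {m : ℕ} (x : Vz m) : ℕ := univ.gcd fun l => (x l).natAbs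

theorem gv_dvd {m : ℕ} (x : Vz m) (l : Fin m) : ((gv x : ℕ) : ℤ) ∣ x l :=
  Int.natCast_dvd.2 (gcd_dvd (mem_univ l))

theorem gv_zero {m : ℕ} {x : Vz m} (h : gv x = 0) : x = 0 := by
  funext l
  have := gv_dvd x l
  rw [h] at this
  simpa using this

theorem tail_sq (Q T : ℕ) (hQ : 1 ≤ Q) : ∑ g ∈ Ioc Q T, 1 / (g : ℝ) ^ 2 ≤ 1 / (Q : ℝ) := by
  rcases le_or_gt Q T with h | h
  · have := sum_Ioc_inv_sq_le_sub (α := ℝ) (by omega : Q ≠ 0) h
    simp only [one_div]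
    have h2 : (0 : ℝ) ≤ (T : ℝ)⁻¹ := by positivity
    linarith
  · rw [Ioc_eq_empty (by omega), sum_empty]; positivity

open Classical in
/-- the share of the points with a large common divisor -/
theorem share_big (m T Q : ℕ) (hm : 2 ≤ m) (hT : 1 ≤ T) (hQ : 1 ≤ Q) (t : Vz m) (ht : t ∈ bz m T) :
    𝔼 x ∈ bz m T, (if 1 ≤ gv (x - t) ∧ gv (x - t) ≤ Q then (0 : ℝ) else 1) ≤
      1 / (T : ℝ) ^ m + 2 * (2 / (Q : ℝ)) ^ (m - 1) := by
  have hT' : (0 : ℝ) < T := by exact_mod_cast hT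
  have hQ' : (0 : ℝ) < Q := by exact_mod_cast hQ
  have hpt : ∀ x ∈ bz m T, (if 1 ≤ gv (x - t) ∧ gv (x - t) ≤ Q then (0 : ℝ) else 1) ≤
      (if x = t then 1 else 0) +
        ∑ g ∈ Ioc Q T, (if ∀ l, (g : ℤ) ∣ x l - t l then (1 : ℝ) else 0) := by
    intro x hx
    have hs : 0 ≤ ∑ g ∈ Ioc Q T, (if ∀ l, (g : ℤ) ∣ x l - t l then (1 : ℝ) else 0) :=
      sum_nonneg fun _ _ => by split_ifs <;> norm_num
    by_cases h1 : 1 ≤ gv (x - t) ∧ gv (x - t) ≤ Q
    · rw [if_pos h1]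
      refine add_nonneg ?_ hs
      split_ifs <;> norm_num
    rw [if_neg h1]
    by_cases h2 : x = t
    · rw [if_pos h2]; linarith
    rw [if_neg h2, zero_add]
    have h3 : gv (x - t) ≠ 0 := fun h => h2 (sub_eq_zero.1 (gv_zero h))
    have h4 : Q < gv (x - t) := by omega
    obtain ⟨l, hl⟩ : ∃ l, x l ≠ t l := by
      by_contra hc
      push Not at hc
      exact h2 (funext hc)
    have h5 : gv (x - t) ≤ T := by
      have a1 := gv_dvd (x - t) l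
      have a2 := Int.le_abs_of_dvd (by simpa [sub_eq_zero] using hl) a1
      simp only [bz, rg, Fintype.mem_piFinset, mem_Ico] at hx ht
      have b1 := hx l
      have b2 := ht l
      simp only [Pi.sub_apply] at a2
      have : |x l - t l| ≤ T := abs_le.2 ⟨by omega, by omega⟩
      omega
    have := single_le_sum (f := fun g : ℕ => (if ∀ l, (g : ℤ) ∣ x l - t l then (1 : ℝ) else 0))
      (s := Ioc Q T) (fun _ _ => by split_ifs <;> norm_num) (mem_Ioc.2 ⟨h4, h5⟩)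
    rw [if_pos (show ∀ l, ((gv (x - t) : ℕ) : ℤ) ∣ x l - t l from fun l => gv_dvd (x - t) l)] at this
    exact this
  rw [expect_eq_sum_div_card, card_bz]
  push_cast
  rw [div_le_iff₀ (by positivity)]
  refine (sum_le_sum hpt).trans ?_
  rw [sum_add_distrib, sum_ite_eq', if_pos ht, sum_comm, add_mul, one_div_mul_cancel (by positivity)]
  refine add_le_add le_rfl ?_
  obtain ⟨k, rfl⟩ : ∃ k, m = k + 2 := ⟨m - 2, by omega⟩
  calc _ ≤ ∑ g ∈ Ioc Q T, (2 / (Q : ℝ)) ^ k * 4 * (T : ℝ) ^ (k + 2) * (1 / (g : ℝ) ^ 2) := by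
        refine sum_le_sum fun g hg => ?_
        obtain ⟨g1, g2⟩ := mem_Ioc.1 hg
        have hg' : (0 : ℝ) < g := by exact_mod_cast (by omega : 0 < g)
        have g1' : (Q : ℝ) ≤ g := by exact_mod_cast g1.le
        have g2' : (g : ℝ) ≤ T := by exact_mod_cast g2
        rw [sum_boole]
        refine (card_clsv (k + 2) T g (by omega) t).trans ?_
        have c1 : (T : ℝ) / g + 1 ≤ 2 / g * T := by
          have : 1 ≤ (T : ℝ) / g := (one_le_div hg').2 g2'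
          have e : 2 / (g : ℝ) * T = T / g + T / g := by ring
          linarith
        calc ((T : ℝ) / g + 1) ^ (k + 2) ≤ (2 / g * T) ^ (k + 2) :=
              pow_le_pow_left₀ (by positivity) c1 _
          _ = (2 / (g : ℝ)) ^ k * (4 * (T : ℝ) ^ (k + 2) * (1 / (g : ℝ) ^ 2)) := by
              rw [mul_pow, pow_add]; field_simp; norm_num
          _ ≤ (2 / (Q : ℝ)) ^ k * (4 * (T : ℝ) ^ (k + 2) * (1 / (g : ℝ) ^ 2)) := by
              refine mul_le_mul_of_nonneg_right (pow_le_pow_left₀ (by positivity) ?_ _)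
                (by positivity)
              exact div_le_div_of_nonneg_left (by norm_num) hQ' g1'
          _ = _ := by ring
    _ = (2 / (Q : ℝ)) ^ k * 4 * (T : ℝ) ^ (k + 2) * ∑ g ∈ Ioc Q T, 1 / (g : ℝ) ^ 2 := by
        rw [mul_sum]
    _ ≤ (2 / (Q : ℝ)) ^ k * 4 * (T : ℝ) ^ (k + 2) * (1 / Q) :=
        mul_le_mul_of_nonneg_left (tail_sq Q T hQ) (by positivity)
    _ = _ := by
        rw [show k + 2 - 1 = k + 1 by omega, pow_succ (2 / (Q : ℝ))]; field_simp; norm_num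

/-- the second moment of a box mean -/
theorem second {Ω : Type} (p : Ω → ℝ) (hp : ∀ ω, 0 ≤ p ω) (sp : Summable p) (h1 : ∑' ω, p ω ≤ 1)
    (m T Q : ℕ) (hm : 2 ≤ m) (hT : 1 ≤ T) (hQ : 1 ≤ Q) (R : Vz m → Ω → ℝ) (B e0 : ℝ)
    (he : 0 ≤ e0) (hR : ∀ t ω, |R t ω| ≤ B)
    (hpair : ∀ t ∈ bz m T, ∀ x ∈ bz m T, 1 ≤ gv (x - t) → gv (x - t) ≤ Q →
      ∑' ω, p ω * (R t ω * R x ω) ≤ e0) :
    Summable (fun ω => p ω * (𝔼 t ∈ bz m T, R t ω) ^ 2) ∧
    ∑' ω, p ω * (𝔼 t ∈ bz m T, R t ω) ^ 2 ≤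
      e0 + B ^ 2 * (1 / (T : ℝ) ^ m + 2 * (2 / (Q : ℝ)) ^ (m - 1)) := by
  classical
  have hne : (bz m T).Nonempty := by
    rw [← card_pos, card_bz]; positivity
  have hb : ∀ t x ω, |R t ω * R x ω| ≤ B ^ 2 := by
    intro t x ω
    rw [abs_mul, sq]
    exact mul_le_mul (hR _ _) (hR _ _) (abs_nonneg _) ((abs_nonneg _).trans (hR t ω))
  have s1 : ∀ t x, Summable fun ω => p ω * (R t ω * R x ω) := by
    intro t x
    refine Summable.of_norm_bounded (sp.mul_right (B ^ 2)) fun ω => ?_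
    rw [Real.norm_eq_abs, abs_mul, abs_of_nonneg (hp ω)]
    exact mul_le_mul_of_nonneg_left (hb _ _ _) (hp ω)
  set c : ℝ := ((bz m T).card : ℝ) with hc
  have hc0 : 0 < c := by rw [hc]; exact_mod_cast hne.card_pos
  have e1 : ∀ ω, p ω * (𝔼 t ∈ bz m T, R t ω) ^ 2 =
      (1 / c ^ 2) * ∑ t ∈ bz m T, ∑ x ∈ bz m T, p ω * (R t ω * R x ω) := by
    intro ω
    rw [expect_eq_sum_div_card, ← hc, div_pow, sq (∑ t ∈ bz m T, R t ω), sum_mul_sum]
    simp only [← mul_sum, ← sum_mul]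
    field_simp
  have s2 : ∀ t ∈ bz m T, Summable fun ω => ∑ x ∈ bz m T, p ω * (R t ω * R x ω) :=
    fun t _ => summable_sum fun x _ => s1 t x
  simp_rw [e1]
  refine ⟨(summable_sum s2).mul_left _, ?_⟩
  rw [tsum_mul_left, Summable.tsum_finsetSum s2]
  have e2 : ∀ t ∈ bz m T, ∑' ω, ∑ x ∈ bz m T, p ω * (R t ω * R x ω) ≤
      c * (e0 + B ^ 2 * (1 / (T : ℝ) ^ m + 2 * (2 / (Q : ℝ)) ^ (m - 1))) := by
    intro t ht
    rw [Summable.tsum_finsetSum fun x _ => s1 t x]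
    have h2 := share_big m T Q hm hT hQ t ht
    rw [expect_eq_sum_div_card, ← hc, div_le_iff₀ hc0] at h2
    calc _ ≤ ∑ x ∈ bz m T, (e0 + B ^ 2 *
          (if 1 ≤ gv (x - t) ∧ gv (x - t) ≤ Q then (0 : ℝ) else 1)) := by
          refine sum_le_sum fun x hx => ?_
          split_ifs with h
          · rw [mul_zero, add_zero]; exact hpair t ht x hx h.1 h.2
          · have h3 : ∑' ω, p ω * (R t ω * R x ω) ≤ ∑' ω, p ω * B ^ 2 :=
              (s1 t x).tsum_le_tsum (fun ω => mul_le_mul_of_nonneg_left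
                ((le_abs_self _).trans (hb _ _ _)) (hp ω)) (sp.mul_right _)
            rw [tsum_mul_right] at h3
            have h4 : (∑' ω, p ω) * B ^ 2 ≤ 1 * B ^ 2 :=
              mul_le_mul_of_nonneg_right h1 (sq_nonneg B)
            linarith
      _ = c * e0 + B ^ 2 * ∑ x ∈ bz m T,
          (if 1 ≤ gv (x - t) ∧ gv (x - t) ≤ Q then (0 : ℝ) else 1) := by
          rw [sum_add_distrib, sum_const, nsmul_eq_mul, ← hc, mul_sum]
      _ ≤ _ := by nlinarith [mul_le_mul_of_nonneg_left h2 (sq_nonneg B)]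
  calc _ ≤ (1 / c ^ 2) * ∑ _t ∈ bz m T,
        c * (e0 + B ^ 2 * (1 / (T : ℝ) ^ m + 2 * (2 / (Q : ℝ)) ^ (m - 1))) :=
        mul_le_mul_of_nonneg_left (sum_le_sum e2) (by positivity)
    _ = _ := by rw [sum_const, nsmul_eq_mul, ← hc]; field_simp

/-- Chebyshev and a union bound -/
theorem cheb {Ω α : Type} (p : Ω → ℝ) (hp : ∀ ω, 0 ≤ p ω) (I : Finset α) (X : α → Ω → ℝ)
    (v κ ε : ℝ) (hκ : 0 < κ) (hs : ∀ n ∈ I, Summable fun ω => p ω * X n ω ^ 2)
    (hv : ∀ n ∈ I, ∑' ω, p ω * X n ω ^ 2 ≤ v) (Fam : Finset Ω) (hF : ε ≤ ∑ ω ∈ Fam, p ω)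
    (hnum : I.card * v ≤ κ ^ 2 * (ε / 2)) :
    ∃ F' ⊆ Fam, ε / 2 ≤ ∑ ω ∈ F', p ω ∧ ∀ ω ∈ F', ∀ n ∈ I, |X n ω| ≤ κ := by
  classical
  refine ⟨Fam.filter fun ω => ∀ n ∈ I, |X n ω| ≤ κ, filter_subset _ _, ?_,
    fun ω h => (mem_filter.1 h).2⟩
  have h1 := sum_filter_add_sum_filter_not Fam (fun ω => ∀ n ∈ I, |X n ω| ≤ κ) p
  have h2 : κ ^ 2 * ∑ ω ∈ Fam.filter (fun ω => ¬ ∀ n ∈ I, |X n ω| ≤ κ), p ω ≤ I.card * v := by
    rw [mul_sum]
    calc _ ≤ ∑ ω ∈ Fam.filter (fun ω => ¬ ∀ n ∈ I, |X n ω| ≤ κ), ∑ n ∈ I, p ω * X n ω ^ 2 := by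
          refine sum_le_sum fun ω hω => ?_
          have h3 := (mem_filter.1 hω).2
          push Not at h3
          obtain ⟨n, hn, h4⟩ := h3
          refine le_trans ?_ (single_le_sum (f := fun n => p ω * X n ω ^ 2)
            (fun _ _ => mul_nonneg (hp ω) (sq_nonneg _)) hn)
          rw [mul_comm]
          refine mul_le_mul_of_nonneg_left ?_ (hp ω)
          rw [← sq_abs (X n ω)]
          exact pow_le_pow_left₀ hκ.le h4.le 2
      _ = ∑ n ∈ I, ∑ ω ∈ Fam.filter (fun ω => ¬ ∀ n ∈ I, |X n ω| ≤ κ), p ω * X n ω ^ 2 :=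
          sum_comm
      _ ≤ ∑ _n ∈ I, v := sum_le_sum fun n hn => le_trans ((hs n hn).sum_le_tsum _
          fun ω _ => mul_nonneg (hp ω) (sq_nonneg _)) (hv n hn)
      _ = _ := by rw [sum_const, nsmul_eq_mul]
  have h3 : ∑ ω ∈ Fam.filter (fun ω => ¬ ∀ n ∈ I, |X n ω| ≤ κ), p ω ≤ ε / 2 :=
    le_of_mul_le_mul_left (h2.trans hnum) (by positivity)
  linarith

/-- cleaning a family -/
theorem clean {Ω : Type} (p : Ω → ℝ) (hp : ∀ ω, 0 ≤ p ω) (sp : Summable p) (h1 : ∑' ω, p ω ≤ 1)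
    (m T Q ns : ℕ) (hm : 2 ≤ m) (hT : 1 ≤ T) (hQ : 1 ≤ Q) (R : ℕ → Vz m → Ω → ℝ)
    (B e0 κ ε : ℝ) (he : 0 ≤ e0) (hκ : 0 < κ) (hR : ∀ n ∈ Icc 1 ns, ∀ t ω, |R n t ω| ≤ B)
    (hpair : ∀ n ∈ Icc 1 ns, ∀ t ∈ bz m T, ∀ x ∈ bz m T, 1 ≤ gv (x - t) → gv (x - t) ≤ Q →
      ∑' ω, p ω * (R n t ω * R n x ω) ≤ e0)
    (Fam : Finset Ω) (hF : ε ≤ ∑ ω ∈ Fam, p ω)
    (hnum : ns * (e0 + B ^ 2 * (1 / (T : ℝ) ^ m + 2 * (2 / (Q : ℝ)) ^ (m - 1))) ≤
      κ ^ 2 * (ε / 2)) :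
    ∃ F' ⊆ Fam, ε / 2 ≤ ∑ ω ∈ F', p ω ∧
      ∀ ω ∈ F', ∀ n ∈ Icc 1 ns, |𝔼 t ∈ bz m T, R n t ω| ≤ κ := by
  refine cheb p hp (Icc 1 ns) (fun n ω => 𝔼 t ∈ bz m T, R n t ω) _ κ ε hκ
    (fun n hn => (second p hp sp h1 m T Q hm hT hQ (R n) B e0 he (hR n hn) (hpair n hn)).1)
    (fun n hn => (second p hp sp h1 m T Q hm hT hQ (R n) B e0 he (hR n hn) (hpair n hn)).2)
    Fam hF ?_
  simpa using hnum

end

end Vale.Agent.P057T.H88
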