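import Mathlib.RingTheory.MvPolynomial.EulerIdentity
import Mathlib.RingTheory.MvPolynomial.WeightedHomogeneous
import Mathlib.Algebra.MvPolynomial.Monad
import Mathlib.Algebra.MvPolynomial.Degrees
import Mathlib.Algebra.MvPolynomial.CommRing
import Mathlib.Analysis.Normed.Group.Basic
import Mathlib.Data.Real.Basic
import Mathlib.Tactic

/-! The sum of the absolute values of the coefficients of a real polynomial, polynomials with
integer coefficients, chain rule. -/

namespace Vale.Agent.P057T.L1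

open MvPolynomial Finset

variable {σ τ : Type*}

/-- sum of the absolute values of the coefficients -/
noncomputable def nrm (p : MvPolynomial σ ℝ) : ℝ := ∑ m ∈ p.support, |coeff m p|

theorem nrm_nonneg (p : MvPolynomial σ ℝ) : 0 ≤ nrm p := sum_nonneg fun _ _ => abs_nonneg _

theorem nrm_eq_sum {p : MvPolynomial σ ℝ} {s : Finset (σ →₀ ℕ)} (h : p.support ⊆ s) :
    nrm p = ∑ m ∈ s, |coeff m p| :=
  sum_subset h fun m _ hm => by rw [notMem_support_iff.1 hm, abs_zero]

theorem abs_coeff_le (p : MvPolynomial σ ℝ) (m : σ →₀ ℕ) : |coeff m p| ≤ nrm p := by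
  by_cases h : m ∈ p.support
  · exact single_le_sum (f := fun m => |coeff m p|) (fun _ _ => abs_nonneg _) h
  · rw [notMem_support_iff.1 h, abs_zero]; exact nrm_nonneg p

@[simp] theorem nrm_zero : nrm (0 : MvPolynomial σ ℝ) = 0 := by simp [nrm]

theorem eq_zero_of_nrm {p : MvPolynomial σ ℝ} (h : nrm p ≤ 0) : p = 0 := by
  ext m
  have := (abs_coeff_le p m).trans h
  simpa using abs_nonpos_iff.1 this

theorem nrm_monomial (m : σ →₀ ℕ) (a : ℝ) : nrm (monomial m a) = |a| := by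
  classical
  rw [nrm_eq_sum (s := {m}) support_monomial_subset]; simp

@[simp] theorem nrm_C (a : ℝ) : nrm (C a : MvPolynomial σ ℝ) = |a| := nrm_monomial 0 a

@[simp] theorem nrm_one : nrm (1 : MvPolynomial σ ℝ) = 1 := by
  have := nrm_C (σ := σ) 1
  simpa using this

@[simp] theorem nrm_X (i : σ) : nrm (X i : MvPolynomial σ ℝ) = 1 := by
  rw [X, nrm_monomial, abs_one]

theorem nrm_le_of_coeff {p q : MvPolynomial σ ℝ} (h : ∀ m, |coeff m p| ≤ |coeff m q|) :
    nrm p ≤ nrm q := by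
  classical
  rw [nrm_eq_sum (p := p) (s := p.support ∪ q.support) subset_union_left,
    nrm_eq_sum (p := q) (s := p.support ∪ q.support) subset_union_right]
  exact sum_le_sum fun m _ => h m

theorem nrm_add_le (p q : MvPolynomial σ ℝ) : nrm (p + q) ≤ nrm p + nrm q := by
  classical
  rw [nrm_eq_sum (p := p + q) (s := p.support ∪ q.support) support_add,
    nrm_eq_sum (p := p) (s := p.support ∪ q.support) subset_union_left,
    nrm_eq_sum (p := q) (s := p.support ∪ q.support) subset_union_right, ← sum_add_distrib]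
  exact sum_le_sum fun m _ => by rw [coeff_add]; exact abs_add_le _ _

@[simp] theorem nrm_neg (p : MvPolynomial σ ℝ) : nrm (-p) = nrm p :=
  le_antisymm (nrm_le_of_coeff fun m => by simp) (nrm_le_of_coeff fun m => by simp)

theorem nrm_sub_le (p q : MvPolynomial σ ℝ) : nrm (p - q) ≤ nrm p + nrm q := by
  rw [sub_eq_add_neg]; exact (nrm_add_le _ _).trans (by rw [nrm_neg])

theorem nrm_sum_le {ι : Type*} (s : Finset ι) (f : ι → MvPolynomial σ ℝ) :
    nrm (∑ i ∈ s, f i) ≤ ∑ i ∈ s, nrm (f i) :=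
  le_sum_of_subadditive nrm nrm_zero.le nrm_add_le s f

theorem nrm_smul (a : ℝ) (p : MvPolynomial σ ℝ) : nrm (a • p) = |a| * nrm p := by
  rw [nrm_eq_sum (p := a • p) (s := p.support) support_smul, nrm, mul_sum]
  exact sum_congr rfl fun m _ => by rw [coeff_smul, smul_eq_mul, abs_mul]

theorem nrm_C_mul (a : ℝ) (p : MvPolynomial σ ℝ) : nrm (C a * p) = |a| * nrm p := by
  rw [C_mul', nrm_smul]

theorem nrm_mul_le (p q : MvPolynomial σ ℝ) : nrm (p * q) ≤ nrm p * nrm q := by
  conv_lhs => rw [p.as_sum, q.as_sum, sum_mul_sum]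
  refine (nrm_sum_le _ _).trans ?_
  rw [nrm, nrm, sum_mul_sum]
  refine sum_le_sum fun m _ => (nrm_sum_le _ _).trans (sum_le_sum fun n _ => ?_)
  rw [monomial_mul, nrm_monomial, abs_mul]

theorem nrm_prod_le {ι : Type*} (s : Finset ι) (f : ι → MvPolynomial σ ℝ) :
    nrm (∏ i ∈ s, f i) ≤ ∏ i ∈ s, nrm (f i) := by
  classical
  induction s using Finset.induction_on with
  | empty => simp
  | insert a s ha ih =>
    rw [prod_insert ha, prod_insert ha]
    exact (nrm_mul_le _ _).trans (mul_le_mul_of_nonneg_left ih (nrm_nonneg _))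

theorem nrm_pow_le (p : MvPolynomial σ ℝ) (n : ℕ) : nrm (p ^ n) ≤ nrm p ^ n := by
  have := nrm_prod_le (range n) fun _ => p
  simpa using this

/-- substitution, monomial by monomial -/
theorem nrm_aeval_le_sum (f : σ → MvPolynomial τ ℝ) (p : MvPolynomial σ ℝ) :
    nrm (aeval f p) ≤ ∑ m ∈ p.support, |coeff m p| * ∏ i ∈ m.support, nrm (f i) ^ m i := by
  conv_lhs => rw [p.as_sum, map_sum]
  refine (nrm_sum_le _ _).trans (sum_le_sum fun m _ => ?_)
  rw [aeval_monomial, algebraMap_eq, nrm_C_mul]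
  refine mul_le_mul_of_nonneg_left ?_ (abs_nonneg _)
  refine (nrm_prod_le _ _).trans (prod_le_prod (fun _ _ => nrm_nonneg _) fun i _ => nrm_pow_le _ _)

theorem nrm_aeval_le {f : σ → MvPolynomial τ ℝ} {M : ℝ} (hM : 1 ≤ M) (hf : ∀ i, nrm (f i) ≤ M)
    {p : MvPolynomial σ ℝ} {d : ℕ} (hd : p.totalDegree ≤ d) : nrm (aeval f p) ≤ nrm p * M ^ d := by
  refine (nrm_aeval_le_sum f p).trans ?_
  rw [nrm, sum_mul]
  refine sum_le_sum fun m hm => mul_le_mul_of_nonneg_left ?_ (abs_nonneg _)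
  calc ∏ i ∈ m.support, nrm (f i) ^ m i ≤ ∏ i ∈ m.support, M ^ m i :=
        prod_le_prod (fun _ _ => pow_nonneg (nrm_nonneg _) _)
          fun i _ => pow_le_pow_left₀ (nrm_nonneg _) (hf i) _
    _ = M ^ (m.sum fun _ e => e) := by rw [prod_pow_eq_pow_sum]; rfl
    _ ≤ M ^ d := pow_le_pow_right₀ hM ((le_totalDegree hm).trans hd)

/-- substitutions of norm at most one (renaming, putting variables to zero) -/
theorem nrm_aeval_le_one {f : σ → MvPolynomial τ ℝ} (hf : ∀ i, nrm (f i) ≤ 1)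
    (p : MvPolynomial σ ℝ) : nrm (aeval f p) ≤ nrm p := by
  simpa using nrm_aeval_le le_rfl hf (le_refl p.totalDegree)

theorem nrm_rename_le (g : σ → τ) (p : MvPolynomial σ ℝ) : nrm (rename g p) ≤ nrm p := by
  have : rename g p = aeval (fun i => (X (g i) : MvPolynomial τ ℝ)) p := by
    rw [rename_eq_aeval]; rfl
  rw [this]; exact nrm_aeval_le_one (fun i => by simp) p

theorem abs_eval_le {x : σ → ℝ} {M : ℝ} (hM : 1 ≤ M) (hx : ∀ i, |x i| ≤ M)
    {p : MvPolynomial σ ℝ} {d : ℕ} (hd : p.totalDegree ≤ d) : |eval x p| ≤ nrm p * M ^ d := by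
  have h := nrm_aeval_le (τ := σ) (f := fun i => C (x i)) hM (fun i => by simpa using hx i) hd
  have e : aeval (fun i => (C (x i) : MvPolynomial σ ℝ)) p = C (eval x p) := by
    clear h hd
    induction p using MvPolynomial.induction_on with
    | C a => simp
    | add p q hp hq => rw [map_add, hp, hq, map_add, map_add]
    | mul_X p i hp => rw [map_mul, hp, aeval_X, map_mul, map_mul, eval_X]
  rwa [e, nrm_C] at h

theorem nrm_pderiv_le (i : σ) {p : MvPolynomial σ ℝ} {d : ℕ} (hd : p.totalDegree ≤ d) :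
    nrm (pderiv i p) ≤ d * nrm p := by
  conv_lhs => rw [p.as_sum, map_sum]
  refine (nrm_sum_le _ _).trans ?_
  rw [nrm, mul_sum]
  refine sum_le_sum fun m hm => ?_
  rw [pderiv_monomial, nrm_monomial, abs_mul, mul_comm, Nat.abs_cast]
  refine mul_le_mul_of_nonneg_right ?_ (abs_nonneg _)
  exact_mod_cast (monomial_le_degreeOf i hm).trans ((degreeOf_le_totalDegree p i).trans hd)

theorem nrm_whc_le {M : Type*} [AddCommMonoid M] (w : σ → M) (n : M) (p : MvPolynomial σ ℝ) :
    nrm (weightedHomogeneousComponent w n p) ≤ nrm p := by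
  classical
  refine nrm_le_of_coeff fun m => ?_
  rw [coeff_weightedHomogeneousComponent]
  split_ifs <;> simp

/-- integer coefficients -/
def IsInt (p : MvPolynomial σ ℝ) : Prop := ∀ m, ∃ a : ℤ, coeff m p = a

theorem isInt_iff {p : MvPolynomial σ ℝ} :
    IsInt p ↔ ∃ q : MvPolynomial σ ℤ, map (Int.castRingHom ℝ) q = p := by
  constructor
  · intro h
    choose a ha using h
    refine ⟨∑ m ∈ p.support, monomial m (a m), ?_⟩
    conv_rhs => rw [p.as_sum]
    rw [map_sum]
    exact sum_congr rfl fun m _ => by rw [map_monomial, ha m]; rfl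
  · rintro ⟨q, rfl⟩ m
    exact ⟨coeff m q, by rw [coeff_map]; rfl⟩

theorem isInt_map (q : MvPolynomial σ ℤ) : IsInt (map (Int.castRingHom ℝ) q) := isInt_iff.2 ⟨q, rfl⟩

theorem isInt_zero : IsInt (0 : MvPolynomial σ ℝ) := fun _ => ⟨0, by simp⟩

theorem isInt_C (a : ℤ) : IsInt (C (a : ℝ) : MvPolynomial σ ℝ) :=
  isInt_iff.2 ⟨C a, by simp⟩

theorem isInt_one : IsInt (1 : MvPolynomial σ ℝ) := isInt_iff.2 ⟨1, by simp⟩

theorem isInt_X (i : σ) : IsInt (X i : MvPolynomial σ ℝ) := isInt_iff.2 ⟨X i, by simp⟩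

theorem IsInt.add {p q : MvPolynomial σ ℝ} (hp : IsInt p) (hq : IsInt q) : IsInt (p + q) := by
  obtain ⟨a, rfl⟩ := isInt_iff.1 hp; obtain ⟨b, rfl⟩ := isInt_iff.1 hq
  exact isInt_iff.2 ⟨a + b, map_add _ _ _⟩

theorem IsInt.neg {p : MvPolynomial σ ℝ} (hp : IsInt p) : IsInt (-p) := by
  obtain ⟨a, rfl⟩ := isInt_iff.1 hp
  exact isInt_iff.2 ⟨-a, map_neg _ _⟩

theorem IsInt.sub {p q : MvPolynomial σ ℝ} (hp : IsInt p) (hq : IsInt q) : IsInt (p - q) := by
  rw [sub_eq_add_neg]; exact hp.add hq.neg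

theorem IsInt.mul {p q : MvPolynomial σ ℝ} (hp : IsInt p) (hq : IsInt q) : IsInt (p * q) := by
  obtain ⟨a, rfl⟩ := isInt_iff.1 hp; obtain ⟨b, rfl⟩ := isInt_iff.1 hq
  exact isInt_iff.2 ⟨a * b, map_mul _ _ _⟩

theorem IsInt.pow {p : MvPolynomial σ ℝ} (hp : IsInt p) (n : ℕ) : IsInt (p ^ n) := by
  obtain ⟨a, rfl⟩ := isInt_iff.1 hp
  exact isInt_iff.2 ⟨a ^ n, map_pow _ _ _⟩

theorem IsInt.zsmul {p : MvPolynomial σ ℝ} (hp : IsInt p) (a : ℤ) : IsInt ((a : ℝ) • p) := by
  rw [← C_mul']; exact (isInt_C a).mul hp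

theorem IsInt.nsmul {p : MvPolynomial σ ℝ} (hp : IsInt p) (a : ℕ) : IsInt ((a : ℝ) • p) := by
  simpa using hp.zsmul a

theorem isInt_sum {ι : Type*} {s : Finset ι} {f : ι → MvPolynomial σ ℝ}
    (h : ∀ i ∈ s, IsInt (f i)) : IsInt (∑ i ∈ s, f i) :=
  sum_induction f IsInt (fun _ _ => IsInt.add) isInt_zero h

theorem isInt_prod {ι : Type*} {s : Finset ι} {f : ι → MvPolynomial σ ℝ}
    (h : ∀ i ∈ s, IsInt (f i)) : IsInt (∏ i ∈ s, f i) :=
  prod_induction f IsInt (fun _ _ => IsInt.mul) isInt_one h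

theorem IsInt.pderiv {p : MvPolynomial σ ℝ} (hp : IsInt p) (i : σ) : IsInt (pderiv i p) := by
  obtain ⟨a, rfl⟩ := isInt_iff.1 hp
  exact isInt_iff.2 ⟨MvPolynomial.pderiv i a, pderiv_map.symm⟩

theorem IsInt.aeval {p : MvPolynomial σ ℝ} (hp : IsInt p) {f : σ → MvPolynomial τ ℝ}
    (hf : ∀ i, IsInt (f i)) : IsInt (aeval f p) := by
  rw [p.as_sum, map_sum]
  refine isInt_sum fun m _ => ?_
  obtain ⟨a, ha⟩ := hp m
  rw [aeval_monomial, algebraMap_eq, ha]
  exact (isInt_C a).mul (isInt_prod fun i _ => (hf i).pow _)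

theorem IsInt.rename {p : MvPolynomial σ ℝ} (hp : IsInt p) (g : σ → τ) : IsInt (rename g p) := by
  obtain ⟨a, rfl⟩ := isInt_iff.1 hp
  exact isInt_iff.2 ⟨MvPolynomial.rename g a, map_rename _ _ _⟩

theorem IsInt.whc {M : Type*} [AddCommMonoid M] {p : MvPolynomial σ ℝ} (hp : IsInt p) (w : σ → M)
    (n : M) : IsInt (weightedHomogeneousComponent w n p) := by
  classical
  intro m
  rw [coeff_weightedHomogeneousComponent]
  split_ifs
  · exact hp m
  · exact ⟨0, by simp⟩

theorem IsInt.eval {p : MvPolynomial σ ℝ} (hp : IsInt p) (x : σ → ℤ) :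
    ∃ a : ℤ, eval (fun i => (x i : ℝ)) p = a := by
  obtain ⟨q, rfl⟩ := isInt_iff.1 hp
  refine ⟨MvPolynomial.eval x q, ?_⟩
  rw [eval_map]
  exact (eval₂_comp (Int.castRingHom ℝ) x q).symm

theorem IsInt.eq_zero {p : MvPolynomial σ ℝ} (hp : IsInt p) (h : nrm p < 1) : p = 0 := by
  ext m
  obtain ⟨a, ha⟩ := hp m
  have h1 := (abs_coeff_le p m).trans_lt h
  rw [ha] at h1 ⊢
  have : |a| < 1 := by exact_mod_cast h1
  simp [Int.abs_lt_one_iff.1 this]

/-- chain rule -/
theorem pderiv_aeval [Fintype σ] (f : σ → MvPolynomial τ ℝ) (j : τ) (p : MvPolynomial σ ℝ) :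
    pderiv j (aeval f p) = ∑ i, aeval f (pderiv i p) * pderiv j (f i) := by
  classical
  induction p using MvPolynomial.induction_on with
  | C a => simp
  | add p q hp hq => simp only [map_add, hp, hq, add_mul, sum_add_distrib]
  | mul_X p k hp =>
    simp only [map_mul, aeval_X, Derivation.leibniz, smul_eq_mul, hp, map_add, add_mul,
      sum_add_distrib, pderiv_X, mul_sum]
    congr 1
    · rw [sum_eq_single k]
      · simp
      · intro i _ hi; simp [hi.symm]
      · simp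
    · exact sum_congr rfl fun i _ => by ring

/-- a polynomial all of whose partial derivatives vanish is constant -/
theorem eq_C_of_pderiv {p : MvPolynomial σ ℝ} (h : ∀ i, pderiv i p = 0) : p = C (coeff 0 p) := by
  classical
  ext m
  rw [coeff_C]
  split_ifs with hm
  · rw [← hm]
  · obtain ⟨i, hi⟩ : ∃ i, m i ≠ 0 := by
      by_contra hc
      push Not at hc
      exact hm (Finsupp.ext fun i => (hc i).symm)
    have h1 := congrArg (coeff (m - Finsupp.single i 1)) (h i)
    rw [coeff_pderiv, coeff_zero, tsub_add_cancel_of_le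
      (Finsupp.single_le_iff.2 (Nat.one_le_iff_ne_zero.2 hi))] at h1
    refine (mul_eq_zero.1 h1).resolve_right ?_
    positivity

/-- a variable that occurs has a non zero partial derivative -/
theorem pderiv_ne_zero {p : MvPolynomial σ ℝ} {i : σ} (h : i ∈ p.vars) : pderiv i p ≠ 0 := by
  classical
  obtain ⟨m, hm, hi⟩ := (mem_vars_iff_mem_support i).1 h
  intro h0
  have hi' : m i ≠ 0 := Finsupp.mem_support_iff.1 hi
  have h1 := congrArg (coeff (m - Finsupp.single i 1)) h0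
  rw [coeff_pderiv, coeff_zero, tsub_add_cancel_of_le
    (Finsupp.single_le_iff.2 (Nat.one_le_iff_ne_zero.2 hi'))] at h1
  refine mem_support_iff.1 hm ((mul_eq_zero.1 h1).resolve_right ?_)
  positivity

end Vale.Agent.P057T.L1
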