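import Vale.Agent.P057T.Gau2H52
import Mathlib.LinearAlgebra.Matrix.Block

/-!
Triangular Gaussian weights on `ℤ^ι`: block splitting, summability, crude mass.
-/

open MeasureTheory Set Complex Matrix
open scoped Real
open Vale.Agent.P267.H775

namespace Vale.Agent.P057T.Poi

noncomputable section

set_option linter.unusedSectionVars false

section Blocks

variable {ι : Type} [Fintype ι] [DecidableEq ι]

/-- The diagonal block on `p`. -/
def blk (p : ι → Prop) (A : Matrix ι ι ℝ) : Matrix {i // p i} {i // p i} ℝ :=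
  A.submatrix Subtype.val Subtype.val

/-- `A` does not mix `p` and its complement. -/
def Sep (p : ι → Prop) (A : Matrix ι ι ℝ) : Prop := ∀ i j, ¬ (p i ↔ p j) → A i j = 0

/-- Gluing two partial vectors. -/
def glue {α : Type} (p : ι → Prop) [DecidablePred p] (a : {i // p i} → α) (b : {i // ¬ p i} → α) :
    ι → α := fun i => if h : p i then a ⟨i, h⟩ else b ⟨i, h⟩

variable (p : ι → Prop) [DecidablePred p]

theorem glue_pos {α : Type} (a : {i // p i} → α) (b : {i // ¬ p i} → α) (i : {i // p i}) :
    glue p a b i = a i := dif_pos i.2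

theorem glue_neg {α : Type} (a : {i // p i} → α) (b : {i // ¬ p i} → α) (i : {i // ¬ p i}) :
    glue p a b i = b i := dif_neg i.2

/-- The splitting of the lattice. -/
def glE : ({i // p i} → ℤ) × ({i // ¬ p i} → ℤ) ≃ (ι → ℤ) where
  toFun u := glue p u.1 u.2
  invFun z := (fun i => z i, fun i => z i)
  left_inv u := by
    ext i
    · exact glue_pos p _ _ i
    · exact glue_neg p _ _ i
  right_inv z := by
    funext i
    simp only [glue]
    split_ifs <;> rfl

theorem Sep.neg {p : ι → Prop} {A : Matrix ι ι ℝ} (h : Sep p A) : Sep (fun i => ¬ p i) A :=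
  fun i j hij => h i j fun h2 => hij (not_congr h2)

theorem mulVec_blk {A : Matrix ι ι ℝ} (h : Sep p A) (x : ι → ℝ) (i : {i // p i}) :
    (A *ᵥ x) i = (blk p A *ᵥ fun j => x j) i := by
  simp only [mulVec, dotProduct, blk, submatrix_apply]
  rw [← Fintype.sum_subtype_add_sum_subtype p]
  rw [Finset.sum_eq_zero (s := (Finset.univ : Finset {j // ¬ p j})), add_zero]
  intro j _
  rw [h i j fun h2 => j.2 (h2.1 i.2), zero_mul]

theorem qf_blk {A : Matrix ι ι ℝ} (h : Sep p A) (x : ι → ℝ) :
    qf A x = qf (blk p A) (fun j => x j) + qf (blk (fun i => ¬ p i) A) (fun j => x j) := by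
  unfold qf
  rw [← Fintype.sum_subtype_add_sum_subtype p]
  congr 1
  · exact Finset.sum_congr rfl fun i _ => by rw [mulVec_blk p h]
  · exact Finset.sum_congr rfl fun i _ => by rw [mulVec_blk (fun i => ¬ p i) h.neg]

theorem gq_blk {A : Matrix ι ι ℝ} (h : Sep p A) (x : ι → ℝ) :
    gq A x = gq (blk p A) (fun j => x j) * gq (blk (fun i => ¬ p i) A) (fun j => x j) := by
  unfold gq
  rw [qf_blk p h, mul_add, Real.exp_add]

theorem det_blk {A : Matrix ι ι ℝ} (h : Sep p A) :
    A.det = (blk p A).det * (blk (fun i => ¬ p i) A).det :=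
  twoBlockTriangular_det A p fun i hi j hj => h i j fun h2 => hi (h2.2 hj)

theorem det_blk_ne {A : Matrix ι ι ℝ} (h : Sep p A) (hA : A.det ≠ 0) :
    (blk p A).det ≠ 0 ∧ (blk (fun i => ¬ p i) A).det ≠ 0 := by
  rw [det_blk p h] at hA
  exact mul_ne_zero_iff.1 hA

theorem tsum_glue {E : Type*} [NormedAddCommGroup E] [CompleteSpace E] {f : (ι → ℤ) → E}
    (hf : Summable f) : ∑' z, f z = ∑' a, ∑' b, f (glue p a b) := by
  have h : Summable fun u => f (glE p u) := (glE p).summable_iff.2 hf
  rw [← (glE p).tsum_eq, h.tsum_prod]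
  rfl

theorem summable_glue_in {E : Type*} [NormedAddCommGroup E] [CompleteSpace E] {f : (ι → ℤ) → E}
    (hf : Summable f) (a : {i // p i} → ℤ) : Summable fun b => f (glue p a b) :=
  ((glE p).summable_iff.2 hf).prod_factor a

theorem summable_glue_out {E : Type*} [NormedAddCommGroup E] [CompleteSpace E] {f : (ι → ℤ) → E}
    (hf : Summable f) : Summable fun a => ∑' b, f (glue p a b) :=
  ((glE p).summable_iff.2 hf).prod

theorem summable_of_glue {f : (ι → ℤ) → ℝ} (h0 : ∀ z, 0 ≤ f z)
    (h1 : ∀ a, Summable fun b => f (glue p a b)) (h2 : Summable fun a => ∑' b, f (glue p a b)) :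
    Summable f :=
  (glE p).summable_iff.1 ((summable_prod_of_nonneg fun _ => h0 _).2 ⟨h1, h2⟩)

theorem th_blk {A : Matrix ι ι ℝ} (h : Sep p A) (hA : A.det ≠ 0) (x : ι → ℝ) :
    th A x = th (blk p A) (fun j => x j) * th (blk (fun i => ¬ p i) A) (fun j => x j) := by
  unfold th
  rw [tsum_glue p (summable_gq hA x), ← tsum_mul_right]
  refine tsum_congr fun a => ?_
  rw [← tsum_mul_left]
  refine tsum_congr fun b => ?_
  rw [gq_blk p h]
  congr 2
  · funext j
    simp [glue_pos]
  · funext j
    simp [glue_neg]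

theorem blk_inv {A : Matrix ι ι ℝ} (h : Sep p A) (hA : A.det ≠ 0) :
    Sep p A⁻¹ ∧ blk p A⁻¹ = (blk p A)⁻¹ := by
  obtain ⟨h1, h2⟩ := det_blk_ne p h hA
  let B : Matrix ι ι ℝ := Matrix.of fun i j =>
    if hi : p i then (if hj : p j then (blk p A)⁻¹ ⟨i, hi⟩ ⟨j, hj⟩ else 0)
    else (if hj : p j then 0 else (blk (fun i => ¬ p i) A)⁻¹ ⟨i, hi⟩ ⟨j, hj⟩)
  have e1 := nonsing_inv_mul _ (isUnit_iff_ne_zero.2 h1)
  have e2 := nonsing_inv_mul _ (isUnit_iff_ne_zero.2 h2)
  have hB : B * A = 1 := by
    ext i j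
    rw [mul_apply, ← Fintype.sum_subtype_add_sum_subtype p]
    by_cases hi : p i <;> by_cases hj : p j
    · have := congrFun (congrFun e1 ⟨i, hi⟩) ⟨j, hj⟩
      rw [mul_apply] at this
      rw [Finset.sum_eq_zero (s := (Finset.univ : Finset {j // ¬ p j})) fun l _ => by
        simp only [B, of_apply, dif_pos hi, dif_neg l.2, zero_mul], add_zero]
      simp only [B, of_apply, dif_pos hi]
      rw [one_apply] at this ⊢
      simp only [Subtype.mk.injEq] at this
      rw [← this]
      exact Finset.sum_congr rfl fun l _ => by rw [dif_pos l.2]; rfl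
    · rw [Finset.sum_eq_zero fun l _ => by rw [h l j fun h3 => hj (h3.1 l.2), mul_zero],
        Finset.sum_eq_zero fun l _ => by
          simp only [B, of_apply, dif_pos hi, dif_neg l.2, zero_mul], add_zero,
        one_apply_ne fun h3 : i = j => hj (h3 ▸ hi)]
    · rw [Finset.sum_eq_zero fun l _ => by
          simp only [B, of_apply, dif_neg hi, dif_pos l.2, zero_mul],
        Finset.sum_eq_zero fun l _ => by rw [h l j fun h3 => l.2 (h3.2 hj), mul_zero], add_zero,
        one_apply_ne fun h3 : i = j => hi (h3 ▸ hj)]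
    · have := congrFun (congrFun e2 ⟨i, hi⟩) ⟨j, hj⟩
      rw [mul_apply] at this
      rw [Finset.sum_eq_zero (s := (Finset.univ : Finset {j // p j})) fun l _ => by
        simp only [B, of_apply, dif_neg hi, dif_pos l.2, zero_mul], zero_add]
      simp only [B, of_apply, dif_neg hi]
      rw [one_apply] at this ⊢
      simp only [Subtype.mk.injEq] at this
      rw [← this]
      exact Finset.sum_congr rfl fun l _ => by rw [dif_neg l.2]; rfl
  have hI : A⁻¹ = B := Matrix.inv_eq_left_inv hB
  rw [hI]
  constructor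
  · intro i j hij
    by_cases hi : p i <;> by_cases hj : p j
    · exact absurd (iff_of_true hi hj) hij
    · simp only [B, of_apply, dif_pos hi, dif_neg hj]
    · simp only [B, of_apply, dif_neg hi, dif_pos hj]
    · exact absurd (iff_of_false hi hj) hij
  · ext i j
    simp only [B, blk, submatrix_apply, of_apply, dif_pos i.2, dif_pos j.2]

end Blocks

/-- The centre `c z i` depends only on the coordinates of earlier stages. -/
def Tri {ι : Type} (st : ι → ℕ) (c : (ι → ℤ) → ι → ℝ) : Prop :=
  ∀ z z' i, (∀ j, st j < st i → z j = z' j) → c z i = c z' i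

/-- A triangular Gaussian weight is summable and its mass is at most the theta value. -/
theorem tower_sum (S : ℕ) : ∀ (ι : Type) [Fintype ι] [DecidableEq ι] (st : ι → ℕ)
    (A : Matrix ι ι ℝ) (c : (ι → ℤ) → ι → ℝ), (∀ i, st i < S) →
    (∀ i j, st i ≠ st j → A i j = 0) → A.det ≠ 0 → Tri st c →
    Summable (fun z => gq A (toR z - c z)) ∧ ∑' z, gq A (toR z - c z) ≤ th A 0 := by
  induction S with
  | zero =>
    intro ι _ _ st A c hS _ hA _
    have : IsEmpty ι := ⟨fun i => absurd (hS i) (Nat.not_lt_zero _)⟩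
    have : (fun z : ι → ℤ => gq A (toR z - c z)) = fun z => gq A (0 + toR z) := by
      funext z
      congr 1
      exact Subsingleton.elim _ _
    rw [this]
    exact ⟨summable_gq hA 0, le_rfl⟩
  | succ S ih =>
    intro ι _ _ st A c hS hb hA hc
    let p : ι → Prop := fun i => st i < S
    have hp : Sep p A := fun i j hij => hb i j fun h => hij (by simp only [p, h])
    obtain ⟨h1, h2⟩ := det_blk_ne p hp hA
    obtain ⟨s1, m1⟩ := ih {i // p i} (fun i => st i) (blk p A)
      (fun a i => c (glue p a 0) i) (fun i => i.2) (fun i j hij => hb i j hij) h1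
      (fun a a' i h => hc _ _ _ fun j hj => by
        have hj' : p j := lt_trans hj i.2
        have := h ⟨j, hj'⟩ hj
        simp only [glue, dif_pos hj', this])
    have hcc : ∀ a b i, c (glue p a b) i = c (glue p a 0) i := fun a b i =>
      hc _ _ _ fun j hj => by
        have hj' : p j := lt_of_lt_of_le hj (Nat.le_of_lt_succ (hS i))
        simp only [glue, dif_pos hj']
    have he : ∀ a b, gq A (toR (glue p a b) - c (glue p a b)) =
        gq (blk p A) (toR a - fun i : {i // p i} => c (glue p a 0) i) *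
          gq (blk (fun i => ¬ p i) A) ((fun i : {i // ¬ p i} => -c (glue p a 0) i) + toR b) := by
      intro a b
      rw [gq_blk p hp]
      congr 2
      · funext j
        simp [glue_pos, hcc a b]
      · funext j
        simp only [Pi.sub_apply, toR_apply, glue_neg, hcc a b, Pi.add_apply]
        ring
    have hin : ∀ a, Summable fun b => gq A (toR (glue p a b) - c (glue p a b)) := fun a => by
      simp only [he]
      exact (summable_gq h2 _).mul_left _
    have hle : ∀ a, ∑' b, gq A (toR (glue p a b) - c (glue p a b)) ≤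
        gq (blk p A) (toR a - fun i : {i // p i} => c (glue p a 0) i) *
          th (blk (fun i => ¬ p i) A) 0 := by
      intro a
      simp only [he]
      rw [tsum_mul_left]
      exact mul_le_mul_of_nonneg_left (th_le h2 _) (gq_pos _ _).le
    have hs2 := s1.mul_right (th (blk (fun i => ¬ p i) A) 0)
    have hout : Summable fun a => ∑' b, gq A (toR (glue p a b) - c (glue p a b)) :=
      Summable.of_nonneg_of_le (fun a => tsum_nonneg fun b => (gq_pos _ _).le) hle hs2
    have hs := summable_of_glue p (f := fun z => gq A (toR z - c z)) (fun z => (gq_pos _ _).le)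
      hin hout
    refine ⟨hs, ?_⟩
    rw [tsum_glue p hs, th_blk p hp hA]
    refine (hout.tsum_le_tsum hle hs2).trans ?_
    rw [tsum_mul_right]
    exact mul_le_mul_of_nonneg_right m1 (th_pos h2 _).le

theorem tower_sum' {ι : Type} [Fintype ι] [DecidableEq ι] (st : ι → ℕ) {A : Matrix ι ι ℝ}
    {c : (ι → ℤ) → ι → ℝ} (hb : ∀ i j, st i ≠ st j → A i j = 0) (hA : A.det ≠ 0)
    (hc : Tri st c) :
    Summable (fun z => gq A (toR z - c z)) ∧ ∑' z, gq A (toR z - c z) ≤ th A 0 :=
  tower_sum (Finset.univ.sup st + 1) ι st A c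
    (fun i => Nat.lt_succ_of_le (Finset.le_sup (Finset.mem_univ i))) hb hA hc

/-- Tail of a triangular weight. -/
theorem tower_tail {ι : Type} [Fintype ι] [DecidableEq ι] (st : ι → ℕ) {A : Matrix ι ι ℝ}
    {c : (ι → ℤ) → ι → ℝ} (hb : ∀ i j, st i ≠ st j → A i j = 0) (hA : A.det ≠ 0)
    (hc : Tri st c) (K : ℝ) {s : ℝ} (hs : 0 < s) (hs1 : s ≤ 1) :
    ∑' z, (if K ≤ qf A (toR z - c z) then gq A (toR z - c z) else 0) ≤
      Real.exp (-(π * (1 - s ^ 2) * K)) * ∑' z, gq (s • A) (toR z - c z) := by
  have h1 := (tower_sum' st (A := s • A) (fun i j h => by simp [hb i j h])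
    (det_smul_ne hs.ne' hA) hc).1.mul_left (Real.exp (-(π * (1 - s ^ 2) * K)))
  have hle : ∀ z, (if K ≤ qf A (toR z - c z) then gq A (toR z - c z) else 0) ≤
      Real.exp (-(π * (1 - s ^ 2) * K)) * gq (s • A) (toR z - c z) := by
    intro z
    split_ifs with h
    · unfold gq
      rw [← Real.exp_add, Real.exp_le_exp, qf_smul]
      have h2 : 0 ≤ π * (1 - s ^ 2) := mul_nonneg Real.pi_pos.le (by nlinarith)
      nlinarith [mul_le_mul_of_nonneg_left h h2]
    · exact (mul_pos (Real.exp_pos _) (gq_pos _ _)).le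
  rw [← tsum_mul_left]
  refine (Summable.of_nonneg_of_le (fun z => ?_) hle h1).tsum_le_tsum hle h1
  split_ifs
  · exact (gq_pos _ _).le
  · exact le_rfl

end

end Vale.Agent.P057T.Poi
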