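import Vale.Agent.P057T.L1
import Mathlib.Algebra.MvPolynomial.Supported
import Mathlib.LinearAlgebra.Matrix.NonsingularInverse

/-! Triangular polynomial changes of variables. -/

namespace Vale.Agent.P057T.Chart

open MvPolynomial Finset L1

variable {ι τ : Type*}

theorem aeval_congr_vars {f f' : ι → MvPolynomial τ ℝ} {p : MvPolynomial ι ℝ}
    (h : ∀ i ∈ p.vars, f i = f' i) : aeval f p = aeval f' p :=
  hom_congr_vars (f₁ := (aeval f : _ →ₐ[ℝ] _).toRingHom) (f₂ := (aeval f' : _ →ₐ[ℝ] _).toRingHom)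
    (by ext a; simp) (fun i hi _ => by simpa using h i hi) rfl

/-- variables after a substitution -/
theorem vars_aeval {P : τ → Prop} {f : ι → MvPolynomial τ ℝ} {p : MvPolynomial ι ℝ}
    (h : ∀ i ∈ p.vars, ∀ j ∈ (f i).vars, P j) : ∀ j ∈ (aeval f p).vars, P j := by
  classical
  intro j hj
  rw [aeval_eq_bind₁] at hj
  obtain ⟨i, hi, hij⟩ := mem_vars_bind₁ f p hj
  exact h i hi j hij

theorem vars_add' {P : ι → Prop} {p q : MvPolynomial ι ℝ} (hp : ∀ j ∈ p.vars, P j)
    (hq : ∀ j ∈ q.vars, P j) : ∀ j ∈ (p + q).vars, P j := by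
  classical
  intro j hj
  rcases mem_union.1 (vars_add_subset p q hj) with h | h
  exacts [hp j h, hq j h]

theorem vars_sub' {P : ι → Prop} {p q : MvPolynomial ι ℝ} (hp : ∀ j ∈ p.vars, P j)
    (hq : ∀ j ∈ q.vars, P j) : ∀ j ∈ (p - q).vars, P j := by
  rw [sub_eq_add_neg]; exact vars_add' hp (by rwa [vars_neg])

theorem vars_mul' {P : ι → Prop} {p q : MvPolynomial ι ℝ} (hp : ∀ j ∈ p.vars, P j)
    (hq : ∀ j ∈ q.vars, P j) : ∀ j ∈ (p * q).vars, P j := by
  classical
  intro j hj
  rcases mem_union.1 (vars_mul p q hj) with h | h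
  exacts [hp j h, hq j h]

theorem vars_sum' {κ : Type*} {P : ι → Prop} {s : Finset κ} {f : κ → MvPolynomial ι ℝ}
    (h : ∀ a ∈ s, ∀ j ∈ (f a).vars, P j) : ∀ j ∈ (∑ a ∈ s, f a).vars, P j :=
  sum_induction f (fun p => ∀ j ∈ p.vars, P j) (fun _ _ => vars_add') (by simp) h

theorem vars_X' {P : ι → Prop} {i : ι} (h : P i) : ∀ j ∈ (X i : MvPolynomial ι ℝ).vars, P j := by
  intro j hj
  rw [vars_X, mem_singleton] at hj
  exact hj ▸ h

theorem vars_C' {P : ι → Prop} (a : ℝ) : ∀ j ∈ (C a : MvPolynomial ι ℝ).vars, P j := by simp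

theorem vars_pderiv' {P : ι → Prop} {p : MvPolynomial ι ℝ} (i : ι) (hp : ∀ j ∈ p.vars, P j) :
    ∀ j ∈ (pderiv i p).vars, P j := by
  classical
  intro j hj
  obtain ⟨m, hm, hjm⟩ := (mem_vars_iff_mem_support j).1 hj
  have h1 := mem_support_iff.1 hm
  rw [coeff_pderiv] at h1
  refine hp j ((mem_vars_iff_mem_support j).2 ⟨_, mem_support_iff.2 (left_ne_zero_of_mul h1), ?_⟩)
  rw [Finsupp.mem_support_iff] at hjm ⊢
  rw [Finsupp.add_apply]; omega

/-- substitution of homogeneous polynomials of the right degrees -/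
theorem hom_aeval {w : ι → ℕ} {v : τ → ℕ} {f : ι → MvPolynomial τ ℝ} {p : MvPolynomial ι ℝ} {n : ℕ}
    (hp : p.IsWeightedHomogeneous w n) (hf : ∀ i, (f i).IsWeightedHomogeneous v (w i)) :
    (aeval f p).IsWeightedHomogeneous v n := by
  rw [p.as_sum, map_sum]
  refine IsWeightedHomogeneous.sum _ _ _ fun m hm => ?_
  rw [aeval_monomial, algebraMap_eq, ← zero_add n]
  refine (isWeightedHomogeneous_C v _).mul ?_
  have h1 : n = ∑ i ∈ m.support, m i • w i := by
    rw [← hp (mem_support_iff.1 hm), Finsupp.weight_apply]; rfl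
  rw [h1]
  exact IsWeightedHomogeneous.prod _ _ _ fun i _ => (hf i).pow _

/-- iteration for the inverse of `X i - q i` -/
noncomputable def it (q : ι → MvPolynomial ι ℝ) : ℕ → ι → MvPolynomial ι ℝ
  | 0 => X
  | n + 1 => fun i => X i + aeval (it q n) (q i)

theorem it_stab {g : ι → ℕ} {q : ι → MvPolynomial ι ℝ} (hq : ∀ i, ∀ j ∈ (q i).vars, g j < g i) :
    ∀ n i, g i ≤ n → it q (n + 2) i = it q (n + 1) i := by
  intro n
  induction n with
  | zero =>
    intro i hi
    show X i + aeval (it q 1) (q i) = X i + aeval (it q 0) (q i)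
    rw [aeval_congr_vars fun j hj => absurd (hq i j hj) (by omega)]
  | succ n ih =>
    intro i hi
    show X i + aeval (it q (n + 2)) (q i) = X i + aeval (it q (n + 1)) (q i)
    rw [aeval_congr_vars fun j hj => ih j (by have := hq i j hj; omega)]

theorem it_vars {g : ι → ℕ} {q : ι → MvPolynomial ι ℝ} (hq : ∀ i, ∀ j ∈ (q i).vars, g j < g i) :
    ∀ n i, ∀ j ∈ (it q n i).vars, g j ≤ g i := by
  intro n
  induction n with
  | zero => exact fun i => vars_X' le_rfl
  | succ n ih =>
    exact fun i => vars_add' (vars_X' le_rfl)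
      (vars_aeval fun k hk j hj => (ih k j hj).trans (hq i k hk).le)

theorem it_hom {w : ι → ℕ} {q : ι → MvPolynomial ι ℝ}
    (hq : ∀ i, (q i).IsWeightedHomogeneous w (w i)) :
    ∀ n i, (it q n i).IsWeightedHomogeneous w (w i) := by
  intro n
  induction n with
  | zero => exact fun i => isWeightedHomogeneous_X ℝ w i
  | succ n ih => exact fun i => (isWeightedHomogeneous_X ℝ w i).add (hom_aeval (hq i) ih)

/-- the unipotent substitution `X i ↦ X i - q i` has a two-sided inverse `r` -/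
theorem exists_inv [Fintype ι] {g : ι → ℕ} {q : ι → MvPolynomial ι ℝ}
    (hq : ∀ i, ∀ j ∈ (q i).vars, g j < g i) :
    ∃ r : ι → MvPolynomial ι ℝ, (∀ i, r i = X i + aeval r (q i)) ∧
      (∀ i, ∀ j ∈ (r i).vars, g j ≤ g i) ∧
      (∀ p, aeval r (aeval (fun i => X i - q i) p) = p) ∧
      (∀ p, aeval (fun i => X i - q i) (aeval r p) = p) ∧
      ∀ w : ι → ℕ, (∀ i, (q i).IsWeightedHomogeneous w (w i)) →
        ∀ i, (r i).IsWeightedHomogeneous w (w i) := by
  have h1 : ∀ i, it q (univ.sup g + 1) i = X i + aeval (it q (univ.sup g + 1)) (q i) := fun i =>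
    (it_stab hq _ i (le_sup (f := g) (mem_univ i))).symm
  refine ⟨it q (univ.sup g + 1), h1, it_vars hq _, fun p => ?_, fun p => ?_,
    fun w hw => it_hom hw _⟩
  · rw [← AlgHom.comp_apply, comp_aeval]
    conv_rhs => rw [← aeval_X_left_apply p]
    congr 2
    funext i
    rw [map_sub, aeval_X, h1 i, add_sub_cancel_right]
  · have h2 : ∀ n i, g i = n → aeval (fun i => X i - q i) (it q (univ.sup g + 1) i) = X i := by
      intro n
      induction n using Nat.strong_induction_on with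
      | _ n ih =>
        intro i hi
        rw [h1 i, map_add, aeval_X, ← AlgHom.comp_apply, comp_aeval,
          aeval_congr_vars (f' := X) fun j hj => ih _ (hi ▸ hq i j hj) j rfl, aeval_X_left_apply,
          sub_add_cancel]
    rw [← AlgHom.comp_apply, comp_aeval]
    conv_rhs => rw [← aeval_X_left_apply p]
    congr 2
    funext i
    exact h2 _ i rfl

/-- linear substitution by a matrix -/
noncomputable def lin [Fintype τ] (A : Matrix ι τ ℝ) (i : ι) : MvPolynomial τ ℝ :=
  ∑ j, C (A i j) * X j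

theorem aeval_lin [Fintype τ] {κ : Type*} (A : Matrix ι τ ℝ) (f : τ → MvPolynomial κ ℝ) (i : ι) :
    aeval f (lin A i) = ∑ j, C (A i j) * f j := by
  simp [lin]

theorem lin_lin [Fintype τ] {κ : Type*} [Fintype κ] (A : Matrix ι τ ℝ) (B : Matrix τ κ ℝ) (i : ι) :
    aeval (lin B) (lin A i) = lin (A * B) i := by
  rw [aeval_lin]
  simp only [lin, Matrix.mul_apply, mul_sum, map_sum, sum_mul, map_mul]
  rw [sum_comm]
  exact sum_congr rfl fun _ _ => sum_congr rfl fun _ _ => by ring

theorem lin_one [Fintype ι] [DecidableEq ι] (i : ι) : lin (1 : Matrix ι ι ℝ) i = X i := by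
  rw [lin, sum_eq_single i]
  · simp
  · intro j _ hj; simp [Matrix.one_apply_ne hj.symm]
  · simp

theorem nrm_lin_le [Fintype τ] (A : Matrix ι τ ℝ) (i : ι) : nrm (lin A i) ≤ ∑ j, |A i j| :=
  (nrm_sum_le _ _).trans (sum_le_sum fun j _ => by rw [nrm_C_mul, nrm_X, mul_one])

theorem pderiv_lin [Fintype τ] (A : Matrix ι τ ℝ) (i : ι) (y : τ) :
    pderiv y (lin A i) = C (A i y) := by
  classical
  rw [lin, map_sum, sum_eq_single y]
  · simp
  · intro j _ hj; simp [pderiv_X, hj.symm]
  · simp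

/-- derivative in a direction in which the chart has constant derivative -/
theorem pderiv_chart [Fintype ι] {t : ι → MvPolynomial τ ℝ} {b : MvPolynomial ι ℝ} {y : τ}
    {a : ι → ℝ} (h : ∀ i ∈ b.vars, pderiv y (t i) = C (a i)) :
    pderiv y (aeval t b) = aeval t (∑ i, C (a i) * pderiv i b) := by
  rw [pderiv_aeval, map_sum]
  refine sum_congr rfl fun i _ => ?_
  by_cases hi : i ∈ b.vars
  · rw [h i hi, map_mul, aeval_C, algebraMap_eq, mul_comm]
  · simp [pderiv_eq_zero_of_notMem_vars hi]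

theorem nrm_dir_le [Fintype ι] (a : ι → ℝ) {b : MvPolynomial ι ℝ} {d : ℕ} (hd : b.totalDegree ≤ d) :
    nrm (∑ i, C (a i) * pderiv i b) ≤ (∑ i, |a i|) * (d * nrm b) := by
  rw [sum_mul]
  exact (nrm_sum_le _ _).trans (sum_le_sum fun i _ => by
    rw [nrm_C_mul]; exact mul_le_mul_of_nonneg_left (nrm_pderiv_le i hd) (abs_nonneg _))

/-- weights at least one: the degree is at most the weighted degree -/
theorem totalDegree_le_of_hom {w : ι → ℕ} (hw : ∀ i, 1 ≤ w i) {p : MvPolynomial ι ℝ} {n : ℕ}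
    (hp : p.IsWeightedHomogeneous w n) : p.totalDegree ≤ n := by
  refine Finset.sup_le fun m hm => ?_
  rw [← hp (mem_support_iff.1 hm), Finsupp.weight_apply]
  exact sum_le_sum fun i _ => by simpa using Nat.le_mul_of_pos_right (m i) (hw i)

end Vale.Agent.P057T.Chart
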