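import Vale.Agent.P057T.StartV
import Vale.Agent.P057L.All

/-! The start in boxes, closed. -/

namespace Vale.Agent.P057T

open Vale.Agent.P057L

theorem hga0 : HGA := hga (tail (pair (core0 All.recs))) (sgg gh)

theorem startv1 : STARTV := startv0 hga0

end Vale.Agent.P057T
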