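import Vale.Agent.P057T.CutH64b

/-!
Relative mixture bound, cosets, products of sums.
-/

open MeasureTheory Matrix
open scoped Real
open Vale.Agent.P267.H775 Vale.Agent.P057T.Poi

namespace Vale.Agent.P057T.Cut

noncomputable section

set_option linter.unusedSectionVars false

variable {N : Type*} [Fintype N] [DecidableEq N] {β : Type*}

theorem gq_le_of_qf {B C : Matrix N N ℝ} {η : ℝ} (hBC : ∀ x, qf B x ≤ η * qf C x) (hη : η ≤ 1)
    (x : N → ℝ) : gq C x ≤ gq B x := by
  unfold gq
  rw [Real.exp_le_exp]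
  have h1 := hBC x
  have h2 := qf_nonneg C x
  have := Real.pi_pos
  nlinarith [mul_le_mul_of_nonneg_right hη h2]

/-- Mixture over narrow windows, one sided relative form. -/
theorem mixt1 [Countable β] {B C : Matrix N N ℝ} (hB : B.det ≠ 0) (hC : C.det ≠ 0)
    {U : β → N → ℝ} {m δ η e θ : ℝ} (hm0 : 0 ≤ m) (hδ : δ ≤ 1) (hδ0 : 0 ≤ δ) (hθ : 0 < θ)
    (hM : Mas B U m δ) (hBC : ∀ x, qf B x ≤ η * qf C x) (hη : 0 ≤ η) (hη1 : η ≤ 1) (he : 0 ≤ e)
    {H : β → ℝ} (hH : ∀ b, |H b| ≤ 1)
    (hw : ∀ c, ∑' b, gq C (U b - c) * H b ≤ e * ∑' b, gq C (U b - c)) :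
    ∑' b, gq B (U b) * H b ≤ (2 * e + (2 * δ + η * 2 ^ Fintype.card N) / θ + 4 * θ) * m := by
  have hCp : 0 < |C.det| := abs_pos.2 hC
  have iC := integrable_gq hC
  have iB := integrable_gq hB
  have cB := continuous_gq B
  have cC := continuous_gq C
  have i1 : ∀ b, Integrable fun x => gq C x * gq B (U b - x) := fun b =>
    iC.mul_bdd (c := 1) (by fun_prop)
      (Filter.Eventually.of_forall fun x => by
        rw [Real.norm_eq_abs, abs_of_pos (gq_pos _ _)]; exact gq_le_one _ _)
  have i2 : ∀ b, Integrable fun c => gq B c * gq C (U b - c) := fun b =>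
    iB.mul_bdd (c := 1) (by fun_prop)
      (Filter.Eventually.of_forall fun x => by
        rw [Real.norm_eq_abs, abs_of_pos (gq_pos _ _)]; exact gq_le_one _ _)
  set I : β → ℝ := fun b => ∫ x, gq C x * gq B (U b - x) with hI
  have hI2 : ∀ b, ∫ c, gq B c * gq C (U b - c) = I b := by
    intro b
    rw [← integral_sub_left_eq_self (fun c => gq B c * gq C (U b - c)) volume (U b)]
    simp only [hI, sub_sub_cancel, mul_comm]
  have hI0 : ∀ b, 0 ≤ I b := fun b =>
    integral_nonneg fun x => (mul_pos (gq_pos _ _) (gq_pos _ _)).le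
  have hfin : ∀ s : Finset β, ∑ b ∈ s, I b ≤ ∫ x, gq C x * (2 * m) := by
    intro s
    simp only [hI]
    rw [← integral_finsetSum _ fun b _ => i1 b]
    refine integral_mono (integrable_finsetSum _ fun b _ => i1 b) (iC.mul_const _) fun x => ?_
    simp only
    rw [← Finset.mul_sum]
    refine mul_le_mul_of_nonneg_left ?_ (gq_pos _ _).le
    have h1 := (hM.sm x).sum_le_tsum s fun b _ => (gq_pos _ _).le
    have h2 := (abs_le.1 (hM.ms x)).2
    have : δ * m ≤ m := by nlinarith
    linarith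
  have sI : Summable I := summable_of_sum_le hI0 hfin
  have tI : ∑' b, I b ≤ |C.det|⁻¹ * (2 * m) := by
    have := sI.tsum_le_of_sum_le hfin
    rwa [integral_mul_const, integral_gq hC] at this
  have s0 : Summable fun b => gq B (U b) := by simpa using hM.sm 0
  have habs : ∀ b (t : ℝ), ‖t * H b‖ ≤ |t| := fun b t => by
    rw [Real.norm_eq_abs, abs_mul]
    exact mul_le_of_le_one_right (abs_nonneg _) (hH b)
  have j1 : ∀ b, Integrable fun x => gq C x * (gq B (U b) - gq B (U b - x)) := fun b => by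
    simp only [mul_sub]
    exact (iC.mul_const _).sub (i1 b)
  have A1 := hasSum_integral_of_summable_integral_norm (μ := volume)
    (F := fun b x => gq C x * (gq B (U b) - gq B (U b - x)) * H b)
    (fun b => (j1 b).mul_const _) (by
      refine Summable.of_nonneg_of_le (fun b => integral_nonneg fun x => norm_nonneg _)
        (fun b => ?_) ((s0.mul_left |C.det|⁻¹).add sI)
      rw [← integral_gq hC, ← integral_mul_const, hI, ← integral_add (iC.mul_const _) (i1 b)]
      refine integral_mono ((j1 b).mul_const _).norm ((iC.mul_const _).add (i1 b)) fun x => ?_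
      refine (habs b _).trans ?_
      rw [abs_mul, abs_of_pos (gq_pos _ _), ← mul_add]
      refine mul_le_mul_of_nonneg_left ?_ (gq_pos _ _).le
      have := gq_pos B (U b)
      have := gq_pos B (U b - x)
      rw [abs_le]
      constructor <;> linarith)
  have A2 := hasSum_integral_of_summable_integral_norm (μ := volume)
    (F := fun b c => gq B c * gq C (U b - c) * (e - H b))
    (fun b => (i2 b).mul_const _) (by
      refine Summable.of_nonneg_of_le (fun b => integral_nonneg fun x => norm_nonneg _)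
        (fun b => ?_) (sI.mul_right (e + 1))
      rw [← hI2, ← integral_mul_const]
      refine integral_mono ((i2 b).mul_const _).norm ((i2 b).mul_const _) fun x => ?_
      simp only
      rw [Real.norm_eq_abs, abs_mul, abs_of_pos (mul_pos (gq_pos _ _) (gq_pos _ _))]
      refine mul_le_mul_of_nonneg_left ?_ (mul_pos (gq_pos _ _) (gq_pos _ _)).le
      have := abs_le.1 (hH b)
      rw [abs_le]
      constructor <;> linarith)
  have e1 : ∀ b, ∫ x, gq C x * (gq B (U b) - gq B (U b - x)) * H b =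
      (|C.det|⁻¹ * gq B (U b) - I b) * H b := by
    intro b
    rw [integral_mul_const]
    simp only [mul_sub]
    rw [integral_sub (iC.mul_const _) (i1 b), integral_mul_const, integral_gq hC]
  have e2 : ∀ b, ∫ c, gq B c * gq C (U b - c) * (e - H b) = I b * (e - H b) := by
    intro b
    rw [integral_mul_const, hI2]
  simp only [e1] at A1
  simp only [e2] at A2
  have A3 := ((A1.add (sI.hasSum.mul_right e)).sub A2).mul_left |C.det|
  have e3 : (fun b => |C.det| * ((|C.det|⁻¹ * gq B (U b) - I b) * H b + I b * e -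
      I b * (e - H b))) = fun b => gq B (U b) * H b := by
    funext b
    field_simp
    ring
  rw [e3] at A3
  rw [A3.tsum_eq]
  have hC2 : ((1 / 2 : ℝ) • C).det ≠ 0 := det_smul_ne (by norm_num) hC
  have b1 : ‖∫ x, ∑' b, gq C x * (gq B (U b) - gq B (U b - x)) * H b‖ ≤
      ∫ x, (gq C x * (m * (2 * δ / θ + 4 * θ)) + gq ((1 / 2 : ℝ) • C) x * (m * η / θ)) := by
    refine norm_integral_le_of_norm_le ((iC.mul_const _).add ((integrable_gq hC2).mul_const _))
      (Filter.Eventually.of_forall fun x => ?_)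
    obtain ⟨h1, h2⟩ := hell hM hm0 hδ hδ0 hθ 0 x
    simp only [sub_zero] at h1 h2
    have h3 : ‖∑' b, gq C x * (gq B (U b) - gq B (U b - x)) * H b‖ ≤
        gq C x * ∑' b, |gq B (U b) - gq B (U b - x)| := by
      refine tsum_of_norm_bounded (h1.hasSum.mul_left _) fun b => ?_
      refine (habs b _).trans ?_
      rw [abs_mul, abs_of_pos (gq_pos _ _)]
    refine h3.trans ((mul_le_mul_of_nonneg_left h2 (gq_pos _ _).le).trans ?_)
    have h4 : gq C x * qf B x ≤ η * gq ((1 / 2 : ℝ) • C) x :=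
      calc _ ≤ gq C x * (η * qf C x) := mul_le_mul_of_nonneg_left (hBC x) (gq_pos _ _).le
        _ = η * (gq C x * qf C x) := by ring
        _ ≤ _ := mul_le_mul_of_nonneg_left (gq_mul_qf_le C x) hη
    calc _ = gq C x * (m * (2 * δ / θ + 4 * θ)) + m / θ * (gq C x * qf B x) := by ring
      _ ≤ gq C x * (m * (2 * δ / θ + 4 * θ)) + m / θ * (η * gq ((1 / 2 : ℝ) • C) x) := by
          gcongr
      _ = _ := by ring
  have b2 : 0 ≤ ∫ c, ∑' b, gq B c * gq C (U b - c) * (e - H b) := by
    refine integral_nonneg fun c => ?_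
    have sc : Summable fun b => gq C (U b - c) :=
      Summable.of_nonneg_of_le (fun b => (gq_pos _ _).le) (fun b => gq_le_of_qf hBC hη1 _)
        (hM.sm c)
    have sc2 : Summable fun b => gq C (U b - c) * H b :=
      Summable.of_norm_bounded sc fun b => (habs b _).trans (abs_of_pos (gq_pos _ _)).le
    have e5 : ∀ b, gq B c * gq C (U b - c) * (e - H b) =
        gq B c * (e * gq C (U b - c) - gq C (U b - c) * H b) := fun b => by ring
    simp only [e5]
    rw [tsum_mul_left, (sc.mul_left e).tsum_sub sc2, tsum_mul_left]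
    exact mul_nonneg (gq_pos _ _).le (sub_nonneg.2 (hw c))
  rw [integral_add (iC.mul_const _) ((integrable_gq hC2).mul_const _), integral_mul_const,
    integral_mul_const, integral_gq hC, integral_gq hC2] at b1
  have e4 : |((1 / 2 : ℝ) • C).det|⁻¹ = 2 ^ Fintype.card N * |C.det|⁻¹ := by
    rw [det_smul, abs_mul, mul_inv, abs_pow, ← inv_pow]
    norm_num
  rw [e4, Real.norm_eq_abs] at b1
  have b3 := (le_abs_self _).trans b1
  have b4 := mul_le_mul_of_nonneg_right tI he
  calc _ ≤ |C.det| * (|C.det|⁻¹ * (m * (2 * δ / θ + 4 * θ)) +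
        2 ^ Fintype.card N * |C.det|⁻¹ * (m * η / θ) + |C.det|⁻¹ * (2 * m) * e) :=
        mul_le_mul_of_nonneg_left (by linarith) hCp.le
    _ = _ := by
        field_simp
        ring

/-- Mixture over narrow windows, relative form. -/
theorem mixt2 [Countable β] {B C : Matrix N N ℝ} (hB : B.det ≠ 0) (hC : C.det ≠ 0)
    {U : β → N → ℝ} {m δ η e θ : ℝ} (hm0 : 0 ≤ m) (hδ : δ ≤ 1) (hδ0 : 0 ≤ δ) (hθ : 0 < θ)
    (hM : Mas B U m δ) (hBC : ∀ x, qf B x ≤ η * qf C x) (hη : 0 ≤ η) (hη1 : η ≤ 1) (he : 0 ≤ e)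
    {H : β → ℝ} (hH : ∀ b, |H b| ≤ 1)
    (hw : ∀ c, |∑' b, gq C (U b - c) * H b| ≤ e * ∑' b, gq C (U b - c)) :
    |∑' b, gq B (U b) * H b| ≤ (2 * e + (2 * δ + η * 2 ^ Fintype.card N) / θ + 4 * θ) * m := by
  have h1 := mixt1 hB hC hm0 hδ hδ0 hθ hM hBC hη hη1 he hH fun c => (abs_le.1 (hw c)).2
  have h2 := mixt1 hB hC hm0 hδ hδ0 hθ hM hBC hη hη1 he (H := fun b => -H b)
    (fun b => by rw [abs_neg]; exact hH b) fun c => by
      simp only [mul_neg, tsum_neg]
      linarith [(abs_le.1 (hw c)).1]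
  simp only [mul_neg, tsum_neg] at h2
  rw [abs_le]
  constructor <;> linarith

/-- A relative bound on every coset gives the bound on the group. -/
theorem rel_coset {α γ : Type*} [AddCommGroup α] [AddCommGroup γ] (Ψ : γ →+ α)
    (hΨ : Function.Injective Ψ) {W H : α → ℝ} (hW : Wt W) (hH : Bd H) {e : ℝ}
    (h : ∀ ρ, |∑' z, W (ρ + Ψ z) * H (ρ + Ψ z)| ≤ e * ∑' z, W (ρ + Ψ z)) :
    |∑' x, W x * H x| ≤ e * ∑' x, W x := by
  let E : (α ⧸ Ψ.range) × γ ≃ α := Equiv.ofBijective (fun p => p.1.out + Ψ p.2) (by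
    constructor
    · rintro ⟨q, z⟩ ⟨q', z'⟩ hp
      simp only at hp
      have h1 : q = q' := by
        have h2 : (QuotientAddGroup.mk (q.out + Ψ z) : α ⧸ Ψ.range) =
            QuotientAddGroup.mk (q'.out + Ψ z') := by rw [hp]
        rwa [QuotientAddGroup.mk_add_of_mem _ (AddMonoidHom.mem_range.2 ⟨z, rfl⟩),
          QuotientAddGroup.mk_add_of_mem _ (AddMonoidHom.mem_range.2 ⟨z', rfl⟩),
          QuotientAddGroup.out_eq', QuotientAddGroup.out_eq'] at h2
      subst h1
      rw [hΨ (add_left_cancel hp)]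
    · intro x
      obtain ⟨⟨y, z, rfl⟩, hy⟩ := QuotientAddGroup.mk_out_eq_add Ψ.range x
      refine ⟨(QuotientAddGroup.mk x, -z), ?_⟩
      simp only at hy ⊢
      rw [hy, map_neg, add_neg_cancel_right])
  have s1 : Summable fun p => W (E p) := E.summable_iff.2 hW.sm
  have s2 : Summable fun p => W (E p) * H (E p) :=
    (E.summable_iff (f := fun x => W x * H x)).2 (hW.mul hH)
  rw [← E.tsum_eq, ← E.tsum_eq W, s1.tsum_prod, s2.tsum_prod, ← tsum_mul_left, ← Real.norm_eq_abs]
  exact tsum_of_norm_bounded (s1.prod.mul_left e).hasSum fun q => h q.out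

theorem hasSum_fin_prod {J : Type*} : ∀ (n : ℕ) (θ : Fin n → J → ℝ), (∀ i, Wt (θ i)) →
    Wt (fun x : Fin n → J => ∏ i, θ i (x i)) ∧
      ∑' x : Fin n → J, ∏ i, θ i (x i) = ∏ i, ∑' j, θ i j := by
  intro n
  induction n with
  | zero =>
    intro θ _
    exact ⟨⟨fun x => by simp, Summable.of_finite⟩, by simp⟩
  | succ n ih =>
    intro θ hθ
    obtain ⟨h1, h2⟩ := ih (fun i => θ i.succ) fun i => hθ _
    have h3 := (hθ 0).pw h1
    have e : ∀ p : J × (Fin n → J), (fun x : Fin (n + 1) → J => ∏ i, θ i (x i))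
        (Fin.consEquiv (fun _ => J) p) = pw (θ 0) (fun x : Fin n → J => ∏ i, θ i.succ (x i)) p := by
      intro p
      simp [pw, Fin.prod_univ_succ, Fin.consEquiv]
    refine ⟨⟨fun x => Finset.prod_nonneg fun i _ => (hθ i).nn _, ?_⟩, ?_⟩
    · rw [← (Fin.consEquiv fun _ => J).summable_iff]
      exact h3.sm.congr fun p => (e p).symm
    · rw [← (Fin.consEquiv fun _ => J).tsum_eq, tsum_congr e, mass_pw (hθ 0) h1, h2,
        Fin.prod_univ_succ]

theorem tsum_pi_prod {J S : Type*} [Fintype S] (θ : S → J → ℝ) (hθ : ∀ i, Wt (θ i)) :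
    ∑' x : S → J, ∏ i, θ i (x i) = ∏ i, ∑' j, θ i j := by
  let e := (Fintype.equivFin S).symm
  have h := (hasSum_fin_prod _ (fun i => θ (e i)) fun i => hθ _).2
  rw [← e.prod_comp, ← h, ← (Equiv.arrowCongr e (Equiv.refl J)).tsum_eq]
  refine tsum_congr fun x => ?_
  rw [← e.prod_comp]
  simp

end

end Vale.Agent.P057T.Cut
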