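import Vale.Agent.P057T.LiftC

/-! Inputs of the finite core: class sums, total Moebius sum, shifts, share of pairs. -/

namespace P057T.LiftC

open Finset

/-- the Moebius components up to `Q` of a function of `gcd d g` add up to its value at `g` -/
lemma mob_tot (ψ : ℕ → ℝ) {Q g : ℕ} (hg : 0 < g) (hQ : g ≤ Q) :
    ∑ n1 ∈ Finset.Icc 1 Q, ∑ x ∈ n1.divisorsAntidiagonal,
      (ArithmeticFunction.moebius x.1 : ℝ) * ψ (Nat.gcd x.2 g) = ψ g := by
  classical
  have h1 := (ArithmeticFunction.sum_eq_iff_sum_mul_moebius_eq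
    (f := fun e : ℕ => ∑ x ∈ e.divisorsAntidiagonal,
      (ArithmeticFunction.moebius x.1 : ℝ) * ψ (Nat.gcd x.2 g))
    (g := fun d => ψ (Nat.gcd d g))).2 (fun n _ => rfl) g hg
  rw [Nat.gcd_self] at h1
  rw [← h1]
  symm
  refine Finset.sum_subset ?_ ?_
  · intro i hi
    have := Nat.dvd_of_mem_divisors hi
    rw [Finset.mem_Icc]
    exact ⟨Nat.pos_of_dvd_of_pos this hg, (Nat.le_of_dvd hg this).trans hQ⟩
  · intro i hi hi'
    rw [Finset.mem_Icc] at hi
    exact mob_van ψ hi.1 (fun h => hi' (Nat.mem_divisors.2 ⟨h, hg.ne'⟩))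

section cls
variable {ι τ : Type*} [Fintype ι]

/-- normalised sum over a residue class -/
noncomputable def Pc (ψ : (ι → ℤ) → ℝ) (h : ℕ) (y : ι → ℤ) : ℝ :=
  (h : ℝ) ^ Fintype.card ι * ∑' z : ι → ℤ, ψ (y + (h : ℤ) • z)

lemma tsum_per {ι : Type*} (ψ : (ι → ℤ) → ℝ) (h : ℕ) :
    Per h (fun y => ∑' z : ι → ℤ, ψ (y + (h : ℤ) • z)) := by
  intro w c hw
  obtain ⟨x, rfl⟩ := cg_iff.1 hw
  have := (Equiv.addLeft x).tsum_eq (fun z : ι → ℤ => ψ (c + (h : ℤ) • z))
  simp only [Equiv.coe_addLeft] at this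
  simp only
  rw [← this]
  refine tsum_congr fun z => ?_
  rw [smul_add, add_assoc]

lemma Pc_per (ψ : (ι → ℤ) → ℝ) (h : ℕ) : Per h (Pc ψ h) := by
  intro w c hw
  unfold Pc
  exact congrArg _ (tsum_per ψ h w c hw)

variable [DecidableEq ι]

lemma sum_bx_dvd {d N : ℕ} (hN : 0 < N) (hd : d ∣ N) {G : (ι → ℤ) → ℝ} (hG : Per d G) :
    (d : ℝ) ^ Fintype.card ι * ∑ z ∈ bx ι N, G z = (N : ℝ) ^ Fintype.card ι * ∑ z ∈ bx ι d, G z := by
  have hd0 : 0 < d := Nat.pos_of_dvd_of_pos hd hN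
  have hGN : Per N G := fun w c h => hG w c (h.mono hd)
  have a1 : ∑ a ∈ bx ι d, ∑ z ∈ bx ι N, G (z + a) = ∑ _a ∈ bx ι d, ∑ z ∈ bx ι N, G z :=
    Finset.sum_congr rfl fun a _ => sum_shift hN hGN a
  have a2 : ∑ z ∈ bx ι N, ∑ a ∈ bx ι d, G (z + a) = ∑ _z ∈ bx ι N, ∑ a ∈ bx ι d, G a := by
    refine Finset.sum_congr rfl fun z _ => ?_
    rw [← sum_shift hd0 hG z]
    exact Finset.sum_congr rfl fun a _ => by rw [add_comm]
  rw [Finset.sum_comm, a2, Finset.sum_const, Finset.sum_const, card_bx, card_bx, nsmul_eq_mul,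
    nsmul_eq_mul] at a1
  push_cast at a1
  exact a1.symm

lemma sum_bx_unit {d g : ℕ} (hd : 0 < d) (hc : Nat.Coprime d g) {G : (ι → ℤ) → ℝ}
    (hG : Per d G) : ∑ z ∈ bx ι d, G ((g : ℤ) • z) = ∑ z ∈ bx ι d, G z := by
  obtain ⟨a, u, hu⟩ : IsCoprime (d : ℤ) (g : ℤ) := Nat.isCoprime_iff_coprime.2 hc
  refine Finset.sum_bij' (fun z _ => md d ((g : ℤ) • z)) (fun z _ => md d (u • z))
    (fun z _ => md_mem hd _) (fun z _ => md_mem hd _) ?_ ?_ ?_
  · intro z hz
    refine eq_of_cg (md_mem hd _) hz ((md_cg d _).trans fun k => ?_)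
    obtain ⟨x, hx⟩ := md_cg d ((g : ℤ) • z) k
    simp only [Pi.smul_apply, smul_eq_mul] at hx ⊢
    exact ⟨u * x - a * z k, by linear_combination u * hx + z k * hu⟩
  · intro z hz
    refine eq_of_cg (md_mem hd _) hz ((md_cg d _).trans fun k => ?_)
    obtain ⟨x, hx⟩ := md_cg d (u • z) k
    simp only [Pi.smul_apply, smul_eq_mul] at hx ⊢
    exact ⟨g * x - a * z k, by linear_combination (g : ℤ) * hx + z k * hu⟩
  · intro z _
    exact (hG _ _ (md_cg d _)).symm

lemma tsum_split {f : (ι → ℤ) → ℝ} (hf : Summable f) {d : ℕ} (hd : 0 < d) :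
    ∑' x, f x = ∑ a ∈ bx ι d, ∑' x : ι → ℤ, f (a + (d : ℤ) • x) := by
  classical
  have h1 : ∀ x, f x = ∑ a ∈ bx ι d, (if md d x = a then f x else 0) := by
    intro x
    rw [Finset.sum_ite_eq, if_pos (md_mem hd x)]
  have h2 : ∀ a ∈ bx ι d, Summable (fun x => if md d x = a then f x else 0) := by
    intro a _
    refine (hf.indicator {x | md d x = a}).congr fun x => ?_
    by_cases h : md d x = a
    · rw [if_pos h, Set.indicator_of_mem (s := {x | md d x = a}) h]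
    · rw [if_neg h, Set.indicator_of_notMem (s := {x | md d x = a}) h]
  rw [tsum_congr h1, Summable.tsum_finsetSum h2]
  refine Finset.sum_congr rfl fun a ha => ?_
  have hdz : (d : ℤ) ≠ 0 := by exact_mod_cast hd.ne'
  have hinj : Function.Injective (fun x : ι → ℤ => a + (d : ℤ) • x) := by
    intro x x' h
    exact smul_right_injective _ hdz (add_left_cancel h)
  rw [← hinj.tsum_eq]
  · refine tsum_congr fun x => ?_
    rw [if_pos]
    exact eq_of_cg (md_mem hd _) ha ((md_cg d _).trans (cg_iff.2 ⟨x, rfl⟩))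
  · intro x hx
    have h : md d x = a := by
      by_contra h
      exact hx (if_neg h)
    obtain ⟨z, hz⟩ := cg_iff.1 (md_cg d x).symm
    exact ⟨z, by rw [← h]; exact hz.symm⟩

lemma Pc_cons {ψ : τ → (ι → ℤ) → ℝ} (hψ : ∀ t, Summable (ψ t)) :
    Cons (fun h t => Pc (ψ t) h) := by
  intro n d g N t y hn hN hd
  have hd0 : 0 < d := Nat.pos_of_dvd_of_pos hd hN
  have he : 0 < Nat.gcd d g := Nat.gcd_pos_of_pos_left g hd0
  obtain ⟨d', g', hc, hd', hg'⟩ := Nat.exists_coprime d g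
  set e := Nat.gcd d g with hee
  have hd'0 : 0 < d' := Nat.pos_of_mul_pos_right (hd' ▸ hd0)
  have hd'N : d' ∣ N := (Dvd.intro e hd'.symm).trans hd
  set f : (ι → ℤ) → ℝ := fun x => ψ t (y + ((n * e : ℕ) : ℤ) • x) with hf
  have hne : ((n * e : ℕ) : ℤ) ≠ 0 := by exact_mod_cast (Nat.mul_pos hn he).ne'
  have hfs : Summable f := (hψ t).comp_injective
    (fun x x' h => smul_right_injective _ hne (add_left_cancel h))
  set G : (ι → ℤ) → ℝ := fun a => ∑' x : ι → ℤ, f (a + (d' : ℤ) • x) with hG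
  have hGp : Per d' G := tsum_per f d'
  have hGp' : Per d' (fun z => G ((g' : ℤ) • z)) := by
    intro w c h
    refine hGp _ _ fun k => ?_
    have := (h k).mul_left (g' : ℤ)
    simp only [Pi.smul_apply, smul_eq_mul]
    rwa [mul_sub] at this
  have hdz : (d : ℤ) = d' * e := by exact_mod_cast hd'
  have hgz : (g : ℤ) = g' * e := by exact_mod_cast hg'
  have hdr : (d : ℝ) = d' * e := by exact_mod_cast hd'
  have b1 : ∀ z, Pc (ψ t) (n * d) (y + ((n : ℤ) * g) • z)
      = ((n * e : ℕ) : ℝ) ^ Fintype.card ι * (d' : ℝ) ^ Fintype.card ι * G ((g' : ℤ) • z) := by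
    intro z
    unfold Pc
    have c1 : ((n * d : ℕ) : ℝ) = ((n * e : ℕ) : ℝ) * d' := by push_cast; rw [hdr]; ring
    rw [c1, mul_pow]
    refine congrArg _ (tsum_congr fun x => congrArg (ψ t) ?_)
    funext k
    simp only [Pi.add_apply, Pi.smul_apply, smul_eq_mul]
    push_cast
    rw [hdz, hgz]; ring
  simp only
  rw [Finset.sum_congr rfl (fun z _ => b1 z), ← Finset.mul_sum, mul_assoc,
    sum_bx_dvd hN hd'N hGp', sum_bx_unit hd'0 hc hGp]
  unfold Pc
  rw [tsum_split hfs hd'0]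
  ring

end cls

section shifts
variable {ι κ : Type*} {m : ℕ}

/-- gcd of the coordinates of the difference -/
def gg (t t' : Fin m → ℤ) : ℕ := (Finset.univ.gcd (fun l => t' l - t l)).natAbs

lemma dvd_of_gg {n : ℕ} {t t' : Fin m → ℤ} (h : n ∣ gg t t') (l : Fin m) : (n : ℤ) ∣ t' l - t l :=
  (Int.natCast_dvd.2 h).trans (Finset.gcd_dvd (Finset.mem_univ l))

lemma gg_bez (t t' : Fin m → ℤ) : ∃ x : Fin m → ℤ, (gg t t' : ℤ) = ∑ l, (t' l - t l) * x l := by
  obtain ⟨x, hx⟩ := Finset.gcd_eq_sum_mul Finset.univ (fun l => t' l - t l)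
  rcases Int.natAbs_eq (Finset.univ.gcd (fun l => t' l - t l)) with h | h
  · exact ⟨x, by unfold gg; rw [← h, hx]⟩
  · refine ⟨fun l => - x l, ?_⟩
    have : (gg t t' : ℤ) = - Finset.univ.gcd (fun l => t' l - t l) := by unfold gg; linarith
    rw [this, hx, ← Finset.sum_neg_distrib]
    exact Finset.sum_congr rfl fun l _ => by ring

/-- the shift hypothesis of `core` from constant and linear slots -/
lemma sh_of (ev : (Fin m → ℤ) → (κ → ℤ) →+ (ι → ℤ)) (t t' : Fin m → ℤ)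
    (c0 : (ι → ℤ) → κ → ℤ) (cl : Fin m → (ι → ℤ) → κ → ℤ)
    (h0 : ∀ y, ev t (c0 y) = y) (h0' : ∀ y, ev t' (c0 y) = y)
    (hl : ∀ l y, ev t (cl l y) = t l • y) (hl' : ∀ l y, ev t' (cl l y) = t' l • y) (y : ι → ℤ) :
    ∃ δ, ev t δ = 0 ∧ ev t' δ = (gg t t' : ℤ) • y := by
  obtain ⟨x, hx⟩ := gg_bez t t'
  refine ⟨∑ l, x l • cl l y - (∑ l, x l * t l) • c0 y, ?_, ?_⟩
  · rw [map_sub, map_sum, map_zsmul, h0, Finset.sum_smul, sub_eq_zero]
    exact Finset.sum_congr rfl fun l _ => by rw [map_zsmul, hl, smul_smul]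
  · rw [map_sub, map_sum, map_zsmul, h0', hx, Finset.sum_smul, Finset.sum_smul,
      ← Finset.sum_sub_distrib]
    refine Finset.sum_congr rfl fun l _ => ?_
    rw [map_zsmul, hl', smul_smul, ← sub_smul]
    exact congrArg (· • y) (by ring)

lemma card_cls1 {L n : ℕ} (hn : 0 < n) (a : ℤ) :
    ((Finset.Ico (0 : ℤ) L).filter (fun x => (n : ℤ) ∣ x - a)).card ≤ (L - 1) / n + 1 := by
  have hn' : (0 : ℤ) < n := by exact_mod_cast hn
  rw [← Finset.card_range ((L - 1) / n + 1)]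
  refine Finset.card_le_card_of_injOn (fun x => x.toNat / n) ?_ ?_
  · intro x hx
    simp only [Finset.coe_filter, Finset.mem_Ico, Set.mem_ofPred_eq] at hx
    simp only [Finset.coe_range, Set.mem_Iio]
    exact Nat.lt_succ_of_le (Nat.div_le_div_right (by omega))
  · intro x hx x' hx' h
    simp only [Finset.coe_filter, Finset.mem_Ico, Set.mem_ofPred_eq] at hx hx'
    have h1 : (n : ℤ) ∣ x - x' := by
      have := hx.2.sub hx'.2
      simpa using this
    have h2 : x / n = x' / n := by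
      have := congrArg (fun v : ℕ => (v : ℤ)) h
      simp only [Int.natCast_div, Int.toNat_of_nonneg hx.1.1, Int.toNat_of_nonneg hx'.1.1] at this
      exact this
    have h3 : x % n = x' % n := Int.emod_emod_of_dvd x (dvd_refl _) ▸
      (Int.emod_eq_emod_iff_emod_sub_eq_zero.2 (Int.emod_eq_zero_of_dvd h1)) ▸
      Int.emod_emod_of_dvd x (dvd_refl _)
    rw [← Int.mul_ediv_add_emod x n, ← Int.mul_ediv_add_emod x' n, h2, h3]

lemma card_pairs {L n : ℕ} (hn : 0 < n) :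
    ((bx (Fin m) L ×ˢ bx (Fin m) L).filter (fun x => n ∣ gg x.1 x.2)).card
      ≤ L ^ m * ((L - 1) / n + 1) ^ m := by
  classical
  have h1 := Finset.card_le_mul_card_image_of_maps_to
    (s := (bx (Fin m) L ×ˢ bx (Fin m) L).filter (fun x => n ∣ gg x.1 x.2)) (t := bx (Fin m) L)
    (f := Prod.fst) (fun x hx => (Finset.mem_product.1 (Finset.mem_filter.1 hx).1).1)
    (((L - 1) / n + 1) ^ m) (by
      intro t _
      have h2 : (Fintype.piFinset (fun l : Fin m =>
          (Finset.Ico (0 : ℤ) L).filter (fun x => (n : ℤ) ∣ x - t l))).card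
          ≤ ((L - 1) / n + 1) ^ m := by
        rw [Fintype.card_piFinset]
        refine (Finset.prod_le_pow_card _ _ _ (fun l _ => card_cls1 hn (t l))).trans ?_
        simp
      refine le_trans ?_ h2
      refine Finset.card_le_card_of_injOn Prod.snd ?_ ?_
      · intro x hx
        simp only [Finset.coe_filter, Finset.mem_filter, Finset.mem_product,
          Set.mem_ofPred_eq] at hx
        simp only [Finset.mem_coe, Fintype.mem_piFinset, Finset.mem_filter, Finset.mem_Ico]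
        intro l
        exact ⟨mem_bx.1 hx.1.1.2 l, hx.2 ▸ dvd_of_gg hx.1.2 l⟩
      · intro x hx x' hx' h
        simp only [Finset.coe_filter, Set.mem_ofPred_eq] at hx hx'
        exact Prod.ext (hx.2.trans hx'.2.symm) h)
  rw [card_bx, Fintype.card_fin] at h1
  rwa [mul_comm]

lemma ceil_pow {L n s : ℕ} (hL : 3 ≤ L) (hs : 1 ≤ s) (h2 : 2 ≤ n) (hn : n ≤ L ^ s) :
    ((L - 1) / n + 1) ^ (2 * s) * n ≤ L ^ (2 * s) := by
  by_cases h : L ≤ n
  · have : (L - 1) / n = 0 := Nat.div_eq_of_lt (by omega)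
    rw [this, zero_add, one_pow, one_mul]
    exact hn.trans (Nat.pow_le_pow_right (by omega) (by omega))
  · set c := (L - 1) / n + 1 with hc
    have h1 : c * n + 1 ≤ L + n := by
      have := Nat.div_mul_le_self (L - 1) n
      rw [hc, add_mul]; omega
    have h3 : c ^ 2 * n ≤ L ^ 2 := by
      have h4 : (L + n - 1) ^ 2 ≤ n * L ^ 2 := by
        by_cases h5 : 4 ≤ n
        · calc (L + n - 1) ^ 2 ≤ (2 * L) ^ 2 := Nat.pow_le_pow_left (by omega) 2
            _ = 4 * L ^ 2 := by ring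
            _ ≤ n * L ^ 2 := Nat.mul_le_mul_right _ h5
        · have : n = 2 ∨ n = 3 := by omega
          rcases this with rfl | rfl
          · have : L + 2 - 1 = L + 1 := by omega
            rw [this]; nlinarith
          · have : L + 3 - 1 = L + 2 := by omega
            rw [this]; nlinarith
      have h6 : (c * n) ^ 2 ≤ (L + n - 1) ^ 2 := Nat.pow_le_pow_left (by omega) 2
      have h7 : n * (c ^ 2 * n) ≤ n * L ^ 2 := by
        calc n * (c ^ 2 * n) = (c * n) ^ 2 := by ring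
          _ ≤ _ := h6.trans h4
      exact Nat.le_of_mul_le_mul_left h7 (by omega)
    calc c ^ (2 * s) * n ≤ c ^ (2 * s) * n ^ s :=
          Nat.mul_le_mul_left _ (Nat.le_self_pow (by omega) n)
      _ = (c ^ 2 * n) ^ s := by rw [mul_pow, ← pow_mul]
      _ ≤ (L ^ 2) ^ s := Nat.pow_le_pow_left h3 s
      _ = L ^ (2 * s) := by rw [← pow_mul]

/-- the share hypothesis of `core` for a full box, all moduli up to `L ^ s` -/
lemma share_box {L n s m' : ℕ} (hL : 3 ≤ L) (hs : 1 ≤ s) (hm : 2 * s * m' ≤ m) (h2 : 2 ≤ n)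
    (hn : n ≤ L ^ s) :
    (((bx (Fin m) L ×ˢ bx (Fin m) L).filter (fun x => n ∣ gg x.1 x.2)).card : ℝ) * (n : ℝ) ^ m'
      ≤ 2 * ((bx (Fin m) L).card : ℝ) ^ 2 := by
  obtain ⟨e, rfl⟩ := Nat.exists_eq_add_of_le hm
  set c := (L - 1) / n + 1 with hc
  have h1 := card_pairs (m := 2 * s * m' + e) (L := L) (n := n) (by omega)
  have h3 : (c ^ (2 * s) * n) ^ m' ≤ (L ^ (2 * s)) ^ m' :=
    Nat.pow_le_pow_left (ceil_pow hL hs h2 hn) m'
  have h4 : c ≤ L := by
    have := Nat.div_le_self (L - 1) n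
    omega
  have h5 : c ^ (2 * s * m' + e) * n ^ m' ≤ L ^ (2 * s * m' + e) := by
    calc c ^ (2 * s * m' + e) * n ^ m' = (c ^ (2 * s) * n) ^ m' * c ^ e := by
          rw [pow_add, mul_pow, ← pow_mul]; ring
      _ ≤ (L ^ (2 * s)) ^ m' * L ^ e := Nat.mul_le_mul h3 (Nat.pow_le_pow_left h4 e)
      _ = L ^ (2 * s * m' + e) := by rw [pow_add, ← pow_mul]
  have h6 : ((bx (Fin (2 * s * m' + e)) L ×ˢ bx (Fin (2 * s * m' + e)) L).filter
      (fun x => n ∣ gg x.1 x.2)).card * n ^ m' ≤ 2 * ((bx (Fin (2 * s * m' + e)) L).card) ^ 2 := by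
    rw [card_bx, Fintype.card_fin]
    calc _ ≤ L ^ (2 * s * m' + e) * c ^ (2 * s * m' + e) * n ^ m' := Nat.mul_le_mul_right _ h1
      _ = L ^ (2 * s * m' + e) * (c ^ (2 * s * m' + e) * n ^ m') := by ring
      _ ≤ L ^ (2 * s * m' + e) * L ^ (2 * s * m' + e) := Nat.mul_le_mul_left _ h5
      _ ≤ _ := by nlinarith [Nat.zero_le (L ^ (2 * s * m' + e) * L ^ (2 * s * m' + e))]
  exact_mod_cast h6

end shifts

end P057T.LiftC
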