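import Vale.Agent.P057T.FriH53

/-! A chart adapted to a discrete subgroup of a normed space. -/

set_option linter.all false

open Finset
open scoped BigOperators

namespace Vale.Agent.P057T.Mfr

theorem basis (n : ℕ) : ∀ (Y : Type) [NormedAddCommGroup Y] [NormedSpace ℝ Y]
    [FiniteDimensional ℝ Y] (I : AddSubgroup Y), Module.finrank ℝ Y = n →
    (∀ r : ℝ, {y | y ∈ I ∧ ‖y‖ ≤ r}.Finite) →
    ∃ (b : Fin n → Y) (c : Y →ₗ[ℝ] Fin n → ℝ) (p : Fin n → Prop), (∀ j, b j ≠ 0) ∧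
      (∀ x, ∑ j, c x j • b j = x) ∧ (∀ j, p j → b j ∈ I) ∧
      (∀ y ∈ I, ∀ i, ∃ k : ℤ, c y i = k ∧ (¬ p i → k = 0)) ∧
      ∀ x j, ‖b j‖ * |c x j| ≤ (4 * n + 4) ^ n * ‖x‖ := by
  induction n with
  | zero =>
    intro Y _ _ _ I hr _
    have hs : Subsingleton Y := Module.finrank_zero_iff.1 hr
    exact ⟨fun j => j.elim0, 0, fun _ => True, fun j => j.elim0, fun x => Subsingleton.elim _ _,
      fun j => j.elim0, fun _ _ j => j.elim0, fun x j => j.elim0⟩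
  | succ n ih =>
    intro Y _ _ _ I hr hfin
    classical
    obtain ⟨b0, p0, hb, hp, hl⟩ : ∃ (b0 : Y) (p0 : Prop), b0 ≠ 0 ∧ (p0 → b0 ∈ I) ∧
        ∀ y ∈ I, y ≠ 0 → p0 ∧ ‖b0‖ ≤ ‖y‖ := by
      by_cases hz : ∀ y ∈ I, y = 0
      · haveI : Nontrivial Y := Module.finrank_pos_iff.1 (show 0 < Module.finrank ℝ Y by omega)
        obtain ⟨x, hx⟩ := exists_ne (0 : Y)
        exact ⟨x, False, hx, False.elim, fun y hy h => (h (hz y hy)).elim⟩
      push Not at hz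
      obtain ⟨x1, hx0, hx1⟩ := hz
      obtain ⟨b0, hb0, hmin⟩ := exists_min_image ((hfin ‖x1‖).toFinset.filter fun x => x ≠ 0)
        (fun x => ‖x‖) ⟨x1, by simp [hx0, hx1]⟩
      simp only [mem_filter, Set.Finite.mem_toFinset, Set.mem_setOf_eq] at hb0 hmin
      refine ⟨b0, True, hb0.2, fun _ => hb0.1.1, fun y hy h => ⟨trivial, ?_⟩⟩
      by_cases k : ‖y‖ ≤ ‖x1‖
      · exact hmin y ⟨⟨hy, k⟩, h⟩
      · linarith [hb0.1.2, not_le.1 k]
    have lp : 0 < ‖b0‖ := norm_pos_iff.2 hb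
    set T : Submodule ℝ Y := Submodule.span ℝ {b0} with hT
    haveI : IsClosed (T : Set Y) := T.closed_of_finiteDimensional
    have lift : ∀ z ∈ I.map T.mkQ.toAddMonoidHom, ∃ y ∈ I, T.mkQ y = z ∧
        ‖y‖ ≤ ‖z‖ + 3 / 4 * ‖b0‖ := by
      rintro _ ⟨x, hx, rfl⟩
      by_cases h0 : x = 0
      · exact ⟨0, I.zero_mem, by simp [h0], by rw [norm_zero]; positivity⟩
      obtain ⟨m, hm, hm'⟩ := Submodule.Quotient.norm_mk_lt (T.mkQ x)
        (show 0 < ‖b0‖ / 4 by positivity)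
      obtain ⟨τ, hτ⟩ := Submodule.mem_span_singleton.1 ((Submodule.Quotient.eq T).1 hm)
      refine ⟨x + round τ • b0, I.add_mem hx (I.zsmul_mem (hp (hl x hx h0).1) _), ?_, ?_⟩
      · refine (Submodule.Quotient.eq T).2 ?_
        rw [add_sub_cancel_left, ← Int.cast_smul_eq_zsmul ℝ]
        exact T.smul_mem _ (Submodule.mem_span_singleton_self _)
      · have e : x + round τ • b0 = m - (τ - round τ) • b0 := by
          rw [sub_smul, hτ, Int.cast_smul_eq_zsmul]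
          abel
        rw [e]
        refine (norm_sub_le _ _).trans ?_
        rw [norm_smul, Real.norm_eq_abs]
        have := mul_le_mul_of_nonneg_right (abs_sub_round τ) lp.le
        show _ ≤ ‖T.mkQ x‖ + _
        linarith
    obtain ⟨b', c', p', hb', hsum, hp', hint, hC⟩ := ih (Y ⧸ T) (I.map T.mkQ.toAddMonoidHom) (by
        have h1 := Submodule.finrank_quotient_add_finrank T
        have h2 : Module.finrank ℝ T = 1 := finrank_span_singleton hb
        omega) fun r => by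
      refine ((hfin (r + 3 / 4 * ‖b0‖)).image T.mkQ).subset fun z hz => ?_
      obtain ⟨y, hy, e, hy'⟩ := lift z hz.1
      exact ⟨y, ⟨hy, hy'.trans (by linarith [hz.2])⟩, e⟩
    have ly : ∀ j, ∃ y : Y, T.mkQ y = b' j ∧ (p' j → y ∈ I) ∧ ‖y‖ ≤ 4 * ‖b' j‖ := fun j => by
      by_cases a : p' j
      · obtain ⟨y, hy, e, hy'⟩ := lift _ (hp' j a)
        have := (hl y hy fun h => hb' j (by rw [← e, h, map_zero])).2
        exact ⟨y, e, fun _ => hy, by linarith⟩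
      · have p := norm_pos_iff.2 (hb' j)
        obtain ⟨y, e, hy⟩ := Submodule.Quotient.norm_mk_lt (b' j) p
        exact ⟨y, e, fun h => (a h).elim, by linarith⟩
    choose y e1 e2 e3 using ly
    obtain ⟨φ, hφ⟩ := LinearMap.exists_leftInverse_of_injective (LinearMap.toSpanSingleton ℝ Y b0)
      (LinearMap.ker_toSpanSingleton ℝ hb)
    let u : Y →ₗ[ℝ] Y := LinearMap.id - ∑ j, ((LinearMap.proj j).comp (c'.comp T.mkQ)).smulRight (y j)
    have hu : ∀ x, u x = x - ∑ j, c' (T.mkQ x) j • y j := fun x => by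
      simp [u, LinearMap.sum_apply]
    have h0 : ∀ x, φ (u x) • b0 = u x := fun x => by
      have : u x ∈ T := by
        rw [← Submodule.Quotient.mk_eq_zero, ← Submodule.mkQ_apply, hu, map_sub, map_sum]
        simp only [map_smul, e1, hsum, sub_self]
      obtain ⟨τ, hτ⟩ := Submodule.mem_span_singleton.1 this
      have := LinearMap.congr_fun hφ τ
      simp only [LinearMap.comp_apply, LinearMap.toSpanSingleton_apply, LinearMap.id_apply] at this
      rw [← hτ, this]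
    have k1 : ∀ x j, ‖y j‖ * |c' (T.mkQ x) j| ≤ 4 * ((4 * n + 4) ^ n * ‖x‖) := fun x j => by
      have a := (hC (T.mkQ x) j).trans (mul_le_mul_of_nonneg_left
        (Submodule.Quotient.norm_mk_le T x) (by positivity))
      have := mul_le_mul_of_nonneg_right (e3 j) (abs_nonneg (c' (T.mkQ x) j))
      linarith
    have k2 : ∀ x : Y, (4 * n + 4) * ((4 * n + 4 : ℝ) ^ n * ‖x‖) ≤
        (4 * (n + 1 : ℕ) + 4) ^ (n + 1) * ‖x‖ := fun x => by
      rw [← mul_assoc, ← pow_succ']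
      push_cast
      gcongr
      linarith
    refine ⟨Fin.cons b0 y, LinearMap.pi (Fin.cons (φ.comp u) fun j =>
      (LinearMap.proj j).comp (c'.comp T.mkQ)), Fin.cons p0 p',
      Fin.cases hb fun j h => hb' j (by rw [← e1, show y j = 0 from h, map_zero]), fun x => ?_,
      Fin.cases hp e2, fun x hx => Fin.cases ?_ fun j => hint _ ⟨x, hx, rfl⟩ j,
      fun x => Fin.cases ?_ fun j => ?_⟩
    · rw [Fin.sum_univ_succ]
      exact (congrArg (· + _) ((h0 x).trans (hu x))).trans (sub_add_cancel _ _)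
    · have m : u x ∈ I := by
        rw [hu]
        refine I.sub_mem hx (I.sum_mem fun j _ => ?_)
        obtain ⟨k, a1, a2⟩ := hint _ ⟨x, hx, rfl⟩ j
        rw [show c' (T.mkQ x) j = k from a1, Int.cast_smul_eq_zsmul]
        by_cases a : p' j
        · exact I.zsmul_mem (e2 j a) _
        · rw [a2 a, zero_smul]; exact I.zero_mem
      by_cases z : u x = 0
      · exact ⟨0, show φ (u x) = _ by simp [z], fun _ => rfl⟩
      · have a := (hl _ m z).1
        refine ⟨round (φ (u x)), ?_, fun h => (h a).elim⟩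
        have e : u x - round (φ (u x)) • b0 = (φ (u x) - round (φ (u x))) • b0 := by
          rw [sub_smul, h0, Int.cast_smul_eq_zsmul]
        by_contra h
        have := (hl _ (I.sub_mem m (I.zsmul_mem (hp a) (round (φ (u x))))) (by
          rw [e]; exact smul_ne_zero (sub_ne_zero.2 h) hb)).2
        rw [e, norm_smul, Real.norm_eq_abs] at this
        have := mul_le_mul_of_nonneg_right (abs_sub_round (φ (u x))) lp.le
        linarith
    · refine le_trans ?_ (k2 x)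
      show ‖b0‖ * |φ (u x)| ≤ _
      rw [mul_comm, ← Real.norm_eq_abs, ← norm_smul, h0, hu]
      have a := (norm_sum_le _ _).trans (sum_le_card_nsmul univ _ _ fun j _ =>
        show ‖c' (T.mkQ x) j • y j‖ ≤ _ by rw [norm_smul, mul_comm]; exact k1 x j)
      rw [card_univ, Fintype.card_fin, nsmul_eq_mul] at a
      have : ‖x‖ ≤ (4 * n + 4 : ℝ) ^ n * ‖x‖ := le_mul_of_one_le_left (norm_nonneg _)
        (one_le_pow₀ (by linarith [Nat.cast_nonneg (α := ℝ) n]))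
      have := norm_sub_le x (∑ j, c' (T.mkQ x) j • y j)
      linarith [norm_nonneg x]
    · refine (k1 x j).trans (le_trans ?_ (k2 x))
      gcongr
      linarith [Nat.cast_nonneg (α := ℝ) n]

/-- every discrete subgroup of a normed space of finite dimension has an adapted chart -/
theorem cha {Y : Type} [AddCommGroup Y] [Module ℝ Y] [FiniteDimensional ℝ Y] (N : Seminorm ℝ Y)
    (hN : ∀ x, N x = 0 → x = 0) (I : AddSubgroup Y) (lam : ℝ) (hl : 0 < lam)
    (hI : ∀ y ∈ I, N y < lam → y = 0) (m : ℕ) (hm : Module.finrank ℝ Y = m) :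
    ∃ (c : Y →+ Fin m → ℝ) (p : Fin m → Prop) (w : Fin m → ℝ),
      Cha N I c p w ((4 * m + 4) ^ m) ∧ ∀ i, p i → lam ≤ w i := by
  letI : NormedAddCommGroup Y :=
    AddGroupNorm.toNormedAddCommGroup { N.toAddGroupSeminorm with eq_zero_of_map_eq_zero' := hN }
  letI : NormedSpace ℝ Y := ⟨fun a x => (map_smul_eq_mul N a x).le⟩
  have e : ∀ x : Y, ‖x‖ = N x := fun _ => rfl
  obtain ⟨b, c, p, h1, h2, h3, h4, h5⟩ := basis m Y I hm fun r => by
    obtain ⟨t, ht, hc⟩ := Metric.totallyBounded_iff.1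
      (isCompact_closedBall (0 : Y) r).totallyBounded (lam / 2) (by positivity)
    refine (ht.biUnion (t := fun y => {x | x ∈ I ∧ x ∈ Metric.ball y (lam / 2)})
      fun y _ => Set.Subsingleton.finite fun a ha a' ha' => ?_).subset fun x hx => ?_
    · refine sub_eq_zero.1 (hI _ (I.sub_mem ha.1 ha'.1) ?_)
      have := dist_triangle_right a a' y
      rw [← e, ← dist_eq_norm]
      linarith [Metric.mem_ball.1 ha.2, Metric.mem_ball.1 ha'.2]
    · obtain ⟨y, hy, a⟩ := Set.mem_iUnion₂.1 (hc (mem_closedBall_zero_iff.2 hx.2))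
      exact Set.mem_biUnion hy ⟨hx.1, a⟩
  refine ⟨c.toAddMonoidHom, p, fun j => ‖b j‖, ⟨fun j => norm_pos_iff.2 (h1 j), h4, fun k hk => ?_,
    h5, fun x r hr h => ?_⟩, fun i a => not_lt.1 fun h => h1 i (hI _ (h3 i a) h)⟩
  · obtain ⟨x, hx⟩ := (LinearMap.injective_iff_surjective_of_finrank_eq_finrank (f := c)
      (by simp [hm])).1 (fun x y h => by rw [← h2 x, ← h2 y, h]) fun i => (k i : ℝ)
    refine ⟨x, ?_, fun i => congrFun hx i⟩
    rw [← h2 x, hx]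
    refine I.sum_mem fun j _ => ?_
    rw [Int.cast_smul_eq_zsmul]
    by_cases a : p j
    · exact I.zsmul_mem (h3 j a) _
    · rw [hk j a, zero_smul]; exact I.zero_mem
  · rw [← e, ← h2 x]
    refine (norm_sum_le _ _).trans ((sum_le_card_nsmul univ _ r fun j _ => by
      rw [norm_smul, mul_comm]; exact h j).trans ?_)
    rw [card_univ, Fintype.card_fin, nsmul_eq_mul]
    refine mul_le_mul_of_nonneg_right ?_ hr
    have : m ≤ (4 * m + 4) ^ m := (Nat.lt_pow_self (by omega)).le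
    exact_mod_cast this

/-- the error of the metric Freiman theorem -/
noncomputable def er (m : ℕ) (ε : ℝ) : ℝ :=
  70000 * ((m : ℝ) + 1) ^ 2 * ((4 * m + 4) ^ m) ^ 2 * ε

/-- the metric Freiman theorem, target any normed space modulo a discrete subgroup -/
def FRJ : Prop := ∃ X0 : ℝ, ∀ X L : ℝ, X0 ≤ X → 1 ≤ L → 14002 * L ≤ X →
  ∀ (n m : ℕ) (q : Seminorm ℝ (Fin n → ℝ)) (B : ℝ → Finset (Fin n → ℤ)) (τ ε : ℝ)
    (Y : Type) [AddCommGroup Y] [Module ℝ Y] [FiniteDimensional ℝ Y] (N : Seminorm ℝ Y)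
    (I : AddSubgroup Y) (f g ζ : (Fin n → ℤ) → Y) (r : (Fin n → ℤ) → (Fin n → ℤ) → Prop)
    [∀ a b, Decidable (r a b)] (P1 P2 X1 U2 : Finset (Fin n → ℤ)),
    (∀ r x, x ∈ B r ↔ q (fun i => (x i : ℝ)) ≤ r) → (∀ x, N x = 0 → x = 0) →
    Module.finrank ℝ Y ≤ m → 0 < τ → 2 * (n : ℝ) ≤ Real.exp X → 0 < ε →
    (∀ F ∈ I, N F ≤ 4 * ((n + X ^ 6 + 1) * er m ε) → F = 0) →
    P1.Nonempty → P2.Nonempty → (∀ a ∈ P1, ∀ b ∈ P2, a + b ∈ X1) → (#X1 : ℝ) ≤ Real.exp L * #P1 →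
    (∀ b ∈ P2, ∀ x ∈ B τ, b + x ∈ U2) → (#U2 : ℝ) ≤ Real.exp L * #P2 →
    (∀ a b, r a b → ∃ y ∈ I, N (f a + g b - ζ (a + b) - y) ≤ ε) →
    (#P1 : ℝ) * #P2 ≤ Real.exp L * #((P1 ×ˢ P2).filter fun p => r p.1 p.2) →
    ∃ (x0 : Fin n → ℤ) (τ1 : ℝ) (S : Finset (Fin n → ℤ)) (t : ℕ) (θ : Fin t → Fin n → ℝ)
      (Λ : (Fin n ⊕ Fin t → ℝ) →ₗ[ℝ] Y),
      S ⊆ P2 ∧ (∀ s ∈ S, ∃ a, r a s) ∧ τ * Real.exp (-(3 * X)) ≤ τ1 ∧ τ1 ≤ τ ∧
      (∀ s ∈ S, x0 - s ∈ B τ1) ∧ (#(B τ1) : ℝ) ≤ Real.exp X * #S ∧ (t : ℝ) ≤ X ^ 6 ∧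
      ∀ s ∈ S, ∀ s' ∈ S, ∀ k : Fin t → ℤ,
        2 * ((n : ℝ) + t + 1) * q (fun i => ((s - s') i : ℝ)) ≤ τ * Real.exp (-(16 * X)) →
        (∀ j, 2 * ((n : ℝ) + t + 1) * |∑ i, θ j i * (s - s') i - k j| ≤ Real.exp (-(3 * X))) →
        ∃ z ∈ I, N (g s - g s' - Λ (Sum.elim (fun i => ((s - s') i : ℝ)) fun j => (k j : ℝ)) - z) ≤
          (2 * (n + t) + 2) * er m ε

theorem frj : FRJ := by
  obtain ⟨X0, h⟩ := fri
  refine ⟨X0, fun X L hX hL hLX n m q B τ ε Y _ _ _ N I f g ζ r _ P1 P2 X1 U2 hB hN hm hτ hn hε hgap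
    n1 n2 hX1 cX1 hU2 cU2 hr hc => ?_⟩
  obtain ⟨d, hd⟩ : ∃ d, Module.finrank ℝ Y = d := ⟨_, rfl⟩
  have dm : (d : ℝ) ≤ m := by exact_mod_cast hd ▸ hm
  have d0 : (0 : ℝ) ≤ d := Nat.cast_nonneg d
  have n0 : (0 : ℝ) ≤ n := Nat.cast_nonneg n
  have E1 : (1 : ℝ) ≤ (4 * d + 4) ^ d := one_le_pow₀ (by linarith)
  have mono : er d ε ≤ er m ε := by
    unfold er
    have : ((4 * d + 4 : ℝ)) ^ d ≤ (4 * m + 4) ^ m :=
      (pow_le_pow_left₀ (by positivity) (by linarith) d).trans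
        (pow_le_pow_right₀ (by linarith) (hd ▸ hm))
    gcongr
  have X1' : (1 : ℝ) ≤ X ^ 6 := one_le_pow₀ (by linarith)
  have e0 : 0 ≤ er d ε := by unfold er; positivity
  have gap : ∀ F ∈ I, N F ≤ 4 * ((n + X ^ 6 + 1) * er d ε) → F = 0 := fun F hF e =>
    hgap F hF (e.trans (by gcongr))
  obtain ⟨c, p, w, hC, hw⟩ := cha N hN I (300000 * ((d : ℝ) + 1) ^ 2 * ((4 * d + 4) ^ d * ε))
    (by positivity) (fun y hy e => gap y hy (e.le.trans (by
      have a : 300000 * ((d : ℝ) + 1) ^ 2 * ((4 * d + 4) ^ d * ε) ≤ 8 * er d ε := by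
        unfold er
        generalize (4 * d + 4 : ℝ) ^ d = E at E1
        have : E ≤ E ^ 2 := by nlinarith
        have b : ((d : ℝ) + 1) ^ 2 * ε * E ≤ ((d : ℝ) + 1) ^ 2 * ε * E ^ 2 := by gcongr
        have : 0 ≤ ((d : ℝ) + 1) ^ 2 * ε * E ^ 2 := by positivity
        linarith
      nlinarith))) d hd
  obtain ⟨x0, τ1, S, t, θ, Λ, a1, a2, a3, a4, a5, a6, a7, a8⟩ := h X L hX hL hLX n d q B τ ε _ Y N I
    c p w f g ζ r P1 P2 X1 U2 hB hC hτ hn hε (by positivity) hw gap n1 n2 hX1 cX1 hU2 cU2 hr hc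
  refine ⟨x0, τ1, S, t, θ, Λ, a1, a2, a3, a4, a5, a6, a7, fun s hs s' hs' k b1 b2 => ?_⟩
  obtain ⟨z, hz, e⟩ := a8 s hs s' hs' k b1 b2
  exact ⟨z, hz, e.trans (mul_le_mul_of_nonneg_left mono (by positivity))⟩

end Vale.Agent.P057T.Mfr
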