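import Vale.Agent.P057T.TopH74

/-! The relative step as a chain of stages (abstract composition). -/

set_option linter.all false

open Finset

namespace Vale.Agent.P057T.Chain

open Vale.Agent.P057L

/-- `St J N A D R b Y Λ θ c`: dense family of boxes with a rich grid with `J` classes left. -/
structure Ch (k J0 : ℕ) (η : ℝ) (Ho : ℕ → Finset ℤ → ℝ → ℝ → ℝ → Prop)
    (St : ℕ → ℕ → Finset ℤ → ℝ → ℝ → ℝ → ℝ → ℝ → ℝ → ℕ → Prop) : Prop where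
  mono : ∀ (N : ℕ) (A : Finset ℤ) (D R b D' R' : ℝ), D ≤ D' → R ≤ R' → Ho N A D R b → Ho N A D' R' b
  start : ∀ c : ℕ, ∃ C : ℕ, ∀ (X : ℝ) (N : ℕ) (A : Finset ℤ) (D R b Λ : ℝ) (E : ℕ), C ≤ E → (C : ℝ) ≤ X →
    A ⊆ rg N → APF k A → 1 ≤ D → D ≤ Real.exp X → 1 ≤ R → Real.exp (-X) ≤ b → X ^ E ≤ Λ →
    (D * X) ^ C * (R + Λ) ≤ Real.log N → Ho N A D R b →
    Ho N A D ((D * X) ^ C * (R + Λ)) ((1 + η) * b) ∨
      St J0 N A D ((D * X) ^ C * (R + Λ)) b (X ^ E) Λ (1 + 3 * η) c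
  stage : ∀ (J c' : ℕ) (ε : ℝ), J < J0 → 0 < ε → ∃ c C : ℕ, ∀ (N : ℕ) (A : Finset ℤ)
    (D R b Y Λ Λ' θ : ℝ) (E : ℕ), C ≤ E → (C : ℝ) ≤ Y → A ⊆ rg N → 1 ≤ D → D ≤ Real.exp Y → 1 ≤ R →
    Real.exp (-Y) ≤ b → 1 ≤ θ → θ ≤ 1 + 3 * η → Y ^ E ≤ Λ' → (D * Y) ^ C * Λ' ≤ Λ →
    (D * Y) ^ C * (R + Λ) ≤ Real.log N → St (J + 1) N A D R b Y Λ θ c →
    Ho N A (D + Y ^ E) ((D * Y) ^ C * (R + Λ)) ((1 + η) * b) ∨
      St J N A (D + Y ^ E) ((D * Y) ^ C * (R + Λ)) b (Y ^ E) Λ' (θ - ε) c'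
  lift : ∃ c C : ℕ, ∀ (N : ℕ) (A : Finset ℤ) (D R b Y Λ θ : ℝ), (C : ℝ) ≤ Y → A ⊆ rg N → 1 ≤ D →
    D ≤ Real.exp Y → 1 ≤ R → Real.exp (-Y) ≤ b → 1 + 2 * η ≤ θ → θ ≤ 1 + 3 * η → Y ^ C ≤ Λ →
    (D * Y) ^ C * (R + Λ) ≤ Real.log N → St 0 N A D R b Y Λ θ c →
    Ho N A D ((D * Y) ^ C * (R + Λ)) ((1 + η) * b)

variable {k J0 : ℕ} {η : ℝ} {Ho : ℕ → Finset ℤ → ℝ → ℝ → ℝ → Prop}
  {St : ℕ → ℕ → Finset ℤ → ℝ → ℝ → ℝ → ℝ → ℝ → ℝ → ℕ → Prop}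

theorem pw {x : ℝ} (h : 1 ≤ x) {a b : ℕ} (hab : a ≤ b) : x ^ a ≤ x ^ b := pow_le_pow_right₀ h hab

theorem am {Q x y z : ℝ} (hQ : 2 ≤ Q) (hz : 0 ≤ z) (hx : x ≤ z) (hy : y ≤ z) : x + y ≤ Q * z := by
  nlinarith

theorem lm {a b : ℝ} (ha : 1 ≤ a) (hb : 0 ≤ b) : b ≤ a * b := le_mul_of_one_le_left hb ha

theorem om {a b : ℝ} (ha : 1 ≤ a) (hb : 1 ≤ b) : 1 ≤ a * b := hb.trans (lm ha (by linarith))

theorem exp_step {D Y : ℝ} {a : ℕ} (Y3 : 3 ≤ Y) (ha : 2 ≤ a) (hD : D ≤ Real.exp Y) :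
    D + Y ^ a ≤ Real.exp (Y ^ a) := by
  have h1 : Y ^ 2 ≤ Y ^ a := pw (by linarith) ha
  have h2 : Y + 1 ≤ Y ^ a - 1 := by nlinarith
  have h3 : Real.exp Y ≤ Real.exp (Y ^ a - 1) := Real.exp_le_exp.2 (by linarith)
  have h4 : Y ^ a - 1 + 1 ≤ Real.exp (Y ^ a - 1) := Real.add_one_le_exp _
  have h5 : Real.exp (Y ^ a) = Real.exp (Y ^ a - 1) * Real.exp 1 := by
    rw [← Real.exp_add]; congr 1; ring
  have h6 : (1 : ℝ) + 1 ≤ Real.exp 1 := Real.add_one_le_exp _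
  have h7 := Real.exp_pos (Y ^ a - 1)
  nlinarith

theorem down (h : Ch k J0 η Ho St) (η0 : 0 < η) (J : ℕ) (hJ : J ≤ J0) (ε : ℝ) (ε0 : 0 < ε) :
    ∃ c C : ℕ, ∀ (N : ℕ) (A : Finset ℤ) (D R b Y Λ θ : ℝ), (C : ℝ) ≤ Y → A ⊆ rg N → 1 ≤ D →
    D ≤ Real.exp Y → 1 ≤ R → Real.exp (-Y) ≤ b → 1 + 2 * η + J * ε ≤ θ → θ ≤ 1 + 3 * η →
    (D * Y) ^ C ≤ Λ → (D * Y) ^ C * (R + Λ) ≤ Real.log N → St J N A D R b Y Λ θ c →
    Ho N A (D + Y ^ C) ((D * Y) ^ C * (R + Λ)) ((1 + η) * b) := by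
  induction J with
  | zero =>
    obtain ⟨c, C, H⟩ := h.lift
    refine ⟨c, C + 1, fun N A D R b Y Λ θ hY hA d1 d2 r1 hb t1 t2 hL hN S => ?_⟩
    push_cast at hY
    have c0 : (0 : ℝ) ≤ C := Nat.cast_nonneg C
    have Y1 : 1 ≤ Y := by linarith
    have Q1 : 1 ≤ D * Y := by nlinarith
    have q : (D * Y) ^ C ≤ (D * Y) ^ (C + 1) := pw Q1 (by omega)
    have q0 : 0 ≤ (D * Y) ^ C := by positivity
    have L0 : 0 ≤ R + Λ := by linarith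
    have q2 := mul_le_mul_of_nonneg_right q L0
    have y : Y ^ C ≤ (D * Y) ^ C := pow_le_pow_left₀ (by linarith) (by nlinarith) C
    have y0 : 0 ≤ Y ^ (C + 1) := by positivity
    exact h.mono _ _ _ _ _ _ _ (by linarith) q2
      (H N A D R b Y Λ θ (by linarith) hA d1 d2 r1 hb (by simpa using t1) t2 (by linarith)
        (q2.trans hN) S)
  | succ J ih =>
    obtain ⟨c', C', H'⟩ := ih (by omega)
    obtain ⟨c, C0, H0⟩ := h.stage J c' ε (by omega) ε0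
    obtain ⟨E, hE⟩ : ∃ E, E = C0 + C' + 2 := ⟨_, rfl⟩
    obtain ⟨a, ha⟩ : ∃ a, a = (2 * E + 1) * (C' + 1) := ⟨_, rfl⟩
    refine ⟨c, a + C0 + E + 3, fun N A D R b Y Λ θ hY hA d1 d2 r1 hb t1 t2 hL hN S => ?_⟩
    push_cast at hY t1
    have n0 : (0 : ℝ) ≤ a := Nat.cast_nonneg _
    have n1 : (0 : ℝ) ≤ C0 := Nat.cast_nonneg _
    have n2 : (0 : ℝ) ≤ C' := Nat.cast_nonneg _
    have n3 : (E : ℝ) = C0 + C' + 2 := by rw [hE]; push_cast; ring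
    have n4 : (0 : ℝ) ≤ J := Nat.cast_nonneg _
    have Y3 : 3 ≤ Y := by linarith
    have Y1 : 1 ≤ Y := by linarith
    have QY : Y ≤ D * Y := lm d1 (by linarith)
    have Q1 : 1 ≤ D * Y := by linarith
    have y1 : 1 ≤ Y ^ E := one_le_pow₀ Y1
    have yE : Y ≤ Y ^ E := by simpa using pw Y1 (by omega : 1 ≤ E)
    have y0 : Y ^ C0 ≤ Y ^ E := pw Y1 (by omega)
    have k1 : (D + Y ^ E) * Y ^ E ≤ (D * Y) ^ (2 * E + 1) := by
      have u : D + Y ^ E ≤ D * (Y * Y ^ E) := by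
        rw [mul_left_comm]
        exact am (by linarith) (by positivity) (le_mul_of_one_le_right (by linarith) y1)
          (lm d1 (by linarith))
      have v : D ≤ D ^ (2 * E + 1) := by simpa using pw d1 (by omega : 1 ≤ 2 * E + 1)
      calc (D + Y ^ E) * Y ^ E ≤ D * (Y * Y ^ E) * Y ^ E :=
            mul_le_mul_of_nonneg_right u (by linarith)
        _ = D * Y ^ (2 * E + 1) := by ring
        _ ≤ _ := by rw [mul_pow]; exact mul_le_mul_of_nonneg_right v (by positivity)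
    have k0 : 1 ≤ (D + Y ^ E) * Y ^ E := om (by linarith) y1
    obtain ⟨Λ', hΛ⟩ : ∃ Λ', Λ' = ((D + Y ^ E) * Y ^ E) ^ (C' + 1) := ⟨_, rfl⟩
    have k2 : Λ' ≤ (D * Y) ^ a := by
      rw [hΛ, ha, pow_mul]; exact pow_le_pow_left₀ (by linarith) k1 _
    have k3 : ((D + Y ^ E) * Y ^ E) ^ C' ≤ Λ' := hΛ ▸ pw k0 (by omega)
    have k4 : Y ^ E ≤ Λ' := by
      have : (D + Y ^ E) * Y ^ E ≤ Λ' := by simpa [hΛ] using pw k0 (by omega : 1 ≤ C' + 1)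
      exact (lm (by linarith) (by linarith)).trans this
    have p0 : 1 ≤ (D * Y) ^ C0 := one_le_pow₀ Q1
    have pa : 1 ≤ (D * Y) ^ a := one_le_pow₀ Q1
    have k5 : (D * Y) ^ C0 * Λ' ≤ Λ := by
      refine le_trans (mul_le_mul_of_nonneg_left k2 (by linarith)) ?_
      rw [← pow_add]; exact (pw Q1 (by omega)).trans hL
    have L1 : Λ' ≤ Λ := (lm p0 (by linarith)).trans k5
    have L0 : 0 ≤ R + Λ := by linarith
    have k6 : (D * Y) ^ C0 * (R + Λ) ≤ (D * Y) ^ (a + C0 + E + 3) * (R + Λ) :=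
      mul_le_mul_of_nonneg_right (pw Q1 (by omega)) L0
    have yy : Y ^ E ≤ Y ^ (a + C0 + E + 3) := pw Y1 (by omega)
    have je : 0 ≤ (J : ℝ) * ε := by positivity
    rcases H0 N A D R b Y Λ Λ' θ E (by omega) (by linarith) hA d1 d2 r1 hb (by linarith) t2 k4 k5
      (k6.trans hN) S with H | H
    · exact h.mono _ _ _ _ _ _ _ (by linarith) k6 H
    have k7 : ((D + Y ^ E) * Y ^ E) ^ C' * ((D * Y) ^ C0 * (R + Λ) + Λ') ≤
        (D * Y) ^ (a + C0 + E + 3) * (R + Λ) := by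
      have u : (D * Y) ^ C0 * (R + Λ) + Λ' ≤ (D * Y) * ((D * Y) ^ C0 * (R + Λ)) := by
        have : R + Λ ≤ (D * Y) ^ C0 * (R + Λ) := le_mul_of_one_le_left L0 p0
        exact am (by linarith) (by linarith) le_rfl (by linarith)
      calc _ ≤ (D * Y) ^ a * ((D * Y) * ((D * Y) ^ C0 * (R + Λ))) :=
            mul_le_mul (k3.trans k2) u (add_nonneg (mul_nonneg (by linarith) L0) (by linarith))
              (by linarith)
        _ = (D * Y) ^ (a + C0 + 1) * (R + Λ) := by ring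
        _ ≤ _ := mul_le_mul_of_nonneg_right (pw Q1 (by omega)) L0
    have k8 : D + Y ^ E + (Y ^ E) ^ C' ≤ D + Y ^ (a + C0 + E + 3) := by
      have u : (Y ^ E) ^ C' ≤ Y ^ (a + C0 + E + 2) := by
        rw [← pow_mul]; refine pw Y1 ?_
        have : E * C' ≤ (2 * E + 1) * (C' + 1) := Nat.mul_le_mul (by omega) (by omega)
        omega
      have v : Y ^ E ≤ Y ^ (a + C0 + E + 2) := pw Y1 (by omega)
      have w : 0 ≤ Y ^ (a + C0 + E + 2) := by positivity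
      rw [pow_succ' Y (a + C0 + E + 2), add_assoc]
      exact add_le_add le_rfl (am (by linarith) w v u)
    refine h.mono _ _ _ _ _ _ _ k8 k7 (H' N A _ _ b _ Λ' _ (by linarith) hA (by linarith)
      (exp_step Y3 (by omega) d2) (om p0 (by linarith))
      ((Real.exp_le_exp.2 (by linarith)).trans hb) (by linarith) (by linarith) k3 (k7.trans hN) H)

/-- hosts whose step may see the logarithm of the rank -/
structure Sys2 (k : ℕ) (η : ℝ) (C : ℕ) (Ho : ℕ → Finset ℤ → ℝ → ℝ → ℝ → Prop) : Prop where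
  mono : ∀ (N : ℕ) (A : Finset ℤ) (D R b D' R' : ℝ), D ≤ D' → R ≤ R' → Ho N A D R b → Ho N A D' R' b
  h0 : ∀ (N : ℕ) (A : Finset ℤ) (b : ℝ), 1 ≤ N → A ⊆ rg N → b * N ≤ A.card → Ho N A 1 1 b
  rst : ∀ (X : ℝ) (N : ℕ) (A : Finset ℤ) (D R b : ℝ), (C : ℝ) ≤ X → A ⊆ rg N → APF k A →
    1 ≤ D → D ≤ Real.exp X → 1 ≤ R → Real.exp (-X) ≤ b → (D * X) ^ C * R ≤ Real.log N →
    Ho N A D R b → Ho N A (D + X ^ C) ((D * X) ^ C * R) ((1 + η) * b)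
  kil : ∀ (X : ℝ) (N : ℕ) (A : Finset ℤ) (D R b : ℝ), (C : ℝ) ≤ X → A ⊆ rg N → APF k A →
    1 ≤ D → 1 ≤ R → Real.exp (-X) ≤ b → (D * X) ^ C * R ≤ Real.log N → Ho N A D R b →
    ∃ (L : ℕ) (A' : Finset ℤ), Lg N L ((D * X) ^ C) ∧ A' ⊆ rg L ∧ APF k A' ∧ b / 2 * L ≤ A'.card

theorem Sys2.sys {C : ℕ} (h : Sys2 k η C Ho) :
    H74.Sys k η (3 * C + 3) fun N A D R b => Ho N A (D ^ 2) R b := by
  have num : ∀ X D : ℝ, ((3 * C + 3 : ℕ) : ℝ) ≤ X → 1 ≤ D → ∃ X2, X ≤ X2 ∧ D ^ 2 ≤ Real.exp X2 ∧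
      X2 ^ C ≤ D * X ^ (3 * C + 3) ∧ (D ^ 2 * X2) ^ C ≤ (D * X) ^ (3 * C + 3) := by
    intro X D hX d1
    push_cast at hX
    have c0 : (0 : ℝ) ≤ C := Nat.cast_nonneg C
    have l0 : 0 ≤ Real.log D := Real.log_nonneg d1
    have l1 : Real.log D ≤ D - 1 := Real.log_le_sub_one_of_pos (by linarith)
    have X1 : 1 ≤ X := by linarith
    have Q1 : 1 ≤ D * X := by nlinarith
    refine ⟨X * (1 + 2 * Real.log D), by nlinarith, ?_, ?_, ?_⟩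
    · have : D ^ 2 = Real.exp (2 * Real.log D) := by
        rw [show (2 : ℝ) * Real.log D = ((2 : ℕ) : ℝ) * Real.log D by norm_num, Real.exp_nat_mul,
          Real.exp_log (by linarith)]
      rw [this]; exact Real.exp_le_exp.2 (by nlinarith)
    · obtain ⟨u, hu⟩ : ∃ u, u = Real.exp (Real.log D / (C + 1)) := ⟨_, rfl⟩
      have u0 : Real.log D / (C + 1) + 1 ≤ u := hu ▸ Real.add_one_le_exp _
      have u3 : 0 ≤ Real.log D / (C + 1) := by positivity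
      have u1 : u ^ (C + 1) = D := by
        rw [hu, ← Real.exp_nat_mul]; push_cast
        rw [mul_div_cancel₀ _ (by linarith), Real.exp_log (by linarith)]
      have u2 : Real.log D = (C + 1) * (Real.log D / (C + 1)) := by field_simp
      have u4 : 1 + 2 * Real.log D ≤ X * u := by rw [u2]; nlinarith
      calc (X * (1 + 2 * Real.log D)) ^ C ≤ (X * (X * u)) ^ C :=
            pow_le_pow_left₀ (by positivity) (mul_le_mul_of_nonneg_left u4 (by linarith)) C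
        _ = u ^ C * X ^ (2 * C) := by rw [← mul_assoc, mul_pow, ← sq, ← pow_mul, mul_comm]
        _ ≤ _ := mul_le_mul (u1 ▸ pw (by linarith) (by omega)) (pw X1 (by omega)) (by positivity)
            (by linarith)
    · have u : D ^ 2 * (X * (1 + 2 * Real.log D)) ≤ (D * X) ^ 3 := by
        have v : 1 + 2 * Real.log D ≤ D * X ^ 2 := by nlinarith
        calc _ ≤ D ^ 2 * (X * (D * X ^ 2)) := by gcongr
          _ = _ := by ring
      refine (pow_le_pow_left₀ (by positivity) u C).trans ?_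
      rw [← pow_mul]; exact pw Q1 (by omega)
  refine ⟨fun N A b a1 a2 a3 => by simpa using h.h0 N A b a1 a2 a3, ?_, ?_⟩
  · intro X N A D R b hX hA hF d1 r1 hb hN H
    obtain ⟨X2, x1, x2, x3, x4⟩ := num X D hX d1
    have c0 : (C : ℝ) ≤ X := le_trans (by push_cast; linarith [Nat.cast_nonneg (α := ℝ) C]) hX
    have x5 := mul_le_mul_of_nonneg_right x4 (by linarith : 0 ≤ R)
    have x6 : 0 ≤ X ^ (3 * C + 3) := pow_nonneg ((Nat.cast_nonneg C).trans c0) _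
    exact h.mono _ _ _ _ _ _ _ (by nlinarith) x5 (h.rst X2 N A _ R b (c0.trans x1) hA hF
      (one_le_pow₀ d1) x2 r1 ((Real.exp_le_exp.2 (by linarith)).trans hb) (x5.trans hN) H)
  · intro X N A D R b hX hA hF d1 r1 hb hN H
    obtain ⟨X2, x1, x2, x3, x4⟩ := num X D hX d1
    have c0 : (C : ℝ) ≤ X := le_trans (by push_cast; linarith [Nat.cast_nonneg (α := ℝ) C]) hX
    have x5 := mul_le_mul_of_nonneg_right x4 (by linarith : 0 ≤ R)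
    obtain ⟨L, A', a, b', c, d⟩ := h.kil X2 N A _ R b (c0.trans x1) hA hF (one_le_pow₀ d1) r1
      ((Real.exp_le_exp.2 (by linarith)).trans hb) (x5.trans hN) H
    exact ⟨L, A', a.mono x4, b', c, d⟩

theorem rst_of (h : Ch k J0 η Ho St) (η0 : 0 < η) : ∃ C : ℕ, ∀ C', C ≤ C' →
    ∀ (X : ℝ) (N : ℕ) (A : Finset ℤ) (D R b : ℝ), (C' : ℝ) ≤ X → A ⊆ rg N → APF k A →
    1 ≤ D → D ≤ Real.exp X → 1 ≤ R → Real.exp (-X) ≤ b → (D * X) ^ C' * R ≤ Real.log N →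
    Ho N A D R b → Ho N A (D + X ^ C') ((D * X) ^ C' * R) ((1 + η) * b) := by
  obtain ⟨c, C1, H1⟩ := down h η0 J0 le_rfl (η / (J0 + 1)) (by positivity)
  obtain ⟨C0, H0⟩ := h.start c
  obtain ⟨E, hE⟩ : ∃ E, E = C0 + C1 + 1 := ⟨_, rfl⟩
  obtain ⟨a, ha⟩ : ∃ a, a = E * (C1 + 1) := ⟨_, rfl⟩
  refine ⟨2 * a + C0 + E + 3, fun C' hC X N A D R b hX hA hF d1 d2 r1 hb hN H => ?_⟩
  have hX' : ((2 * a + C0 + E + 3 : ℕ) : ℝ) ≤ X := le_trans (by exact_mod_cast hC) hX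
  push_cast at hX'
  have n0 : (0 : ℝ) ≤ a := Nat.cast_nonneg _
  have n1 : (0 : ℝ) ≤ C0 := Nat.cast_nonneg _
  have n2 : (0 : ℝ) ≤ C1 := Nat.cast_nonneg _
  have n3 : (E : ℝ) = C0 + C1 + 1 := by rw [hE]; push_cast; ring
  have X1 : 1 ≤ X := by linarith
  have QX : X ≤ D * X := lm d1 (by linarith)
  have Q1 : 1 ≤ D * X := by linarith
  have x1 : 1 ≤ X ^ E := one_le_pow₀ X1
  have xE : X ≤ X ^ E := by simpa using pw X1 (by omega : 1 ≤ E)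
  have k1 : D * X ^ E ≤ (D * X) ^ E := by
    rw [mul_pow]
    exact mul_le_mul_of_nonneg_right (by simpa using pw d1 (by omega : 1 ≤ E)) (by linarith)
  have k0 : 1 ≤ D * X ^ E := om d1 x1
  obtain ⟨Λ, hΛ⟩ : ∃ Λ, Λ = (D * X ^ E) ^ (C1 + 1) := ⟨_, rfl⟩
  have k2 : Λ ≤ (D * X) ^ a := by
    rw [hΛ, ha, pow_mul]; exact pow_le_pow_left₀ (by linarith) k1 _
  have k3 : (D * X ^ E) ^ C1 ≤ Λ := hΛ ▸ pw k0 (by omega)
  have k4 : X ^ E ≤ Λ := by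
    have : D * X ^ E ≤ Λ := by simpa [hΛ] using pw k0 (by omega : 1 ≤ C1 + 1)
    exact (lm d1 (by linarith)).trans this
  have p0 : 1 ≤ (D * X) ^ C0 := one_le_pow₀ Q1
  have pa : 1 ≤ (D * X) ^ a := one_le_pow₀ Q1
  have k5 : R + Λ ≤ (D * X) ^ (a + 1) * R := by
    rw [pow_succ', mul_assoc]
    exact am (by linarith) (mul_nonneg (by linarith) (by linarith)) (lm pa (by linarith))
      (k2.trans (le_mul_of_one_le_right (by linarith) r1))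
  have L0 : 0 ≤ R + Λ := by linarith
  have k7 : (D * X ^ E) ^ C1 * ((D * X) ^ C0 * (R + Λ) + Λ) ≤ (D * X) ^ C' * R := by
    have u : (D * X) ^ C0 * (R + Λ) + Λ ≤ (D * X) * ((D * X) ^ C0 * (R + Λ)) := by
      have : R + Λ ≤ (D * X) ^ C0 * (R + Λ) := le_mul_of_one_le_left L0 p0
      exact am (by linarith) (by linarith) le_rfl (by linarith)
    calc _ ≤ (D * X) ^ a * ((D * X) * ((D * X) ^ C0 * (R + Λ))) :=
          mul_le_mul (k3.trans k2) u (add_nonneg (mul_nonneg (by linarith) L0) (by linarith))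
            (by linarith)
      _ ≤ (D * X) ^ a * ((D * X) * ((D * X) ^ C0 * ((D * X) ^ (a + 1) * R))) :=
          mul_le_mul_of_nonneg_left (mul_le_mul_of_nonneg_left
            (mul_le_mul_of_nonneg_left k5 (by linarith)) (by linarith)) (by linarith)
      _ = (D * X) ^ (2 * a + C0 + 2) * R := by ring
      _ ≤ _ := mul_le_mul_of_nonneg_right (pw Q1 (by omega)) (by linarith)
  have k6 : (D * X) ^ C0 * (R + Λ) ≤ (D * X) ^ C' * R := by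
    have : 1 ≤ (D * X ^ E) ^ C1 := one_le_pow₀ k0
    have u : 0 ≤ (D * X) ^ C0 * (R + Λ) + Λ := add_nonneg (mul_nonneg (by linarith) L0) (by linarith)
    linarith [le_mul_of_one_le_left u this]
  have x0 : 0 ≤ X ^ C' := by positivity
  rcases H0 X N A D R b Λ E (by omega) (by linarith) hA hF d1 d2 r1 hb k4 (k6.trans hN) H with S | S
  · exact h.mono _ _ _ _ _ _ _ (by linarith) k6 S
  have j0 : (J0 : ℝ) * (η / (J0 + 1)) ≤ η := by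
    rw [← mul_div_assoc, div_le_iff₀ (by positivity), mul_add, mul_comm η]; linarith
  refine h.mono _ _ _ _ _ _ _ ?_ k7 (H1 N A D _ b _ Λ _ (by linarith) hA d1
    (d2.trans (Real.exp_le_exp.2 xE)) (om p0 (by linarith)) ((Real.exp_le_exp.2 (by linarith)).trans hb)
    (by linarith) le_rfl k3 (k7.trans hN) S)
  rw [← pow_mul]
  have : E * C1 ≤ E * (C1 + 1) := Nat.mul_le_mul_left _ (by omega)
  linarith [pw X1 (by omega : E * C1 ≤ C')]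

/-- the whole problem from hosts and chains -/
theorem top (h : ∀ k : ℕ, 3 ≤ k → ∃ η : ℝ, 0 < η ∧ ∃ (J0 C : ℕ)
    (Ho : ℕ → Finset ℤ → ℝ → ℝ → ℝ → Prop)
    (St : ℕ → ℕ → Finset ℤ → ℝ → ℝ → ℝ → ℝ → ℝ → ℝ → ℕ → Prop), Ch k J0 η Ho St ∧
    (∀ (N : ℕ) (A : Finset ℤ) (b : ℝ), 1 ≤ N → A ⊆ rg N → b * N ≤ A.card → Ho N A 1 1 b) ∧
    ∀ C', C ≤ C' → ∀ (X : ℝ) (N : ℕ) (A : Finset ℤ) (D R b : ℝ), (C' : ℝ) ≤ X → A ⊆ rg N → APF k A →
      1 ≤ D → 1 ≤ R → Real.exp (-X) ≤ b → (D * X) ^ C' * R ≤ Real.log N → Ho N A D R b →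
      ∃ (L : ℕ) (A' : Finset ℤ), Lg N L ((D * X) ^ C') ∧ A' ⊆ rg L ∧ APF k A' ∧
        b / 2 * L ≤ A'.card) : H74.RESULT := by
  refine H74.top fun k hk => ?_
  obtain ⟨η, η0, J0, C, Ho, St, a, b, c⟩ := h k hk
  obtain ⟨C1, d⟩ := rst_of a η0
  exact ⟨η, η0, _, _, Sys2.sys (C := C + C1) ⟨a.mono, b, d _ (by omega), c _ (by omega)⟩⟩

end Vale.Agent.P057T.Chain
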