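import Vale.Agent.P057T.Chart

/-! Charts `t k = ∑ j, A k j * (X j - q j)`: inverse, filtration, small substitutions. -/

namespace Vale.Agent.P057T.Chart

open MvPolynomial Finset L1

variable {ι τ : Type*}

theorem aeval_aeval {κ : Type*} (f : ι → MvPolynomial τ ℝ) (h : τ → MvPolynomial κ ℝ)
    (p : MvPolynomial ι ℝ) : aeval h (aeval f p) = aeval (fun i => aeval h (f i)) p := by
  rw [← AlgHom.comp_apply, comp_aeval]

/-- small substitutions contract polynomials without constant term -/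
theorem nrm_aeval_le_small {f : ι → MvPolynomial τ ℝ} {η : ℝ} (h0 : 0 ≤ η) (h1 : η ≤ 1)
    {p : MvPolynomial ι ℝ} (hf : ∀ i ∈ p.vars, nrm (f i) ≤ η) (hp : coeff 0 p = 0) :
    nrm (aeval f p) ≤ nrm p * η := by
  classical
  refine (nrm_aeval_le_sum f p).trans ?_
  rw [nrm, sum_mul]
  refine sum_le_sum fun m hm => mul_le_mul_of_nonneg_left ?_ (abs_nonneg _)
  have hm0 : m ≠ 0 := fun h => mem_support_iff.1 hm (h ▸ hp)
  calc ∏ i ∈ m.support, nrm (f i) ^ m i ≤ ∏ i ∈ m.support, η ^ m i :=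
        prod_le_prod (fun _ _ => pow_nonneg (nrm_nonneg _) _) fun i hi =>
          pow_le_pow_left₀ (nrm_nonneg _)
            (hf i ((mem_vars_iff_mem_support i).2 ⟨m, hm, hi⟩)) _
    _ = η ^ (∑ i ∈ m.support, m i) := prod_pow_eq_pow_sum _ _ _
    _ ≤ η := by
      obtain ⟨i, hi⟩ := Finsupp.support_nonempty_iff.2 hm0
      have h2 : 1 ≤ ∑ i ∈ m.support, m i :=
        (Nat.one_le_iff_ne_zero.2 (Finsupp.mem_support_iff.1 hi)).trans
          (single_le_sum (f := fun i => m i) (fun _ _ => Nat.zero_le _) hi)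
      simpa using pow_le_pow_of_le_one h0 h1 h2

theorem coeff_zero_of_hom {w : ι → ℕ} {p : MvPolynomial ι ℝ} {n : ℕ} (hn : n ≠ 0)
    (hp : p.IsWeightedHomogeneous w n) : coeff 0 p = 0 := by
  by_contra h
  exact hn ((hp h).symm.trans (map_zero _))

theorem eq_C_of_hom_zero {w : ι → ℕ} (hw : ∀ i, 1 ≤ w i) {p : MvPolynomial ι ℝ}
    (hp : p.IsWeightedHomogeneous w 0) : p = C (coeff 0 p) :=
  totalDegree_eq_zero_iff_eq_C.1 (Nat.le_zero.1 (totalDegree_le_of_hom hw hp))

/-- a variable of a homogeneous polynomial has weight at most the degree -/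
theorem weight_le_of_vars {w : ι → ℕ} {p : MvPolynomial ι ℝ} {n : ℕ}
    (hp : p.IsWeightedHomogeneous w n) {i : ι} (hi : i ∈ p.vars) : w i ≤ n := by
  classical
  obtain ⟨m, hm, him⟩ := (mem_vars_iff_mem_support i).1 hi
  rw [← hp (mem_support_iff.1 hm), Finsupp.weight_apply]
  refine le_trans ?_ (single_le_sum (f := fun i => m i • w i) (fun _ _ => Nat.zero_le _) him)
  simpa using Nat.le_mul_of_pos_left (w i) (Nat.pos_of_ne_zero (Finsupp.mem_support_iff.1 him))

variable [Fintype ι]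

/-- the chart -/
noncomputable def tc (A : Matrix ι ι ℝ) (q : ι → MvPolynomial ι ℝ) (k : ι) : MvPolynomial ι ℝ :=
  ∑ j, C (A k j) * (X j - q j)

theorem aeval_tc (A : Matrix ι ι ℝ) (q : ι → MvPolynomial ι ℝ) (b : MvPolynomial ι ℝ) :
    aeval (tc A q) b = aeval (fun i => X i - q i) (aeval (lin A) b) := by
  rw [aeval_aeval]
  congr 2
  funext k
  rw [aeval_lin, tc]

omit [Fintype ι] in
theorem lin_vars {P : τ → Prop} [Fintype τ] {A : Matrix ι τ ℝ} {i : ι}
    (h : ∀ j, A i j ≠ 0 → P j) : ∀ j ∈ (lin A i).vars, P j := by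
  refine vars_sum' fun a _ => ?_
  by_cases ha : A i a = 0
  · simp [ha]
  · exact vars_mul' (vars_C' _) (vars_X' (h a ha))

omit [Fintype ι] in
theorem lin_hom [Fintype τ] {v : τ → ℕ} {A : Matrix ι τ ℝ} {i : ι} {n : ℕ}
    (h : ∀ j, A i j ≠ 0 → v j = n) : (lin A i).IsWeightedHomogeneous v n := by
  refine IsWeightedHomogeneous.sum _ _ _ fun a _ => ?_
  by_cases ha : A i a = 0
  · rw [ha, map_zero, zero_mul]; exact isWeightedHomogeneous_zero _ _ _
  · rw [← h a ha, ← zero_add (v a)]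
    exact (isWeightedHomogeneous_C v _).mul (isWeightedHomogeneous_X ℝ v a)

theorem aeval_lin_lin [DecidableEq ι] {A B : Matrix ι ι ℝ} (h : A * B = 1)
    (b : MvPolynomial ι ℝ) : aeval (lin B) (aeval (lin A) b) = b := by
  rw [aeval_aeval]
  conv_rhs => rw [← aeval_X_left_apply b]
  congr 2
  funext i
  rw [lin_lin, h, lin_one]

theorem tc_vars {g : ι → ℕ} {A : Matrix ι ι ℝ} {q : ι → MvPolynomial ι ℝ}
    (hq : ∀ i, ∀ j ∈ (q i).vars, g j < g i) (hA : ∀ i j, A i j ≠ 0 → g j ≤ g i) (k : ι) :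
    ∀ j ∈ (tc A q k).vars, g j ≤ g k := by
  refine vars_sum' fun a _ => ?_
  by_cases ha : A k a = 0
  · simp [ha]
  · exact vars_mul' (vars_C' _)
      (vars_sub' (vars_X' (hA k a ha)) fun j hj => (hq a j hj).le.trans (hA k a ha))

theorem tc_hom {w : ι → ℕ} {A : Matrix ι ι ℝ} {q : ι → MvPolynomial ι ℝ}
    (hq : ∀ i, (q i).IsWeightedHomogeneous w (w i)) (hA : ∀ i j, A i j ≠ 0 → w j = w i) (k : ι) :
    (tc A q k).IsWeightedHomogeneous w (w k) := by
  refine IsWeightedHomogeneous.sum _ _ _ fun a _ => ?_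
  by_cases ha : A k a = 0
  · rw [ha, map_zero, zero_mul]; exact isWeightedHomogeneous_zero _ _ _
  · rw [← hA k a ha, ← zero_add (w a)]
    refine (isWeightedHomogeneous_C w _).mul ?_
    exact (weightedHomogeneousSubmodule ℝ w (w a)).sub_mem (isWeightedHomogeneous_X ℝ w a) (hq a)

/-- in a variable of a group not below the group of `k` the chart has constant derivative -/
theorem pderiv_tc {g : ι → ℕ} {A : Matrix ι ι ℝ} {q : ι → MvPolynomial ι ℝ}
    (hq : ∀ i, ∀ j ∈ (q i).vars, g j < g i) (hA : ∀ i j, A i j ≠ 0 → g j ≤ g i) {k y : ι}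
    (h : g k ≤ g y) : pderiv y (tc A q k) = C (A k y) := by
  classical
  rw [← pderiv_lin A k y, tc, lin, map_sum, map_sum]
  refine sum_congr rfl fun a _ => ?_
  by_cases ha : A k a = 0
  · simp [ha]
  · have : pderiv y (q a) = 0 := pderiv_eq_zero_of_notMem_vars fun hy => by
      have h1 := hq a y hy; have h2 := hA k a ha; omega
    rw [pderiv_C_mul, pderiv_C_mul, map_sub, this, sub_zero]

/-- the inverse of the chart -/
theorem exists_tc_inv [DecidableEq ι] {g : ι → ℕ} {A B : Matrix ι ι ℝ}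
    {q : ι → MvPolynomial ι ℝ} (hq : ∀ i, ∀ j ∈ (q i).vars, g j < g i) (hAB : A * B = 1)
    (hB : ∀ i j, B i j ≠ 0 → g j ≤ g i) :
    ∃ s : ι → MvPolynomial ι ℝ, (∀ i, s i = lin B i + aeval s (q i)) ∧
      (∀ b, aeval s (aeval (tc A q) b) = b) ∧ (∀ F, aeval (tc A q) (aeval s F) = F) ∧
      (∀ i, ∀ j ∈ (s i).vars, g j ≤ g i) ∧
      ∀ w : ι → ℕ, (∀ i, (q i).IsWeightedHomogeneous w (w i)) → (∀ i j, B i j ≠ 0 → w j = w i) →
        ∀ i, (s i).IsWeightedHomogeneous w (w i) := by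
  obtain ⟨r, h1, h2, h3, h4, h5⟩ := exists_inv hq
  refine ⟨fun i => aeval (lin B) (r i), fun i => ?_, fun b => ?_, fun F => ?_, fun i => ?_,
    fun w hw hw' i => ?_⟩
  · rw [← aeval_aeval]
    show aeval (lin B) (r i) = _
    conv_lhs => rw [h1 i, map_add, aeval_X]
  · rw [← aeval_aeval, aeval_tc, h3, aeval_lin_lin hAB]
  · rw [← aeval_aeval, aeval_tc, aeval_lin_lin (mul_eq_one_comm.1 hAB), h4]
  · exact vars_aeval fun k hk j hj => (lin_vars (hB k) j hj).trans (h2 i k hk)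
  · exact hom_aeval (h5 w hw i) fun k => lin_hom (hw' k)

end Vale.Agent.P057T.Chart
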