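import Vale.Agent.P057T.Cp.Dbl
import Vale.Agent.P057T.Cp.Fibr

/-!
The coloured cut lemma: the stages of full colour are invisible to a product of functions each
of which misses one colour.
-/

open MvPolynomial Finset
open scoped Real

namespace Vale.Agent.P057T.Cp

open Vale.Agent.P057T.Eq Vale.Agent.P057T.Eq.Br

noncomputable section

set_option linter.unusedSectionVars false
set_option linter.unusedVariables false

variable {ι Γ K : Type} [Fintype ι] [DecidableEq ι] [Fintype Γ] [DecidableEq Γ] [Fintype K]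
  [DecidableEq K] [Inhabited K]

/-- the variables which miss a colour -/
def tW (col : ι → Finset Γ) : Finset ι := univ.filter fun a => col a ≠ univ

def CUTC : Prop := ∀ s r : ℕ, ∃ c : ℕ, ∀ (ι Γ : Type) [Fintype ι] [DecidableEq ι] [Fintype Γ]
  [DecidableEq Γ] (G : GT ι) (T : AT ι) (WW : ℕ → ℝ) (P Y : ℝ) (col : ι → Finset Γ)
  (F : Γ → (ι → ℤ) → ℂ), 0 < Fintype.card Γ → Fintype.card Γ ≤ r → Sz ι P Y → G.AOk T P →
    Rr G s WW (P ^ c) Y → Col G col → ColT T col → (∀ c z, ‖F c z‖ ≤ 1) →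
    (∀ c z z', (∀ a, c ∉ col a → z a = z' a) → F c z = F c z') →
    Mn G T = Mn G (T.rs (T.U ∩ tW col)) * G.mn T.sg (T.U \ tW col) ∧
    ‖Ex G T (fun z => ∏ c, F c z) - (G.mn T.sg (T.U \ tW col) : ℂ) *
      Ex G (T.rs (T.U ∩ tW col)) (fun z => ∏ c, F c z)‖ ≤ Real.exp (-Y) * Mn G T

namespace CutC

theorem mem_tW {col : ι → Finset Γ} {a : ι} : a ∈ tW col ↔ col a ≠ univ := by simp [tW]

theorem not_tW {col : ι → Finset Γ} {a : ι} : a ∉ tW col ↔ col a = univ := by simp [tW]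

theorem tW_sub {col : ι → Finset Γ} {a b : ι} (ha : a ∈ tW col) (h : col b ⊆ col a) :
    b ∈ tW col := mem_tW.2 fun hb => mem_tW.1 ha (univ_subset_iff.1 (hb ▸ h))

theorem cls_tW {G : GT ι} {T : AT ι} {col : ι → Finset Γ} (hc : Col G col) (ht : ColT T col) :
    Cls G T (tW col) where
  bk a b h := by rw [mem_tW, mem_tW, hc.blk a b h]
  qv a ha b hb := tW_sub ha (hc.sub a b hb)
  pv a hU ha b hb := tW_sub ha (ht a hU b hb)

theorem vx_top {col : ι → Finset Γ} {a : ι} (h : col a = univ) (f : Γ → K) :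
    (vx col f a).1.2 = f := by
  funext c
  simp [vx, rs, h]

theorem vx_self {col : ι → Finset Γ} (v : CV col K) : vx col v.1.2 v.1.1 = v :=
  Subtype.ext (Prod.ext rfl v.2)

/-- all lower copies and the top copies at the vertices in `S` -/
def uS (T : AT ι) (col : ι → Finset Γ) (S : Finset (Γ → K)) : Finset (CV col K) :=
  univ.filter fun x => x.1.1 ∈ T.U ∧ (col x.1.1 ≠ univ ∨ x.1.2 ∈ S)

theorem mem_uS {T : AT ι} {col : ι → Finset Γ} {S : Finset (Γ → K)} {x : CV col K} :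
    x ∈ uS T col S ↔ x.1.1 ∈ T.U ∧ (col x.1.1 ≠ univ ∨ x.1.2 ∈ S) := by simp [uS]

theorem cl_uS (T : AT ι) (col : ι → Finset Γ) (S : Finset (Γ → K)) : Cl T col (uS T col S) := by
  intro x hx
  obtain ⟨h1, h2⟩ := mem_uS.1 hx
  refine ⟨h1, fun b hb hs => mem_uS.2 ⟨hb, ?_⟩⟩
  by_cases h : col b = univ
  · right
    rw [vx_top h]
    exact h2.resolve_left fun h3 => h3 (univ_subset_iff.1 (h ▸ hs))
  · exact Or.inl h

theorem mem_V {T : AT ι} {col : ι → Finset Γ} {S : Finset (Γ → K)} {x : CV col K} :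
    x ∈ uS T col S \ tW (fun x : CV col K => col x.1.1) ↔
      x.1.1 ∈ T.U \ tW col ∧ x.1.2 ∈ S := by
  rw [mem_sdiff, mem_sdiff, mem_uS, not_tW, not_tW]
  tauto

theorem inter_uS (T : AT ι) (col : ι → Finset Γ) (S : Finset (Γ → K)) :
    uS T col S ∩ tW (fun x : CV col K => col x.1.1) = fu (T.rs (T.U ∩ tW col)) col K := by
  ext x
  rw [mem_inter, mem_uS, mem_tW, fu, mem_filter]
  change _ ↔ _ ∧ x.1.1 ∈ T.U ∩ tW col
  rw [mem_inter, mem_tW]
  simp only [mem_univ, true_and]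
  tauto

theorem vx_V {T : AT ι} {col : ι → Finset Γ} {S : Finset (Γ → K)} {f : Γ → K} (hf : f ∈ S) {a : ι} :
    vx col f a ∈ uS T col S \ tW (fun x : CV col K => col x.1.1) ↔ a ∈ T.U \ tW col := by
  rw [mem_V]
  refine ⟨fun h => h.1, fun h => ⟨h, ?_⟩⟩
  rw [vx_top (not_tW.1 (mem_sdiff.1 h).2)]
  exact hf

/-- the lattice of the top copies -/
def tE (T : AT ι) (col : ι → Finset Γ) (S : Finset (Γ → K)) :
    (S → Lat (T.U \ tW col)) ≃ Lat (uS T col S \ tW (fun x : CV col K => col x.1.1)) where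
  toFun x := ⟨fun v => if h : v.1.2 ∈ S then (x ⟨v.1.2, h⟩).1 v.1.1 else 0, fun v hv => by
    by_cases h : v.1.2 ∈ S
    · exact (dif_pos h).trans ((x _).2 _ fun h2 => hv (mem_V.2 ⟨h2, h⟩))
    · exact dif_neg h⟩
  invFun z f := ⟨pt col f.1 z.1, fun a ha => z.2 _ fun h => ha ((vx_V f.2).1 h)⟩
  left_inv x := by
    funext f
    refine Subtype.ext (funext fun a => ?_)
    by_cases h : col a = univ
    · have h1 : (vx col f.1 a).1.2 ∈ S := by rw [vx_top h]; exact f.2
      refine (dif_pos h1).trans ?_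
      have h2 : (⟨(vx col f.1 a).1.2, h1⟩ : S) = f := Subtype.ext (vx_top h _)
      rw [h2]
      rfl
    · have h0 : a ∉ T.U \ tW col := fun h2 => (mem_sdiff.1 h2).2 (mem_tW.2 h)
      rw [(x f).2 a h0]
      by_cases h1 : (vx col f.1 a).1.2 ∈ S
      · exact (dif_pos h1).trans ((x _).2 a h0)
      · exact dif_neg h1
  right_inv z := by
    refine Subtype.ext (funext fun v => ?_)
    by_cases h : v.1.2 ∈ S
    · refine (dif_pos h).trans ?_
      change z.1 (vx col v.1.2 v.1.1) = z.1 v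
      rw [vx_self]
    · exact (dif_neg h).trans (z.2 v fun h2 => h (mem_V.1 h2).2).symm

theorem pt_tE (T : AT ι) (col : ι → Finset Γ) (S : Finset (Γ → K)) (x : S → Lat (T.U \ tW col))
    (f : S) : pt col f.1 (tE T col S x).1 = (x f).1 :=
  congrArg Subtype.val (congrFun ((tE T col S).left_inv x) f)

theorem sum_V (T : AT ι) (col : ι → Finset Γ) (S : Finset (Γ → K)) (φ : CV col K → ℝ) :
    ∑ v ∈ uS T col S \ tW (fun x : CV col K => col x.1.1), φ v =
      ∑ f ∈ S, ∑ a ∈ T.U \ tW col, φ (vx col f a) := by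
  rw [← Finset.sum_product' S (T.U \ tW col) fun f a => φ (vx col f a)]
  refine Finset.sum_nbij' (fun v => (v.1.2, v.1.1)) (fun u => vx col u.1 u.2) ?_ ?_ ?_ ?_ ?_
  · intro v hv
    exact mem_product.2 ⟨(mem_V.1 hv).2, (mem_V.1 hv).1⟩
  · intro u hu
    exact (vx_V (mem_product.1 hu).1).2 (mem_product.1 hu).2
  · intro v _
    exact vx_self v
  · intro u hu
    exact Prod.ext (vx_top (not_tW.1 (mem_sdiff.1 (mem_product.1 hu).2).2) _) rfl
  · intro v _
    rw [vx_self]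

theorem nu_V (hA : CPA) {s : ℕ} {G : GT ι} {T : AT ι} {P : ℝ} {col : ι → Finset Γ} (hG : G.Ok s)
    (hT : G.AOk T P) (hc : Col G col) (ht : ColT T col) (S : Finset (Γ → K)) (w : CV col K → ℤ) :
    (cp G col K).nu (cpT T col (uS T col S \ tW (fun x : CV col K => col x.1.1))) w =
      ∏ f : S, G.nu (T.rs (T.U \ tW col)) (pt col f.1 w) := by
  obtain ⟨-, -, a3, -, a5⟩ := hA s ι Γ K G col hG hc
  obtain ⟨-, -, a7⟩ := a5 T P hT ht
  unfold GT.nu
  rw [← Real.exp_sum, ← Finset.mul_sum, Finset.sum_coe_sort S fun f => ∑ a ∈ (T.rs (T.U \ tW col)).U,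
    ((T.rs (T.U \ tW col)).sg a * eval (cz (pt col f w)) (G.ch (T.rs (T.U \ tW col)) a)) ^ 2]
  congr 2
  refine (sum_V T col S _).trans (sum_congr rfl fun f _ => sum_congr rfl fun a ha => ?_)
  rw [(a7 _).1 f a (mem_sdiff.1 ha).1, a3]
  rfl

theorem fs_cp (hA : CPA) (hF : FUB) {s : ℕ} {G : GT ι} {T : AT ι} {P : ℝ} {col : ι → Finset Γ}
    (hG : G.Ok s) (hP : 0 < P) (hT : G.AOk T P) (hc : Col G col) (ht : ColT T col)
    (S : Finset (Γ → K)) (y : CV col K → ℤ) :
    Fs (cp G col K) (cpT T col (uS T col S)) (tW fun x : CV col K => col x.1.1)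
        (fun _ => (1 : ℂ)) y = ∏ f ∈ S, Fs G T (tW col) (fun _ => (1 : ℂ)) (pt col f y) := by
  obtain ⟨-, -, f3, -⟩ := hF s ι G T P (tW col) hG hP hT (cls_tW hc ht)
  rw [← Finset.prod_coe_sort S]
  unfold Fs
  rw [← DblP.tsum_pi (fun (f : S) (x : Lat (T.U \ tW col)) =>
    G.nu (T.rs (T.U \ tW col)) (pt col f.1 y + x.1) • (1 : ℂ))]
  · refine ((tE T col S).tsum_eq _).symm.trans (tsum_congr fun x => ?_)
    have h := nu_V hA hG hT hc ht S (y + (tE T col S x).1)
    refine (congrArg (fun t : ℝ => t • (1 : ℂ)) h).trans ?_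
    simp only [Complex.real_smul, mul_one, Complex.ofReal_prod]
    refine prod_congr rfl fun f _ => ?_
    rw [← pt_tE T col S x f]
    rfl
  · intro f
    refine (f3 (pt col f.1 y)).congr fun x => ?_
    rw [norm_smul, norm_one, mul_one, Real.norm_of_nonneg (FibrP.nu_pos _ _ _).le]

theorem cn_uS (T : AT ι) (col : ι → Finset Γ) (S : Finset (Γ → K)) {e : Finset Γ} (he : e ≠ univ) :
    cn T col (uS T col S) e = cn T col (uS T col (∅ : Finset (Γ → K))) e := by
  unfold cn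
  congr 1
  refine filter_congr fun f _ => and_congr_right fun _ => exists_congr fun a => and_congr_right
    fun ha => and_congr_right fun hc => ?_
  have : col a ≠ univ := hc ▸ he
  exact ⟨fun _ => mem_uS.2 ⟨ha, Or.inl this⟩, fun _ => mem_uS.2 ⟨ha, Or.inl this⟩⟩

theorem cn_top (T : AT ι) (col : ι → Finset Γ) (S : Finset (Γ → K))
    (h : (T.U.filter fun a => col a = univ).Nonempty) : cn T col (uS T col S) univ = S.card := by
  obtain ⟨b, hb⟩ := h
  obtain ⟨hb1, hb2⟩ := mem_filter.1 hb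
  unfold cn
  congr 1
  ext f
  simp only [mem_filter, mem_univ, true_and]
  constructor
  · rintro ⟨-, a, ha, hc, h3⟩
    have := (mem_uS.1 h3).2.resolve_left fun h4 => h4 hc
    rwa [vx_top hc] at this
  · intro hf
    refine ⟨by funext c; simp [rs], b, hb1, hb2, mem_uS.2 ⟨hb1, Or.inr ?_⟩⟩
    rwa [vx_top hb2]

theorem mn_uS (hM : CPM) {s : ℕ} {G : GT ι} {T : AT ι} {P : ℝ} {col : ι → Finset Γ}
    (hG : G.Ok s) (hP : 0 < P) (hT : G.AOk T P) (hc : Col G col) (ht : ColT T col)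
    (S : Finset (Γ → K)) : Mn (cp G col K) (cpT T col (uS T col S)) =
      Mn (cp G col K) (cpT T col (uS T col (∅ : Finset (Γ → K)))) *
        G.mn T.sg (T.U \ tW col) ^ S.card := by
  obtain ⟨m1, -⟩ := hM s ι Γ K G T P col hG hc hP hT ht
  have e : T.U \ tW col = T.U.filter fun a => col a = univ := by
    ext a
    rw [mem_sdiff, not_tW, mem_filter]
  rw [m1 _ (cl_uS T col S), m1 _ (cl_uS T col ∅), ← Finset.mul_prod_erase _ _ (mem_univ univ),
    ← Finset.mul_prod_erase univ _ (mem_univ (univ : Finset Γ)),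
    DblP.mn_pow G T.sg _ (cn_top T col S), DblP.mn_pow G T.sg _ (cn_top T col ∅), card_empty,
    pow_zero, one_mul, e, mul_comm]
  congr 1
  exact prod_congr rfl fun e he => by rw [cn_uS T col S (ne_of_mem_erase he)]

theorem ex_sum {G : GT ι} {T : AT ι} (hs : Summable fun z : Lat T.U => G.nu T z.1) {J : Type}
    (A : Finset J) (c : J → ℂ) (h : J → (ι → ℤ) → ℂ) (hb : ∀ j, ∃ B, ∀ z, ‖h j z‖ ≤ B) :
    Ex G T (fun z => ∑ j ∈ A, h j z * c j) = ∑ j ∈ A, Ex G T (h j) * c j := by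
  have k : ∀ j, Summable fun z : Lat T.U => G.nu T z.1 • h j z.1 := fun j => by
    obtain ⟨B, hB⟩ := hb j
    refine Summable.of_norm_bounded (hs.mul_right B) fun z => ?_
    rw [norm_smul, Real.norm_of_nonneg (FibrP.nu_pos _ _ _).le]
    exact mul_le_mul_of_nonneg_left (hB _) (FibrP.nu_pos _ _ _).le
  unfold Ex
  simp only [← tsum_mul_right]
  rw [← Summable.tsum_finsetSum fun j _ => (k j).mul_right (c j)]
  refine tsum_congr fun z => ?_
  rw [Finset.smul_sum]
  exact sum_congr rfl fun j _ => (smul_mul_assoc _ _ _).symm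

/-- the alternating sum of the masses -/
theorem alt {V : Type} [Fintype V] [DecidableEq V] [Nonempty V] (E : Finset V → ℝ) {M m δ : ℝ}
    (hm : 0 ≤ m) (h : ∀ S, |E S - M * m ^ S.card| ≤ δ * (M * m ^ S.card)) :
    ∑ S ∈ (univ : Finset V).powerset, E S * (-m) ^ (univ \ S).card ≤
      δ * M * (2 * m) ^ Fintype.card V := by
  have b1 : ∑ S ∈ (univ : Finset V).powerset, m ^ S.card * (-m) ^ (univ \ S).card = 0 := by
    have := Finset.prod_add (fun _ : V => m) (fun _ => -m) univ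
    simp only [prod_const, add_neg_cancel] at this
    rw [← this, zero_pow (card_pos.2 univ_nonempty).ne']
  have b2 : ∑ S ∈ (univ : Finset V).powerset, m ^ S.card * m ^ (univ \ S).card =
      (2 * m) ^ Fintype.card V := by
    have := Finset.prod_add (fun _ : V => m) (fun _ => m) univ
    simp only [prod_const] at this
    rw [← this, two_mul, card_univ]
  calc ∑ S ∈ (univ : Finset V).powerset, E S * (-m) ^ (univ \ S).card
      = ∑ S ∈ (univ : Finset V).powerset, (E S - M * m ^ S.card) * (-m) ^ (univ \ S).card +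
        M * ∑ S ∈ (univ : Finset V).powerset, m ^ S.card * (-m) ^ (univ \ S).card := by
        rw [mul_sum, ← sum_add_distrib]
        exact sum_congr rfl fun S _ => by ring
    _ ≤ ∑ S ∈ (univ : Finset V).powerset, δ * M * (m ^ S.card * m ^ (univ \ S).card) := by
        rw [b1, mul_zero, add_zero]
        refine sum_le_sum fun S _ => (le_abs_self _).trans ?_
        rw [abs_mul, abs_pow, abs_neg, abs_of_nonneg hm]
        refine (mul_le_mul_of_nonneg_right (h S) (pow_nonneg hm _)).trans (le_of_eq (by ring))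
    _ = _ := by rw [← mul_sum, b2]

theorem fin_num {x M m Y δ : ℝ} {n : ℕ} (hn : n ≠ 0) (hx : 0 ≤ x) (hM : 0 < M) (hm : 0 ≤ m)
    (hδ : δ ≤ Real.exp (-(Y + 2)) ^ n) (h : (x / (2 * M)) ^ n ≤ δ * (2 * m) ^ n) :
    x ≤ Real.exp (-Y) * (M * m) := by
  have h1 : (x / (2 * M)) ^ n ≤ (Real.exp (-(Y + 2)) * (2 * m)) ^ n := by
    rw [mul_pow]
    exact h.trans (mul_le_mul_of_nonneg_right hδ (by positivity))
  have h2 := le_of_pow_le_pow_left₀ hn (by positivity) h1
  rw [div_le_iff₀ (by positivity)] at h2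
  have h3 : Real.exp (-(Y + 2)) * 4 ≤ Real.exp (-Y) := by
    have h4 : Real.exp (-Y) = Real.exp (-(Y + 2)) * (Real.exp 1 * Real.exp 1) := by
      rw [← Real.exp_add, ← Real.exp_add]
      congr 1
      ring
    have h5 : (2 : ℝ) ≤ Real.exp 1 := by linarith [Real.add_one_le_exp (1 : ℝ)]
    rw [h4]
    exact mul_le_mul_of_nonneg_left (by nlinarith) (Real.exp_pos _).le
  calc x ≤ Real.exp (-(Y + 2)) * 4 * (M * m) := h2.trans (le_of_eq (by ring))
    _ ≤ _ := mul_le_mul_of_nonneg_right h3 (by positivity)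

theorem card_CV (col : ι → Finset Γ) :
    Fintype.card (CV col Bool) ≤ Fintype.card ι * 2 ^ Fintype.card Γ := by
  refine (Fintype.card_subtype_le _).trans (le_of_eq ?_)
  simp

theorem sizes {P Y : ℝ} (hP : 2 ≤ P) (hY : 1 ≤ Y) (r c1 c2 : ℕ) :
    (P ^ (r + 1)) ^ c1 * (2 ^ r * (Y + 2)) ≤ P ^ ((r + 1) * c1 + (r + 2) + c2) * Y := by
  have h1 : (2 : ℝ) ^ r ≤ P ^ r := pow_le_pow_left₀ (by norm_num) hP r
  have h2 : Y + 2 ≤ P ^ 2 * Y := by
    have : (4 : ℝ) ≤ P ^ 2 := by nlinarith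
    nlinarith
  have h3 : (2 : ℝ) ^ r * (Y + 2) ≤ P ^ (r + 2) * Y := by
    rw [pow_add, mul_assoc]
    exact mul_le_mul h1 h2 (by linarith) (pw_pos hP _).le
  calc _ ≤ P ^ ((r + 1) * c1) * (P ^ (r + 2) * Y) := by
        rw [← pow_mul]
        exact mul_le_mul_of_nonneg_left h3 (pw_pos hP _).le
    _ = P ^ ((r + 1) * c1 + (r + 2)) * Y := by rw [pow_add _ ((r + 1) * c1), mul_assoc]
    _ ≤ _ := mul_le_mul_of_nonneg_right (pw_le hP (by omega)) (by linarith)

end CutC

open CutC in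
theorem cutc (hMo : MONO) (hA : CPA) (hR : CPR) (hM : CPM) (hS : MS) (hF : FUB) (hC : GCS) :
    CUTC := by
  intro s r
  obtain ⟨c1, hc1⟩ := hS s
  obtain ⟨c2, hc2⟩ := hC s r
  refine ⟨(r + 1) * c1 + (r + 2) + c2, ?_⟩
  intro ι Γ _ _ _ _ G T WW P Y col F h0 hr hSz hT hrr hcol hcT hF1 hF2
  have hP := hSz.P2
  have hY := hSz.Y1
  have hG := hrr.ok
  have hP0 : 0 < P := by linarith
  obtain ⟨f1, f2, f3, ⟨B, f4⟩, f5⟩ := hF s ι G T P (tW col) hG hP0 hT (cls_tW hcol hcT)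
  refine ⟨f2, ?_⟩
  have p1 : P ≤ P ^ (r + 1) := by simpa using pw_le hP (show 1 ≤ r + 1 by omega)
  have t1 : (1 : ℝ) ≤ 2 ^ r := one_le_pow₀ (by norm_num)
  have y1 : 1 ≤ 2 ^ r * (Y + 2) := by nlinarith
  have r1 := (hMo s ι G WW _ Y ((P ^ (r + 1)) ^ c1) (2 ^ r * (Y + 2)) hrr
    (one_le_pow₀ (by linarith)) y1 (by rw [← pow_mul]; exact pw_le hP (by omega))
    (sizes hP hY r c1 c2)).1
  have r0 := (hMo s ι G WW _ Y (P ^ c2) Y hrr (one_le_pow₀ (by linarith)) hY (pw_le hP (by omega))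
    (mul_le_mul_of_nonneg_right (pw_le hP (by omega)) (by linarith))).1
  have r2 := hR s ι Γ Bool G col WW _ _ (by positivity) (by linarith) hcol r1
  have z2 : Sz (CV col Bool) (P ^ (r + 1)) (2 ^ r * (Y + 2)) := by
    refine ⟨?_, by linarith, y1⟩
    have h1 : (Fintype.card (CV col Bool) : ℝ) ≤ Fintype.card ι * 2 ^ Fintype.card Γ := by
      exact_mod_cast card_CV col
    have h2 : (2 : ℝ) ^ Fintype.card Γ ≤ P ^ r :=
      (pow_le_pow_right₀ (by norm_num) hr).trans (pow_le_pow_left₀ (by norm_num) hP r)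
    rw [pow_succ']
    exact h1.trans (mul_le_mul hSz.cd h2 (by positivity) hP0.le)
  obtain ⟨a1, -, -, a4, a5⟩ := hA s ι Γ Bool G col hG hcol
  obtain ⟨-, -, a7⟩ := a5 T P hT hcT
  have a8 : ∀ S : Finset (Γ → Bool), (cp G col Bool).AOk (cpT T col (uS T col S)) P :=
    fun S => (a7 _).2 (cl_uS T col S)
  set T1 := T.rs (T.U ∩ tW col) with hT1
  set m := G.mn T.sg (T.U \ tW col) with hm
  have hM1 : 0 < Mn G T1 := mn_pos hG f1.bk (sg_pos hP0 f1)
  have hm0 : 0 < m := mn_pos hG (bk_sdiff hT.bk (cls_tW hcol hcT).bk) (sg_pos hP0 hT)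
  have u0 : fu T1 col Bool = uS T col ∅ := by
    rw [← inter_uS T col ∅]
    refine inter_eq_left.2 fun x hx => mem_tW.2 ((mem_uS.1 hx).2.resolve_right (notMem_empty _))
  have u1 : ∀ S : Finset (Γ → Bool), uS T col S ∩ tW (fun x : CV col Bool => col x.1.1) =
      uS T col ∅ := fun S => (inter_uS T col S).trans u0
  set Θ : (ι → ℤ) → ℝ := Fs G T (tW col) (fun _ => (1 : ℝ)) with hΘ
  have hΘb : ∀ y, ‖(Θ y : ℂ)‖ ≤ B := fun y => by
    rw [Complex.norm_real, Real.norm_of_nonneg (FibrP.fs_nonneg _ _ _ _)]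
    exact f4 y
  have cT : ∀ S : Finset (Γ → Bool), ColT (cpT T col (uS T col S)) fun x => col x.1.1 := by
    intro S x hx v hv
    obtain ⟨b, hb, rfl⟩ := mem_image.1 (vars_rename _ _ hv)
    exact hcT _ (mem_uS.1 hx).1 b hb
  have eS : ∀ S : Finset (Γ → Bool), Ex (cp G col Bool) (cpT T col (uS T col ∅))
      (fun z => ∏ f ∈ S, (Θ (pt col f z) : ℂ)) =
      ((Ex (cp G col Bool) (cpT T col (uS T col S)) (fun _ => (1 : ℝ)) : ℝ) : ℂ) := by
    intro S
    obtain ⟨-, -, -, -, g5⟩ := hF s _ (cp G col Bool) (cpT T col (uS T col S)) P _ a1 hP0 (a8 S)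
      (cls_tW a4 (cT S))
    rw [← FibrP.ex_real, Complex.ofReal_one, g5 ℂ (fun _ => (1 : ℂ)) 1 (fun _ => by simp)]
    change _ = Ex _ (cpT T col (uS T col S ∩ _)) _
    rw [u1 S]
    congr 1
    funext y
    rw [fs_cp hA hF hG hP0 hT hcol hcT S y]
    exact prod_congr rfl fun f _ => (FibrP.fs_real _ _ _ _).symm
  have hB0 : 0 ≤ B := (norm_nonneg _).trans (hΘb 0)
  have e1 : Ex (cp G col Bool) (cpT T col (uS T col ∅))
      (fun z => ∏ f, cj f ((Θ (pt col f z) : ℂ) - m)) =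
      ((∑ S ∈ (univ : Finset (Γ → Bool)).powerset,
        Ex (cp G col Bool) (cpT T col (uS T col S)) (fun _ => (1 : ℝ)) *
          (-m) ^ (univ \ S).card : ℝ) : ℂ) := by
    have k : ∀ z : CV col Bool → ℤ, ∏ f, cj f ((Θ (pt col f z) : ℂ) - m) =
        ∑ S ∈ (univ : Finset (Γ → Bool)).powerset,
          (∏ f ∈ S, (Θ (pt col f z) : ℂ)) * (-(m : ℂ)) ^ (univ \ S).card := by
      intro z
      have := Finset.prod_add (fun f => (Θ (pt col f z) : ℂ)) (fun _ => -(m : ℂ)) univ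
      simp only [prod_const] at this
      rw [← this]
      refine prod_congr rfl fun f _ => ?_
      unfold cj
      split_ifs
      · ring
      · simp [sub_eq_add_neg]
    simp only [k]
    rw [ex_sum (summ s _ _ _ P a1 hP0 (a8 ∅)) _ (fun S => (-(m : ℂ)) ^ (univ \ S).card)
      (fun S z => ∏ f ∈ S, (Θ (pt col f z) : ℂ))]
    · push_cast
      exact sum_congr rfl fun S _ => by rw [eS S]
    · intro S
      refine ⟨B ^ S.card, fun z => ?_⟩
      rw [norm_prod, ← prod_const]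
      exact prod_le_prod (fun _ _ => norm_nonneg _) fun f _ => hΘb _
  have hMS := fun S : Finset (Γ → Bool) => hc1 _ _ _ WW _ _ z2 ((a8 S).mono hP0 p1) r2
  have e2 := alt (fun S => Ex (cp G col Bool) (cpT T col (uS T col S)) (fun _ => (1 : ℝ)))
    (M := Mn (cp G col Bool) (cpT T col (uS T col ∅))) (m := m) hm0.le
    (δ := Real.exp (-(2 ^ r * (Y + 2)))) fun S => by
      have := (hMS S).2
      rwa [mn_uS hM hG hP0 hT hcol hcT S] at this
  have g := hc2 ι Γ G T1 WW P Y col (fun y => (Θ y : ℂ) - m) F (B + m) h0 hr hSz f1 r0 hcol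
    (fun a ha => hcT a (mem_inter.1 ha).1)
    (fun z => (norm_sub_le _ _).trans (add_le_add (hΘb z)
      (by rw [Complex.norm_real, Real.norm_of_nonneg hm0.le]))) hF1 hF2
  have g1 : (‖Ex G T1 fun z => ((Θ z : ℂ) - m) * ∏ c, F c z‖ / (2 * Mn G T1)) ^ 2 ^ Fintype.card Γ ≤
      Real.exp (-(2 ^ r * (Y + 2))) * (2 * m) ^ 2 ^ Fintype.card Γ := by
    refine g.trans ?_
    rw [u0]
    change (Ex (cp G col Bool) (cpT T col (uS T col ∅))
      (fun z => ∏ f, cj f ((Θ (pt col f z) : ℂ) - m))).re /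
      Mn (cp G col Bool) (cpT T col (uS T col ∅)) ≤ _
    rw [e1, Complex.ofReal_re, div_le_iff₀ (hMS ∅).1]
    refine e2.trans (le_of_eq ?_)
    rw [Fintype.card_fun, Fintype.card_bool]
    ring
  have g2 := fin_num (Y := Y) (by positivity) (norm_nonneg _) hM1 hm0.le (by
    rw [← Real.exp_nat_mul]
    refine Real.exp_le_exp.2 ?_
    have : (2 : ℝ) ^ Fintype.card Γ ≤ 2 ^ r := pow_le_pow_right₀ (by norm_num) hr
    push_cast
    nlinarith) g1
  have hb : ∀ z, ‖∏ c, F c z‖ ≤ 1 := fun z => by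
    rw [norm_prod]
    exact prod_le_one (fun _ _ => norm_nonneg _) fun c _ => hF1 c z
  have e3 : Ex G T (fun z => ∏ c, F c z) = Ex G T1 fun y => (Θ y : ℂ) * ∏ c, F c y := by
    rw [f5 ℂ _ 1 hb]
    congr 1
    funext y
    rw [hΘ, ← FibrP.fs_real]
    unfold Fs
    rw [← tsum_mul_right]
    refine tsum_congr fun x => ?_
    rw [smul_mul_assoc, one_mul]
    congr 1
    refine prod_congr rfl fun c _ => hF2 c _ _ fun a ha => ?_
    have : x.1 a = 0 := x.2 a fun h => ha (by rw [not_tW.1 (mem_sdiff.1 h).2]; exact mem_univ c)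
    rw [Pi.add_apply, this, add_zero]
  have e4 := ex_sum (summ s _ _ _ P hG hP0 f1) (univ : Finset Bool)
    (fun j => if j then 1 else -(m : ℂ))
    (fun j y => if j then (Θ y : ℂ) * ∏ c, F c y else ∏ c, F c y) fun j => by
      cases j
      · exact ⟨1, hb⟩
      · refine ⟨B, fun z => ?_⟩
        simp only [if_true, norm_mul]
        exact (mul_le_of_le_one_right (norm_nonneg _) (hb z)).trans (hΘb z)
  simp only [Fintype.sum_bool, if_true, Bool.false_eq_true, if_false, mul_one] at e4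
  rw [f2, e3]
  refine le_of_eq_of_le (congrArg norm ?_) g2
  rw [show (fun z => ((Θ z : ℂ) - m) * ∏ c, F c z) = fun z => (Θ z : ℂ) * ∏ c, F c z +
    (∏ c, F c z) * -(m : ℂ) from funext fun z => by ring, e4]
  ring

end

end Vale.Agent.P057T.Cp
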