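import Mathlib

/-!
Weighted sums over countable types, two Cauchy-Schwarz steps and the sixteen counts.
-/

namespace Vale.Agent.P057T.Cut

noncomputable section

variable {Y Y' : Type*}

/-- Weighted sum. -/
def Ex (g h : Y → ℝ) : ℝ := ∑' y, g y * h y

/-- Product weight. -/
def pw (g : Y → ℝ) (g' : Y' → ℝ) : Y × Y' → ℝ := fun p => g p.1 * g' p.2

/-- A non negative summable weight. -/
structure Wt (g : Y → ℝ) : Prop where
  nn : ∀ y, 0 ≤ g y
  sm : Summable g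

/-- Bounded functions. -/
def Bd (h : Y → ℝ) : Prop := ∃ B : ℝ, ∀ y, |h y| ≤ B

theorem Wt.pw {g : Y → ℝ} {g' : Y' → ℝ} (hg : Wt g) (hg' : Wt g') : Wt (pw g g') :=
  ⟨fun _ => mul_nonneg (hg.nn _) (hg'.nn _),
    Summable.mul_of_nonneg hg.sm hg'.sm (fun y => hg.nn y) (fun y => hg'.nn y)⟩

theorem Wt.mass_nn {g : Y → ℝ} (hg : Wt g) : 0 ≤ ∑' y, g y := tsum_nonneg hg.nn

theorem Wt.mul {g h : Y → ℝ} (hg : Wt g) (hh : Bd h) : Summable fun y => g y * h y := by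
  obtain ⟨B, hB⟩ := hh
  refine Summable.of_norm_bounded (hg.sm.mul_right B) fun y => ?_
  rw [Real.norm_eq_abs, abs_mul, abs_of_nonneg (hg.nn y)]
  exact mul_le_mul_of_nonneg_left (hB y) (hg.nn y)

theorem Bd.const (c : ℝ) : Bd (fun _ : Y => c) := ⟨|c|, fun _ => le_rfl⟩

theorem Bd.mul {h k : Y → ℝ} (hh : Bd h) (hk : Bd k) : Bd fun y => h y * k y := by
  obtain ⟨B, hB⟩ := hh
  obtain ⟨C, hC⟩ := hk
  refine ⟨B * C, fun y => ?_⟩
  rw [abs_mul]
  exact mul_le_mul (hB y) (hC y) (abs_nonneg _) ((abs_nonneg _).trans (hB y))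

theorem Bd.add {h k : Y → ℝ} (hh : Bd h) (hk : Bd k) : Bd fun y => h y + k y := by
  obtain ⟨B, hB⟩ := hh
  obtain ⟨C, hC⟩ := hk
  exact ⟨B + C, fun y => (abs_add_le _ _).trans (add_le_add (hB y) (hC y))⟩

theorem Bd.sub {h k : Y → ℝ} (hh : Bd h) (hk : Bd k) : Bd fun y => h y - k y := by
  obtain ⟨B, hB⟩ := hh
  obtain ⟨C, hC⟩ := hk
  exact ⟨B + C, fun y => (abs_sub _ _).trans (add_le_add (hB y) (hC y))⟩

theorem Bd.comp {h : Y → ℝ} (hh : Bd h) (f : Y' → Y) : Bd fun y => h (f y) := by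
  obtain ⟨B, hB⟩ := hh
  exact ⟨B, fun y => hB _⟩

theorem Bd.prod {ι : Type*} (s : Finset ι) {h : ι → Y → ℝ} (hh : ∀ i ∈ s, Bd (h i)) :
    Bd fun y => ∏ i ∈ s, h i y := by
  classical
  induction s using Finset.induction_on with
  | empty => simpa using Bd.const 1
  | insert a s ha ih =>
    simp only [Finset.prod_insert ha]
    exact (hh a (Finset.mem_insert_self _ _)).mul
      (ih fun i hi => hh i (Finset.mem_insert_of_mem hi))

theorem Ex_mono {g h k : Y → ℝ} (hg : Wt g) (hh : Bd h) (hk : Bd k) (hhk : ∀ y, h y ≤ k y) :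
    Ex g h ≤ Ex g k :=
  (hg.mul hh).tsum_le_tsum (fun y => mul_le_mul_of_nonneg_left (hhk y) (hg.nn y)) (hg.mul hk)

theorem Ex_const (g : Y → ℝ) (c : ℝ) : Ex g (fun _ => c) = (∑' y, g y) * c := by
  unfold Ex
  rw [tsum_mul_right]

theorem Ex_mul_left (g h : Y → ℝ) (c : ℝ) : Ex g (fun y => c * h y) = c * Ex g h := by
  unfold Ex
  rw [← tsum_mul_left]
  exact tsum_congr fun y => by ring

theorem Ex_add {g h k : Y → ℝ} (hg : Wt g) (hh : Bd h) (hk : Bd k) :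
    Ex g (fun y => h y + k y) = Ex g h + Ex g k := by
  unfold Ex
  rw [← (hg.mul hh).tsum_add (hg.mul hk)]
  exact tsum_congr fun y => by ring

theorem Ex_sub {g h k : Y → ℝ} (hg : Wt g) (hh : Bd h) (hk : Bd k) :
    Ex g (fun y => h y - k y) = Ex g h - Ex g k := by
  unfold Ex
  rw [← (hg.mul hh).tsum_sub (hg.mul hk)]
  exact tsum_congr fun y => by ring

theorem Ex_sum {ι : Type*} (s : Finset ι) {g : Y → ℝ} {h : ι → Y → ℝ} (hg : Wt g)
    (hh : ∀ i ∈ s, Bd (h i)) : Ex g (fun y => ∑ i ∈ s, h i y) = ∑ i ∈ s, Ex g (h i) := by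
  unfold Ex
  rw [← Summable.tsum_finsetSum fun i hi => hg.mul (hh i hi)]
  exact tsum_congr fun y => by rw [Finset.mul_sum]

theorem abs_Ex_le {g h : Y → ℝ} (hg : Wt g) {B : ℝ} (hB : ∀ y, |h y| ≤ B) :
    |Ex g h| ≤ (∑' y, g y) * B := by
  rw [abs_le]
  constructor
  · have := Ex_mono hg (Bd.const (-B)) ⟨B, hB⟩ fun y => (abs_le.1 (hB y)).1
    rw [Ex_const] at this
    linarith
  · have := Ex_mono hg ⟨B, hB⟩ (Bd.const B) fun y => (abs_le.1 (hB y)).2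
    rwa [Ex_const] at this

theorem Ex_nonneg {g h : Y → ℝ} (hg : Wt g) (hh : ∀ y, 0 ≤ h y) : 0 ≤ Ex g h :=
  tsum_nonneg fun y => mul_nonneg (hg.nn y) (hh y)

theorem Ex_cs {g h : Y → ℝ} (hg : Wt g) (hh : Bd h) :
    Ex g h ^ 2 ≤ (∑' y, g y) * Ex g (fun y => h y * h y) := by
  have key : ∀ c : ℝ, 0 ≤ (∑' y, g y) * (c * c) + (-(2 * Ex g h)) * c +
      Ex g (fun y => h y * h y) := by
    intro c
    have h0 : 0 ≤ Ex g (fun y => (c * c + (-(2 * c)) * h y) + h y * h y) :=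
      Ex_nonneg hg fun y => by nlinarith [sq_nonneg (h y - c)]
    rw [Ex_add hg ((Bd.const _).add ((Bd.const _).mul hh)) (hh.mul hh),
      Ex_add hg (Bd.const _) ((Bd.const _).mul hh), Ex_const, Ex_mul_left] at h0
    linarith
  have := discrim_le_zero key
  unfold discrim at this
  nlinarith

theorem Ex_pw {g : Y → ℝ} {g' : Y' → ℝ} (hg : Wt g) (hg' : Wt g') {K : Y × Y' → ℝ} (hK : Bd K) :
    Ex (pw g g') K = Ex g fun y => Ex g' fun y' => K (y, y') := by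
  unfold Ex
  rw [((hg.pw hg').mul hK).tsum_prod]
  refine tsum_congr fun y => ?_
  rw [← tsum_mul_left]
  exact tsum_congr fun y' => by simp only [pw]; ring

theorem Ex_swap (g : Y → ℝ) (g' : Y' → ℝ) (K : Y × Y' → ℝ) :
    Ex (pw g g') K = Ex (pw g' g) fun p => K (p.2, p.1) := by
  unfold Ex
  rw [← (Equiv.prodComm Y' Y).tsum_eq]
  exact tsum_congr fun p => by simp only [pw, Equiv.prodComm_apply, Prod.fst_swap, Prod.snd_swap]; rw [mul_comm (g p.2)]; rfl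

theorem Ex_mul_Ex {g : Y → ℝ} {g' : Y' → ℝ} (hg : Wt g) (hg' : Wt g') {h : Y → ℝ} {k : Y' → ℝ}
    (hh : Bd h) (hk : Bd k) :
    Ex (pw g g') (fun p => h p.1 * k p.2) = Ex g h * Ex g' k := by
  rw [Ex_pw hg hg' ((hh.comp Prod.fst).mul (hk.comp Prod.snd))]
  simp only [Ex_mul_left]
  rw [mul_comm, ← Ex_mul_left]
  congr 1
  funext y
  ring

theorem mass_pw {g : Y → ℝ} {g' : Y' → ℝ} (hg : Wt g) (hg' : Wt g') :
    ∑' p, pw g g' p = (∑' y, g y) * ∑' y, g' y := by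
  have := Ex_mul_Ex hg hg' (Bd.const 1) (Bd.const 1)
  simpa [Ex] using this

theorem bd_Ex {g' : Y' → ℝ} (hg' : Wt g') {K : Y × Y' → ℝ} (hK : Bd K) :
    Bd fun y => Ex g' fun y' => K (y, y') := by
  obtain ⟨B, hB⟩ := hK
  exact ⟨_, fun y => abs_Ex_le hg' fun y' => hB (y, y')⟩

/-- One Cauchy-Schwarz step. -/
theorem cs_step {g : Y → ℝ} {g' : Y' → ℝ} (hg : Wt g) (hg' : Wt g') {F : Y → ℝ}
    (hF : ∀ y, |F y| ≤ 1) {K : Y × Y' → ℝ} (hK : Bd K) :
    Ex (pw g g') (fun p => F p.1 * K p) ^ 2 ≤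
      (∑' y, g y) * Ex (pw (pw g' g') g) fun p => K (p.2, p.1.1) * K (p.2, p.1.2) := by
  have hFb : Bd F := ⟨1, hF⟩
  have hE := bd_Ex hg' hK
  rw [Ex_pw hg hg' ((hFb.comp Prod.fst).mul hK)]
  simp only [Ex_mul_left]
  refine (Ex_cs hg (hFb.mul hE)).trans (mul_le_mul_of_nonneg_left ?_ hg.mass_nn)
  rw [Ex_swap, Ex_pw hg (hg'.pw hg')
    ((hK.comp fun p : Y × (Y' × Y') => (p.1, p.2.1)).mul
      (hK.comp fun p : Y × (Y' × Y') => (p.1, p.2.2)))]
  refine Ex_mono hg ((hFb.mul hE).mul (hFb.mul hE))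
    (bd_Ex (hg'.pw hg') ((hK.comp fun p : Y × (Y' × Y') => (p.1, p.2.1)).mul
      (hK.comp fun p : Y × (Y' × Y') => (p.1, p.2.2)))) fun y => ?_
  have h1 := Ex_mul_Ex hg' hg' (hK.comp fun y' => (y, y')) (hK.comp fun y' => (y, y'))
  simp only at h1 ⊢
  rw [h1]
  have h2 : F y * F y ≤ 1 := by
    have := abs_le.1 (hF y)
    nlinarith
  nlinarith [mul_self_nonneg (Ex g' fun y' => K (y, y'))]

/-- The two members of a pair. -/
def sel {α : Type*} (p : α × α) (b : Bool) : α := cond b p.2 p.1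

/-- Two Cauchy-Schwarz steps. -/
theorem box4 {g : Y → ℝ} {g' : Y' → ℝ} (hg : Wt g) (hg' : Wt g') {F : Y → ℝ} {G : Y' → ℝ}
    (hF : ∀ y, |F y| ≤ 1) (hG : ∀ y, |G y| ≤ 1) {K : Y × Y' → ℝ} (hK : Bd K) :
    Ex (pw g g') (fun p => F p.1 * G p.2 * K p) ^ 4 ≤
      (∑' y, g y) ^ 2 * (∑' y, g' y) ^ 2 *
        Ex (pw (pw g g) (pw g' g')) fun p =>
          ∏ ab : Bool × Bool, K (sel p.1 ab.1, sel p.2 ab.2) := by
  have hGb : Bd G := ⟨1, hG⟩
  have h1 := cs_step hg hg' hF (K := fun p => G p.2 * K p) ((hGb.comp Prod.snd).mul hK)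
  have h2 := cs_step (hg'.pw hg') hg (F := fun q => G q.1 * G q.2)
    (fun q => by
      rw [abs_mul]
      exact mul_le_one₀ (hG _) (abs_nonneg _) (hG _))
    (K := fun p : (Y' × Y') × Y => K (p.2, p.1.1) * K (p.2, p.1.2))
    ((hK.comp _).mul (hK.comp _))
  rw [mass_pw hg' hg'] at h2
  have e1 : (fun p : Y × Y' => F p.1 * G p.2 * K p) = fun p => F p.1 * (G p.2 * K p) := by
    funext p
    ring
  have e2 : (fun p : (Y' × Y') × Y => G p.1.1 * K (p.2, p.1.1) * (G p.1.2 * K (p.2, p.1.2))) =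
      fun p => G p.1.1 * G p.1.2 * (K (p.2, p.1.1) * K (p.2, p.1.2)) := by
    funext p
    ring
  have e3 : (fun p : (Y × Y) × (Y' × Y') => ∏ ab : Bool × Bool, K (sel p.1 ab.1, sel p.2 ab.2)) =
      fun p => K (p.1.1, p.2.1) * K (p.1.1, p.2.2) * (K (p.1.2, p.2.1) * K (p.1.2, p.2.2)) := by
    funext p
    simp only [Fintype.prod_prod_type, Fintype.prod_bool, sel, cond_true, cond_false]
    ring
  simp only at h1 h2
  rw [e2] at h1
  rw [e1, e3]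
  set S := Ex (pw g g') fun p => F p.1 * (G p.2 * K p)
  set S1 := Ex (pw (pw g' g') g) fun p => G p.1.1 * G p.1.2 * (K (p.2, p.1.1) * K (p.2, p.1.2))
  set S2 := Ex (pw (pw g g) (pw g' g')) fun p =>
    K (p.1.1, p.2.1) * K (p.1.1, p.2.2) * (K (p.1.2, p.2.1) * K (p.1.2, p.2.2))
  have h3 : (S ^ 2) ^ 2 ≤ ((∑' y, g y) * S1) ^ 2 := pow_le_pow_left₀ (sq_nonneg _) h1 2
  calc S ^ 4 = (S ^ 2) ^ 2 := by ring
    _ ≤ ((∑' y, g y) * S1) ^ 2 := h3
    _ = (∑' y, g y) ^ 2 * S1 ^ 2 := by ring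
    _ ≤ (∑' y, g y) ^ 2 * ((∑' y, g' y) * (∑' y, g' y) * S2) :=
      mul_le_mul_of_nonneg_left h2 (sq_nonneg _)
    _ = _ := by ring

/-- The sixteen counts. -/
theorem cut16 {g : Y → ℝ} {g' : Y' → ℝ} (hg : Wt g) (hg' : Wt g') {F : Y → ℝ} {G : Y' → ℝ}
    (hF : ∀ y, |F y| ≤ 1) (hG : ∀ y, |G y| ≤ 1) {Θ : Y × Y' → ℝ} (hΘ : Bd Θ)
    {Ψ M δ : ℝ} (hΨ : 0 ≤ Ψ)
    (hc : ∀ S : Finset (Bool × Bool),
      |Ex (pw (pw g g) (pw g' g')) (fun p => ∏ ab ∈ S, Θ (sel p.1 ab.1, sel p.2 ab.2)) -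
        M * Ψ ^ S.card| ≤ δ * (M * Ψ ^ S.card)) :
    (Ex (pw g g') (fun p => F p.1 * G p.2 * Θ p) - Ψ * (Ex g F * Ex g' G)) ^ 4 ≤
      (∑' y, g y) ^ 2 * (∑' y, g' y) ^ 2 * (16 * δ * (M * Ψ ^ 4)) := by
  classical
  have hFb : Bd F := ⟨1, hF⟩
  have hGb : Bd G := ⟨1, hG⟩
  have hFG : Bd fun p : Y × Y' => F p.1 * G p.2 := (hFb.comp Prod.fst).mul (hGb.comp Prod.snd)
  have h1 := box4 hg hg' hF hG (K := fun p => Θ p - Ψ) (hΘ.sub (Bd.const Ψ))
  have e1 : Ex (pw g g') (fun p => F p.1 * G p.2 * (Θ p - Ψ)) =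
      Ex (pw g g') (fun p => F p.1 * G p.2 * Θ p) - Ψ * (Ex g F * Ex g' G) := by
    rw [← Ex_mul_Ex hg hg' hFb hGb, ← Ex_mul_left,
      ← Ex_sub (hg.pw hg') (hFG.mul hΘ) ((Bd.const Ψ).mul hFG)]
    congr 1
    funext p
    ring
  rw [e1] at h1
  refine h1.trans (mul_le_mul_of_nonneg_left ?_ (by positivity))
  have e2 : ∀ x : Bool × Bool → ℝ, ∏ ab, (x ab - Ψ) =
      ∑ S ∈ (Finset.univ : Finset (Bool × Bool)).powerset,
        (-Ψ) ^ (4 - S.card) * ∏ ab ∈ S, x ab := by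
    intro x
    simp only [sub_eq_add_neg]
    rw [Finset.prod_add]
    refine Finset.sum_congr rfl fun S _ => ?_
    rw [Finset.prod_const, Finset.card_univ_sdiff, mul_comm]
    simp
  have hW := (hg.pw hg).pw (hg'.pw hg')
  simp only [e2]
  rw [Ex_sum _ hW fun S _ => (Bd.const _).mul (Bd.prod S fun ab _ => hΘ.comp _)]
  simp only [Ex_mul_left]
  have e3 : ∑ S ∈ (Finset.univ : Finset (Bool × Bool)).powerset,
      (-Ψ) ^ (4 - S.card) * (M * Ψ ^ S.card) = 0 := by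
    have := e2 fun _ => Ψ
    simp only [sub_self, Finset.prod_const] at this
    rw [zero_pow (by simp)] at this
    calc _ = M * ∑ S ∈ (Finset.univ : Finset (Bool × Bool)).powerset,
          (-Ψ) ^ (4 - S.card) * Ψ ^ S.card := by
          rw [Finset.mul_sum]
          exact Finset.sum_congr rfl fun S _ => by ring
      _ = 0 := by rw [← this, mul_zero]
  rw [← sub_zero (∑ S ∈ _, _), ← e3, ← Finset.sum_sub_distrib]
  calc _ ≤ ∑ S ∈ (Finset.univ : Finset (Bool × Bool)).powerset, δ * (M * Ψ ^ 4) := by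
        refine Finset.sum_le_sum fun S _ => ?_
        rw [← mul_sub]
        refine (le_abs_self _).trans ?_
        rw [abs_mul, abs_pow, abs_neg, abs_of_nonneg hΨ]
        have h4 : S.card ≤ 4 := by simpa using S.card_le_univ
        calc _ ≤ Ψ ^ (4 - S.card) * (δ * (M * Ψ ^ S.card)) :=
              mul_le_mul_of_nonneg_left (hc S) (by positivity)
          _ = δ * (M * (Ψ ^ (4 - S.card) * Ψ ^ S.card)) := by ring
          _ = _ := by rw [← pow_add, Nat.sub_add_cancel h4]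
    _ = _ := by
        rw [Finset.sum_const, Finset.card_powerset]
        simp
        ring

end

end Vale.Agent.P057T.Cut
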