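import Mathlib

/-! Hermite basis of a lattice, Hadamard inequality, Cramer bound, short basis. -/

namespace Vale.Agent.P057T.Herm

open Matrix Finset

/-- Schur complement with respect to the index `0`. -/
noncomputable def sch {n : ℕ} (H : Matrix (Fin (n + 1)) (Fin (n + 1)) ℝ) :
    Matrix (Fin n) (Fin n) ℝ :=
  fun i j => H i.succ j.succ - H i.succ 0 * H 0 j.succ / H 0 0

lemma sym_of {n : ℕ} {H : Matrix (Fin n) (Fin n) ℝ} (hH : H.PosDef) (i j : Fin n) :
    H i j = H j i := by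
  have := hH.isHermitian.apply j i
  simpa using this

lemma diag_pos {n : ℕ} {H : Matrix (Fin n) (Fin n) ℝ} (hH : H.PosDef) (i : Fin n) :
    0 < H i i := hH.diag_pos

lemma quad_split {n : ℕ} {H : Matrix (Fin (n + 1)) (Fin (n + 1)) ℝ} (hH : H.PosDef)
    (x : Fin (n + 1) → ℝ) :
    x ⬝ᵥ H *ᵥ x = H 0 0 * (x 0 + (∑ j : Fin n, H 0 j.succ * x j.succ) / H 0 0) ^ 2 +
      (fun i : Fin n => x i.succ) ⬝ᵥ sch H *ᵥ (fun i : Fin n => x i.succ) := by
  have h0 := (diag_pos hH 0).ne'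
  set S := ∑ j : Fin n, H 0 j.succ * x j.succ with hS
  have e1 : (fun i : Fin n => x i.succ) ⬝ᵥ sch H *ᵥ (fun i : Fin n => x i.succ) =
      (∑ i : Fin n, x i.succ * ∑ j : Fin n, H i.succ j.succ * x j.succ) - S * S / H 0 0 := by
    simp only [dotProduct, mulVec, sch]
    have : ∀ i : Fin n, x i.succ * ∑ j : Fin n,
        (H i.succ j.succ - H i.succ 0 * H 0 j.succ / H 0 0) * x j.succ =
        x i.succ * ∑ j : Fin n, H i.succ j.succ * x j.succ -
          (H 0 i.succ * x i.succ) * (S / H 0 0) := by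
      intro i
      have : ∑ j : Fin n, (H i.succ j.succ - H i.succ 0 * H 0 j.succ / H 0 0) * x j.succ =
          ∑ j : Fin n, H i.succ j.succ * x j.succ - H 0 i.succ * (S / H 0 0) := by
        rw [hS, Finset.sum_div, Finset.mul_sum, ← Finset.sum_sub_distrib]
        refine Finset.sum_congr rfl fun j _ => ?_
        rw [sym_of hH i.succ 0]; ring
      rw [this]; ring
    rw [Finset.sum_congr rfl fun i _ => this i, Finset.sum_sub_distrib, ← Finset.sum_mul, ← hS]
    ring
  have e2 : x ⬝ᵥ H *ᵥ x = x 0 * (H 0 0 * x 0 + S) + (x 0 * S +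
      ∑ i : Fin n, x i.succ * ∑ j : Fin n, H i.succ j.succ * x j.succ) := by
    simp only [dotProduct, mulVec, Fin.sum_univ_succ]
    rw [← hS]
    congr 1
    rw [hS, Finset.mul_sum, ← Finset.sum_add_distrib]
    refine Finset.sum_congr rfl fun i _ => ?_
    rw [sym_of hH i.succ 0]; ring
  rw [e1, e2]; field_simp; ring

lemma sch_posDef {n : ℕ} {H : Matrix (Fin (n + 1)) (Fin (n + 1)) ℝ} (hH : H.PosDef) :
    (sch H).PosDef := by
  refine Matrix.PosDef.of_dotProduct_mulVec_pos ?_ fun y hy => ?_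
  · ext i j
    simp only [conjTranspose_apply, star_trivial, sch]
    rw [sym_of hH j.succ i.succ, sym_of hH j.succ 0, sym_of hH 0 i.succ]; ring
  · set x : Fin (n + 1) → ℝ :=
      Fin.cons (-((∑ j : Fin n, H 0 j.succ * y j) / H 0 0)) y with hx
    have hx0 : x ≠ 0 := by
      intro h; apply hy; funext i; have := congrFun h i.succ; simpa [hx] using this
    have h1 := hH.dotProduct_mulVec_pos hx0
    have h2 := quad_split hH x
    simp only [star_trivial] at h1 ⊢
    rw [h2] at h1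
    simpa [hx] using h1

lemma det_sch {n : ℕ} {H : Matrix (Fin (n + 1)) (Fin (n + 1)) ℝ} (h0 : H 0 0 ≠ 0) :
    H.det = H 0 0 * (sch H).det := by
  let B : Matrix (Fin (n + 1)) (Fin (n + 1)) ℝ :=
    fun i j => H i j - (if i = 0 then 0 else H i 0 / H 0 0) * H 0 j
  have hB : H.det = B.det := by
    refine Matrix.det_eq_of_forall_row_eq_smul_add_const
      (fun i => if i = 0 then 0 else H i 0 / H 0 0) 0 (by simp) fun i j => ?_
    simp [B]
  rw [hB, Matrix.det_succ_column_zero, Fin.sum_univ_succ]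
  have hz : ∑ i : Fin n, (-1) ^ ((i.succ : Fin (n + 1)) : ℕ) * B i.succ 0 *
      (B.submatrix i.succ.succAbove Fin.succ).det = 0 := by
    refine Finset.sum_eq_zero fun i _ => ?_
    have : B i.succ 0 = 0 := by
      simp only [B, Fin.succ_ne_zero, if_false]; field_simp; ring
    rw [this]; ring
  rw [hz]
  have : B.submatrix (Fin.succAbove 0) Fin.succ = sch H := by
    ext i j
    change H i.succ j.succ - (if i.succ = 0 then 0 else H i.succ 0 / H 0 0) * H 0 j.succ =
      H i.succ j.succ - H i.succ 0 * H 0 j.succ / H 0 0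
    rw [if_neg (Fin.succ_ne_zero i)]
    ring
  rw [this]; simp [B]

/-- Hadamard inequality for positive definite matrices. -/
lemma had_pd : ∀ (n : ℕ) (H : Matrix (Fin n) (Fin n) ℝ), H.PosDef → H.det ≤ ∏ i, H i i
  | 0, H, _ => by simp
  | n + 1, H, hH => by
    have h0 := diag_pos hH 0
    rw [det_sch h0.ne', Fin.prod_univ_succ]
    refine mul_le_mul_of_nonneg_left ((had_pd n _ (sch_posDef hH)).trans ?_) h0.le
    refine Finset.prod_le_prod (fun i _ => (diag_pos (sch_posDef hH) i).le) fun i _ => ?_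
    simp only [sch]
    rw [sym_of hH i.succ 0]
    have := div_nonneg (mul_self_nonneg (H 0 i.succ)) h0.le
    linarith

lemma lower {n : ℕ} {H : Matrix (Fin n) (Fin n) ℝ} (hH : H.PosDef) :
    ∃ l : ℝ, 0 < l ∧ ∀ x : Fin n → ℤ, x ≠ 0 →
      l ≤ (fun i => (x i : ℝ)) ⬝ᵥ H *ᵥ (fun i => (x i : ℝ)) := by
  rcases isEmpty_or_nonempty (Fin n) with hn | hn
  · exact ⟨1, one_pos, fun x hx => absurd (Subsingleton.elim _ _) hx⟩
  have hc : Continuous fun y : Fin n → ℝ => y ⬝ᵥ H *ᵥ y := by fun_prop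
  obtain ⟨y, hy, hm⟩ := (isCompact_sphere (0 : Fin n → ℝ) 1).exists_isMinOn
    (NormedSpace.sphere_nonempty.2 zero_le_one) hc.continuousOn
  have hy0 : y ≠ 0 := by
    rintro rfl; simp at hy
  have hl := hH.dotProduct_mulVec_pos hy0
  simp only [star_trivial] at hl
  refine ⟨_, hl, fun x hx => ?_⟩
  set z : Fin n → ℝ := fun i => (x i : ℝ) with hz
  obtain ⟨i, hi⟩ := Function.ne_iff.1 hx
  have h1 : (1 : ℝ) ≤ ‖z‖ := by
    refine le_trans ?_ (norm_le_pi_norm z i)
    have : (1 : ℤ) ≤ |x i| := Int.one_le_abs hi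
    rw [Real.norm_eq_abs]
    change (1 : ℝ) ≤ |(x i : ℝ)|
    exact_mod_cast this
  have hp : 0 < ‖z‖ := by linarith
  have hs : (‖z‖⁻¹ • z) ∈ Metric.sphere (0 : Fin n → ℝ) 1 := by
    simp [norm_smul, hp.ne']
  have h2 : y ⬝ᵥ H *ᵥ y ≤ (‖z‖⁻¹ • z) ⬝ᵥ H *ᵥ (‖z‖⁻¹ • z) := hm hs
  rw [Matrix.mulVec_smul, smul_dotProduct, dotProduct_smul, smul_eq_mul, smul_eq_mul] at h2
  have h3 : (y ⬝ᵥ H *ᵥ y) * (‖z‖ * ‖z‖) ≤ z ⬝ᵥ H *ᵥ z := by
    have := mul_le_mul_of_nonneg_right h2 (mul_pos hp hp).le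
    refine this.trans (le_of_eq ?_)
    field_simp
  have h4 : 1 ≤ ‖z‖ * ‖z‖ := by nlinarith
  nlinarith

/-- real matrix of an integer matrix -/
def cs {m : Type*} (U : Matrix m m ℤ) : Matrix m m ℝ := U.map (fun a => (a : ℝ))

lemma cs_mul {m : Type*} [Fintype m] (U V : Matrix m m ℤ) : cs (U * V) = cs U * cs V := by
  ext i j; simp [cs, Matrix.mul_apply]

lemma det_cs {m : Type*} [Fintype m] [DecidableEq m] (U : Matrix m m ℤ) :
    (cs U).det = (U.det : ℝ) := by
  have := (Int.castRingHom ℝ).map_det U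
  simpa [cs] using this.symm

lemma det_cs_sq {m : Type*} [Fintype m] [DecidableEq m] {U : Matrix m m ℤ} (hU : IsUnit U.det) :
    (cs U).det ^ 2 = 1 := by
  rw [det_cs]
  rcases Int.isUnit_iff.1 hU with h | h <;> simp [h]

lemma cong_diag {m : Type*} [Fintype m] (H : Matrix m m ℝ) (V : Matrix m m ℝ) (i : m) :
    (Vᵀ * H * V) i i = (fun a => V a i) ⬝ᵥ H *ᵥ (fun a => V a i) := by
  rw [Matrix.mul_assoc]
  simp [Matrix.mul_apply, dotProduct, mulVec]

lemma cong_pd {n : ℕ} {H : Matrix (Fin n) (Fin n) ℝ} (hH : H.PosDef)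
    {V : Matrix (Fin n) (Fin n) ℝ} (hV : V.det ≠ 0) : (Vᵀ * H * V).PosDef := by
  have := hH.conjTranspose_mul_mul_same (B := V)
    (Matrix.mulVec_injective_iff_isUnit.2 ((Matrix.isUnit_iff_isUnit_det V).2 (Ne.isUnit hV)))
  simpa using this

/-- Hermite reduction of a positive definite form. -/
theorem herm_pd : ∀ (n : ℕ) (G : Matrix (Fin n) (Fin n) ℝ), G.PosDef →
    ∃ U : Matrix (Fin n) (Fin n) ℤ, IsUnit U.det ∧
      ∏ i, ((cs U)ᵀ * G * cs U) i i ≤ 2 ^ (n * n) * G.det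
  | 0, G, _ => ⟨1, by simp, by simp⟩
  | n + 1, G, hG => by
    obtain ⟨l, hl, hlow⟩ := lower hG
    let val : {U : Matrix (Fin (n + 1)) (Fin (n + 1)) ℤ // IsUnit U.det} → ℝ :=
      fun U => ((cs U.1)ᵀ * G * cs U.1) 0 0
    have hval : ∀ U, l ≤ val U := by
      intro U
      have hne : (fun a => U.1 a 0) ≠ 0 := by
        intro h
        have : U.1.det = 0 := Matrix.det_eq_zero_of_column_eq_zero 0 fun a => congrFun h a
        exact U.2.ne_zero this
      have := hlow _ hne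
      simpa [val, cong_diag, cs] using this
    have : Nonempty {U : Matrix (Fin (n + 1)) (Fin (n + 1)) ℤ // IsUnit U.det} :=
      ⟨⟨1, by simp⟩⟩
    have hb : BddBelow (Set.range val) := ⟨l, by rintro _ ⟨U, rfl⟩; exact hval U⟩
    have hi : l ≤ ⨅ U, val U := le_ciInf hval
    obtain ⟨U0, hU0⟩ := exists_lt_of_ciInf_lt (f := val) (a := 2 * ⨅ U, val U) (by linarith)
    have hmin : ∀ U, val U0 ≤ 2 * val U := fun U => by
      have := ciInf_le hb U
      linarith
    set H := (cs U0.1)ᵀ * G * cs U0.1 with hHd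
    have hd0 : (cs U0.1).det ≠ 0 := by
      intro h; have := det_cs_sq U0.2; rw [h] at this; norm_num at this
    have hH : H.PosDef := cong_pd hG hd0
    have hdet : H.det = G.det := by
      rw [hHd, det_mul, det_mul, det_transpose]
      have := det_cs_sq U0.2
      linear_combination G.det * this
    have h0 := diag_pos hH 0
    have hmin' : ∀ W : Matrix (Fin (n + 1)) (Fin (n + 1)) ℤ, IsUnit W.det → ∀ i,
        H 0 0 ≤ 2 * ((cs W)ᵀ * H * cs W) i i := by
      intro W hW i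
      have hu : IsUnit ((U0.1 * W).submatrix id (Equiv.swap 0 i)).det := by
        rw [Matrix.det_permute', det_mul]
        exact (Units.isUnit _ |>.map (Int.castRingHom ℤ)).mul (U0.2.mul hW)
      have := hmin ⟨_, hu⟩
      have e : val ⟨_, hu⟩ = ((cs W)ᵀ * H * cs W) i i := by
        have : (cs W)ᵀ * H * cs W = (cs (U0.1 * W))ᵀ * G * cs (U0.1 * W) := by
          rw [hHd, cs_mul, transpose_mul]; simp only [Matrix.mul_assoc]
        rw [this]
        simp [val, cong_diag, cs]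
      rw [e] at this
      exact this
    obtain ⟨U', hU', hP⟩ := herm_pd n (sch H) (sch_posDef hH)
    let r : Fin n → ℝ := fun j => (∑ a : Fin n, H 0 a.succ * (U' a j : ℝ)) / H 0 0
    let W : Matrix (Fin (n + 1)) (Fin (n + 1)) ℤ :=
      Matrix.of (Fin.cons (Fin.cons 1 fun j => -round (r j)) fun a => Fin.cons 0 (U' a))
    have hWd : W.det = U'.det := by
      rw [Matrix.det_succ_column_zero, Fin.sum_univ_succ]
      have : W.submatrix (Fin.succAbove 0) Fin.succ = U' := by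
        ext a b; simp [W]
      rw [this]; simp [W]
    have hW : IsUnit W.det := hWd ▸ hU'
    refine ⟨U0.1 * W, by rw [det_mul]; exact U0.2.mul hW, ?_⟩
    have e : (cs (U0.1 * W))ᵀ * G * cs (U0.1 * W) = (cs W)ᵀ * H * cs W := by
      rw [hHd, cs_mul, transpose_mul]; simp only [Matrix.mul_assoc]
    rw [e, Fin.prod_univ_succ, ← hdet, det_sch h0.ne']
    have e0 : ((cs W)ᵀ * H * cs W) 0 0 = H 0 0 := by
      rw [cong_diag]
      simp [W, cs, dotProduct, mulVec, Fin.sum_univ_succ]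
    have e1 : ∀ j : Fin n, ((cs W)ᵀ * H * cs W) j.succ j.succ ≤
        2 * ((cs U')ᵀ * sch H * cs U') j j := by
      intro j
      have hm := hmin' W hW j.succ
      have hq : ((cs W)ᵀ * H * cs W) j.succ j.succ =
          H 0 0 * (r j - round (r j)) ^ 2 + ((cs U')ᵀ * sch H * cs U') j j := by
        rw [cong_diag, cong_diag, quad_split hH]
        simp only [W, cs, r, map_apply, of_apply, Fin.cons_zero, Fin.cons_succ, Int.cast_neg]
        ring
      have hr : (r j - round (r j)) ^ 2 ≤ 1 / 4 := by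
        have := abs_sub_round (r j)
        have h2 := abs_le.1 this
        nlinarith [h2.1, h2.2]
      nlinarith
    have hWpd : ((cs W)ᵀ * H * cs W).PosDef := cong_pd hH (by
      intro h; have := det_cs_sq hW; rw [h] at this; norm_num at this)
    have hp : ∏ j : Fin n, ((cs W)ᵀ * H * cs W) j.succ j.succ ≤
        2 ^ n * (2 ^ (n * n) * (sch H).det) := by
      refine (Finset.prod_le_prod (fun j _ => (diag_pos hWpd _).le) fun j _ => e1 j).trans ?_
      rw [Finset.prod_mul_distrib, Finset.prod_const, card_univ, Fintype.card_fin]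
      exact mul_le_mul_of_nonneg_left hP (by positivity)
    have hs := (sch_posDef hH).det_pos
    have h2 : (2 : ℝ) ^ n * 2 ^ (n * n) ≤ 2 ^ ((n + 1) * (n + 1)) := by
      rw [← pow_add]; exact pow_le_pow_right₀ one_le_two (by nlinarith)
    rw [e0]
    calc H 0 0 * ∏ j : Fin n, ((cs W)ᵀ * H * cs W) j.succ j.succ
        ≤ H 0 0 * (2 ^ n * (2 ^ (n * n) * (sch H).det)) := mul_le_mul_of_nonneg_left hp h0.le
      _ = (2 ^ n * 2 ^ (n * n)) * (H 0 0 * (sch H).det) := by ring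
      _ ≤ _ := mul_le_mul_of_nonneg_right h2 (by positivity)

/-- squared length of `A x` -/
def ql {ι : Type*} [Fintype ι] (A : Matrix ι ι ℝ) (x : ι → ℝ) : ℝ := ∑ i, ((A *ᵥ x) i) ^ 2

lemma gram_diag {ι : Type*} [Fintype ι] (B : Matrix ι ι ℝ) (j : ι) :
    (Bᵀ * B) j j = ∑ i, B i j ^ 2 := by
  simp [Matrix.mul_apply, sq]

lemma gram_pd {n : ℕ} {B : Matrix (Fin n) (Fin n) ℝ} (hB : B.det ≠ 0) : (Bᵀ * B).PosDef := by
  have := cong_pd (Matrix.PosDef.one (n := Fin n) (R := ℝ)) hB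
  simpa using this

/-- Hadamard inequality. -/
theorem hadamard {ι : Type*} [Fintype ι] [DecidableEq ι] (B : Matrix ι ι ℝ) :
    B.det ^ 2 ≤ ∏ j, ∑ i, B i j ^ 2 := by
  by_cases hB : B.det = 0
  · rw [hB]
    exact le_trans (by norm_num)
      (Finset.prod_nonneg fun j _ => Finset.sum_nonneg fun i _ => sq_nonneg _)
  let e := (Fintype.equivFin ι).symm
  have hd : (B.submatrix e e).det = B.det := Matrix.det_submatrix_equiv_self e B
  have h := had_pd _ _ (gram_pd (B := B.submatrix e e) (hd ▸ hB))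
  rw [det_mul, det_transpose, hd, ← sq] at h
  refine h.trans (le_of_eq ?_)
  rw [← Equiv.prod_comp e]
  refine Finset.prod_congr rfl fun j _ => ?_
  rw [gram_diag, ← Equiv.sum_comp e]
  rfl

/-- Hermite basis: the columns of `A U`. -/
theorem hermite {ι : Type*} [Fintype ι] [DecidableEq ι] (A : Matrix ι ι ℝ) (hA : A.det ≠ 0) :
    ∃ U : Matrix ι ι ℤ, IsUnit U.det ∧
      ∏ j, ∑ i, (A * cs U) i j ^ 2 ≤ 2 ^ (Fintype.card ι * Fintype.card ι) * A.det ^ 2 := by
  let e := (Fintype.equivFin ι).symm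
  have hd : (A.submatrix e e).det = A.det := Matrix.det_submatrix_equiv_self e A
  obtain ⟨U, hU, h⟩ := herm_pd _ _ (gram_pd (B := A.submatrix e e) (hd ▸ hA))
  refine ⟨U.submatrix e.symm e.symm, by rwa [Matrix.det_submatrix_equiv_self], ?_⟩
  rw [det_mul, det_transpose, hd, ← sq A.det] at h
  refine le_trans (le_of_eq ?_) h
  rw [← Equiv.prod_comp e]
  refine Finset.prod_congr rfl fun j _ => ?_
  have e1 : (cs U)ᵀ * ((A.submatrix e e)ᵀ * A.submatrix e e) * cs U =
      (A.submatrix e e * cs U)ᵀ * (A.submatrix e e * cs U) := by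
    rw [transpose_mul]; simp only [Matrix.mul_assoc]
  rw [e1, gram_diag, ← Equiv.sum_comp e]
  refine Finset.sum_congr rfl fun i _ => ?_
  congr 1
  simp only [Matrix.mul_apply]
  rw [← Equiv.sum_comp e]
  simp [cs]

/-- Cramer bound in a basis with orthogonality defect `K`. -/
theorem cramer_bound {ι : Type*} [Fintype ι] [DecidableEq ι] (B : Matrix ι ι ℝ) (hB : B.det ≠ 0)
    {K : ℝ} (hK : ∏ j, ∑ i, B i j ^ 2 ≤ K * B.det ^ 2) (x : ι → ℝ) (a : ι) :
    x a ^ 2 * ∑ i, B i a ^ 2 ≤ K * ql B x := by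
  have h1 : (B.updateCol a (B *ᵥ x)).det = x a * B.det := by
    have := Matrix.det_updateCol_sum B a x
    rw [smul_eq_mul] at this
    rw [← this]
    congr 2
    funext k
    simp [mulVec, dotProduct, mul_comm]
  have h2 := hadamard (B.updateCol a (B *ᵥ x))
  rw [h1, ← Finset.mul_prod_erase _ _ (Finset.mem_univ a)] at h2
  have h3 : ∏ j ∈ univ.erase a, ∑ i, (B.updateCol a (B *ᵥ x)) i j ^ 2 =
      ∏ j ∈ univ.erase a, ∑ i, B i j ^ 2 := by
    refine Finset.prod_congr rfl fun j hj => Finset.sum_congr rfl fun i _ => ?_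
    rw [Matrix.updateCol_ne (Finset.ne_of_mem_erase hj)]
  have h4 : ∑ i, (B.updateCol a (B *ᵥ x)) i a ^ 2 = ql B x := by
    simp [ql]
  rw [h3, h4] at h2
  rw [← Finset.mul_prod_erase _ _ (Finset.mem_univ a)] at hK
  have hq : 0 ≤ ql B x := Finset.sum_nonneg fun i _ => sq_nonneg _
  have hs : 0 ≤ ∑ i, B i a ^ 2 := Finset.sum_nonneg fun i _ => sq_nonneg _
  have hd : 0 < B.det ^ 2 := by positivity
  refine le_of_mul_le_mul_right ?_ hd
  calc x a ^ 2 * (∑ i, B i a ^ 2) * B.det ^ 2 = (x a * B.det) ^ 2 * ∑ i, B i a ^ 2 := by ring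
    _ ≤ (ql B x * ∏ j ∈ univ.erase a, ∑ i, B i j ^ 2) * ∑ i, B i a ^ 2 :=
        mul_le_mul_of_nonneg_right h2 hs
    _ = ql B x * ((∑ i, B i a ^ 2) * ∏ j ∈ univ.erase a, ∑ i, B i j ^ 2) := by ring
    _ ≤ ql B x * (K * B.det ^ 2) := mul_le_mul_of_nonneg_left hK hq
    _ = K * ql B x * B.det ^ 2 := by ring

/-- The full package: unimodular `U` with integer inverse `V`; column lengths of `A U` multiply
to `det A` up to `2^(D^2)`; the integer coordinates `V x` obey the Cramer bound. -/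
theorem herm_pack {ι : Type*} [Fintype ι] [DecidableEq ι] (A : Matrix ι ι ℝ) (hA : A.det ≠ 0) :
    ∃ U V : Matrix ι ι ℤ, U * V = 1 ∧ V * U = 1 ∧
      A.det ^ 2 ≤ ∏ j, ql A (fun i => (U i j : ℝ)) ∧
      ∏ j, ql A (fun i => (U i j : ℝ)) ≤ 2 ^ (Fintype.card ι * Fintype.card ι) * A.det ^ 2 ∧
      (∀ j, 0 < ql A (fun i => (U i j : ℝ))) ∧
      ∀ (x : ι → ℝ) (a : ι), (∑ b, (V a b : ℝ) * x b) ^ 2 * ql A (fun i => (U i a : ℝ)) ≤
        2 ^ (Fintype.card ι * Fintype.card ι) * ql A x := by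
  obtain ⟨U, hU, h⟩ := hermite A hA
  have hq : ∀ j, ql A (fun i => (U i j : ℝ)) = ∑ i, (A * cs U) i j ^ 2 := fun j => by
    simp [ql, cs, mulVec, dotProduct, Matrix.mul_apply]
  have hd : (A * cs U).det ^ 2 = A.det ^ 2 := by
    rw [det_mul, mul_pow, det_cs_sq hU, mul_one]
  have hd0 : (A * cs U).det ≠ 0 := by
    intro h0; rw [h0] at hd; exact hA (by simpa using hd.symm)
  have hlow : A.det ^ 2 ≤ ∏ j, ql A (fun i => (U i j : ℝ)) := by
    simp only [hq]; rw [← hd]; exact hadamard _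
  refine ⟨U, U⁻¹, Matrix.mul_nonsing_inv U hU, Matrix.nonsing_inv_mul U hU, hlow,
    by simpa only [hq] using h, fun j => ?_, fun x a => ?_⟩
  · have hn : 0 ≤ ql A (fun i => (U i j : ℝ)) := Finset.sum_nonneg fun i _ => sq_nonneg _
    refine hn.lt_of_ne fun h0 => ?_
    rw [Finset.prod_eq_zero (Finset.mem_univ j) h0.symm] at hlow
    exact absurd hlow (not_le.2 (by positivity))
  · have := cramer_bound (A * cs U) hd0 (K := 2 ^ (Fintype.card ι * Fintype.card ι))
      (by rw [hd]; exact h) (cs U⁻¹ *ᵥ x) a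
    have e : ql (A * cs U) (cs U⁻¹ *ᵥ x) = ql A x := by
      unfold ql
      rw [Matrix.mulVec_mulVec, Matrix.mul_assoc, ← cs_mul, Matrix.mul_nonsing_inv U hU]
      have : cs (1 : Matrix ι ι ℤ) = 1 := by
        ext i j; by_cases hij : i = j <;> simp [cs, Matrix.one_apply, hij]
      rw [this, Matrix.mul_one]
    rw [e, ← hq] at this
    simpa [cs, mulVec, dotProduct] using this

/-- Short basis: if every non-zero integer form `k` is somewhere larger than `T |A x|`, then the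
lattice has a basis of squared length at most `2^(D^2) / T^2`. -/
theorem short_basis {ι : Type*} [Fintype ι] [DecidableEq ι] (A : Matrix ι ι ℝ) (hA : A.det ≠ 0)
    {T : ℝ} (hT : ∀ k : ι → ℤ, k ≠ 0 → ∃ x : ι → ℝ, T * ql A x < (∑ b, (k b : ℝ) * x b) ^ 2) :
    ∃ U V : Matrix ι ι ℤ, U * V = 1 ∧ V * U = 1 ∧
      ∀ j, T * ql A (fun i => (U i j : ℝ)) ≤ 2 ^ (Fintype.card ι * Fintype.card ι) := by
  obtain ⟨U, V, h1, h2, -, -, hp, hc⟩ := herm_pack A hA
  refine ⟨U, V, h1, h2, fun j => ?_⟩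
  have hk : V j ≠ 0 := by
    intro h0
    have := congrFun (congrFun h2 j) j
    simp [Matrix.mul_apply, h0] at this
  obtain ⟨x, hx⟩ := hT _ hk
  have h3 := hc x j
  have hq : 0 ≤ ql A x := Finset.sum_nonneg fun i _ => sq_nonneg _
  rcases hq.eq_or_lt with h0 | h0
  · rw [← h0] at hx h3
    have := mul_pos (by simpa using hx) (hp j)
    simp only [mul_zero] at h3
    exact absurd h3 (not_le.2 (by simpa using this))
  · refine le_of_mul_le_mul_right ?_ h0
    have := mul_le_mul_of_nonneg_right hx.le (hp j).le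
    nlinarith

end Vale.Agent.P057T.Herm
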