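import Vale.Agent.P057L.Cpy
import Vale.Agent.P057L.Gh
import Vale.Agent.P057L.Mono

/-! Copies of the new class, for any abelian group and one function for each cell. -/

set_option linter.all false

open Finset
open scoped BigOperators

namespace Vale.Agent.P057T

open Vale.Agent.P057L Vale.Agent.P057L.Cpy

noncomputable section

namespace Cpv

theorem fac {V : Type} [AddCommMonoid V] {j p q : ℕ} (S : Finset V)
    (g : (Fin j → Fin q) → V → ℝ) :
    gridA (fun _ : Fin (j + 1) => S) (sz2 j p q) (fun c y => g (fun i => c i.succ) (∑ i, y i)) =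
    𝔼 w ∈ Fintype.piFinset (fun _ : Fin j => Fintype.piFinset fun _ : Fin q => S),
      (𝔼 v ∈ S, ∏ c : Fin j → Fin q, g c (v + ∑ i, w i (c i))) ^ p := by
  simp only [expect_pow]
  rw [expect_comm, ← expect_product', gridA]
  symm
  refine expect_equiv (Fin.consEquiv fun i : Fin (j + 1) => Fin (sz2 j p q i) → V)
    (fun x => ?_) fun x _ => ?_
  · refine mem_product.trans (Iff.trans ?_ Fintype.mem_piFinset.symm)
    refine Iff.trans ?_ Fin.forall_fin_succ.symm
    exact and_congr Iff.rfl Fintype.mem_piFinset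
  · rw [← Fintype.prod_prod_type' (fun (a : Fin p) (c : Fin j → Fin q) =>
      g c (x.1 a + ∑ i, x.2 i (c i)))]
    refine Fintype.prod_equiv (Fin.consEquiv fun i : Fin (j + 1) => Fin (sz2 j p q i)) _ _
      fun c => ?_
    rw [Fin.sum_univ_succ]
    rfl

end Cpv

/-- copies of the new class -/
theorem cpyv {V : Type} [AddCommMonoid V] {j p q : ℕ} (S : Finset V) (hS : S.Nonempty)
    (g : (Fin j → Fin q) → V → ℝ) (Ω : Finset (Fin j → Fin q → V)) {ε Y θ : ℝ} (ε0 : 0 < ε)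
    (ε1 : ε ≤ 1) (q1 : 1 ≤ q) (qp : q ≤ p) (pl : Y ≤ ε * p) (g0 : ∀ c x, 0 ≤ g c x) (θ0 : 0 ≤ θ)
    (hΩ : Ω ⊆ Fintype.piFinset fun _ : Fin j => Fintype.piFinset fun _ : Fin q => S)
    (hd : Real.exp (-Y) * (S.card : ℝ) ^ (j * q) ≤ Ω.card)
    (hw : ∀ w ∈ Ω, θ ^ (q ^ j) ≤ 𝔼 v ∈ S, ∏ c : Fin j → Fin q, g c (v + ∑ i, w i (c i))) :
    ∃ c, ((1 - ε) * θ) ^ (p ^ (j + 1)) ≤
      gridA (fun _ : Fin (j + 1) => S) (fun _ => p) (fun _ y => g c (∑ i, y i)) := by
  have p1 : 1 ≤ p := q1.trans qp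
  let F : ((i : Fin (j + 1)) → Fin (sz2 j p q i)) → (Fin (j + 1) → V) → ℝ :=
    fun c y => g (fun i => c i.succ) (∑ i, y i)
  have θ1 : 0 ≤ (1 - ε) * θ := mul_nonneg (by linarith) θ0
  have low : ((1 - ε) * θ) ^ (p * q ^ j) ≤ gridA (fun _ => S) (sz2 j p q) F := by
    have cd : (Fintype.piFinset fun _ : Fin j => Fintype.piFinset fun _ : Fin q => S).card =
        S.card ^ (j * q) := by
      simp [Fintype.card_piFinset, ← pow_mul, mul_comm]
    rw [Cpv.fac, expect_eq_sum_div_card, cd]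
    have Lp : (0 : ℝ) < ((S.card ^ (j * q) : ℕ) : ℝ) := by
      have := hS.card_pos
      positivity
    rw [le_div_iff₀ Lp]
    have a1 : (1 - ε) ^ (p * q ^ j) ≤ Real.exp (-Y) := by
      have b1 : (1 - ε) ^ (p * q ^ j) ≤ (1 - ε) ^ p :=
        pow_le_pow_of_le_one (by linarith) (by linarith)
          (Nat.le_mul_of_pos_right _ (pow_pos q1 _))
      have b2 : (1 - ε) ^ p ≤ Real.exp (-ε) ^ p :=
        pow_le_pow_left₀ (by linarith) (by linarith [Real.add_one_le_exp (-ε)]) _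
      rw [← Real.exp_nat_mul] at b2
      refine b1.trans (b2.trans (Real.exp_le_exp.2 ?_))
      linarith
    have a2 : (Ω.card : ℝ) * θ ^ (p * q ^ j) ≤
        ∑ w ∈ Ω, (𝔼 v ∈ S, ∏ c : Fin j → Fin q, g c (v + ∑ i, w i (c i))) ^ p := by
      rw [← nsmul_eq_mul]
      refine card_nsmul_le_sum _ _ _ fun w h => ?_
      rw [mul_comm p, pow_mul]
      exact pow_le_pow_left₀ (by positivity) (hw w h) _
    have a3 := sum_le_sum_of_subset_of_nonneg
      (f := fun w => (𝔼 v ∈ S, ∏ c : Fin j → Fin q, g c (v + ∑ i, w i (c i))) ^ p) hΩ fun w _ _ =>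
        pow_nonneg (expect_nonneg fun v _ => prod_nonneg fun c _ => g0 _ _) _
    refine le_trans ?_ (a2.trans a3)
    rw [mul_pow, mul_right_comm]
    refine mul_le_mul_of_nonneg_right ?_ (by positivity)
    push_cast
    exact (mul_le_mul_of_nonneg_right a1 (by positivity)).trans hd
  have hol := gh V (j + 1) (fun _ => S) (sz2 j p q) F fun c y => g0 _ _
  have s1 : ∀ i, 1 ≤ sz2 j p q i ∧ sz2 j p q i ≤ p := fun i => by
    refine Fin.cases ?_ (fun i => ?_) i
    · exact ⟨p1, le_rfl⟩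
    · exact ⟨q1, qp⟩
  have ne : (univ : Finset ((i : Fin (j + 1)) → Fin (sz2 j p q i))).Nonempty :=
    ⟨fun i => ⟨0, (s1 i).1⟩, mem_univ _⟩
  obtain ⟨c, -, hc⟩ := exists_max_image univ
    (fun c => gridA (fun _ => S) (sz2 j p q) (fun _ => F c)) ne
  have n0 : ∀ c, 0 ≤ gridA (fun _ => S) (sz2 j p q) (fun _ => F c) := fun c =>
    expect_nonneg fun W _ => prod_nonneg fun _ _ => g0 _ _
  have up : ∏ c, gridA (fun _ => S) (sz2 j p q) (fun _ => F c) ≤
      gridA (fun _ => S) (sz2 j p q) (fun _ => F c) ^ (∏ i, sz2 j p q i) := by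
    refine (prod_le_prod (fun c _ => n0 c) hc).trans (le_of_eq ?_)
    rw [prod_const, card_univ, Fintype.card_pi]
    simp only [Fintype.card_fin]
  have k : gridA (fun _ => S) (sz2 j p q) F ≤ gridA (fun _ => S) (sz2 j p q) (fun _ => F c) :=
    le_of_pow_le_pow_left₀ (prod_ne_zero_iff.2 fun i _ => by have := (s1 i).1; omega) (n0 c)
      (hol.trans up)
  have fin := mono V (j + 1) (fun _ => S) (sz2 j p q) (fun _ => p) (F c) ((1 - ε) * θ)
    (fun _ => hS) (fun y => g0 _ _) θ1 s1 (by rw [prod_sz]; exact low.trans k)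
  rw [prod_const, card_univ, Fintype.card_fin] at fin
  exact ⟨fun i => c i.succ, fin⟩

end

end Vale.Agent.P057T
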