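import Vale.Agent.P057T.GauH52
import Vale.Agent.P057T.CutH64

/-!
Shifts of Gaussian weights on a point set, and the mixture over narrow windows.
-/

open MeasureTheory Matrix
open scoped Real
open Vale.Agent.P267.H775 Vale.Agent.P057T.Poi

namespace Vale.Agent.P057T.Cut

noncomputable section

set_option linter.unusedSectionVars false

variable {N : Type*} [Fintype N] [DecidableEq N] {β : Type*}

/-- All shifted Gaussian masses of the point set `U` are `(1 ± δ) m`. -/
structure Mas (B : Matrix N N ℝ) (U : β → N → ℝ) (m δ : ℝ) : Prop where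
  sm : ∀ x, Summable fun b => gq B (U b - x)
  ms : ∀ x, |∑' b, gq B (U b - x) - m| ≤ δ * m

theorem abs_sub_le_hell {p q r θ : ℝ} (hp : 0 ≤ p) (hq : 0 ≤ q) (hr : 0 ≤ r) (hθ : 0 < θ)
    (h : r ^ 2 = p * q) : |p - q| ≤ (p + q - 2 * r) / (2 * θ) + θ * (p + q) := by
  obtain ⟨a, ha, rfl⟩ : ∃ a, 0 ≤ a ∧ p = a ^ 2 := ⟨√p, Real.sqrt_nonneg _, (Real.sq_sqrt hp).symm⟩
  obtain ⟨b, hb, rfl⟩ : ∃ b, 0 ≤ b ∧ q = b ^ 2 := ⟨√q, Real.sqrt_nonneg _, (Real.sq_sqrt hq).symm⟩
  have hr' : r = a * b := by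
    have : r ^ 2 = (a * b) ^ 2 := by rw [h]; ring
    exact (pow_left_inj₀ hr (mul_nonneg ha hb) two_ne_zero).1 this
  subst hr'
  have e : (a ^ 2 + b ^ 2 - 2 * (a * b)) / (2 * θ) + θ * (a ^ 2 + b ^ 2) =
      ((a - b) ^ 2 + 2 * θ ^ 2 * (a ^ 2 + b ^ 2)) / (2 * θ) := by
    field_simp
    ring
  rw [e, le_div_iff₀ (by positivity)]
  have h1 : |a ^ 2 - b ^ 2| = |a - b| * (a + b) := by
    rw [show a ^ 2 - b ^ 2 = (a - b) * (a + b) by ring, abs_mul, abs_of_nonneg (add_nonneg ha hb)]
  rw [h1, ← sq_abs (a - b)]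
  nlinarith [sq_nonneg (|a - b| - θ * (a + b)), mul_nonneg (sq_nonneg θ) (sq_nonneg (a - b))]

theorem gq_mid (B : Matrix N N ℝ) (v x : N → ℝ) :
    (gq B (v - (1 / 2 : ℝ) • x) * Real.exp (-(π / 4 * qf B x))) ^ 2 = gq B v * gq B (v - x) := by
  unfold gq
  rw [← Real.exp_add, ← Real.exp_add, ← Real.exp_nat_mul]
  congr 1
  have h1 := qf_sub B v ((1 / 2 : ℝ) • x)
  have h2 := qf_sub B v x
  have h3 := qf_smul_vec B (1 / 2 : ℝ) x
  have h4 : bf B v ((1 / 2 : ℝ) • x) = 1 / 2 * bf B v x := by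
    simp only [bf, mulVec_smul, Pi.smul_apply, smul_eq_mul, Finset.mul_sum]
    exact Finset.sum_congr rfl fun i _ => by ring
  rw [h1, h2, h3, h4]
  push_cast
  ring

/-- The total variation of a shift. -/
theorem hell {B : Matrix N N ℝ} {U : β → N → ℝ} {m δ : ℝ} (h : Mas B U m δ) (hm : 0 ≤ m)
    (hδ : δ ≤ 1) (hδ0 : 0 ≤ δ) {θ : ℝ} (hθ : 0 < θ) (c x : N → ℝ) :
    Summable (fun b => |gq B (U b - c) - gq B (U b - c - x)|) ∧
    ∑' b, |gq B (U b - c) - gq B (U b - c - x)| ≤ m * ((2 * δ + qf B x) / θ + 4 * θ) := by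
  have s1 := h.sm c
  have s2 : Summable fun b => gq B (U b - c - x) := by
    simpa only [sub_sub] using h.sm (c + x)
  have s3 : Summable fun b => gq B (U b - c - (1 / 2 : ℝ) • x) := by
    simpa only [sub_sub] using h.sm (c + (1 / 2 : ℝ) • x)
  have m1 := abs_le.1 (h.ms c)
  have m2 := abs_le.1 (h.ms (c + x))
  have m3 := abs_le.1 (h.ms (c + (1 / 2 : ℝ) • x))
  simp only [← sub_sub] at m2 m3
  have s4 := (s1.sub s2).abs
  refine ⟨s4, ?_⟩
  set E := Real.exp (-(π / 4 * qf B x)) with hE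
  have hE0 : 0 < E := Real.exp_pos _
  have hq := qf_nonneg B x
  have hE1 : 1 - qf B x ≤ E := by
    have := Real.add_one_le_exp (-(π / 4 * qf B x))
    have := Real.pi_le_four
    nlinarith
  have hE2 : E ≤ 1 := by
    rw [hE, Real.exp_le_one_iff]
    have := Real.pi_pos
    nlinarith
  have hs : HasSum (fun b => (gq B (U b - c) + gq B (U b - c - x) -
      2 * (gq B (U b - c - (1 / 2 : ℝ) • x) * E)) / (2 * θ) +
        θ * (gq B (U b - c) + gq B (U b - c - x))) _ :=
    (((s1.hasSum.add s2.hasSum).sub ((s3.hasSum.mul_right E).mul_left 2)).div_const _).add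
      ((s1.hasSum.add s2.hasSum).mul_left θ)
  refine (hasSum_le (fun b => abs_sub_le_hell (gq_pos _ _).le (gq_pos _ _).le
    (mul_pos (gq_pos _ _) hE0).le hθ (gq_mid B (U b - c) x)) s4.hasSum hs).trans ?_
  set S1 := ∑' b, gq B (U b - c)
  set S2 := ∑' b, gq B (U b - c - x)
  set S3 := ∑' b, gq B (U b - c - (1 / 2 : ℝ) • x)
  have k1 : S1 + S2 - 2 * (S3 * E) ≤ 2 * (m * (2 * δ + qf B x)) := by
    have k0 : (1 - δ) * m * E ≤ S3 * E := mul_le_mul_of_nonneg_right (by linarith [m3.1]) hE0.le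
    have k2 : (1 - δ) * m * (1 - qf B x) ≤ (1 - δ) * m * E :=
      mul_le_mul_of_nonneg_left hE1 (mul_nonneg (by linarith) hm)
    have k3 : 0 ≤ δ * m * qf B x := by positivity
    nlinarith [m1.2, m2.2]
  have k2 : S1 + S2 ≤ 4 * m := by
    have : δ * m ≤ m := by nlinarith
    linarith [m1.2, m2.2]
  have k3 : (S1 + S2 - 2 * (S3 * E)) / (2 * θ) ≤ m * ((2 * δ + qf B x) / θ) := by
    rw [div_le_iff₀ (by positivity)]
    calc _ ≤ _ := k1
      _ = _ := by field_simp
  nlinarith [mul_le_mul_of_nonneg_left k2 hθ.le]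

theorem gq_mul_qf_le (C : Matrix N N ℝ) (x : N → ℝ) :
    gq C x * qf C x ≤ gq ((1 / 2 : ℝ) • C) x := by
  unfold gq
  rw [qf_smul]
  have hq := qf_nonneg C x
  have h1 : qf C x ≤ Real.exp (qf C x) := by linarith [Real.add_one_le_exp (qf C x)]
  calc _ ≤ Real.exp (-π * qf C x) * Real.exp (qf C x) :=
        mul_le_mul_of_nonneg_left h1 (Real.exp_pos _).le
    _ = Real.exp (-π * qf C x + qf C x) := (Real.exp_add _ _).symm
    _ ≤ _ := by
        rw [Real.exp_le_exp]
        have := Real.pi_gt_three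
        nlinarith

/-- Mixture over narrow windows. -/
theorem mixt [Countable β] {B C : Matrix N N ℝ} (hB : B.det ≠ 0) (hC : C.det ≠ 0)
    {U : β → N → ℝ} {κ δ η e θ : ℝ} (hκ : 0 ≤ κ) (hδ : δ ≤ 1) (hδ0 : 0 ≤ δ) (hθ : 0 < θ)
    (hM : Mas B U (κ * |B.det|⁻¹) δ) (hBC : ∀ x, qf B x ≤ η * qf C x) (hη : 0 ≤ η)
    {H : β → ℝ} (hH : ∀ b, |H b| ≤ 1)
    (hw : ∀ c, |∑' b, gq C (U b - c) * H b| ≤ e * (κ * |C.det|⁻¹)) :
    |∑' b, gq B (U b) * H b| ≤
      (e + (2 * δ + η * 2 ^ Fintype.card N) / θ + 4 * θ) * (κ * |B.det|⁻¹) := by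
  set m := κ * |B.det|⁻¹ with hm
  have hm0 : 0 ≤ m := by positivity
  have hCp : 0 < |C.det| := abs_pos.2 hC
  have iC := integrable_gq hC
  have iB := integrable_gq hB
  have cB := continuous_gq B
  have cC := continuous_gq C
  have i1 : ∀ b, Integrable fun x => gq C x * gq B (U b - x) := fun b =>
    iC.mul_bdd (c := 1) (by fun_prop)
      (Filter.Eventually.of_forall fun x => by
        rw [Real.norm_eq_abs, abs_of_pos (gq_pos _ _)]; exact gq_le_one _ _)
  have i2 : ∀ b, Integrable fun c => gq B c * gq C (U b - c) := fun b =>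
    iB.mul_bdd (c := 1) (by fun_prop)
      (Filter.Eventually.of_forall fun x => by
        rw [Real.norm_eq_abs, abs_of_pos (gq_pos _ _)]; exact gq_le_one _ _)
  set I : β → ℝ := fun b => ∫ x, gq C x * gq B (U b - x) with hI
  have hI2 : ∀ b, ∫ c, gq B c * gq C (U b - c) = I b := by
    intro b
    rw [← integral_sub_left_eq_self (fun c => gq B c * gq C (U b - c)) volume (U b)]
    simp only [hI, sub_sub_cancel, mul_comm]
  have hI0 : ∀ b, 0 ≤ I b := fun b =>
    integral_nonneg fun x => (mul_pos (gq_pos _ _) (gq_pos _ _)).le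
  have sI : Summable I := by
    refine summable_of_sum_le hI0 (c := ∫ x, gq C x * (2 * m)) fun s => ?_
    simp only [hI]
    rw [← integral_finsetSum _ fun b _ => i1 b]
    refine integral_mono (integrable_finsetSum _ fun b _ => i1 b) (iC.mul_const _) fun x => ?_
    simp only
    rw [← Finset.mul_sum]
    refine mul_le_mul_of_nonneg_left ?_ (gq_pos _ _).le
    have h1 := (hM.sm x).sum_le_tsum s fun b _ => (gq_pos _ _).le
    have h2 := (abs_le.1 (hM.ms x)).2
    have : δ * m ≤ m := by nlinarith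
    linarith
  have s0 : Summable fun b => gq B (U b) := by simpa using hM.sm 0
  have habs : ∀ b (t : ℝ), ‖t * H b‖ ≤ |t| := fun b t => by
    rw [Real.norm_eq_abs, abs_mul]
    exact mul_le_of_le_one_right (abs_nonneg _) (hH b)
  have j1 : ∀ b, Integrable fun x => gq C x * (gq B (U b) - gq B (U b - x)) := fun b => by
    simp only [mul_sub]
    exact (iC.mul_const _).sub (i1 b)
  have A1 := hasSum_integral_of_summable_integral_norm (μ := volume)
    (F := fun b x => gq C x * (gq B (U b) - gq B (U b - x)) * H b)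
    (fun b => (j1 b).mul_const _) (by
      refine Summable.of_nonneg_of_le (fun b => integral_nonneg fun x => norm_nonneg _)
        (fun b => ?_) ((s0.mul_left |C.det|⁻¹).add sI)
      rw [← integral_gq hC, ← integral_mul_const, hI, ← integral_add (iC.mul_const _) (i1 b)]
      refine integral_mono ((j1 b).mul_const _).norm ((iC.mul_const _).add (i1 b)) fun x => ?_
      refine (habs b _).trans ?_
      rw [abs_mul, abs_of_pos (gq_pos _ _), ← mul_add]
      refine mul_le_mul_of_nonneg_left ?_ (gq_pos _ _).le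
      have := gq_pos B (U b)
      have := gq_pos B (U b - x)
      rw [abs_le]
      constructor <;> linarith)
  have A2 := hasSum_integral_of_summable_integral_norm (μ := volume)
    (F := fun b c => gq B c * gq C (U b - c) * H b)
    (fun b => (i2 b).mul_const _) (by
      refine Summable.of_nonneg_of_le (fun b => integral_nonneg fun x => norm_nonneg _)
        (fun b => ?_) sI
      rw [← hI2]
      refine integral_mono ((i2 b).mul_const _).norm (i2 b) fun x => ?_
      refine (habs b _).trans ?_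
      rw [abs_of_pos (mul_pos (gq_pos _ _) (gq_pos _ _))])
  have e1 : ∀ b, ∫ x, gq C x * (gq B (U b) - gq B (U b - x)) * H b =
      (|C.det|⁻¹ * gq B (U b) - I b) * H b := by
    intro b
    rw [integral_mul_const]
    simp only [mul_sub]
    rw [integral_sub (iC.mul_const _) (i1 b), integral_mul_const, integral_gq hC]
  have e2 : ∀ b, ∫ c, gq B c * gq C (U b - c) * H b = I b * H b := by
    intro b
    rw [integral_mul_const, hI2]
  simp only [e1] at A1
  simp only [e2] at A2
  have A3 := (A1.add A2).mul_left |C.det|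
  have e3 : (fun b => |C.det| * ((|C.det|⁻¹ * gq B (U b) - I b) * H b + I b * H b)) =
      fun b => gq B (U b) * H b := by
    funext b
    field_simp
    ring
  rw [e3] at A3
  rw [A3.tsum_eq, abs_mul, abs_abs]
  have hC2 : ((1 / 2 : ℝ) • C).det ≠ 0 := det_smul_ne (by norm_num) hC
  have b1 : ‖∫ x, ∑' b, gq C x * (gq B (U b) - gq B (U b - x)) * H b‖ ≤
      ∫ x, (gq C x * (m * (2 * δ / θ + 4 * θ)) + gq ((1 / 2 : ℝ) • C) x * (m * η / θ)) := by
    refine norm_integral_le_of_norm_le ((iC.mul_const _).add ((integrable_gq hC2).mul_const _))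
      (Filter.Eventually.of_forall fun x => ?_)
    obtain ⟨h1, h2⟩ := hell hM hm0 hδ hδ0 hθ 0 x
    simp only [sub_zero] at h1 h2
    have h3 : ‖∑' b, gq C x * (gq B (U b) - gq B (U b - x)) * H b‖ ≤
        gq C x * ∑' b, |gq B (U b) - gq B (U b - x)| := by
      refine tsum_of_norm_bounded (h1.hasSum.mul_left _) fun b => ?_
      refine (habs b _).trans ?_
      rw [abs_mul, abs_of_pos (gq_pos _ _)]
    refine h3.trans ((mul_le_mul_of_nonneg_left h2 (gq_pos _ _).le).trans ?_)
    have h4 : gq C x * qf B x ≤ η * gq ((1 / 2 : ℝ) • C) x :=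
      calc _ ≤ gq C x * (η * qf C x) := mul_le_mul_of_nonneg_left (hBC x) (gq_pos _ _).le
        _ = η * (gq C x * qf C x) := by ring
        _ ≤ _ := mul_le_mul_of_nonneg_left (gq_mul_qf_le C x) hη
    calc _ = gq C x * (m * (2 * δ / θ + 4 * θ)) + m / θ * (gq C x * qf B x) := by ring
      _ ≤ gq C x * (m * (2 * δ / θ + 4 * θ)) + m / θ * (η * gq ((1 / 2 : ℝ) • C) x) := by
          gcongr
      _ = _ := by ring
  have b2 : ‖∫ c, ∑' b, gq B c * gq C (U b - c) * H b‖ ≤
      ∫ c, gq B c * (e * (κ * |C.det|⁻¹)) := by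
    refine norm_integral_le_of_norm_le (iB.mul_const _) (Filter.Eventually.of_forall fun c => ?_)
    simp only [mul_assoc]
    rw [tsum_mul_left, Real.norm_eq_abs, abs_mul, abs_of_pos (gq_pos _ _)]
    exact mul_le_mul_of_nonneg_left (by simpa only [mul_assoc] using hw c) (gq_pos _ _).le
  rw [integral_add (iC.mul_const _) ((integrable_gq hC2).mul_const _), integral_mul_const,
    integral_mul_const, integral_gq hC, integral_gq hC2] at b1
  rw [integral_mul_const, integral_gq hB] at b2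
  have e4 : |((1 / 2 : ℝ) • C).det|⁻¹ = 2 ^ Fintype.card N * |C.det|⁻¹ := by
    rw [det_smul, abs_mul, mul_inv, abs_pow, ← inv_pow]
    norm_num
  rw [e4] at b1
  rw [Real.norm_eq_abs] at b1 b2
  calc _ ≤ |C.det| * (_ + _) :=
        mul_le_mul_of_nonneg_left ((abs_add_le _ _).trans (add_le_add b1 b2)) hCp.le
    _ = _ := by
        rw [hm]
        field_simp
        ring

end

end Vale.Agent.P057T.Cut
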