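import Vale.Agent.P057L.St1
import Vale.Agent.P057L.Nrm
import Vale.Agent.P057L.Mono

/-! Boxes in several dimensions: shifts, reflections, windows. -/

set_option linter.all false

open Finset
open scoped BigOperators

namespace Vale.Agent.P057T

open Vale.Agent.P057L

noncomputable section

variable {m : ℕ}

open Classical in
/-- the normalised indicator -/
def indV (A : Finset (Vz m)) (α : ℝ) (x : Vz m) : ℝ := if x ∈ A then 1 / α else 0

/-- no progression of k terms -/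
def APV (k : ℕ) (A : Finset (Vz m)) : Prop :=
  ∀ a d : Vz m, d ≠ 0 → ¬ ∀ i : ℕ, i < k → a + (i : ℤ) • d ∈ A

/-- the grid with n classes of p copies for a function of the sum -/
def grdV (n p N : ℕ) (g : Vz m → ℝ) : ℝ :=
  gridA (fun _ : Fin n => bz m N) (fun _ => p) (fun _ y => g (∑ i, y i))

namespace SV

theorem ind_bd (A : Finset (Vz m)) {α : ℝ} (h : 0 < α) (x : Vz m) :
    0 ≤ indV A α x ∧ indV A α x ≤ 1 / α := by
  unfold indV
  split_ifs
  · exact ⟨by positivity, le_rfl⟩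
  · exact ⟨le_rfl, by positivity⟩

theorem bz_card (m N : ℕ) : (bz m N).card = N ^ m := by
  simp [bz, Fintype.card_piFinset, St1.rg_card]

theorem bz_ne {N : ℕ} (h : 1 ≤ N) : (bz m N).Nonempty :=
  card_pos.1 (by rw [bz_card]; positivity)

theorem refl (L : ℕ) (h : Vz m → ℝ) :
    𝔼 z ∈ bz m L, h z = 𝔼 z ∈ bz m L, h (fun l => (L : ℤ) - 1 - z l) :=
  (MonoA.E_push (fun _ : Fin m => rg L) (fun _ => rg L) (fun _ z => (L : ℤ) - 1 - z)
    (fun _ H => (St1.refl L H).symm) h).symm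

theorem shift1 {L : ℕ} (hL : 1 ≤ L) (h : ℤ → ℝ) {B : ℝ} (hB : ∀ x, 0 ≤ h x ∧ h x ≤ B) (s : ℤ) :
    𝔼 w ∈ rg L, h w - |(s : ℝ)| * B / L ≤ 𝔼 w ∈ rg L, h (w + s) := by
  have L0 : (0 : ℝ) < L := by exact_mod_cast hL
  rw [St1.rg_exp, St1.rg_exp L fun w => h (w + s), ← sub_div]
  exact div_le_div_of_nonneg_right (St1.shift L h hB s) L0.le

theorem shift2 {L : ℕ} (hL : 1 ≤ L) (h : Vz m → ℝ) {B : ℝ} (hB : ∀ x, 0 ≤ h x ∧ h x ≤ B)
    (l : Fin m) (s : ℤ) :
    𝔼 w ∈ bz m L, h w - |(s : ℝ)| * B / L ≤ 𝔼 w ∈ bz m L, h (w + Pi.single l s) := by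
  unfold bz
  have r2 := Gh.resample (fun _ : Fin m => rg L) l fun w : Vz m => h (w + Pi.single l s)
  rw [Gh.resample (fun _ : Fin m => rg L) l h]
  refine le_of_le_of_eq ?_ r2.symm
  have ne : (Fintype.piFinset fun _ : Fin m => rg L).Nonempty := bz_ne hL
  rw [← expect_const ne (|(s : ℝ)| * B / L), ← expect_sub_distrib]
  refine expect_le_expect fun W _ => ?_
  refine (shift1 hL (fun v => h (Function.update W l v)) (fun v => hB _) s).trans_eq ?_
  refine expect_congr rfl fun v _ => congrArg h (funext fun a => ?_)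
  by_cases e : a = l
  · subst e; simp
  · simp [e]

/-- a shift of a box -/
theorem shift {L : ℕ} (hL : 1 ≤ L) (h : Vz m → ℝ) {B S : ℝ} (hB : ∀ x, 0 ≤ h x ∧ h x ≤ B)
    (s : Vz m) (hs : ∀ l, |(s l : ℝ)| ≤ S) :
    𝔼 w ∈ bz m L, h w - m * (S * B / L) ≤ 𝔼 w ∈ bz m L, h (w + s) := by
  have B0 : 0 ≤ B := (hB 0).1.trans (hB 0).2
  have key : ∀ T : Finset (Fin m), 𝔼 w ∈ bz m L, h w - T.card * (S * B / L) ≤
      𝔼 w ∈ bz m L, h (w + ∑ l ∈ T, Pi.single l (s l)) := fun T => by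
    induction T using Finset.induction_on with
    | empty => simp
    | insert l T hl ih =>
      have h1 := shift2 hL (fun w => h (w + ∑ l ∈ T, Pi.single l (s l))) (fun x => hB _) l (s l)
      have h2 : |(s l : ℝ)| * B / L ≤ S * B / L := by gcongr; exact hs l
      rw [card_insert_of_notMem hl, sum_insert hl]
      simp only [← add_assoc]
      push_cast
      linarith
  have h1 := key univ
  rwa [card_univ, Fintype.card_fin, univ_sum_single] at h1

/-- the larger box -/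
def wb (m N S : ℕ) : Finset (Vz m) := Fintype.piFinset fun _ => Ico (-(S : ℤ)) (N + S)

theorem wb_card (m N S : ℕ) : ((wb m N S).card : ℝ) = (N + 2 * S) ^ m := by
  have h : (Ico (-(S : ℤ)) (N + S)).card = N + 2 * S := by rw [Int.card_Ico]; omega
  simp [wb, Fintype.card_piFinset, h]

theorem dom {N S : ℕ} (h : Vz m → ℝ) (h0 : ∀ x, 0 ≤ h x) {t : Vz m} (ht : ∀ l, |t l| ≤ S) :
    ∑ y ∈ bz m N, h y ≤ ∑ x ∈ wb m N S, h (x + t) := by
  classical
  have h1 : ∑ x ∈ (bz m N).image (· - t), h (x + t) = ∑ y ∈ bz m N, h y := by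
    rw [sum_image fun a _ b _ h => by simpa using h]
    simp only [sub_add_cancel]
  rw [← h1]
  refine sum_le_sum_of_subset_of_nonneg (fun x hx => ?_) fun x _ _ => h0 _
  obtain ⟨a, ha, rfl⟩ := mem_image.1 hx
  refine Fintype.mem_piFinset.2 fun l => ?_
  have h2 := Fintype.mem_piFinset.1 ha l
  rw [rg, mem_Ico] at h2
  have h3 := abs_le.1 (ht l)
  rw [mem_Ico, Pi.sub_apply]
  omega

theorem tot {A : Finset (Vz m)} {α : ℝ} {N S : ℕ} (h : 0 < α) (hA : A ⊆ bz m N)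
    (e : α * (N : ℝ) ^ m = A.card) {t : Vz m} (ht : ∀ l, |t l| ≤ S) :
    (N : ℝ) ^ m ≤ ∑ x ∈ wb m N S, indV A α (x + t) := by
  refine le_trans ?_ (dom _ (fun x => (ind_bd A h x).1) ht)
  have h1 : ∑ x ∈ A, indV A α x = (N : ℝ) ^ m := by
    rw [sum_congr rfl (g := fun _ => 1 / α) fun x hx => by rw [indV, if_pos hx], sum_const,
      nsmul_eq_mul, ← e]
    field_simp
  rw [← h1]
  exact sum_le_sum_of_subset_of_nonneg hA fun x _ _ => (ind_bd A h _).1

theorem pw_num {η x : ℝ} {m : ℕ} (hx : 0 ≤ x) (h : m * x ≤ η) : (1 + x) ^ m ≤ Real.exp η := by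
  refine (pow_le_pow_left₀ (by linarith)
    (show 1 + x ≤ Real.exp x by linarith [Real.add_one_le_exp x]) m).trans ?_
  rw [← Real.exp_nat_mul]
  exact Real.exp_le_exp.2 h

/-- a window -/
def wn (m L : ℕ) (e : ℤ) (o : Vz m) : Finset (Vz m) :=
  Fintype.piFinset fun l => nrmW L e (o l)

theorem wn_img (L : ℕ) {e : ℤ} (he : e ≠ 0) (o : Vz m) (h : Vz m → ℝ) :
    𝔼 y ∈ bz m L, h (o + e • y) = 𝔼 y ∈ wn m L e o, h y :=
  MonoA.E_push (fun _ : Fin m => rg L) (fun l => nrmW L e (o l)) (fun l y => o l + e * y)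
    (fun l H => nrm_img L he (o l) H) h

theorem wn_win {M L D : ℕ} {e : ℤ} {B : ℝ} (hL : 1 ≤ L) (hM : 1 ≤ M) (he : e ≠ 0)
    (hD : |e| ≤ D) (hB : (M + 2 * (D * L : ℕ) : ℝ) ≤ B * M) (h : Vz m → ℝ) (h0 : ∀ y, 0 ≤ h y) :
    𝔼 y ∈ bz m M, h y ≤ B ^ m * 𝔼 o ∈ wb m M (D * L), 𝔼 y ∈ wn m L e o, h y := by
  have M0 : (0 : ℝ) < M := by exact_mod_cast hM
  have K0 : (0 : ℝ) < M + 2 * (D * L : ℕ) := by positivity
  simp only [← wn_img L he]
  rw [expect_comm, mul_expect]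
  refine le_expect (bz_ne hL) fun t ht => ?_
  rw [expect_eq_sum_div_card, expect_eq_sum_div_card, wb_card, bz_card]
  have s1 := dom (N := M) (S := D * L) h h0 (t := e • t) fun l => by
    have h2 := Fintype.mem_piFinset.1 ht l
    rw [rg, mem_Ico] at h2
    rw [Pi.smul_apply, smul_eq_mul, abs_mul, abs_of_nonneg h2.1]
    push_cast
    exact mul_le_mul hD h2.2.le h2.1 (by positivity)
  have s0 : 0 ≤ ∑ y ∈ bz m M, h y := sum_nonneg fun y _ => h0 y
  have s2 : ((M : ℝ) + 2 * (D * L : ℕ)) ^ m ≤ B ^ m * (M : ℝ) ^ m := by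
    rw [← mul_pow]; exact pow_le_pow_left₀ K0.le hB m
  rw [← mul_div_assoc, Nat.cast_pow, div_le_div_iff₀ (by positivity) (by positivity)]
  nlinarith [mul_le_mul s1 s2 (by positivity) (s0.trans s1)]

theorem wb_ne {N S : ℕ} (h : 1 ≤ N) : (wb m N S).Nonempty :=
  Fintype.piFinset_nonempty.2 fun _ => ⟨0, by rw [mem_Ico]; omega⟩

end SV

end

end Vale.Agent.P057T
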