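import Vale.Agent.P057T.GauH52
import Mathlib.Analysis.Matrix.Order
import Mathlib.LinearAlgebra.FreeModule.PID
import Mathlib.LinearAlgebra.Dimension.Localization

/-!
Moves on a Gaussian lattice: crude theta bound, mixtures, residue classes, change of basis, slices.
-/

open MeasureTheory Set Complex Matrix
open scoped Real
open Vale.Agent.P267.H775

namespace Vale.Agent.P057T.Poi

noncomputable section

set_option linter.unusedSectionVars false

variable {ι : Type*} [Fintype ι] [DecidableEq ι]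

theorem tsum_pi_le {g : ℤ → ℝ} (hg0 : ∀ m, 0 ≤ g m) (hg : Summable g) :
    ∑' n : ι → ℤ, ∏ i, g (n i) ≤ (∑' m, g m) ^ Fintype.card ι := by
  refine Real.tsum_le_of_sum_le (fun n => Finset.prod_nonneg fun i _ => hg0 _) fun s => ?_
  have h1 : ∑ n ∈ s, ∏ i, g (n i) ≤
      ∑ n ∈ Fintype.piFinset (fun i => s.image (fun n => n i)), ∏ i, g (n i) := by
    refine Finset.sum_le_sum_of_subset_of_nonneg ?_ fun n _ _ =>
      Finset.prod_nonneg fun i _ => hg0 _
    intro n hn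
    rw [Fintype.mem_piFinset]
    intro i
    exact Finset.mem_image_of_mem (fun n : ι → ℤ => n i) hn
  refine h1.trans ?_
  rw [← Finset.prod_univ_sum (fun i => s.image (fun n => n i)) (fun _ m => g m)]
  calc ∏ i : ι, ∑ m ∈ s.image (fun n => n i), g m ≤ ∏ _i : ι, ∑' m, g m :=
        Finset.prod_le_prod (fun i _ => Finset.sum_nonneg fun m _ => hg0 m)
          (fun i _ => hg.sum_le_tsum _ (fun m _ => hg0 m))
    _ = (∑' m, g m) ^ Fintype.card ι := by simp

theorem qf_one (x : ι → ℝ) : qf (1 : Matrix ι ι ℝ) x = ∑ i, x i ^ 2 := by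
  simp only [qf, one_mulVec]

theorem one_le_sum_sq {n : ι → ℤ} (hn : n ≠ 0) : (1 : ℝ) ≤ ∑ i, toR n i ^ 2 := by
  obtain ⟨i, hi⟩ := Function.ne_iff.1 hn
  have h1 : (1 : ℤ) ≤ n i ^ 2 := by
    have : 0 < n i ^ 2 := sq_pos_of_ne_zero hi
    omega
  have h2 : (1 : ℝ) ≤ toR n i ^ 2 := by rw [toR_apply]; exact_mod_cast h1
  exact h2.trans (Finset.single_le_sum (f := fun i => toR n i ^ 2) (fun _ _ => sq_nonneg _)
    (Finset.mem_univ i))

theorem th_unit_le : th (1 : Matrix Unit Unit ℝ) 0 ≤ 2 := by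
  have h := th_sub_one_le (M := (1 : Matrix Unit Unit ℝ)) (by simp) (K := 1) (δ := 1 / 2)
    (fun n hn => by rw [qf_one]; exact one_le_sum_sq hn) ?_ le_rfl
  · linarith
  · have hp := Real.pi_gt_three
    have e1 : Real.exp (-(3 / 4 * π * 1)) ≤ Real.exp (-2) := by
      rw [Real.exp_le_exp]; linarith
    have e2 : Real.exp (-2) ≤ 1 / 4 := by
      rw [Real.exp_neg, inv_le_comm₀ (Real.exp_pos _) (by norm_num)]
      have := Real.add_one_le_exp 1
      have e3 : Real.exp 2 = Real.exp 1 * Real.exp 1 := by rw [← Real.exp_add]; norm_num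
      norm_num
      nlinarith
    simp only [Fintype.card_unit, pow_one]
    linarith

theorem th_one_le : th (1 : Matrix ι ι ℝ) 0 ≤ 2 ^ Fintype.card ι := by
  set g : ℤ → ℝ := fun m => Real.exp (-π * (m : ℝ) ^ 2) with hg
  have e : ∀ n : Unit → ℤ, gq (1 : Matrix Unit Unit ℝ) (0 + toR n) =
      g (Equiv.funUnique Unit ℤ n) := by
    intro n
    simp [gq, qf_one, hg]
  have hs : Summable g := by
    rw [← (Equiv.funUnique Unit ℤ).summable_iff]
    exact (summable_gq (M := (1 : Matrix Unit Unit ℝ)) (by simp) 0).congr e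
  have h2 : ∑' m, g m ≤ 2 := by
    rw [← (Equiv.funUnique Unit ℤ).tsum_eq]
    have := th_unit_le
    unfold th at this
    simp_rw [e] at this
    exact this
  have h3 : th (1 : Matrix ι ι ℝ) 0 = ∑' n : ι → ℤ, ∏ i, g (n i) := by
    rw [th_zero]
    refine tsum_congr fun n => ?_
    rw [gq, qf_one, Finset.mul_sum, Real.exp_sum]
    rfl
  rw [h3]
  exact (tsum_pi_le (fun m => (Real.exp_pos _).le) hs).trans
    (pow_le_pow_left₀ (tsum_nonneg fun m => (Real.exp_pos _).le) h2 _)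

/-- Crude bound: if `|y| ≤ a |M y|` then the theta value is at most `(2 a)^d` (`1 ≤ a`). -/
theorem th_le_crude {M : Matrix ι ι ℝ} (hM : M.det ≠ 0) {a : ℝ} (ha : 1 ≤ a)
    (h : ∀ y : ι → ℝ, ∑ i, y i ^ 2 ≤ a ^ 2 * qf M y) (x : ι → ℝ) :
    th M x ≤ (2 * a) ^ Fintype.card ι := by
  have ha0 : 0 < a := by linarith
  have hi : 0 < a⁻¹ := inv_pos.2 ha0
  have h1 : (1 : Matrix ι ι ℝ).det ≠ 0 := by simp
  have h2 : th M 0 ≤ th (a⁻¹ • (1 : Matrix ι ι ℝ)) 0 := by
    refine (summable_gq hM 0).tsum_le_tsum (fun n => ?_) (summable_gq (det_smul_ne hi.ne' h1) 0)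
    unfold gq
    rw [Real.exp_le_exp, qf_smul, qf_one]
    have h3 : a⁻¹ ^ 2 * ∑ i, (0 + toR n) i ^ 2 ≤ qf M (0 + toR n) := by
      rw [inv_pow, inv_mul_le_iff₀ (by positivity)]
      exact h _
    nlinarith [Real.pi_pos]
  have h4 := (th_smul_le hi (inv_le_one_of_one_le₀ ha) h1 0).trans th_one_le
  rw [inv_pow, inv_mul_le_iff₀ (by positivity)] at h4
  rw [mul_pow, mul_comm]
  exact (th_le hM x).trans (h2.trans h4)

theorem qf_le_of_entries {M : Matrix ι ι ℝ} {b : ℝ} (hb : ∀ i j, |M i j| ≤ b) (y : ι → ℝ) :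
    qf M y ≤ (Fintype.card ι * b) ^ 2 * ∑ i, y i ^ 2 := by
  have h1 : ∀ i, (M *ᵥ y) i ^ 2 ≤ Fintype.card ι * b ^ 2 * ∑ j, y j ^ 2 := by
    intro i
    refine (Finset.sum_mul_sq_le_sq_mul_sq Finset.univ (fun j => M i j) y).trans ?_
    refine mul_le_mul_of_nonneg_right ?_ (Finset.sum_nonneg fun _ _ => sq_nonneg _)
    have := Finset.sum_le_card_nsmul Finset.univ (fun j => M i j ^ 2) (b ^ 2) fun j _ =>
      sq_le_sq' (by linarith [neg_abs_le (M i j), hb i j]) ((le_abs_self _).trans (hb i j))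
    rwa [nsmul_eq_mul, Finset.card_univ] at this
  have h2 := Finset.sum_le_card_nsmul Finset.univ (fun i => (M *ᵥ y) i ^ 2) _ fun i _ => h1 i
  rw [nsmul_eq_mul, Finset.card_univ] at h2
  calc qf M y ≤ _ := h2
    _ = _ := by ring

/-- (P1): the dual theta value in terms of the entries of `M`. -/
theorem th_dual_le {M : Matrix ι ι ℝ} (hM : M.det ≠ 0) {b : ℝ} (hb0 : 0 ≤ b)
    (hb : ∀ i j, |M i j| ≤ b) (x : ι → ℝ) :
    th (M⁻¹)ᵀ x ≤ (2 * (1 + Fintype.card ι * b)) ^ Fintype.card ι := by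
  have hc : (0 : ℝ) ≤ Fintype.card ι * b := by positivity
  refine th_le_crude (det_dual hM) (by linarith) (fun y => ?_) x
  have h1 := qf_le_of_entries (M := Mᵀ) (fun i j => hb j i) ((M⁻¹)ᵀ *ᵥ y)
  have h2 : qf Mᵀ ((M⁻¹)ᵀ *ᵥ y) = ∑ i, y i ^ 2 := by
    rw [qf, mulVec_mulVec, ← transpose_mul, nonsing_inv_mul _ (isUnit_iff_ne_zero.2 hM),
      transpose_one, one_mulVec]
  rw [h2] at h1
  refine h1.trans (mul_le_mul_of_nonneg_right ?_ (qf_nonneg _ _))
  nlinarith

theorem det_th_le {M : Matrix ι ι ℝ} (hM : M.det ≠ 0) (x : ι → ℝ) :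
    |M.det| * th M x ≤ th (M⁻¹)ᵀ 0 := by
  rw [th_dual hM]
  exact mul_le_mul_of_nonneg_left (th_le hM x) (abs_nonneg _)

/-- (P1): summing out one stage. -/
theorem p1 {M : Matrix ι ι ℝ} (hM : M.det ≠ 0) {b : ℝ} (hb0 : 0 ≤ b)
    (hb : ∀ i j, |M i j| ≤ b) (x : ι → ℝ) :
    |M.det| * th M x ≤ (2 * (1 + Fintype.card ι * b)) ^ Fintype.card ι :=
  (det_th_le hM x).trans (th_dual_le hM hb0 hb 0)

/-- (P2): points in a ball. -/
theorem p2 {M : Matrix ι ι ℝ} (hM : M.det ≠ 0) (x : ι → ℝ) {K : ℝ} (S : Finset (ι → ℤ))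
    (h : ∀ n ∈ S, qf M (x + toR n) ≤ K) :
    |M.det| * S.card ≤ Real.exp (π * K) * th (M⁻¹)ᵀ 0 := by
  have h1 := mul_le_mul_of_nonneg_left (card_le hM x S h) (abs_nonneg M.det)
  rw [th_dual hM]
  linarith

/-- Balls are finite. -/
theorem finite_ball {M : Matrix ι ι ℝ} (hM : M.det ≠ 0) (x : ι → ℝ) (K : ℝ) :
    {n : ι → ℤ | qf M (x + toR n) ≤ K}.Finite := by
  by_contra hc
  obtain ⟨N, hN⟩ := exists_nat_gt (Real.exp (π * K) * th M 0)
  obtain ⟨S, hS, hc2⟩ := Set.Infinite.exists_subset_card_eq hc N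
  have := card_le hM x S fun n hn => hS hn
  rw [hc2] at this
  linarith

theorem bf_smul_right (M : Matrix ι ι ℝ) (s : ℝ) (x y : ι → ℝ) :
    bf M x (s • y) = s * bf M x y := by
  simp only [bf, mulVec_smul, Pi.smul_apply, smul_eq_mul, Finset.mul_sum]
  refine Finset.sum_congr rfl fun i _ => ?_
  ring

/-- Product of two Gaussians with complementary widths. -/
theorem gq_conv (M : Matrix ι ι ℝ) {σ τ : ℝ} (hσ : σ ≠ 0) (hτ : τ ≠ 0) (h : σ ^ 2 + τ ^ 2 = 1)
    (u c : ι → ℝ) :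
    gq (τ⁻¹ • M) c * gq (σ⁻¹ • M) (u - c) = gq M u * gq ((σ * τ)⁻¹ • M) (c - τ ^ 2 • u) := by
  unfold gq
  rw [← Real.exp_add, ← Real.exp_add, qf_smul, qf_smul, qf_smul, qf_sub, qf_sub, qf_smul_vec,
    bf_smul_right, bf_comm M c u]
  congr 1
  have h1 : σ ^ 2 = 1 - τ ^ 2 := by linarith
  field_simp
  rw [h1]
  ring

/-- SHRINK: a Gaussian is an exact mixture of narrower ones. -/
theorem integral_conv {M : Matrix ι ι ℝ} (hM : M.det ≠ 0) {σ τ : ℝ} (hσ : 0 < σ) (hτ : 0 < τ)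
    (h : σ ^ 2 + τ ^ 2 = 1) (u : ι → ℝ) :
    ∫ c, gq (τ⁻¹ • M) c * gq (σ⁻¹ • M) (u - c) =
      (σ * τ) ^ Fintype.card ι * |M.det|⁻¹ * gq M u := by
  have h0 : 0 < (σ * τ)⁻¹ := by positivity
  simp_rw [gq_conv M hσ.ne' hτ.ne' h]
  rw [integral_const_mul, integral_sub_right_eq_self (gq ((σ * τ)⁻¹ • M)) (τ ^ 2 • u),
    integral_gq (det_smul_ne h0.ne' hM), det_smul, abs_mul, abs_of_pos (pow_pos h0 _), inv_pow,
    mul_inv, inv_inv]
  ring

/-- SHRINK, discrete form: centres on the grid `η ℤ^ι`. -/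
theorem hasSum_conv {M : Matrix ι ι ℝ} (hM : M.det ≠ 0) {σ τ η : ℝ} (hσ : σ ≠ 0) (hτ : τ ≠ 0)
    (hη : η ≠ 0) (h : σ ^ 2 + τ ^ 2 = 1) (u : ι → ℝ) :
    HasSum (fun n : ι → ℤ => gq (τ⁻¹ • M) (η • toR n) * gq (σ⁻¹ • M) (u - η • toR n))
      (gq M u * th ((η * (σ * τ)⁻¹) • M) (-((η⁻¹ * τ ^ 2) • u))) := by
  have h0 : η * (σ * τ)⁻¹ ≠ 0 := mul_ne_zero hη (inv_ne_zero (mul_ne_zero hσ hτ))
  have h1 := (summable_gq (det_smul_ne h0 hM) (-((η⁻¹ * τ ^ 2) • u))).hasSum.mul_left (gq M u)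
  have he : (fun n : ι → ℤ => gq (τ⁻¹ • M) (η • toR n) * gq (σ⁻¹ • M) (u - η • toR n)) =
      fun n => gq M u * gq ((η * (σ * τ)⁻¹) • M) (-((η⁻¹ * τ ^ 2) • u) + toR n) := by
    funext n
    rw [gq_conv M hσ hτ h]
    congr 1
    have : η • toR n - τ ^ 2 • u = η • (-((η⁻¹ * τ ^ 2) • u) + toR n) := by
      rw [smul_add, smul_neg, smul_smul, ← mul_assoc, mul_inv_cancel₀ hη, one_mul]
      abel
    unfold gq
    rw [this, qf_smul, qf_smul, qf_smul_vec]
    congr 1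
    ring
  rw [he]
  exact h1

/-- ADD: the average of the theta value over the torus. -/
theorem integral_th {M : Matrix ι ι ℝ} (hM : M.det ≠ 0) (x : ι → ℝ) :
    ∫ c in box (0 : ι → ℤ), th M (x + c) = |M.det|⁻¹ := by
  have hi : Integrable fun c => gq M (x + c) := (integrable_gq hM).comp_add_left x
  have hb : ∀ n : ι → ℤ, ∫ c in box n, gq M (x + c) =
      ∫ c in box (0 : ι → ℤ), gq M (x + c + toR n) := by
    intro n
    have h := integral_box (fun c => (gq M (x + c) : ℂ)) n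
    rw [integral_complex_ofReal, integral_complex_ofReal] at h
    simp only [add_assoc]
    exact_mod_cast h
  have hs := hasSum_integral_iUnion measurableSet_box pairwise_disjoint_box
    (hi.integrableOn (s := ⋃ n : ι → ℤ, box n))
  rw [iUnion_box, setIntegral_univ, integral_add_left_eq_self (gq M) x, integral_gq hM] at hs
  simp_rw [hb] at hs
  unfold th
  rw [← integral_tsum_of_summable_integral_norm, hs.tsum_eq]
  · intro n
    have : (fun c => gq M (x + c + toR n)) = fun c => gq M (x + toR n + c) := by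
      funext c
      rw [add_right_comm]
    rw [this]
    exact ((integrable_gq hM).comp_add_left _).integrableOn
  · refine hs.summable.congr fun n => ?_
    simp only [Real.norm_eq_abs, abs_of_pos (gq_pos _ _)]

/-- Residue classes mod `n`. -/
def clsE (ι : Type*) (n : ℕ) [NeZero n] : (ι → Fin n) × (ι → ℤ) ≃ (ι → ℤ) where
  toFun p := fun i => ((p.1 i : ℕ) : ℤ) + n * p.2 i
  invFun z := (fun i => ⟨(z i % n).toNat, by
    have h0 : (0 : ℤ) < n := by exact_mod_cast NeZero.pos n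
    have h1 := Int.emod_lt_of_pos (z i) h0
    have h2 := Int.emod_nonneg (z i) h0.ne'
    omega⟩, fun i => z i / n)
  left_inv p := by
    have h0 : (0 : ℤ) < n := by exact_mod_cast NeZero.pos n
    have h1 : ∀ i, ((p.1 i : ℕ) : ℤ) < n := fun i => by exact_mod_cast (p.1 i).2
    ext i
    · simp only
      rw [Int.add_mul_emod_self_left, Int.emod_eq_of_lt (Int.natCast_nonneg _) (h1 i)]
      simp
    · simp only
      rw [Int.add_mul_ediv_left _ _ h0.ne', Int.ediv_eq_zero_of_lt (Int.natCast_nonneg _) (h1 i),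
        zero_add]
  right_inv z := by
    have h0 : (0 : ℤ) < n := by exact_mod_cast NeZero.pos n
    funext i
    simp only
    rw [Int.toNat_of_nonneg (Int.emod_nonneg (z i) h0.ne')]
    exact Int.emod_add_mul_ediv (z i) n

theorem clsE_apply (n : ℕ) [NeZero n] (r : ι → Fin n) (z : ι → ℤ) :
    clsE ι n (r, z) = fun i => ((r i : ℕ) : ℤ) + n * z i := rfl

theorem tsum_cls {E : Type*} [NormedAddCommGroup E] [CompleteSpace E] (n : ℕ) [NeZero n]
    {f : (ι → ℤ) → E} (hf : Summable f) :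
    ∑' z, f z = ∑ r : ι → Fin n, ∑' z : ι → ℤ, f fun i => ((r i : ℕ) : ℤ) + n * z i := by
  have h : Summable fun p => f (clsE ι n p) := (clsE ι n).summable_iff.2 hf
  rw [← (clsE ι n).tsum_eq, h.tsum_prod, tsum_fintype]
  rfl

theorem gq_cls (M : Matrix ι ι ℝ) {n : ℕ} (hn : n ≠ 0) (x : ι → ℝ) (r z : ι → ℤ) :
    gq M (x + toR fun i => r i + n * z i) =
      gq ((n : ℝ) • M) ((n : ℝ)⁻¹ • (x + toR r) + toR z) := by
  have h0 : (n : ℝ) ≠ 0 := by exact_mod_cast hn
  have : (x + toR fun i => r i + n * z i) = (n : ℝ) • ((n : ℝ)⁻¹ • (x + toR r) + toR z) := by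
    funext i
    simp only [Pi.add_apply, toR_apply, Pi.smul_apply, smul_eq_mul]
    push_cast
    field_simp
    ring
  unfold gq
  rw [this, qf_smul, qf_smul_vec]

/-- Integer matrices as real matrices. -/
def mR {κ : Type*} (U : Matrix ι κ ℤ) : Matrix ι κ ℝ := U.map (Int.cast : ℤ → ℝ)

theorem toR_mulVec {κ : Type*} [Fintype κ] (U : Matrix ι κ ℤ) (z : κ → ℤ) :
    toR (U *ᵥ z) = mR U *ᵥ toR z := by
  funext i
  simp [mR, mulVec, dotProduct]

theorem qf_mul (M B : Matrix ι ι ℝ) (y : ι → ℝ) : qf (M * B) y = qf M (B *ᵥ y) := by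
  simp only [qf, mulVec_mulVec]

/-- A unimodular change of coordinates as a permutation of the lattice. -/
def uniE {U V : Matrix ι ι ℤ} (h1 : U * V = 1) (h2 : V * U = 1) : (ι → ℤ) ≃ (ι → ℤ) where
  toFun z := U *ᵥ z
  invFun z := V *ᵥ z
  left_inv z := by simp only [mulVec_mulVec, h2, one_mulVec]
  right_inv z := by simp only [mulVec_mulVec, h1, one_mulVec]

theorem mR_mul (U V : Matrix ι ι ℤ) : mR (U * V) = mR U * mR V := by
  ext i j
  simp [mR, mul_apply]

theorem mR_one : mR (1 : Matrix ι ι ℤ) = 1 := by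
  ext i j
  simp only [mR, map_apply, one_apply]
  split_ifs <;> simp

theorem abs_det_mR {U V : Matrix ι ι ℤ} (h1 : U * V = 1) : |(mR U).det| = 1 := by
  have h2 : U.det * V.det = 1 := by rw [← det_mul, h1, det_one]
  have h3 : (mR U).det = ((U.det : ℤ) : ℝ) := (Int.cast_det U).symm
  rw [h3, ← Int.cast_abs, Int.isUnit_iff_abs_eq.1 (IsUnit.of_mul_eq_one _ h2), Int.cast_one]

theorem th_uni (M : Matrix ι ι ℝ) {U V : Matrix ι ι ℤ} (h1 : U * V = 1) (h2 : V * U = 1)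
    (x : ι → ℝ) : th (M * mR U) x = th M (mR U *ᵥ x) := by
  unfold th
  rw [← (uniE h1 h2).tsum_eq fun n => gq M (mR U *ᵥ x + toR n)]
  refine tsum_congr fun n => ?_
  unfold gq
  rw [qf_mul, mulVec_add, ← toR_mulVec]
  rfl

/-- Splitting off a linear form. -/
theorem qf_split {M : Matrix ι ι ℝ} (hM : M.det ≠ 0) {l : ι → ℝ} (hl : l ≠ 0) (y : ι → ℝ) :
    qf M y = (∑ i, l i * y i) ^ 2 / qf (M⁻¹)ᵀ l +
      qf M (y - ((∑ i, l i * y i) / qf (M⁻¹)ᵀ l) • shp M l) := by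
  have hq : qf (M⁻¹)ᵀ l ≠ 0 := fun h => hl (qf_eq_zero (det_dual hM) h)
  rw [qf_sub, qf_smul_vec, bf_smul_right, bf_comm, bf_shp hM, qf_shp hM]
  field_simp
  ring

theorem dot_shp {M : Matrix ι ι ℝ} (hM : M.det ≠ 0) (l : ι → ℝ) :
    ∑ i, l i * shp M l i = qf (M⁻¹)ᵀ l := by
  rw [← bf_shp hM, bf_self, qf_shp hM]

open scoped MatrixOrder in
/-- A rectangular chart can be replaced by a square one. -/
theorem exists_sq {κ : Type*} [Fintype κ] [DecidableEq κ] (B : Matrix ι κ ℝ) :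
    ∃ N : Matrix κ κ ℝ, Nᵀ * N = Bᵀ * B ∧ ∀ y, qf N y = ∑ i, (B *ᵥ y) i ^ 2 := by
  obtain ⟨N, hN⟩ := CStarAlgebra.nonneg_iff_eq_star_mul_self.1
    (posSemidef_conjTranspose_mul_self B).nonneg
  have h : Nᵀ * N = Bᵀ * B := by
    rw [conjTranspose_eq_transpose_of_trivial, star_eq_conjTranspose,
      conjTranspose_eq_transpose_of_trivial] at hN
    exact hN.symm
  refine ⟨N, h, fun y => ?_⟩
  have h1 : (N *ᵥ y) ⬝ᵥ (N *ᵥ y) = (B *ᵥ y) ⬝ᵥ (B *ᵥ y) := by
    rw [dotProduct_mulVec, dotProduct_mulVec, vecMul_mulVec, vecMul_mulVec, h]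
  simp only [qf, sq]
  exact h1

/-- SLICE along the coordinate `0`: the Gaussian factors exactly and the determinant is
multiplied by the dual norm of the coordinate form. -/
theorem slice {d : ℕ} {M : Matrix (Fin (d + 1)) (Fin (d + 1)) ℝ} (hM : M.det ≠ 0) :
    ∃ (N : Matrix (Fin d) (Fin d) ℝ) (w : Fin d → ℝ), N.det ≠ 0 ∧
      N.det ^ 2 = M.det ^ 2 * qf (M⁻¹)ᵀ (Pi.single 0 1) ∧
      (∀ y : Fin d → ℝ, qf N y = qf M (Fin.cons 0 y)) ∧
      ∀ (t : ℝ) (y : Fin d → ℝ),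
        qf M (Fin.cons t y) = t ^ 2 / qf (M⁻¹)ᵀ (Pi.single 0 1) + qf N (y - t • w) := by
  obtain ⟨N, hN, hq⟩ := exists_sq (M.submatrix id Fin.succ)
  have hl : (Pi.single 0 1 : Fin (d + 1) → ℝ) ≠ 0 := fun h => by simpa using congrFun h 0
  have hκ : qf (M⁻¹)ᵀ (Pi.single 0 1) ≠ 0 := fun h => hl (qf_eq_zero (det_dual hM) h)
  have hc : ∀ y : Fin d → ℝ, qf N y = qf M (Fin.cons 0 y) := by
    intro y
    rw [hq, qf]
    refine Finset.sum_congr rfl fun i _ => ?_
    simp [mulVec, dotProduct, Fin.sum_univ_succ]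
  have hd : N.det ^ 2 = M.det ^ 2 * qf (M⁻¹)ᵀ (Pi.single 0 1) := by
    have h1 : N.det ^ 2 = ((Mᵀ * M).submatrix Fin.succ Fin.succ).det := by
      rw [sq]
      nth_rewrite 1 [← det_transpose N]
      rw [← det_mul, hN]
      rfl
    have h2 : qf (M⁻¹)ᵀ (Pi.single 0 1) = (Mᵀ * M)⁻¹ 0 0 := by
      rw [Matrix.mul_inv_rev, ← transpose_nonsing_inv, mul_apply, qf]
      refine Finset.sum_congr rfl fun i _ => ?_
      simp [sq]
    have h3 : (Mᵀ * M).det = M.det ^ 2 := by rw [det_mul, det_transpose, sq]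
    rw [h1, h2, Matrix.inv_def, Matrix.smul_apply, adjugate_fin_succ_eq_det_submatrix, h3,
      Ring.inverse_eq_inv']
    simp only [Fin.succAbove_zero, smul_eq_mul]
    have := pow_ne_zero 2 hM
    field_simp
    simp
  refine ⟨N, (qf (M⁻¹)ᵀ (Pi.single 0 1))⁻¹ • Fin.tail (shp M (Pi.single 0 1)), ?_, hd, hc, ?_⟩
  · intro h
    rw [h] at hd
    exact mul_ne_zero (pow_ne_zero 2 hM) hκ (by rw [← hd]; norm_num)
  · intro t y
    have h1 := qf_split hM hl (Fin.cons t y)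
    have h2 : ∑ i, (Pi.single 0 1 : Fin (d + 1) → ℝ) i * (Fin.cons t y : Fin (d + 1) → ℝ) i = t := by
      simp [Fin.sum_univ_succ]
    have h3 : shp M (Pi.single 0 1) 0 = qf (M⁻¹)ᵀ (Pi.single 0 1) := by
      rw [← dot_shp hM]
      simp [Fin.sum_univ_succ]
    rw [h2] at h1
    rw [h1, hc]
    congr 2
    funext i
    refine Fin.cases ?_ (fun j => ?_) i
    · simp only [Pi.sub_apply, Pi.smul_apply, Fin.cons_zero, h3, smul_eq_mul]
      field_simp
      ring
    · simp only [Pi.sub_apply, Pi.smul_apply, Fin.cons_succ, smul_eq_mul, Fin.tail]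
      field_simp

/-- A primitive integer form is the first coordinate of a unimodular change of basis. -/
theorem exists_uni {d : ℕ} (k a : Fin (d + 1) → ℤ) (h : ∑ i, k i * a i = 1) :
    ∃ U V : Matrix (Fin (d + 1)) (Fin (d + 1)) ℤ, U * V = 1 ∧ V * U = 1 ∧
      (∀ j, V 0 j = k j) ∧ ∀ i, U i 0 = a i := by
  let φ : (Fin (d + 1) → ℤ) →ₗ[ℤ] ℤ :=
    { toFun := fun z => k ⬝ᵥ z
      map_add' := fun x y => dotProduct_add k x y
      map_smul' := fun c x => dotProduct_smul c k x }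
  have hφ : ∀ z, φ z = k ⬝ᵥ z := fun _ => rfl
  have ha : φ a = 1 := h
  have hr : LinearMap.range φ = ⊤ := by
    rw [LinearMap.range_eq_top]
    intro c
    exact ⟨c • a, by rw [map_smul, ha, smul_eq_mul, mul_one]⟩
  have hk : Module.finrank ℤ (LinearMap.ker φ) = d := by
    have h1 := Submodule.finrank_quotient_add_finrank (LinearMap.ker φ)
    rw [(φ.quotKerEquivRange).finrank_eq, hr, finrank_top, Module.finrank_self,
      Module.finrank_fin_fun] at h1
    omega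
  let b0 := Module.finBasisOfFinrankEq ℤ (LinearMap.ker φ) hk
  let b := Module.Basis.mkFinCons a b0
    (fun c x hx hc => by
      have := congrArg φ hc
      rwa [map_add, map_smul, ha, LinearMap.mem_ker.1 hx, map_zero, smul_eq_mul, mul_one,
        add_zero] at this)
    (fun z => ⟨-φ z, by rw [LinearMap.mem_ker, map_add, map_smul, ha]; simp⟩)
  have hb : (b : Fin (d + 1) → Fin (d + 1) → ℤ) = Fin.cons a ((↑) ∘ b0) :=
    Module.Basis.coe_mkFinCons _ _ _ _
  let e := Pi.basisFun ℤ (Fin (d + 1))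
  have h1 : e.toMatrix b * b.toMatrix e = 1 := Module.Basis.toMatrix_mul_toMatrix_flip _ _
  have h2 : b.toMatrix e * e.toMatrix b = 1 := Module.Basis.toMatrix_mul_toMatrix_flip _ _
  have hU : ∀ i j, e.toMatrix b i j = b j i := fun i j => by
    simp [e, Module.Basis.toMatrix_apply]
  refine ⟨e.toMatrix b, b.toMatrix e, h1, h2, ?_, fun i => by rw [hU, hb]; rfl⟩
  have h3 : k ᵥ* e.toMatrix b = Pi.single 0 1 := by
    funext j
    have : (k ᵥ* e.toMatrix b) j = φ (b j) := by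
      simp only [vecMul, hφ, dotProduct, hU]
    rw [this, hb]
    refine Fin.cases ?_ (fun l => ?_) j
    · simpa using ha
    · simp
  intro j
  have h4 : (k ᵥ* e.toMatrix b) ᵥ* b.toMatrix e = k := by rw [vecMul_vecMul, h1, vecMul_one]
  rw [h3] at h4
  rw [← congrFun h4 j]
  simp [vecMul, dotProduct, Pi.single_apply]

end

end Vale.Agent.P057T.Poi
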