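import Vale.Agent.P057T.Bsym
import Vale.Agent.P057Q.Dropu

/-! Dropping the frequencies whose forms are not symmetric. -/

set_option linter.all false

open Finset
open scoped BigOperators Classical

namespace Vale.Agent.P057T.Sy

open Vale.Agent.P057Z Vale.Agent.P057Z.Ke Vale.Agent.P057L Vale.Agent.P057L.WA
open Vale.Agent.P057T.Vsm (ml)
open Vale.Agent.P057Q (sp)

noncomputable section

section Drop

variable {Q : ℕ} [Fact Q.Prime] {r : ℕ} {α β : Type}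

/-- one Fourier mode -/
def mo (T : Finset β) (k : Fin r → ℤ) (U : β → Fin r → ZMod Q) (G : β → ℝ) : ℂ :=
  𝔼 s ∈ T, (G s : ℂ) * ch (P057Z.cs Q k ⬝ᵥ U s)

theorem ex_fa {Φ : (Fin r → ZMod Q) → ℝ} {S : Finset (Fin r → ℤ)} {c : (Fin r → ℤ) → ℂ}
    {η B : ℝ} {T : Finset β} {G : β → ℝ} (U : β → Fin r → ZMod Q) (hT : T.Nonempty)
    (h : ∀ u, ‖(Φ u : ℂ) - ∑ k ∈ S, c k * ch (P057Z.cs Q k ⬝ᵥ u)‖ ≤ η) (hG : ∀ s, |G s| ≤ B) :
    ‖((𝔼 s ∈ T, Φ (U s) * G s : ℝ) : ℂ) - ∑ k ∈ S, c k * mo T k U G‖ ≤ η * B := by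
  have e : ∑ k ∈ S, c k * mo T k U G =
      𝔼 s ∈ T, (∑ k ∈ S, c k * ch (P057Z.cs Q k ⬝ᵥ U s)) * (G s : ℂ) := by
    simp only [sum_mul]
    rw [expect_sum_comm]
    refine sum_congr rfl fun k _ => ?_
    rw [mo, mul_expect]
    exact expect_congr rfl fun s _ => by ring
  rw [e, ofReal_expect', ← expect_sub_distrib]
  refine norm_expect_le' hT fun s _ => ?_
  rw [Complex.ofReal_mul, ← sub_mul, norm_mul, Complex.norm_real, Real.norm_eq_abs]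
  exact mul_le_mul (h _) (hG s) (abs_nonneg _) ((norm_nonneg _).trans (h 0))

/-- **dropping with one kernel**: only the modes that correlate are kept -/
theorem dropc (Ω : Finset α) (T : Finset β) (hT : T.Nonempty) {Ψ : (Fin r → ZMod Q) → ℝ}
    {K0 : ℕ} {lam M η κ E δ n : ℝ} (U : α → β → Fin r → ZMod Q) (G : α → β → ℝ)
    (hL : LL lam Ψ) (hΨ : FA Ψ K0 M η) (hG : ∀ W s, |G W s| ≤ E) (κ0 : 0 < κ) (κE : κ * E = 1)
    (ηE : η * E ≤ κ / 16) (hn : κ * n ≤ Ω.card) (δ0 : 0 ≤ δ) (hδ : M * δ ≤ Ω.card * (κ / 8))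
    (hx : ∀ W ∈ Ω, κ / 2 ≤ 𝔼 s ∈ T, Ψ (U W s) * G W s) :
    ∃ (t : ℕ) (b : Fin t → Fin r → ℤ) (Ω1 : Finset α), t ≤ r ∧ (∀ a, b a ∈ Sm (Fin r) K0) ∧
      LinearIndependent (ZMod Q) (fun a => P057Z.cs Q (b a)) ∧
      (∀ a, δ < ‖∑ W ∈ Ω, mo T (b a) (U W) (G W)‖) ∧ Ω1 ⊆ Ω ∧ n ≤ 8 * E ^ 3 * Ω1.card ∧
      ∀ W ∈ Ω1, κ / 8 ≤ 𝔼 s ∈ T, avg (sp Q b) Ψ (U W s) * G W s := by
  obtain ⟨d, d1, d2, d3, d4⟩ := Drop.ex_lab (r := r) (Sm (Fin r) K0) (P057Z.cs Q)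
    fun k => δ < ‖∑ W ∈ Ω, mo T k (U W) (G W)‖
  obtain ⟨p1, p2⟩ := mem_sigma.1 d1
  have E0 : 0 ≤ E := by
    by_contra h
    nlinarith [not_le.1 h]
  obtain ⟨cf, hc, hc'⟩ := hΨ
  obtain ⟨K, hK⟩ : ∃ K, K = sp Q d.2 := ⟨_, rfl⟩
  have s1 : ∀ W ∈ Ω, κ / 2 - κ / 8 - 𝔼 s ∈ T, avg K Ψ (U W s) * G W s ≤
      (∑ k ∈ Sm (Fin r) K0, cf k * if P057Z.cs Q k ∉ K then mo T k (U W) (G W) else 0).re :=
    fun W hW => by
    have a1 := ex_fa (U W) hT hc' (hG W)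
    have a2 := ex_fa (U W) hT (avg_fa (K := K) hc') (hG W)
    have a4 : ∑ k ∈ Sm (Fin r) K0, (cf k * if P057Z.cs Q k ∉ K then mo T k (U W) (G W) else 0) =
        ∑ k ∈ Sm (Fin r) K0, cf k * mo T k (U W) (G W) -
          ∑ k ∈ Sm (Fin r) K0, (if P057Z.cs Q k ∈ K then cf k else 0) * mo T k (U W) (G W) := by
      rw [← sum_sub_distrib]
      refine sum_congr rfl fun k _ => ?_
      by_cases h : P057Z.cs Q k ∈ K <;> simp [h]
    have a5 := (le_abs_self _).trans ((Complex.abs_re_le_norm _).trans a1)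
    have a6 := (neg_le_abs _).trans ((Complex.abs_re_le_norm _).trans a2)
    rw [Complex.sub_re, Complex.ofReal_re] at a5 a6
    rw [a4, Complex.sub_re]
    linarith [hx W hW]
  have s4 : ∑ W ∈ Ω, (κ / 2 - κ / 8 - 𝔼 s ∈ T, avg K Ψ (U W s) * G W s) ≤ Ω.card * (κ / 8) := by
    refine (sum_le_sum s1).trans ?_
    rw [← Complex.re_sum, sum_comm]
    refine (Complex.re_le_norm _).trans ((norm_sum_le_of_le _
      (n := fun k => ‖cf k‖ * δ) fun k hk => ?_).trans ?_)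
    · rw [← mul_sum, norm_mul]
      refine mul_le_mul_of_nonneg_left ?_ (norm_nonneg _)
      by_cases h : P057Z.cs Q k ∈ K
      · simpa [h] using δ0
      · simp only [h, not_false_eq_true, if_true]
        by_contra h2
        exact h (hK ▸ d4 k hk (not_le.1 h2))
    · rw [← sum_mul]
      exact (mul_le_mul_of_nonneg_right hc δ0).trans hδ
  have s5 := Drop.mark Ω (fun W => 𝔼 s ∈ T, avg K Ψ (U W s) * G W s) κ0 κE
    (fun W => expect_le hT fun s _ =>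
      (mul_le_mul_of_nonneg_left (le_of_abs_le (hG W s)) ((avg_ll hL).pos _).le).trans
        (mul_le_of_le_one_left E0 ((avg_ll hL).le_one _))) hn s4
  refine ⟨d.1, d.2, _, Nat.lt_succ_iff.1 (mem_range.1 p1), fun a => Fintype.mem_piFinset.1 p2 a,
    d3, d2, filter_subset _ _, s5, fun W hW => ?_⟩
  rw [← hK]
  exact (mem_filter.1 hW).2

theorem ch_lift (k : Fin r → ℤ) (u : Fin r → ZMod Q) (x : Fin r → ℝ)
    (h : ∀ a, ∃ n n' : ℤ, (n : ZMod Q) = u a ∧ x a = n / Q + n') :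
    ch (P057Z.cs Q k ⬝ᵥ u) = ee (∑ a, (k a : ℝ) * x a) := by
  choose n n' h1 h2 using h
  rw [dotProduct, ch_sum, ee_sum]
  refine prod_congr rfl fun a _ => ?_
  have e : (k a : ℝ) * x a = ((k a * n a : ℤ) : ℝ) / Q + ((k a * n' a : ℤ) : ℝ) := by
    rw [h2]; push_cast; ring
  rw [e, ee_add_int, P057Z.cs, ← h1, ← Int.cast_mul, ch_int, ee]
  congr 1
  push_cast
  ring

end Drop

variable {j p m L : ℕ}

theorem regroup {ι : Type} (s : Finset ι) (H : ι → Pt (j + 1) m → ℂ) (h1 : ∀ c x, ‖H c x‖ ≤ 1)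
    (h2 : ∀ c ∈ s, ∃ i, ∀ x z, H c (Function.update x i z) = H c x) :
    ∃ u : Fin (j + 1) → Pt (j + 1) m → ℂ, (∀ i x, ‖u i x‖ ≤ 1) ∧
      (∀ i x z, u i (Function.update x i z) = u i x) ∧ ∀ x, ∏ i, u i x = ∏ c ∈ s, H c x := by
  choose! f hf using h2
  refine ⟨fun i x => ∏ c ∈ s.filter fun c => f c = i, H c x, fun i x => ?_, fun i x z => ?_,
    fun x => prod_fiberwise s f _⟩
  · rw [norm_prod]
    exact prod_le_one (fun _ _ => norm_nonneg _) fun _ _ => h1 _ _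
  · refine prod_congr rfl fun c hc => ?_
    obtain ⟨a, rfl⟩ := mem_filter.1 hc
    exact hf c a x z

/-- the box of all copies -/
def bq (j p m L : ℕ) : Finset (Fin j → Fin p → Vz m) :=
  Fintype.piFinset fun _ : Fin j => Fintype.piFinset fun _ : Fin p => bz m L

/-- the point of a cell -/
def cl (W : Fin j → Fin p → Vz m) (s : Vz m) (c : Fin j → Fin p) : Pt (j + 1) m :=
  Fin.cons s fun i => W i (c i)

/-- replace the copies of one cell -/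
def uc (c : Fin j → Fin p) (W : Fin j → Fin p → Vz m) (t : Pt j m) : Fin j → Fin p → Vz m :=
  fun i => Function.update (W i) (c i) (t i)

theorem mem_bq {W : Fin j → Fin p → Vz m} : W ∈ bq j p m L ↔ ∀ i a, W i a ∈ bz m L := by
  simp [bq, Fintype.mem_piFinset]

theorem card_bq : (bq j p m L).card = (L ^ m) ^ (j * p) := by
  simp [bq, Fintype.card_piFinset, card_bz, ← pow_mul, mul_comm, mul_left_comm]

theorem uc_update (c : Fin j → Fin p) (W : Fin j → Fin p → Vz m) (t : Pt j m) (i : Fin j)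
    (z : Vz m) : uc c W (Function.update t i z) =
      Function.update (uc c W t) i (Function.update (W i) (c i) z) := by
  funext i'
  by_cases h : i' = i
  · subst h; simp [uc]
  · simp [uc, Function.update_of_ne h]

theorem ex_slice (hL : 1 ≤ L) (c : Fin j → Fin p) (F : (Fin j → Fin p → Vz m) → ℂ) {x : ℝ}
    (h : x * ((L : ℝ) ^ m) ^ (j * p) ≤ ‖∑ W ∈ bq j p m L, F W‖) :
    ∃ W, x * ((L : ℝ) ^ m) ^ j ≤ ‖∑ t ∈ bp j m L, F (uc c W t)‖ := by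
  have up : ∀ y ∈ bq j p m L ×ˢ bp j m L,
      (uc c y.1 y.2, fun i => y.1 i (c i)) ∈ bq j p m L ×ˢ bp j m L := by
    intro y hy
    obtain ⟨h1, h2⟩ := mem_product.1 hy
    refine mem_product.2 ⟨mem_bq.2 fun i a => ?_, mem_bp.2 fun i => mem_bq.1 h1 _ _⟩
    by_cases e : a = c i
    · subst e; simpa [uc] using mem_bp.1 h2 i
    · simpa [uc, Function.update_of_ne e] using mem_bq.1 h1 i a
  have inv : ∀ y : (Fin j → Fin p → Vz m) × Pt j m,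
      (uc c (uc c y.1 y.2) fun i => y.1 i (c i), fun i => uc c y.1 y.2 i (c i)) = y := by
    intro y
    refine Prod.ext ?_ ?_
    · funext i; simp [uc]
    · funext i; simp [uc]
  have key : ∑ y ∈ bq j p m L ×ˢ bp j m L, F (uc c y.1 y.2) =
      ∑ y ∈ bq j p m L ×ˢ bp j m L, F y.1 :=
    sum_nbij' (fun y => (uc c y.1 y.2, fun i => y.1 i (c i)))
      (fun y => (uc c y.1 y.2, fun i => y.1 i (c i))) up up (fun y _ => inv y) (fun y _ => inv y)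
      fun _ _ => rfl
  rw [sum_product, sum_product, sum_comm (s := bq j p m L) (t := bp j m L)
    (f := fun W _ => F W), sum_const, card_bp, nsmul_eq_mul] at key
  have ne : (bq j p m L).Nonempty := by
    rw [← card_pos, card_bq]; positivity
  obtain ⟨W, _, hW⟩ := exists_le_of_sum_le (f := fun _ => x * ((L : ℝ) ^ m) ^ j)
    (g := fun W => ‖∑ t ∈ bp j m L, F (uc c W t)‖) ne (by
      refine le_trans ?_ (norm_sum_le _ _)
      rw [key, norm_mul, Complex.norm_natCast, sum_const, card_bq, nsmul_eq_mul]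
      push_cast
      have := mul_le_mul_of_nonneg_left h (by positivity : (0 : ℝ) ≤ ((L : ℝ) ^ m) ^ j)
      linarith)
  exact ⟨W, hW⟩

/-- reduction to one cell -/
theorem cell0 (hL : 1 ≤ L) (τ : (Fin j → Fin p) → (Fin (j + 1) → Fin m) → ℝ)
    (g : (Fin j → Fin p) → Vz m → ℂ) (u : (Fin j → Fin p → Vz m) → ℂ)
    (v : Fin j → (Fin j → Fin p → Vz m) → Vz m → ℝ) (hg : ∀ c s, ‖g c s‖ ≤ 1)
    (hu : ∀ W, ‖u W‖ ≤ 1) (hv : ∀ i W y s, v i (Function.update W i y) s = v i W s) {x : ℝ}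
    (h : x * (L : ℝ) ^ m * ((L : ℝ) ^ m) ^ (j * p) ≤ ‖∑ W ∈ bq j p m L, ∑ s ∈ bz m L,
      u W * (∏ c, g c (s + ∑ i, W i (c i))) * ee (∑ c, ml (τ c) (cl W s c) + ∑ i, v i W s)‖)
    (c0 : Fin j → Fin p) :
    ∃ w : Fin (j + 1) → Pt (j + 1) m → ℂ, (∀ i t, ‖w i t‖ ≤ 1) ∧
      (∀ i t z, w i (Function.update t i z) = w i t) ∧ x * ((L : ℝ) ^ m) ^ (j + 1) ≤
        ‖∑ t ∈ bp (j + 1) m L, g c0 (∑ i, t i) * ee (ml (τ c0) t) * ∏ i, w i t‖ := by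
  obtain ⟨W, hW⟩ := ex_slice hL c0 _ h
  have pt : ∀ (c : Fin j → Fin p) (i : Fin j), c i ≠ c0 i → ∀ (t : Pt (j + 1) m) (z : Vz m),
      cl (uc c0 W (Fin.tail (Function.update t i.succ z))) (Function.update t i.succ z 0) c =
        cl (uc c0 W (Fin.tail t)) (t 0) c := by
    intro c i hi t z
    rw [Function.update_of_ne (Fin.succ_ne_zero i).symm, Fin.tail_update_succ, uc_update]
    unfold cl
    congr 1
    funext i'
    by_cases e : i' = i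
    · subst e; simp [uc, Function.update_of_ne hi]
    · rw [Function.update_of_ne e]
  obtain ⟨w1, a1, a2, a3⟩ := regroup (univ.erase c0)
    (fun c t => g c (∑ i, cl (uc c0 W (Fin.tail t)) (t 0) c i) *
      ee (ml (τ c) (cl (uc c0 W (Fin.tail t)) (t 0) c))) (fun _ _ => n2 (hg _ _) (ne1 _))
    (fun c hc => by
      obtain ⟨i, hi⟩ := Function.ne_iff.1 (ne_of_mem_erase hc)
      exact ⟨i.succ, fun t z => by simp only [pt c i hi]⟩)
  obtain ⟨w2, b1, b2, b3⟩ := regroup (univ : Finset (Fin j))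
    (fun i (t : Pt (j + 1) m) => ee (v i (uc c0 W (Fin.tail t)) (t 0))) (fun _ _ => ne1 _)
    (fun i _ => ⟨i.succ, fun t z => by
      simp only [Function.update_of_ne (Fin.succ_ne_zero i).symm, Fin.tail_update_succ, uc_update,
        hv]
      ⟩)
  obtain ⟨w3, c1, c2, c3⟩ := regroup (univ : Finset Unit)
    (fun _ (t : Pt (j + 1) m) => u (uc c0 W (Fin.tail t))) (fun _ _ => hu _)
    (fun _ _ => ⟨0, fun t z => by simp only [Fin.tail_update_zero]⟩)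
  refine ⟨fun i t => w1 i t * w2 i t * w3 i t, fun i t => n2 (n2 (a1 _ _) (b1 _ _)) (c1 _ _),
    fun i t z => by simp only [a2, b2, c2], ?_⟩
  rw [pow_succ', ← mul_assoc]
  refine hW.trans (le_of_eq (congrArg _ ?_))
  rw [sum_cons]
  refine sum_congr rfl fun t _ => sum_congr rfl fun s _ => ?_
  have e0 : cl (uc c0 W t) s c0 = Fin.cons s t := by
    unfold cl
    congr 1
    funext i
    simp [uc]
  have e1 : ∀ c, s + ∑ i, uc c0 W t i (c i) = ∑ i, cl (uc c0 W t) s c i := fun c => by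
    rw [Fin.sum_univ_succ]; rfl
  rw [prod_mul_distrib, prod_mul_distrib, a3, b3, c3, ee_add, ee_sum, ee_sum]
  simp only [Fin.tail_cons, Fin.cons_zero, e1, univ_unique, prod_singleton]
  rw [prod_mul_distrib, ← mul_prod_erase univ _ (mem_univ c0),
    ← mul_prod_erase univ (fun c => ee (ml (τ c) (cl (uc c0 W t) s c))) (mem_univ c0), e0]
  ring

/-- a mode that correlates has symmetric forms in every cell -/
theorem cell (j : ℕ) : ∃ C : ℕ, ∀ (p m L : ℕ) (τ : (Fin j → Fin p) → (Fin (j + 1) → Fin m) → ℝ)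
    (g : (Fin j → Fin p) → Vz m → ℝ) (u : (Fin j → Fin p → Vz m) → ℂ)
    (v : Fin j → (Fin j → Fin p → Vz m) → Vz m → ℝ) (ρ B θ : ℝ), 0 < ρ → ρ ≤ 1 / 2 →
    1 ≤ ρ ^ C * L → 1 ≤ B → (∀ c s, |g c s| ≤ B) → |θ| ≤ B ^ (p ^ j) → (∀ W, ‖u W‖ ≤ 1) →
    (∀ i W y s, v i (Function.update W i y) s = v i W s) →
    2 * B ^ (p ^ j) * (ρ * 2 ^ m) * ((L : ℝ) ^ m) ^ (j * p) ≤ ‖∑ W ∈ bq j p m L, u W *
      𝔼 s ∈ bz m L, ((∏ c, g c (s + ∑ i, W i (c i)) - θ : ℝ) : ℂ) *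
        ee (∑ c, ml (τ c) (cl W s c) + ∑ i, v i W s)‖ →
    ∀ (c : Fin j → Fin p) (i i' : Fin (j + 1)) (a : Fin (j + 1) → Fin m),
      ∃ n : ℕ, 1 ≤ n ∧ ρ ^ C * n ≤ 1 ∧
        ρ ^ C * (nz (n * (τ c a - τ c (a ∘ Equiv.swap i i'))) * (L : ℝ) ^ (j + 1)) ≤ 1 := by
  obtain ⟨C, hC⟩ := bsym (j + 1)
  refine ⟨C, fun p m L τ g u v ρ B θ h0 h1 hL hB hg hθ hu hv h c => ?_⟩
  have hL1 : (1 : ℝ) ≤ L := by simpa using one_le h0 h1 hL 0 (by omega)
  have hL2 : 1 ≤ L := by exact_mod_cast hL1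
  have B0 : 0 < B := by linarith
  have P0 : (0 : ℝ) < B ^ (p ^ j) := by positivity
  have Lm : (0 : ℝ) < (L : ℝ) ^ m := by positivity
  have main : ∀ g' : (Fin j → Fin p) → Vz m → ℂ, (∀ c s, ‖g' c s‖ ≤ 1) →
      ρ * 2 ^ m * (L : ℝ) ^ m * ((L : ℝ) ^ m) ^ (j * p) ≤ ‖∑ W ∈ bq j p m L, ∑ s ∈ bz m L,
        u W * (∏ c, g' c (s + ∑ i, W i (c i))) * ee (∑ c, ml (τ c) (cl W s c) + ∑ i, v i W s)‖ →
      ∀ (i i' : Fin (j + 1)) (a : Fin (j + 1) → Fin m), ∃ n : ℕ, 1 ≤ n ∧ ρ ^ C * n ≤ 1 ∧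
        ρ ^ C * (nz (n * (τ c a - τ c (a ∘ Equiv.swap i i'))) * (L : ℝ) ^ (j + 1)) ≤ 1 := by
    intro g' hg' h'
    obtain ⟨w, w1, w2, w3⟩ := cell0 hL2 τ g' u v hg' hu hv h' c
    exact hC m L (τ c) (g' c) w ρ h0 h1 hL (hg' c) w1 w2 w3
  obtain ⟨X1, hX1⟩ : ∃ X, X = ∑ W ∈ bq j p m L, ∑ s ∈ bz m L,
      u W * (∏ c, ((g c (s + ∑ i, W i (c i)) / B : ℝ) : ℂ)) *
        ee (∑ c, ml (τ c) (cl W s c) + ∑ i, v i W s) := ⟨_, rfl⟩
  obtain ⟨X2, hX2⟩ : ∃ X, X = ∑ W ∈ bq j p m L, ∑ s ∈ bz m L,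
      u W * (∏ _c : Fin j → Fin p, (1 : ℂ)) *
        ee (∑ c, ml (τ c) (cl W s c) + ∑ i, v i W s) := ⟨_, rfl⟩
  have e : ((((L : ℝ) ^ m : ℝ) : ℂ)) * ∑ W ∈ bq j p m L, u W *
      𝔼 s ∈ bz m L, ((∏ c, g c (s + ∑ i, W i (c i)) - θ : ℝ) : ℂ) *
        ee (∑ c, ml (τ c) (cl W s c) + ∑ i, v i W s) =
      ((B ^ (p ^ j) : ℝ) : ℂ) * X1 - (θ : ℂ) * X2 := by
    rw [hX1, hX2, mul_sum, mul_sum, mul_sum, ← sum_sub_distrib]
    refine sum_congr rfl fun W _ => ?_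
    have c1 : (((L : ℝ) ^ m : ℝ) : ℂ) = ((bz m L).card : ℂ) := by rw [card_bz]; push_cast; rfl
    rw [mul_left_comm, c1, card_mul_expect, mul_sum, mul_sum, mul_sum, ← sum_sub_distrib]
    refine sum_congr rfl fun s _ => ?_
    have c2 : ((B ^ (p ^ j) : ℝ) : ℂ) * ∏ c, ((g c (s + ∑ i, W i (c i)) / B : ℝ) : ℂ) =
        ((∏ c, g c (s + ∑ i, W i (c i)) : ℝ) : ℂ) := by
      rw [← Complex.ofReal_prod, ← Complex.ofReal_mul, prod_div_distrib, prod_const, card_univ,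
        Fintype.card_fun, Fintype.card_fin, Fintype.card_fin, mul_div_cancel₀ _ P0.ne']
    rw [Complex.ofReal_sub, ← c2, prod_const_one]
    ring
  have k : (L : ℝ) ^ m * (2 * B ^ (p ^ j) * (ρ * 2 ^ m) * ((L : ℝ) ^ m) ^ (j * p)) ≤
      B ^ (p ^ j) * ‖X1‖ + B ^ (p ^ j) * ‖X2‖ := by
    refine (mul_le_mul_of_nonneg_left h Lm.le).trans ?_
    have := congrArg norm e
    rw [norm_mul, Complex.norm_real, Real.norm_of_nonneg Lm.le] at this
    rw [this]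
    refine (norm_sub_le _ _).trans (add_le_add ?_ ?_)
    · rw [norm_mul, Complex.norm_real, Real.norm_of_nonneg P0.le]
    · rw [norm_mul, Complex.norm_real]
      exact mul_le_mul_of_nonneg_right hθ (norm_nonneg _)
  have k2 : 2 * (ρ * 2 ^ m * (L : ℝ) ^ m * ((L : ℝ) ^ m) ^ (j * p)) ≤ ‖X1‖ + ‖X2‖ :=
    le_of_mul_le_mul_left (by linarith) P0
  rcases le_total ‖X1‖ ‖X2‖ with h3 | h3
  · exact main (fun _ _ => 1) (fun _ _ => by simp) (by rw [← hX2]; linarith)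
  · exact main (fun c s => ((g c s / B : ℝ) : ℂ)) (fun c s => by
      rw [Complex.norm_real, Real.norm_eq_abs, abs_div, abs_of_pos B0, div_le_one B0]
      exact hg c s) (by rw [← hX1]; linarith)

theorem ml_lin {d r : ℕ} (k : Fin r → ℝ) (τ : Fin r → (Fin d → Fin m) → ℝ) (x : Pt d m) :
    ml (fun a => ∑ e, k e * τ e a) x = ∑ e, k e * ml (τ e) x := by
  simp only [Vsm.ml, sum_mul, mul_sum]
  rw [sum_comm]
  exact sum_congr rfl fun _ _ => sum_congr rfl fun _ _ => by ring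

/-- **the symmetric drop** -/
theorem dsym (j : ℕ) : ∃ C : ℕ, ∀ (p m L Q r K0 : ℕ) [Fact Q.Prime]
    (τ : Fin r → (Fin j → Fin p) → (Fin (j + 1) → Fin m) → ℝ) (g : (Fin j → Fin p) → Vz m → ℝ)
    (v0 : Fin r → (Fin j → Fin p → Vz m) → ℝ)
    (v : Fin r → Fin j → (Fin j → Fin p → Vz m) → Vz m → ℝ)
    (U : (Fin j → Fin p → Vz m) → Vz m → Fin r → ZMod Q) (Ψ : (Fin r → ZMod Q) → ℝ)
    (Ω : Finset (Fin j → Fin p → Vz m)) (ρ B θ lam M η κ E : ℝ), 0 < ρ → ρ ≤ 1 / 2 →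
    1 ≤ ρ ^ C * L → 1 ≤ B → (∀ c s, |g c s| ≤ B) → |θ| ≤ B ^ (p ^ j) → 2 * B ^ (p ^ j) ≤ E →
    (∀ e i W y s, v e i (Function.update W i y) s = v e i W s) → LL lam Ψ → FA Ψ K0 M η →
    0 < κ → κ * E = 1 → η * E ≤ κ / 16 → M * (E * (ρ * 2 ^ m)) ≤ κ * (κ / 8) →
    Ω ⊆ bq j p m L → κ * ((L : ℝ) ^ m) ^ (j * p) ≤ Ω.card →
    (∀ W ∈ Ω, ∀ s ∈ bz m L, ∀ e, ∃ n n' : ℤ, (n : ZMod Q) = U W s e ∧
      ∑ c, ml (τ e c) (cl W s c) + ∑ i, v e i W s + v0 e W = n / Q + n') →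
    (∀ W ∈ Ω, κ / 2 ≤ 𝔼 s ∈ bz m L, Ψ (U W s) * (∏ c, g c (s + ∑ i, W i (c i)) - θ)) →
    ∃ (t : ℕ) (b : Fin t → Fin r → ℤ) (Ω1 : Finset (Fin j → Fin p → Vz m)) (n : ℕ), t ≤ r ∧
      (∀ a, b a ∈ Sm (Fin r) K0) ∧ LinearIndependent (ZMod Q) (fun a => P057Z.cs Q (b a)) ∧ Ω1 ⊆ Ω ∧
      ((L : ℝ) ^ m) ^ (j * p) ≤ 8 * E ^ 3 * Ω1.card ∧
      (∀ W ∈ Ω1, κ / 8 ≤ 𝔼 s ∈ bz m L,
        avg (sp Q b) Ψ (U W s) * (∏ c, g c (s + ∑ i, W i (c i)) - θ)) ∧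
      1 ≤ n ∧ (ρ ^ C) ^ (r * (p ^ j * ((j + 1) * ((j + 1) * m ^ (j + 1))))) * n ≤ 1 ∧
      ∀ a c (i i' : Fin (j + 1)) (x : Fin (j + 1) → Fin m),
        (ρ ^ C) ^ (r * (p ^ j * ((j + 1) * ((j + 1) * m ^ (j + 1))))) *
          (nz (n * (∑ e, (b a e : ℝ) * τ e c x -
            ∑ e, (b a e : ℝ) * τ e c (x ∘ Equiv.swap i i'))) * (L : ℝ) ^ (j + 1)) ≤ 1 := by
  obtain ⟨C, hC⟩ := cell j
  refine ⟨C, fun p m L Q r K0 _ τ g v0 v U Ψ Ω ρ B θ lam M η κ E h0 h1 hL hB hg hθ hE hv hl hf κ0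
    κE ηE hM hΩ hd hU hx => ?_⟩
  have hL1 : (1 : ℝ) ≤ L := by simpa using one_le h0 h1 hL 0 (by omega)
  have hL2 : 1 ≤ L := by exact_mod_cast hL1
  have P0 : (0 : ℝ) < B ^ (p ^ j) := by positivity
  have E0 : 0 < E := by linarith
  have V0 : (0 : ℝ) < ((L : ℝ) ^ m) ^ (j * p) := by positivity
  obtain ⟨t, b, Ω1, b1, b2, b3, b4, b5, b6, b7⟩ := dropc Ω (bz m L) (bz_ne hL2) U
    (fun W s => ∏ c, g c (s + ∑ i, W i (c i)) - θ) (n := ((L : ℝ) ^ m) ^ (j * p))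
    (δ := E * (ρ * 2 ^ m) * ((L : ℝ) ^ m) ^ (j * p)) hl hf
    (fun W s => by
      refine (abs_sub _ _).trans (le_trans (add_le_add (b := B ^ (p ^ j)) ?_ hθ) (by linarith))
      rw [abs_prod]
      refine (prod_le_prod (fun _ _ => abs_nonneg _) fun c _ => hg c _).trans (le_of_eq ?_)
      rw [prod_const, card_univ, Fintype.card_fun, Fintype.card_fin, Fintype.card_fin])
    κ0 κE ηE hd (by positivity)
    (by
      have a1 := mul_le_mul_of_nonneg_right hM V0.le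
      have a2 := mul_le_mul_of_nonneg_right hd (by positivity : 0 ≤ κ / 8)
      linarith) hx
  have ρC : 0 < ρ ^ C := by positivity
  have ρ1 : ρ ^ C ≤ 1 := pow_le_one₀ h0.le (by linarith)
  obtain ⟨n, g1, g2, g3⟩ := common
    (ι := Fin t × (Fin j → Fin p) × Fin (j + 1) × Fin (j + 1) × (Fin (j + 1) → Fin m))
    (fun y => ∑ e, (b y.1 e : ℝ) * τ e y.2.1 y.2.2.2.2 -
      ∑ e, (b y.1 e : ℝ) * τ e y.2.1 (y.2.2.2.2 ∘ Equiv.swap y.2.2.1 y.2.2.2.1))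
    (η := ρ ^ C) (M := (L : ℝ) ^ (j + 1)) (E := 1) ρC ρ1 (by positivity) zero_le_one
    fun y => hC p m L (fun c x => ∑ e, (b y.1 e : ℝ) * τ e c x) g
      (fun W => if W ∈ Ω then ee (∑ e, (b y.1 e : ℝ) * v0 e W) else 0)
      (fun i W s => ∑ e, (b y.1 e : ℝ) * v e i W s) ρ B θ h0 h1 hL hB hg hθ
      (fun W => by
        split_ifs
        · exact ne1 _
        · simp)
      (fun i W y s => by simp only [hv])
      (by
        refine le_trans (mul_le_mul_of_nonneg_right (mul_le_mul_of_nonneg_right hE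
          (by positivity)) V0.le) ((b4 y.1).le.trans (le_of_eq (congrArg _ ?_)))
        simp only [ite_mul, zero_mul]
        rw [sum_ite_mem, inter_eq_right.2 hΩ]
        refine sum_congr rfl fun W hW => ?_
        rw [mo, mul_expect]
        refine expect_congr rfl fun s hs => ?_
        rw [ch_lift _ _ _ (hU W hW s hs), mul_left_comm, ← ee_add]
        congr 2
        simp only [ml_lin, mul_add, mul_sum, sum_add_distrib]
        rw [sum_comm (s := (univ : Finset (Fin r))), sum_comm (s := (univ : Finset (Fin r)))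
          (t := (univ : Finset (Fin j)))]
        ring) y.2.1 y.2.2.1 y.2.2.2.1 y.2.2.2.2
  simp only [Fintype.card_prod, Fintype.card_fin, Fintype.card_fun] at g2 g3
  have mono : (ρ ^ C) ^ (r * (p ^ j * ((j + 1) * ((j + 1) * m ^ (j + 1))))) ≤
      (ρ ^ C) ^ (t * (p ^ j * ((j + 1) * ((j + 1) * m ^ (j + 1))))) :=
    pow_le_pow_of_le_one ρC.le ρ1 (Nat.mul_le_mul_right _ b1)
  refine ⟨t, b, Ω1, n, b1, b2, b3, b5, b6, b7, g1,
    (mul_le_mul_of_nonneg_right mono (by positivity)).trans g2, fun a c i i' x => ?_⟩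
  exact (mul_le_mul_of_nonneg_right mono (mul_nonneg (nz_nonneg _) (by positivity))).trans
    (g3 (a, c, i, i', x))

end

end Vale.Agent.P057T.Sy
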