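import Vale.Agent.P057T.StV0

/-! Digit encoding of a box in the integers; a grid in boxes gives a scalar grid. -/

set_option linter.all false

open Finset
open scoped BigOperators

namespace Vale.Agent.P057T

open Vale.Agent.P057L

noncomputable section

/-- digits in base M -/
def enc {m : ℕ} (M : ℕ) (v : Vz m) : ℤ := ∑ l, v l * (M : ℤ) ^ (l : ℕ)

open Classical in
/-- F cut to the box of side R -/
def cutV {m : ℕ} (R : ℕ) (F : Vz m → ℝ) (v : Vz m) : ℝ := if v ∈ bz m R then F v else 0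

open Classical in
/-- the encoded function -/
def gE {m : ℕ} (M R : ℕ) (F : Vz m → ℝ) (n : ℤ) : ℝ :=
  if h : ∃ v ∈ bz m R, enc M v = n then F h.choose else 0

/-- a grid in boxes gives a scalar grid -/
def UPV : Prop :=
  ∀ (m J q p L M : ℕ) (ε θ : ℝ) (F : Vz m → ℝ), 2 ≤ J → 1 ≤ q → q ≤ p → 1 ≤ L → J * L ≤ M →
    0 ≤ ε → ε ≤ 1 → (m * J : ℝ) * Real.log (M / L) ≤ ε * p → (∀ x, 0 ≤ F x) → 0 ≤ θ →
    θ ^ (q ^ J) ≤ grdV J q L F →
    ((1 - ε) * θ) ^ (p ^ J) ≤ grd J p (M ^ m) (gE M (J * L) F)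

namespace En

variable {m : ℕ}

theorem mem_rg {N : ℕ} {x : ℤ} : x ∈ rg N ↔ 0 ≤ x ∧ x < N := by simp [rg]

theorem mem_bz {N : ℕ} {x : Vz m} : x ∈ bz m N ↔ ∀ i, 0 ≤ x i ∧ x i < N := by
  simp [bz, rg, Fintype.mem_piFinset]

theorem enc_add (M : ℕ) (v w : Vz m) : enc M (v + w) = enc M v + enc M w := by
  simp [enc, add_mul, sum_add_distrib]

theorem enc_sub (M : ℕ) (v w : Vz m) : enc M (v - w) = enc M v - enc M w := by
  simp [enc, sub_mul, sum_sub_distrib]

theorem enc_zero (M : ℕ) : enc M (0 : Vz m) = 0 := by simp [enc]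

theorem enc_sum (M : ℕ) {ι : Type} (s : Finset ι) (v : ι → Vz m) :
    enc M (∑ i ∈ s, v i) = ∑ i ∈ s, enc M (v i) := by
  classical
  induction s using Finset.induction_on with
  | empty => simp [enc_zero]
  | insert a s ha ih => rw [sum_insert ha, sum_insert ha, enc_add, ih]

theorem enc_succ (M : ℕ) (v : Vz (m + 1)) :
    enc M v = v 0 + M * enc M (fun l : Fin m => v l.succ) := by
  simp only [enc, Fin.sum_univ_succ, Fin.val_zero, pow_zero, mul_one, Fin.val_succ, mul_sum]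
  congr 1
  exact sum_congr rfl fun l _ => by ring

theorem enc_eq_zero (M : ℕ) : ∀ {m : ℕ} (v : Vz m), enc M v = 0 → (∀ l, |v l| < M) → v = 0
  | 0, v, _, _ => funext fun l => l.elim0
  | m + 1, v, h, hv => by
    rw [enc_succ] at h
    have h0 : v 0 = 0 := by
      have hd : (M : ℤ) ∣ v 0 := ⟨-enc M (fun l : Fin m => v l.succ), by linarith⟩
      exact Int.eq_zero_of_abs_lt_dvd hd (hv 0)
    have M0 : (0 : ℤ) < M := lt_of_le_of_lt (abs_nonneg _) (hv 0)
    have h1 : enc M (fun l : Fin m => v l.succ) = 0 := by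
      rw [h0, zero_add] at h
      exact (mul_eq_zero.1 h).resolve_left M0.ne'
    have h2 := enc_eq_zero M _ h1 fun l => hv l.succ
    funext l
    refine Fin.cases h0 (fun l => ?_) l
    exact congrFun h2 l

/-- uniqueness of digits -/
theorem enc_inj (M : ℕ) {v w : Vz m} (h : enc M v = enc M w) (hv : ∀ l, |v l - w l| < M) :
    v = w :=
  sub_eq_zero.1 (enc_eq_zero M (v - w) (by rw [enc_sub, h, sub_self]) hv)

theorem enc_rg (M : ℕ) : ∀ {m : ℕ} (v : Vz m), v ∈ bz m M → enc M v ∈ rg (M ^ m)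
  | 0, v, _ => by simp [enc, mem_rg]
  | m + 1, v, h => by
    rw [mem_bz] at h
    have h1 := mem_rg.1 (enc_rg M (fun l : Fin m => v l.succ) (mem_bz.2 fun l => h l.succ))
    have h0 := h 0
    rw [mem_rg, enc_succ]
    push_cast at h1 ⊢
    have M0 : (0 : ℤ) ≤ M := Int.natCast_nonneg M
    have h2 := mul_le_mul_of_nonneg_left (Int.add_one_le_of_lt h1.2) M0
    refine ⟨add_nonneg h0.1 (mul_nonneg M0 h1.1), ?_⟩
    rw [pow_succ]
    nlinarith [h0.2]

/-- every integer below M ^ m has digits -/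
theorem enc_surj (M : ℕ) : ∀ {m : ℕ} (n : ℤ), n ∈ rg (M ^ m) → ∃ v ∈ bz m M, enc M v = n
  | 0, n, h => by
    rw [mem_rg] at h
    refine ⟨0, mem_bz.2 fun l => l.elim0, ?_⟩
    simp only [pow_zero, Nat.cast_one] at h
    rw [enc_zero]; omega
  | m + 1, n, h => by
    rw [mem_rg] at h
    have M0 : (0 : ℤ) < M := by
      rcases Nat.eq_zero_or_pos M with h0 | h0
      · subst h0; simp at h; omega
      · exact_mod_cast h0
    obtain ⟨v, hv, e⟩ := enc_surj M (m := m) (n / M) (mem_rg.2 ⟨Int.ediv_nonneg h.1 M0.le, by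
      rw [Int.ediv_lt_iff_lt_mul M0]
      have := h.2
      push_cast at this ⊢
      rwa [pow_succ] at this⟩)
    refine ⟨Fin.cons (n % M) v, mem_bz.2 fun l => ?_, ?_⟩
    · refine Fin.cases ?_ (fun l => ?_) l
      · exact ⟨Int.emod_nonneg _ M0.ne', Int.emod_lt_of_pos _ M0⟩
      · exact mem_bz.1 hv l
    · rw [enc_succ]
      simp only [Fin.cons_zero, Fin.cons_succ]
      rw [show enc M (fun l => v l) = n / M from e]
      exact Int.emod_add_mul_ediv n M

theorem gE_enc (M R : ℕ) (F : Vz m → ℝ) {v : Vz m} (hv : ∀ l, (R : ℤ) - M ≤ v l ∧ v l < M) :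
    gE M R F (enc M v) = cutV R F v := by
  unfold gE cutV
  by_cases h : ∃ w ∈ bz m R, enc M w = enc M v
  · rw [dif_pos h]
    obtain ⟨h1, h2⟩ := h.choose_spec
    have e : h.choose = v := enc_inj M h2 fun l => by
      have a := mem_bz.1 h1 l
      have b := hv l
      rw [abs_lt]; constructor <;> omega
    rw [e] at h1
    rw [e, if_pos h1]
  · rw [dif_neg h, if_neg]
    exact fun hv' => h ⟨v, hv', rfl⟩

theorem gE_ne (M R : ℕ) (F : Vz m → ℝ) {n : ℤ} (h : gE M R F n ≠ 0) :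
    ∃ v ∈ bz m R, enc M v = n := by
  by_contra h'
  exact h (by unfold gE; rw [dif_neg h'])

theorem gE_bd (M R : ℕ) (F : Vz m → ℝ) {B : ℝ} (hB : 0 ≤ B) (hF : ∀ x, 0 ≤ F x ∧ F x ≤ B)
    (n : ℤ) : 0 ≤ gE M R F n ∧ gE M R F n ≤ B := by
  unfold gE
  split_ifs
  · exact hF _
  · exact ⟨le_rfl, hB⟩

theorem cut_bd (R : ℕ) (F : Vz m → ℝ) (hF : ∀ x, 0 ≤ F x) (v : Vz m) :
    0 ≤ cutV R F v ∧ cutV R F v ≤ F v := by
  unfold cutV
  split_ifs
  · exact ⟨hF _, le_rfl⟩
  · exact ⟨le_rfl, hF _⟩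

theorem gE_nn (M R : ℕ) (F : Vz m → ℝ) (hF : ∀ x, 0 ≤ F x) (n : ℤ) : 0 ≤ gE M R F n := by
  unfold gE
  split_ifs
  · exact hF _
  · exact le_rfl

theorem bz_mono {L M : ℕ} (h : L ≤ M) : bz m L ⊆ bz m M := fun v hv =>
  mem_bz.2 fun l => ⟨(mem_bz.1 hv l).1, (mem_bz.1 hv l).2.trans_le (by exact_mod_cast h)⟩

theorem sum_bz {J L : ℕ} (hJ : 1 ≤ J) (y : Fin J → Vz m) (hy : ∀ i, y i ∈ bz m L) :
    ∑ i, y i ∈ bz m (J * L) := by
  refine mem_bz.2 fun l => ?_
  rw [Finset.sum_apply]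
  refine ⟨sum_nonneg fun i _ => (mem_bz.1 (hy i) l).1, ?_⟩
  have h : ∑ i : Fin J, y i l ≤ ∑ i : Fin J, ((L : ℤ) - 1) :=
    sum_le_sum fun i _ => by have := (mem_bz.1 (hy i) l).2; omega
  rw [sum_const, card_univ, Fintype.card_fin, nsmul_eq_mul] at h
  have : (1 : ℤ) ≤ J := by exact_mod_cast hJ
  push_cast
  linarith

theorem up0 {J p L M : ℕ} (F : Vz m → ℝ) (hF : ∀ x, 0 ≤ F x) (hJ : 1 ≤ J) (hL : 1 ≤ L)
    (hM : J * L ≤ M) :
    grdV J p L F ≤ ((M : ℝ) / L) ^ (m * (J * p)) * grd J p (M ^ m) (gE M (J * L) F) := by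
  classical
  have LM : L ≤ M := le_trans (Nat.le_mul_of_pos_left L hJ) hM
  have L0 : (0 : ℝ) < L := by exact_mod_cast hL
  have M0 : (0 : ℝ) < M := by exact_mod_cast hL.trans LM
  unfold grdV grd gridA
  rw [expect_eq_sum_div_card, expect_eq_sum_div_card]
  simp only [Fintype.card_piFinset, prod_const, card_univ, Fintype.card_fin, SV.bz_card,
    St1.rg_card]
  push_cast
  have key : (∑ W ∈ Fintype.piFinset (fun _ : Fin J => Fintype.piFinset fun _ : Fin p => bz m L),
      ∏ c : Fin J → Fin p, F (∑ i, W i (c i))) ≤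
      ∑ W ∈ Fintype.piFinset (fun _ : Fin J => Fintype.piFinset fun _ : Fin p => rg (M ^ m)),
      ∏ c : Fin J → Fin p, gE M (J * L) F (∑ i, W i (c i)) := by
    set Φ : (Fin J → Fin p → Vz m) → (Fin J → Fin p → ℤ) := fun W i a => enc M (W i a) with hΦ
    have inj : Set.InjOn Φ
        (Fintype.piFinset (fun _ : Fin J => Fintype.piFinset fun _ : Fin p => bz m L) :
          Finset (Fin J → Fin p → Vz m)) := by
      intro W hW W' hW' e
      simp only [mem_coe, Fintype.mem_piFinset] at hW hW'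
      funext i a
      refine enc_inj M (congrFun (congrFun e i) a) fun l => ?_
      have a1 := mem_bz.1 (bz_mono LM (hW i a)) l
      have a2 := mem_bz.1 (bz_mono LM (hW' i a)) l
      rw [abs_lt]; constructor <;> omega
    calc _ = ∑ W ∈ Fintype.piFinset (fun _ : Fin J => Fintype.piFinset fun _ : Fin p => bz m L),
          ∏ c : Fin J → Fin p, gE M (J * L) F (∑ i, Φ W i (c i)) := by
          refine sum_congr rfl fun W hW => prod_congr rfl fun c _ => ?_
          simp only [Fintype.mem_piFinset] at hW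
          have h1 := sum_bz hJ (fun i => W i (c i)) fun i => hW i (c i)
          simp only [hΦ]
          rw [← enc_sum, gE_enc M (J * L) F fun l => ?_]
          · unfold cutV; rw [if_pos h1]
          · have a := mem_bz.1 h1 l
            have b : ((J * L : ℕ) : ℤ) ≤ M := by exact_mod_cast hM
            constructor <;> omega
      _ = ∑ W ∈ (Fintype.piFinset
            (fun _ : Fin J => Fintype.piFinset fun _ : Fin p => bz m L)).image Φ,
          ∏ c : Fin J → Fin p, gE M (J * L) F (∑ i, W i (c i)) := by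
          rw [sum_image inj]
      _ ≤ _ := by
          refine sum_le_sum_of_subset_of_nonneg ?_ fun W _ _ =>
            prod_nonneg fun c _ => gE_nn _ _ _ hF _
          intro V hV
          obtain ⟨W, hW, rfl⟩ := mem_image.1 hV
          simp only [Fintype.mem_piFinset] at hW ⊢
          exact fun i a => enc_rg M _ (bz_mono LM (hW i a))
  rw [← pow_mul, ← pow_mul, ← pow_mul, ← pow_mul, mul_comm p J, div_pow, div_mul_div_comm,
    mul_comm ((L : ℝ) ^ _), mul_div_mul_left _ _ (by positivity)]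
  exact div_le_div_of_nonneg_right key (by positivity)

end En

theorem upv : UPV := by
  intro m J q p L M ε θ F hJ hq hqp hL hM e0 e1 hlog hF hθ h
  have J1 : 1 ≤ J := by omega
  have LM : L ≤ M := le_trans (Nat.le_mul_of_pos_left L J1) hM
  have L0 : (0 : ℝ) < L := by exact_mod_cast hL
  have M0 : (0 : ℝ) < M := by exact_mod_cast hL.trans LM
  have h1 : θ ^ (p ^ J) ≤ grdV J p L F := by
    have := mono (Vz m) J (fun _ => bz m L) (fun _ => q) (fun _ => p) (fun y => F (∑ i, y i)) θ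
      (fun _ => SV.bz_ne hL) (fun y => hF _) hθ (fun _ => ⟨hq, hqp⟩) (by simpa [grdV] using h)
    simpa [grdV] using this
  have h2 := En.up0 (p := p) F hF J1 hL hM
  have G0 : 0 ≤ grd J p (M ^ m) (gE M (J * L) F) :=
    expect_nonneg fun W _ => prod_nonneg fun c _ => En.gE_nn _ _ _ hF _
  generalize grd J p (M ^ m) (gE M (J * L) F) = G at h2 G0 ⊢
  have p1 : 1 ≤ p := hq.trans hqp
  have h3 : (1 - ε) ^ (p ^ J) * ((M : ℝ) / L) ^ (m * (J * p)) ≤ 1 := by
    have a1 : (1 - ε) ^ (p ^ J) ≤ (1 - ε) ^ (p * p) :=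
      pow_le_pow_of_le_one (by linarith) (by linarith) (by
        rw [← sq]; exact Nat.pow_le_pow_right p1 hJ)
    have a2 : (1 - ε) ^ (p * p) ≤ Real.exp (-ε) ^ (p * p) :=
      pow_le_pow_left₀ (by linarith) (by linarith [Real.add_one_le_exp (-ε)]) _
    have a3 : ((M : ℝ) / L) ^ (m * (J * p)) = Real.exp ((m * (J * p) : ℕ) * Real.log (M / L)) := by
      rw [Real.exp_nat_mul, Real.exp_log (by positivity)]
    have a4 : ((m * (J * p) : ℕ) : ℝ) * Real.log (M / L) ≤ ε * p * p := by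
      have := mul_le_mul_of_nonneg_right hlog (Nat.cast_nonneg (α := ℝ) p)
      push_cast
      linarith
    calc _ ≤ Real.exp (-ε) ^ (p * p) * Real.exp (ε * p * p) := by
          rw [a3]
          exact mul_le_mul (a1.trans a2) (Real.exp_le_exp.2 a4) (by positivity) (by positivity)
      _ = 1 := by
          rw [← Real.exp_nat_mul, ← Real.exp_add]
          push_cast
          rw [show (p : ℝ) * p * -ε + ε * p * p = 0 by ring, Real.exp_zero]
  have e2 : 0 ≤ (1 - ε) ^ (p ^ J) := pow_nonneg (by linarith) _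
  calc ((1 - ε) * θ) ^ (p ^ J) = (1 - ε) ^ (p ^ J) * θ ^ (p ^ J) := mul_pow _ _ _
    _ ≤ (1 - ε) ^ (p ^ J) * (((M : ℝ) / L) ^ (m * (J * p)) * G) :=
        mul_le_mul_of_nonneg_left (h1.trans h2) e2
    _ = ((1 - ε) ^ (p ^ J) * ((M : ℝ) / L) ^ (m * (J * p))) * G := by ring
    _ ≤ 1 * G := mul_le_mul_of_nonneg_right h3 G0
    _ = G := one_mul G

end

end Vale.Agent.P057T
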