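import Vale.Agent.P267.H775.Gauss

/-!
Gaussian sums over `ℤ^ι` with the norm `|M x|`: twisted Poisson summation, scaling, tails.
-/

open MeasureTheory Set Complex Matrix
open scoped Real
open Vale.Agent.P267.H775

namespace Vale.Agent.P057T.Poi

noncomputable section

set_option linter.unusedSectionVars false

variable {ι : Type*} [Fintype ι] [DecidableEq ι]

/-- The real Gaussian `exp (-π |M x|^2)`. -/
def gq (M : Matrix ι ι ℝ) (x : ι → ℝ) : ℝ := Real.exp (-π * qf M x)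

/-- The character `e(θ · x)`. -/
def ec (θ x : ι → ℝ) : ℂ := cexp (2 * π * I * ((∑ i, θ i * x i : ℝ) : ℂ))

/-- The theta value of the shifted lattice. -/
def th (M : Matrix ι ι ℝ) (x : ι → ℝ) : ℝ := ∑' n : ι → ℤ, gq M (x + toR n)

theorem gq_pos (M : Matrix ι ι ℝ) (x : ι → ℝ) : 0 < gq M x := Real.exp_pos _

theorem gq_le_one (M : Matrix ι ι ℝ) (x : ι → ℝ) : gq M x ≤ 1 := by
  unfold gq
  rw [Real.exp_le_one_iff]
  have := qf_nonneg M x
  have := Real.pi_pos
  nlinarith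

theorem qf_zero (M : Matrix ι ι ℝ) : qf M 0 = 0 := by simp [qf]

theorem gq_zero (M : Matrix ι ι ℝ) : gq M 0 = 1 := by simp [gq, qf_zero]

theorem qf_neg (M : Matrix ι ι ℝ) (x : ι → ℝ) : qf M (-x) = qf M x := by
  simp [qf, mulVec_neg]

theorem gq_neg (M : Matrix ι ι ℝ) (x : ι → ℝ) : gq M (-x) = gq M x := by
  simp [gq, qf_neg]

theorem qf_smul (s : ℝ) (M : Matrix ι ι ℝ) (x : ι → ℝ) : qf (s • M) x = s ^ 2 * qf M x := by
  simp only [qf, smul_mulVec, Pi.smul_apply, smul_eq_mul, mul_pow, Finset.mul_sum]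

theorem continuous_gq (M : Matrix ι ι ℝ) : Continuous (gq M) := by
  have := continuous_qf M
  unfold gq
  fun_prop

theorem norm_ec (θ x : ι → ℝ) : ‖ec θ x‖ = 1 := by
  unfold ec
  rw [Complex.norm_exp]
  simp

theorem continuous_ec (θ : ι → ℝ) : Continuous (ec θ) := by
  unfold ec
  fun_prop

theorem ec_add_left (θ η x : ι → ℝ) : ec (θ + η) x = ec θ x * ec η x := by
  unfold ec
  rw [← Complex.exp_add]
  congr 1
  simp only [Pi.add_apply, add_mul, Finset.sum_add_distrib]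
  push_cast
  ring

theorem ec_comm (θ x : ι → ℝ) : ec θ x = ec x θ := by
  unfold ec
  simp only [mul_comm (θ _)]

theorem ec_add_right (θ x y : ι → ℝ) : ec θ (x + y) = ec θ x * ec θ y := by
  rw [ec_comm, ec_add_left, ec_comm x, ec_comm y]

theorem ec_zero_left (x : ι → ℝ) : ec 0 x = 1 := by simp [ec]

theorem ec_zero_right (x : ι → ℝ) : ec x 0 = 1 := by simp [ec]

theorem chr_eq (k : ι → ℤ) (x : ι → ℝ) : chr k x = ec (toR k) x := by
  unfold chr ec
  congr 1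
  push_cast
  rfl

theorem gau_I (M : Matrix ι ι ℝ) (x : ι → ℝ) : gau M I x = (gq M x : ℂ) := by
  rw [gau_apply, gq, ofReal_exp]
  congr 1
  push_cast
  linear_combination (π * (qf M x : ℂ)) * I_mul_I

theorem summable_gq {M : Matrix ι ι ℝ} (hM : M.det ≠ 0) (x : ι → ℝ) :
    Summable fun n : ι → ℤ => gq M (x + toR n) := by
  have h := (locSum_gau M hM (τ := I) (by simp)).summable x
  simp_rw [gau_I] at h
  exact summable_ofReal.1 h

theorem integrable_gq {M : Matrix ι ι ℝ} (hM : M.det ≠ 0) : Integrable (gq M) := by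
  have h := (integrable_gau M hM (τ := I) (by simp)).norm
  refine h.congr (ae_of_all _ fun x => ?_)
  simp only [gau_I, Complex.norm_real, Real.norm_eq_abs, abs_of_pos (gq_pos M x)]

theorem det_dual {M : Matrix ι ι ℝ} (hM : M.det ≠ 0) : ((M⁻¹)ᵀ).det ≠ 0 := by
  rw [det_transpose, det_nonsing_inv, Ring.inverse_eq_inv']
  exact inv_ne_zero hM

theorem abs_det_dual (M : Matrix ι ι ℝ) : |((M⁻¹)ᵀ).det| = |M.det|⁻¹ := by
  rw [det_transpose, det_nonsing_inv, Ring.inverse_eq_inv', abs_inv]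

theorem dual_dual {M : Matrix ι ι ℝ} (hM : M.det ≠ 0) : ((((M⁻¹)ᵀ)⁻¹)ᵀ) = M := by
  rw [← transpose_nonsing_inv, transpose_transpose,
    nonsing_inv_nonsing_inv _ (isUnit_iff_ne_zero.2 hM)]

theorem dot_dual {M : Matrix ι ι ℝ} (hM : M.det ≠ 0) (ξ x : ι → ℝ) :
    ∑ i, ((M⁻¹)ᵀ *ᵥ ξ) i * (M *ᵥ x) i = ∑ i, ξ i * x i := by
  have : ((M⁻¹)ᵀ *ᵥ ξ) ⬝ᵥ (M *ᵥ x) = ξ ⬝ᵥ x := by
    rw [mulVec_transpose, ← dotProduct_mulVec, mulVec_mulVec,
      nonsing_inv_mul _ (isUnit_iff_ne_zero.2 hM), one_mulVec]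
  exact this

/-- Cauchy-Schwarz between the norm and the dual norm. -/
theorem dot_sq_le {M : Matrix ι ι ℝ} (hM : M.det ≠ 0) (ξ x : ι → ℝ) :
    (∑ i, ξ i * x i) ^ 2 ≤ qf (M⁻¹)ᵀ ξ * qf M x := by
  rw [← dot_dual hM]
  exact Finset.sum_mul_sq_le_sq_mul_sq _ _ _

/-- Fourier transform of the Gaussian at a real frequency. -/
theorem ft_gq {M : Matrix ι ι ℝ} (hM : M.det ≠ 0) (ξ : ι → ℝ) :
    ∫ x : ι → ℝ, (gq M x : ℂ) * ec ξ x = ((|M.det|⁻¹ * gq (M⁻¹)ᵀ ξ : ℝ) : ℂ) := by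
  set c : ι → ℂ := fun i => (2 * π * I) * (((M⁻¹)ᵀ *ᵥ ξ) i : ℝ) with hc
  set F : (ι → ℝ) → ℂ := fun y => cexp (-(π : ℂ) * ∑ i, (y i : ℂ) ^ 2 + ∑ i, c i * y i)
    with hF
  have hmap := Real.map_matrix_volume_pi_eq_smul_volume_pi hM
  have hme : Measurable (toLin' M : (ι → ℝ) → (ι → ℝ)) :=
    (LinearMap.continuous_on_pi (toLin' M)).measurable
  have h1 : ∀ x : ι → ℝ, (gq M x : ℂ) * ec ξ x = F (toLin' M x) := by
    intro x
    rw [gq, ec, ofReal_exp, ← Complex.exp_add, hF, ← dot_dual hM]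
    simp only [hc, qf, toLin'_apply]
    congr 1
    push_cast
    congr 1
    rw [Finset.mul_sum]
    refine Finset.sum_congr rfl fun i _ => ?_
    ring
  simp_rw [h1]
  rw [← integral_map (φ := (toLin' M : (ι → ℝ) → (ι → ℝ))) (f := F) hme.aemeasurable
    (by
      have : Continuous F := by fun_prop
      exact this.aestronglyMeasurable), hmap, integral_smul_measure]
  have hpi : 0 < ((π : ℝ) : ℂ).re := by simpa using Real.pi_pos
  have h2 := GaussianFourier.integral_cexp_neg_mul_sum_add (ι := ι) hpi c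
  rw [hF]
  simp only at h2 ⊢
  rw [h2]
  have hp0 : ((π : ℝ) : ℂ) ≠ 0 := by exact_mod_cast Real.pi_ne_zero
  rw [ENNReal.toReal_ofReal (abs_nonneg _), abs_inv, Complex.real_smul, div_self hp0, one_cpow,
    one_mul, gq]
  push_cast
  congr 2
  have e6 : ∑ i, c i ^ 2 = -(4 * π ^ 2) * (qf (M⁻¹)ᵀ ξ : ℝ) := by
    simp only [hc, qf]
    push_cast
    rw [Finset.mul_sum]
    refine Finset.sum_congr rfl fun i _ => ?_
    ring_nf
    simp
  rw [e6]
  field_simp

theorem integral_gq {M : Matrix ι ι ℝ} (hM : M.det ≠ 0) : ∫ x, gq M x = |M.det|⁻¹ := by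
  have h := ft_gq hM 0
  simp only [ec_zero_left, mul_one, gq_zero] at h
  rw [integral_complex_ofReal] at h
  exact_mod_cast h

/-- The twisted Gaussian. -/
def gt (M : Matrix ι ι ℝ) (θ : ι → ℝ) : C(ι → ℝ, ℂ) where
  toFun x := (gq M x : ℂ) * ec θ x
  continuous_toFun := (continuous_ofReal.comp (continuous_gq M)).mul (continuous_ec θ)

theorem gt_apply (M : Matrix ι ι ℝ) (θ x : ι → ℝ) : gt M θ x = (gq M x : ℂ) * ec θ x := rfl

theorem norm_gt (M : Matrix ι ι ℝ) (θ x : ι → ℝ) : ‖gt M θ x‖ = gq M x := by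
  rw [gt_apply, norm_mul, norm_ec, mul_one, Complex.norm_real, Real.norm_eq_abs,
    abs_of_pos (gq_pos M x)]

theorem locSum_gt {M : Matrix ι ι ℝ} (hM : M.det ≠ 0) (θ : ι → ℝ) : LocSum (gt M θ) := by
  intro K
  obtain ⟨R, hR⟩ := K.isCompact.isBounded.exists_norm_le
  obtain ⟨u, hu0, hu, hle⟩ := exists_bound M hM R 1 one_pos
  refine Summable.of_norm_bounded hu fun n => ?_
  rw [norm_norm, ContinuousMap.norm_le _ (hu0 n)]
  rintro ⟨x, hx⟩
  have : ‖gt M θ (x + toR n)‖ ≤ u n := by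
    rw [norm_gt, gq]
    have := hle n x fun i => (norm_le_pi_norm x i).trans (hR x hx)
    rwa [mul_one] at this
  exact this

theorem fc_gt {M : Matrix ι ι ℝ} (hM : M.det ≠ 0) (θ : ι → ℝ) (k : ι → ℤ) :
    fc (gt M θ) k = ((|M.det|⁻¹ * gq (M⁻¹)ᵀ (-θ + toR k) : ℝ) : ℂ) := by
  have h : ∀ x, chr (-k) x * gt M θ x = (gq M x : ℂ) * ec (-(-θ + toR k)) x := by
    intro x
    rw [gt_apply, chr_eq, toR_neg, neg_add, neg_neg, ec_add_left]
    ring
  unfold fc
  simp_rw [h]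
  rw [ft_gq hM, gq_neg]

theorem summable_gt {M : Matrix ι ι ℝ} (hM : M.det ≠ 0) (θ x : ι → ℝ) :
    Summable fun n : ι → ℤ => (gq M (x + toR n) : ℂ) * ec θ (x + toR n) :=
  (locSum_gt hM θ).summable x

/-- **Twisted Poisson summation.** -/
theorem poi {M : Matrix ι ι ℝ} (hM : M.det ≠ 0) (θ x : ι → ℝ) :
    HasSum (fun k : ι → ℤ => (gq (M⁻¹)ᵀ (-θ + toR k) : ℂ) * ec (toR k) x)
      ((|M.det| : ℝ) * ∑' n : ι → ℤ, (gq M (x + toR n) : ℂ) * ec θ (x + toR n)) := by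
  have hint : Integrable (gt M θ : (ι → ℝ) → ℂ) :=
    (integrable_gq hM).mono' (gt M θ).continuous.aestronglyMeasurable
      (ae_of_all _ fun x => (norm_gt M θ x).le)
  have hs : Summable (fc (gt M θ : (ι → ℝ) → ℂ)) := by
    have h1 := (summable_gq (det_dual hM) (-θ)).mul_left (|M.det|⁻¹)
    exact (summable_ofReal.2 h1).congr fun k => (fc_gt hM θ k).symm
  have hp := (poisson (gt M θ) (locSum_gt hM θ) hint hs x).mul_left ((|M.det| : ℝ) : ℂ)
  have hd : ((|M.det| : ℝ) : ℂ) ≠ 0 := by exact_mod_cast (abs_pos.2 hM).ne'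
  have he : (fun k : ι → ℤ => (gq (M⁻¹)ᵀ (-θ + toR k) : ℂ) * ec (toR k) x) =
      fun k => ((|M.det| : ℝ) : ℂ) * (fc (gt M θ) k * chr k x) := by
    funext k
    rw [fc_gt hM, chr_eq]
    push_cast
    field_simp
  rw [he]
  exact hp

/-- Poisson summation, untwisted. -/
theorem poi0 {M : Matrix ι ι ℝ} (hM : M.det ≠ 0) (x : ι → ℝ) :
    HasSum (fun k : ι → ℤ => (gq (M⁻¹)ᵀ (toR k) : ℂ) * ec (toR k) x)
      ((|M.det| * th M x : ℝ) : ℂ) := by
  have h := poi hM 0 x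
  simp only [neg_zero, zero_add, ec_zero_left, mul_one] at h
  rw [← ofReal_tsum] at h
  push_cast
  exact h

theorem th_pos {M : Matrix ι ι ℝ} (hM : M.det ≠ 0) (x : ι → ℝ) : 0 < th M x :=
  (summable_gq hM x).tsum_pos (fun _ => (gq_pos _ _).le) 0 (gq_pos _ _)

theorem th_zero (M : Matrix ι ι ℝ) : th M 0 = ∑' n : ι → ℤ, gq M (toR n) := by
  simp [th]

theorem toR_zero : toR (0 : ι → ℤ) = 0 := by
  ext i; simp

theorem one_le_th {M : Matrix ι ι ℝ} (hM : M.det ≠ 0) : 1 ≤ th M 0 := by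
  have h := (summable_gq hM 0).le_tsum 0 (fun _ _ => (gq_pos _ _).le)
  rwa [toR_zero, add_zero, gq_zero] at h

/-- The functional equation. -/
theorem th_dual {M : Matrix ι ι ℝ} (hM : M.det ≠ 0) : th (M⁻¹)ᵀ 0 = |M.det| * th M 0 := by
  have h := poi0 hM 0
  simp only [ec_zero_right, mul_one] at h
  have h2 := h.tsum_eq
  rw [← ofReal_tsum] at h2
  rw [th_zero]
  exact_mod_cast h2

/-- A twisted sum is bounded by the dual shifted theta value. -/
theorem norm_tw_le {M : Matrix ι ι ℝ} (hM : M.det ≠ 0) (θ x : ι → ℝ) :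
    |M.det| * ‖∑' n : ι → ℤ, (gq M (x + toR n) : ℂ) * ec θ (x + toR n)‖ ≤ th (M⁻¹)ᵀ (-θ) := by
  have h := (poi hM θ x).norm_le_of_bounded (summable_gq (det_dual hM) (-θ)).hasSum (fun k => by
    rw [norm_mul, norm_ec, mul_one, Complex.norm_real, Real.norm_eq_abs,
      abs_of_pos (gq_pos _ _)])
  rwa [norm_mul, Complex.norm_real, Real.norm_eq_abs, abs_abs] at h

/-- The theta value is largest at `0`. -/
theorem th_le {M : Matrix ι ι ℝ} (hM : M.det ≠ 0) (x : ι → ℝ) : th M x ≤ th M 0 := by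
  have h := norm_tw_le hM 0 x
  simp only [ec_zero_left, mul_one, neg_zero] at h
  rw [← ofReal_tsum, Complex.norm_real, Real.norm_eq_abs, th_dual hM] at h
  exact (le_abs_self _).trans (le_of_mul_le_mul_left h (abs_pos.2 hM))

/-- Equidistribution: the Gaussian mass is constant up to the dual theta value minus one. -/
theorem abs_th_sub {M : Matrix ι ι ℝ} (hM : M.det ≠ 0) (x : ι → ℝ) :
    abs (|M.det| * th M x - 1) ≤ th (M⁻¹)ᵀ 0 - 1 := by
  have h1 := hasSum_ite_sub_hasSum (poi0 hM x) 0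
  have h2 := hasSum_ite_sub_hasSum (summable_gq (det_dual hM) 0).hasSum 0
  simp only [toR_zero, gq_zero, ec_zero_left, ofReal_one, mul_one, zero_add] at h1 h2
  have h := h1.norm_le_of_bounded h2 (fun k => by
    split_ifs
    · simp
    · rw [norm_mul, norm_ec, mul_one, Complex.norm_real, Real.norm_eq_abs,
        abs_of_pos (gq_pos _ _)])
  rw [← ofReal_one, ← ofReal_sub, Complex.norm_real, Real.norm_eq_abs] at h
  rw [th_zero]
  exact h

theorem dual_smul {s : ℝ} (hs : s ≠ 0) {M : Matrix ι ι ℝ} (hM : M.det ≠ 0) :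
    ((s • M)⁻¹)ᵀ = s⁻¹ • (M⁻¹)ᵀ := by
  rw [← transpose_smul]
  congr 1
  refine Matrix.inv_eq_left_inv ?_
  rw [smul_mul_smul_comm, inv_mul_cancel₀ hs, one_smul,
    nonsing_inv_mul _ (isUnit_iff_ne_zero.2 hM)]

theorem det_smul_ne {s : ℝ} (hs : s ≠ 0) {M : Matrix ι ι ℝ} (hM : M.det ≠ 0) :
    (s • M).det ≠ 0 := by
  rw [det_smul]
  exact mul_ne_zero (pow_ne_zero _ hs) hM

theorem gq_smul_le {s : ℝ} (hs : 1 ≤ s) (M : Matrix ι ι ℝ) (x : ι → ℝ) :
    gq (s • M) x ≤ gq M x := by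
  unfold gq
  rw [qf_smul, Real.exp_le_exp]
  have h1 := qf_nonneg M x
  have h2 : 1 ≤ s ^ 2 := one_le_pow₀ hs
  have h3 := Real.pi_pos
  nlinarith [mul_nonneg h3.le (mul_nonneg (sub_nonneg.2 h2) h1)]

/-- Banaszczyk scaling: widening the Gaussian by `1 / s` costs `s^(-d)`. -/
theorem th_smul_le {s : ℝ} (hs : 0 < s) (hs1 : s ≤ 1) {M : Matrix ι ι ℝ} (hM : M.det ≠ 0)
    (x : ι → ℝ) : s ^ Fintype.card ι * th (s • M) x ≤ th M 0 := by
  have hsM := det_smul_ne hs.ne' hM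
  have h1 : th ((s • M)⁻¹)ᵀ 0 ≤ th (M⁻¹)ᵀ 0 := by
    refine (summable_gq (det_dual hsM) 0).tsum_le_tsum (fun n => ?_) (summable_gq (det_dual hM) 0)
    rw [dual_smul hs.ne' hM]
    exact gq_smul_le (one_le_inv₀ hs |>.2 hs1) _ _
  rw [th_dual hsM, th_dual hM, det_smul, abs_mul, abs_of_pos (pow_pos hs _)] at h1
  have h2 := th_le hsM x
  have h3 : s ^ Fintype.card ι * th (s • M) 0 ≤ th M 0 := by
    refine le_of_mul_le_mul_left ?_ (abs_pos.2 hM)
    linarith
  exact (mul_le_mul_of_nonneg_left h2 (pow_pos hs _).le).trans h3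

/-- Gaussian tail: the mass outside the ball of squared radius `K`. -/
theorem tail_le {M : Matrix ι ι ℝ} (hM : M.det ≠ 0) (x : ι → ℝ) (K : ℝ) :
    ∑' n : ι → ℤ, (if K ≤ qf M (x + toR n) then gq M (x + toR n) else 0) ≤
      Real.exp (-(3 / 4 * π * K)) * 2 ^ Fintype.card ι * th M 0 := by
  have hs : (0 : ℝ) < 1 / 2 := by norm_num
  have hsM := det_smul_ne hs.ne' hM
  have hle : ∀ n : ι → ℤ, (if K ≤ qf M (x + toR n) then gq M (x + toR n) else 0) ≤
      Real.exp (-(3 / 4 * π * K)) * gq ((1 / 2 : ℝ) • M) (x + toR n) := by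
    intro n
    split_ifs with h
    · unfold gq
      rw [← Real.exp_add, Real.exp_le_exp, qf_smul]
      have := Real.pi_pos
      nlinarith
    · exact (mul_pos (Real.exp_pos _) (gq_pos _ _)).le
  have hS := (summable_gq hsM x).mul_left (Real.exp (-(3 / 4 * π * K)))
  have h1 := (Summable.of_nonneg_of_le (fun n => by
    split_ifs
    · exact (gq_pos _ _).le
    · exact le_rfl) hle hS).tsum_le_tsum hle hS
  rw [tsum_mul_left] at h1
  have h2 := th_smul_le hs (by norm_num) hM x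
  have h3 : th ((1 / 2 : ℝ) • M) x ≤ 2 ^ Fintype.card ι * th M 0 := by
    have h4 : (0 : ℝ) < 2 ^ Fintype.card ι := by positivity
    have h5 : (2 : ℝ) ^ Fintype.card ι * (1 / 2) ^ Fintype.card ι = 1 := by
      rw [← mul_pow]; norm_num
    calc th ((1 / 2 : ℝ) • M) x
        = 2 ^ Fintype.card ι * ((1 / 2) ^ Fintype.card ι * th ((1 / 2 : ℝ) • M) x) := by
          rw [← mul_assoc, h5, one_mul]
      _ ≤ _ := mul_le_mul_of_nonneg_left h2 h4.le
  refine h1.trans ?_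
  rw [mul_assoc (Real.exp _)]
  exact mul_le_mul_of_nonneg_left h3 (Real.exp_pos _).le

/-- If all shifted lattice points are far from the origin the theta value is small. -/
theorem th_le_of_far {M : Matrix ι ι ℝ} (hM : M.det ≠ 0) (x : ι → ℝ) {K : ℝ}
    (h : ∀ n : ι → ℤ, K ≤ qf M (x + toR n)) :
    th M x ≤ Real.exp (-(3 / 4 * π * K)) * 2 ^ Fintype.card ι * th M 0 := by
  have h1 := tail_le hM x K
  simp only [h, if_true] at h1
  exact h1

/-- No short non zero vector: the theta value is close to one. -/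
theorem th_sub_one_le {M : Matrix ι ι ℝ} (hM : M.det ≠ 0) {K δ : ℝ}
    (h : ∀ n : ι → ℤ, n ≠ 0 → K ≤ qf M (toR n))
    (hδ : Real.exp (-(3 / 4 * π * K)) * 2 ^ Fintype.card ι ≤ δ) (hδ2 : δ ≤ 1 / 2) :
    th M 0 - 1 ≤ 2 * δ := by
  have h1 := tail_le hM 0 K
  have h2 := hasSum_ite_sub_hasSum (summable_gq hM 0).hasSum 0
  simp only [toR_zero, gq_zero, zero_add] at h1 h2
  have hS : Summable fun n : ι → ℤ => (if K ≤ qf M (toR n) then gq M (toR n) else 0) := by
    refine Summable.of_nonneg_of_le (fun n => ?_) (fun n => ?_)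
      (by simpa using summable_gq hM 0 : Summable fun n : ι → ℤ => gq M (toR n))
    · split_ifs
      · exact (gq_pos _ _).le
      · exact le_rfl
    · split_ifs
      · exact le_rfl
      · exact (gq_pos _ _).le
  have h3 := hasSum_le (fun n => ?_) h2 hS.hasSum
  · rw [← th_zero] at h3
    have h4 := one_le_th hM
    have h5 : Real.exp (-(3 / 4 * π * K)) * 2 ^ Fintype.card ι * th M 0 ≤ δ * th M 0 :=
      mul_le_mul_of_nonneg_right hδ (by linarith)
    have h6 : 0 ≤ δ := le_trans (by positivity) hδ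
    nlinarith
  · by_cases hn : n = 0
    · rw [if_pos hn]
      split_ifs
      · exact (gq_pos _ _).le
      · exact le_rfl
    · rw [if_neg hn, if_pos (h n hn)]

/-- Bias forces a resonant dual vector. -/
theorem exists_res {M : Matrix ι ι ℝ} (hM : M.det ≠ 0) (θ x : ι → ℝ) {K δ : ℝ}
    (hb : δ * th M 0 ≤ ‖∑' n : ι → ℤ, (gq M (x + toR n) : ℂ) * ec θ (x + toR n)‖)
    (hδ : Real.exp (-(3 / 4 * π * K)) * 2 ^ Fintype.card ι < δ) :
    ∃ k : ι → ℤ, qf (M⁻¹)ᵀ (-θ + toR k) < K := by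
  by_contra hc
  push Not at hc
  have h1 := th_le_of_far (det_dual hM) (-θ) hc
  have h2 := norm_tw_le hM θ x
  rw [th_dual hM] at h1
  have h3 := mul_le_mul_of_nonneg_left hb (abs_nonneg M.det)
  have h4 : 0 < |M.det| * th M 0 := mul_pos (abs_pos.2 hM) (th_pos hM 0)
  have h5 := mul_lt_mul_of_pos_right hδ h4
  nlinarith

/-- Counting lattice points in a ball. -/
theorem card_le {M : Matrix ι ι ℝ} (hM : M.det ≠ 0) (x : ι → ℝ) {K : ℝ} (S : Finset (ι → ℤ))
    (h : ∀ n ∈ S, qf M (x + toR n) ≤ K) : (S.card : ℝ) ≤ Real.exp (π * K) * th M 0 := by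
  have h1 : ∑ n ∈ S, gq M (x + toR n) ≤ th M x :=
    (summable_gq hM x).sum_le_tsum S fun _ _ => (gq_pos _ _).le
  have h2 : (S.card : ℝ) * Real.exp (-(π * K)) ≤ ∑ n ∈ S, gq M (x + toR n) := by
    rw [← nsmul_eq_mul]
    refine Finset.card_nsmul_le_sum S _ _ fun n hn => ?_
    unfold gq
    rw [Real.exp_le_exp]
    have := h n hn
    have := Real.pi_pos
    nlinarith
  have h3 := (h2.trans h1).trans (th_le hM x)
  rw [Real.exp_neg, ← div_eq_mul_inv, div_le_iff₀ (Real.exp_pos _)] at h3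
  linarith

end

end Vale.Agent.P057T.Poi
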