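import Vale.Agent.P057T.UpgP
import Vale.Agent.P057T.L1

/-!
A rational polynomial phase with large bias over `(ℤ/N)^σ` has a small common denominator,
with a bound that does not depend on the number of variables.
-/

open MvPolynomial
open scoped Real
open Vale.Agent.P057T.UpgP Vale.Agent.P057T.L1

namespace Vale.Agent.P057T.UpgF

noncomputable section

set_option linter.unusedSectionVars false

variable {σ : Type*} [Fintype σ] [DecidableEq σ]

/-- The character `e(x)`. -/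
def ee (x : ℝ) : ℂ := Complex.exp (2 * π * Complex.I * (x : ℂ))

theorem ee_add (x y : ℝ) : ee (x + y) = ee x * ee y := by
  unfold ee
  rw [← Complex.exp_add]
  congr 1
  push_cast
  ring

theorem norm_ee (x : ℝ) : ‖ee x‖ = 1 := by
  unfold ee
  rw [Complex.norm_exp]
  simp

theorem ee_int (k : ℤ) : ee k = 1 := by
  unfold ee
  rw [← Complex.exp_int_mul_two_pi_mul_I k]
  congr 1
  push_cast
  ring

theorem int_of_ee {x : ℝ} (h : ee x = 1) : ∃ k : ℤ, x = k := by
  unfold ee at h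
  obtain ⟨k, hk⟩ := Complex.exp_eq_one_iff.1 h
  refine ⟨k, ?_⟩
  have h2 : (2 * π * Complex.I : ℂ) ≠ 0 := Complex.two_pi_I_ne_zero
  have h3 : (x : ℂ) = k := by
    apply mul_left_cancel₀ h2
    rw [hk]; ring
  exact_mod_cast h3

theorem ee_sub (x y : ℝ) : ee (x - y) = ee x * (starRingEnd ℂ) (ee y) := by
  unfold ee
  rw [← Complex.exp_conj, ← Complex.exp_add]
  congr 1
  simp only [map_mul, Complex.conj_ofReal, Complex.conj_I, map_ofNat]
  push_cast
  ring

/-- Integer points as real points. -/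
def toR (z : σ → ℤ) : σ → ℝ := fun a => (z a : ℝ)

theorem toR_add (z w : σ → ℤ) : toR (z + w) = toR z + toR w := by
  funext a; simp [toR]

/-- The phase at an integer point. -/
def ph (P : MvPolynomial σ ℝ) (z : σ → ℤ) : ℂ := ee (eval (toR z) P)

/-- Representatives. -/
def lf {N : ℕ} (x : σ → ZMod N) : σ → ℤ := fun a => ((x a).val : ℤ)

theorem cast_lf {N : ℕ} [NeZero N] (x : σ → ZMod N) (a : σ) : ((lf x a : ℤ) : ZMod N) = x a := by
  simp [lf]

/-- The complete sum. -/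
def sm (N : ℕ) [NeZero N] (P : MvPolynomial σ ℝ) : ℂ := ∑ x : σ → ZMod N, ph P (lf x)

theorem ph_per {N : ℕ} (hN : N ≠ 0) {P : MvPolynomial σ ℝ} (hP : IsInt (C (N : ℝ) * P))
    {z w : σ → ℤ} (h : ∀ a, (z a : ZMod N) = w a) : ph P z = ph P w := by
  obtain ⟨q, hq⟩ := isInt_iff.1 hP
  have e1 : ∀ u : σ → ℤ, (N : ℝ) * eval (toR u) P = ((eval u q : ℤ) : ℝ) := by
    intro u
    have h1 : eval (toR u) (map (Int.castRingHom ℝ) q) = ((eval u q : ℤ) : ℝ) := by
      rw [eval_map]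
      exact (eval₂_comp_left (Int.castRingHom ℝ) (RingHom.id ℤ) u q).symm
    rw [← h1, hq, map_mul, eval_C]
  have e2 : ((eval z q : ℤ) : ZMod N) = ((eval w q : ℤ) : ZMod N) := by
    have h1 : ∀ u : σ → ℤ, ((eval u q : ℤ) : ZMod N)
        = eval₂ (Int.castRingHom (ZMod N)) (fun a => (u a : ZMod N)) q := fun u =>
      eval₂_comp_left (Int.castRingHom (ZMod N)) (RingHom.id ℤ) u q
    rw [h1, h1]
    congr 1
    funext a
    exact h a
  obtain ⟨k, hk⟩ := (ZMod.intCast_eq_intCast_iff_dvd_sub _ _ _).1 e2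
  have hN' : (N : ℝ) ≠ 0 := by exact_mod_cast hN
  have e3 : eval (toR w) P = eval (toR z) P + k := by
    apply mul_left_cancel₀ hN'
    rw [mul_add, e1, e1]
    have : ((eval w q : ℤ) : ℝ) - ((eval z q : ℤ) : ℝ) = (N : ℝ) * k := by exact_mod_cast hk
    linarith
  unfold ph
  rw [e3, ee_add, ee_int, mul_one]

theorem sm_shift {N : ℕ} [NeZero N] {P : MvPolynomial σ ℝ} (hP : IsInt (C (N : ℝ) * P))
    (h : σ → ℤ) : ∑ x : σ → ZMod N, ph P (lf x + h) = sm N P := by
  unfold sm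
  rw [← Equiv.sum_comp (Equiv.addRight fun a => (h a : ZMod N)) fun x => ph P (lf x)]
  refine Finset.sum_congr rfl fun x _ => ph_per (NeZero.ne N) hP fun a => ?_
  rw [cast_lf]
  simp [cast_lf]

theorem norm_sm_le {N : ℕ} [NeZero N] (P : MvPolynomial σ ℝ) :
    ‖sm N P‖ ≤ Fintype.card (σ → ZMod N) := by
  unfold sm
  refine (norm_sum_le _ _).trans ?_
  simp only [ph, norm_ee, Finset.sum_const, Finset.card_univ, nsmul_eq_mul, mul_one, le_refl]

theorem sm_sq {N : ℕ} [NeZero N] {P : MvPolynomial σ ℝ} (hP : IsInt (C (N : ℝ) * P)) :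
    ‖sm N P‖ ^ 2 ≤ ∑ h : σ → ZMod N, ‖sm N (sh (toR (lf h)) P - P)‖ := by
  have e1 : sm N P * (starRingEnd ℂ) (sm N P) = ∑ h : σ → ZMod N, sm N (sh (toR (lf h)) P - P) := by
    have e2 : (starRingEnd ℂ) (sm N P) = ∑ x : σ → ZMod N, (starRingEnd ℂ) (ph P (lf x)) := by
      unfold sm; rw [map_sum]
    rw [e2, Finset.mul_sum]
    have e3 : ∀ x : σ → ZMod N, sm N P * (starRingEnd ℂ) (ph P (lf x))
        = ∑ h : σ → ZMod N, ph (sh (toR (lf h)) P - P) (lf x) := by
      intro x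
      rw [← sm_shift hP (lf x), Finset.sum_mul]
      refine Finset.sum_congr rfl fun h _ => ?_
      unfold ph
      rw [map_sub, ee_sub, eval_sh, toR_add, add_comm]
    simp only [e3]
    rw [Finset.sum_comm]
    rfl
  have e4 : ‖sm N P‖ ^ 2 = ‖sm N P * (starRingEnd ℂ) (sm N P)‖ := by
    rw [norm_mul, Complex.norm_conj, sq]
  rw [e4, e1]
  exact norm_sum_le _ _

theorem isInt_sh {P : MvPolynomial σ ℝ} (hP : IsInt P) (h : σ → ℤ) : IsInt (sh (toR h) P) :=
  hP.aeval fun a => (isInt_X a).add (isInt_C (h a))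

theorem isInt_cmul_sh {r : ℝ} {P : MvPolynomial σ ℝ} (hP : IsInt (C r * P)) (h : σ → ℤ) :
    IsInt (C r * sh (toR h) P) := by
  have := isInt_sh hP h
  rwa [map_mul, sh_C] at this

/-- The statement in degree at most `j` with exponent `c`. -/
def St (σ : Type*) [Fintype σ] [DecidableEq σ] (j c : ℕ) : Prop :=
  ∀ (N : ℕ) [NeZero N] (P : MvPolynomial σ ℝ) (Q : ℕ), 2 ≤ Q → Lo (j + 1) P →
    IsInt (C (N : ℝ) * P) → (Fintype.card (σ → ZMod N) : ℝ) ≤ Q * ‖sm N P‖ →
    ∃ n : ℕ, 1 ≤ n ∧ n ≤ Q ^ c ∧ ∀ m : σ →₀ ℕ, m ≠ 0 → ∃ k : ℤ, n * coeff m P = k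

theorem dense {j c : ℕ} (H : St σ j c) {N : ℕ} [NeZero N] {P : MvPolynomial σ ℝ} {Q : ℕ}
    (hQ : 2 ≤ Q) (hL : Lo (j + 2) P) (hP : IsInt (C (N : ℝ) * P))
    (hb : (Fintype.card (σ → ZMod N) : ℝ) ≤ Q * ‖sm N P‖) :
    ∃ n : ℕ, 1 ≤ n ∧ n ≤ Q ^ (3 * c) ∧ ∃ Xs : Finset (σ → ZMod N),
      Fintype.card (σ → ZMod N) ≤ Q ^ (3 * c + 3) * Xs.card ∧
      ∀ x ∈ Xs, ∀ m : σ →₀ ℕ, m.degree = j → ∃ k : ℤ, n * coeff m (dd (toR (lf x)) P) = k := by
  classical
  have hG : (0 : ℝ) < Fintype.card (σ → ZMod N) := by exact_mod_cast Fintype.card_pos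
  have hQ1 : 1 ≤ Q := by omega
  rcases Nat.eq_zero_or_pos j with rfl | hj
  · refine ⟨1, le_rfl, Nat.one_le_pow _ _ hQ1, Finset.univ, ?_, fun x _ m hm => ?_⟩
    · rw [Finset.card_univ]
      exact Nat.le_mul_of_pos_left _ (Nat.pow_pos hQ1)
    · have hm0 : m = 0 := (Finsupp.degree_eq_zero_iff m).1 hm
      subst hm0
      have h1 := (hL.tay (toR (lf x))).eq_zero
      have h2 := (hL.dd (toR (lf x))).eq_C
      set t := coeff 0 (dd (toR (lf x)) P) with ht
      have h3 : sh (toR (lf x)) P = P + C t := by rw [← h2]; linear_combination h1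
      have h4 : sm N P = ee t * sm N P := by
        conv_lhs => rw [← sm_shift hP (lf x)]
        unfold sm
        rw [Finset.mul_sum]
        refine Finset.sum_congr rfl fun y _ => ?_
        unfold ph
        rw [toR_add, ← eval_sh, h3, map_add, eval_C, ee_add, mul_comm]
      have h5 : sm N P ≠ 0 := by
        intro h0
        rw [h0, norm_zero, mul_zero] at hb
        linarith
      obtain ⟨k, hk⟩ := int_of_ee (x := t) (by
        apply mul_right_cancel₀ h5
        rw [one_mul]; exact h4.symm)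
      exact ⟨k, by rw [Nat.cast_one, one_mul]; exact hk⟩
  · set G : ℝ := (Fintype.card (σ → ZMod N) : ℝ) with hGd
    set Y := Finset.univ.filter fun h : σ → ZMod N =>
      G ≤ (Q ^ 3 : ℕ) * ‖sm N (sh (toR (lf h)) P - P)‖ with hY
    have hQR : (2 : ℝ) ≤ Q := by exact_mod_cast hQ
    have hYc : G ≤ (Q : ℝ) ^ 3 * Y.card := by
      have a1 : ∀ h : σ → ZMod N, (Q : ℝ) ^ 3 * ‖sm N (sh (toR (lf h)) P - P)‖
          ≤ G + if h ∈ Y then (Q : ℝ) ^ 3 * G else 0 := by
        intro h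
        split_ifs with hh
        · have := norm_sm_le (N := N) (sh (toR (lf h)) P - P)
          have := mul_le_mul_of_nonneg_left this (by positivity : (0 : ℝ) ≤ (Q : ℝ) ^ 3)
          linarith
        · rw [hY, Finset.mem_filter, not_and] at hh
          have := hh (Finset.mem_univ _)
          push_cast at this
          linarith
      have a2 := Finset.sum_le_sum fun h (_ : h ∈ Finset.univ) => a1 h
      rw [← Finset.mul_sum, Finset.sum_add_distrib, Finset.sum_ite_mem, Finset.univ_inter,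
        Finset.sum_const, Finset.sum_const, Finset.card_univ, nsmul_eq_mul, nsmul_eq_mul,
        ← hGd] at a2
      have a3 := sm_sq hP
      have a4 : G ^ 2 ≤ (Q : ℝ) ^ 2 * ‖sm N P‖ ^ 2 := by
        rw [← mul_pow]
        exact pow_le_pow_left₀ hG.le hb 2
      have a5 : (Q : ℝ) * G ^ 2 ≤ G * G + Y.card * ((Q : ℝ) ^ 3 * G) := by
        calc (Q : ℝ) * G ^ 2 ≤ Q * ((Q : ℝ) ^ 2 * ‖sm N P‖ ^ 2) :=
              mul_le_mul_of_nonneg_left a4 (by positivity)
          _ = (Q : ℝ) ^ 3 * ‖sm N P‖ ^ 2 := by ring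
          _ ≤ _ := (mul_le_mul_of_nonneg_left a3 (by positivity)).trans a2
      have a6 : G * G ≤ G * ((Q : ℝ) ^ 3 * Y.card) := by nlinarith [mul_pos hG hG]
      exact le_of_mul_le_mul_left a6 hG
    have hQ3 : 2 ≤ Q ^ 3 := hQ.trans (Nat.le_self_pow (by norm_num) Q)
    have hall : ∀ h ∈ Y, ∃ n : ℕ, n ∈ Finset.Icc 1 (Q ^ (3 * c)) ∧
        ∀ m : σ →₀ ℕ, m.degree = j → ∃ k : ℤ, n * coeff m (dd (toR (lf h)) P) = k := by
      intro h hh
      obtain ⟨n, hn1, hn2, hn⟩ := H N (sh (toR (lf h)) P - P) (Q ^ 3) hQ3 (hL.delta _)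
        (by rw [mul_sub]; exact (isInt_cmul_sh hP _).sub hP) (Finset.mem_filter.1 hh).2
      refine ⟨n, Finset.mem_Icc.2 ⟨hn1, by rwa [pow_mul]⟩, fun m hm => ?_⟩
      obtain ⟨k, hk⟩ := hn m (by rintro rfl; simp at hm; omega)
      refine ⟨k, ?_⟩
      have := hL.tay (toR (lf h)) m hm.ge
      rw [coeff_sub, sub_eq_zero] at this
      rw [← this, hk]
    choose! nn hn1 hn2 using hall
    have hne : (Finset.Icc 1 (Q ^ (3 * c))).Nonempty :=
      ⟨1, Finset.mem_Icc.2 ⟨le_rfl, Nat.one_le_pow _ _ hQ1⟩⟩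
    obtain ⟨n, hn, hmax⟩ := Finset.exists_max_image (Finset.Icc 1 (Q ^ (3 * c)))
      (fun n => (Y.filter fun h => nn h = n).card) hne
    refine ⟨n, (Finset.mem_Icc.1 hn).1, (Finset.mem_Icc.1 hn).2, Y.filter fun h => nn h = n, ?_,
      fun x hx m hm => ?_⟩
    · have b1 : Y.card ≤ Q ^ (3 * c) * (Y.filter fun h => nn h = n).card := by
        rw [Finset.card_eq_sum_card_fiberwise hn1]
        refine (Finset.sum_le_card_nsmul _ _ _ hmax).trans ?_
        simp
      have b2 : Fintype.card (σ → ZMod N) ≤ Q ^ 3 * Y.card := by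
        rw [hGd] at hYc
        exact_mod_cast hYc
      calc _ ≤ Q ^ 3 * (Q ^ (3 * c) * (Y.filter fun h => nn h = n).card) :=
            b2.trans (Nat.mul_le_mul_left _ b1)
        _ = _ := by ring
    · obtain ⟨hx1, hx2⟩ := Finset.mem_filter.1 hx
      rw [← hx2]
      exact hn2 x hx1 m hm

theorem top {j c : ℕ} (H : St σ j c) {N : ℕ} [NeZero N] {P : MvPolynomial σ ℝ} {Q : ℕ}
    (hQ : 2 ≤ Q) (hL : Lo (j + 2) P) (hP : IsInt (C (N : ℝ) * P))
    (hb : (Fintype.card (σ → ZMod N) : ℝ) ≤ Q * ‖sm N P‖) :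
    ∃ n : ℕ, 1 ≤ n ∧ n ≤ Q ^ (6 * c + 3 + (j + 1).factorial) ∧
      ∀ m : σ →₀ ℕ, m.degree = j + 1 → ∃ k : ℤ, n * coeff m P = k := by
  classical
  obtain ⟨n, hn1, hn2, Xs, hX1, hX2⟩ := dense H hQ hL hP hb
  let K : AddSubgroup (σ → ℤ) :=
    { carrier := {h | ∀ m : σ →₀ ℕ, m.degree = j → ∃ k : ℤ, n * coeff m (dd (toR h) P) = k}
      add_mem' := by
        intro a b ha hb m hm
        obtain ⟨k, hk⟩ := ha m hm
        obtain ⟨l, hl⟩ := hb m hm
        refine ⟨k + l, ?_⟩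
        rw [Int.cast_add, ← hk, ← hl, coeff_dd, coeff_dd, coeff_dd, ← mul_add,
          ← Finset.sum_add_distrib]
        congr 1
        refine Finset.sum_congr rfl fun i _ => ?_
        simp only [toR, Pi.add_apply, Int.cast_add]
        ring
      zero_mem' := by
        intro m _
        exact ⟨0, by simp [coeff_dd, toR]⟩
      neg_mem' := by
        intro a ha m hm
        obtain ⟨k, hk⟩ := ha m hm
        refine ⟨-k, ?_⟩
        rw [Int.cast_neg, ← hk, coeff_dd, coeff_dd, ← mul_neg, ← Finset.sum_neg_distrib]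
        congr 1
        refine Finset.sum_congr rfl fun i _ => ?_
        simp only [toR, Pi.neg_apply, Int.cast_neg]
        ring }
  let φ : (σ → ℤ) →+ (σ → ZMod N) :=
    { toFun := fun h a => (h a : ZMod N)
      map_zero' := by funext a; simp
      map_add' := fun _ _ => by funext a; simp }
  have hker : ∀ h, φ h = 0 → h ∈ K := by
    intro h hh m _
    have h1 : ∀ a, ∃ k : ℤ, toR h a * (coeff (m + Finsupp.single a 1) P * (m a + 1)) = k := by
      intro a
      have h2 : (h a : ZMod N) = 0 := congrFun hh a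
      obtain ⟨u, hu⟩ := (ZMod.intCast_zmod_eq_zero_iff_dvd _ _).1 h2
      obtain ⟨v, hv⟩ := hP (m + Finsupp.single a 1)
      rw [coeff_C_mul] at hv
      refine ⟨u * v * (m a + 1), ?_⟩
      simp only [toR, hu]
      push_cast
      rw [← hv]; ring
    choose kk hkk using h1
    refine ⟨n * ∑ a, kk a, ?_⟩
    rw [coeff_dd]
    push_cast
    simp only [hkk]
  set K' := K.map φ with hK'
  have hsub : Xs.card ≤ Nat.card K' := by
    have : (Xs : Set (σ → ZMod N)) ⊆ (K' : Set (σ → ZMod N)) := fun x hx =>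
      ⟨lf x, hX2 x hx, by funext a; exact cast_lf x a⟩
    have h2 := Set.ncard_le_ncard this (Set.toFinite _)
    rw [Set.ncard_coe_finset] at h2
    exact h2
  have hidx : Nat.card K' * K'.index = Fintype.card (σ → ZMod N) := by
    rw [AddSubgroup.card_mul_index, Nat.card_eq_fintype_card]
  have hKpos : 0 < Nat.card K' := Nat.card_pos
  have hi1 : K'.index ≤ Q ^ (3 * c + 3) := by
    apply Nat.le_of_mul_le_mul_left _ hKpos
    rw [hidx, mul_comm]
    exact hX1.trans (Nat.mul_le_mul_left _ hsub)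
  have hi0 : 1 ≤ K'.index := by
    rcases Nat.eq_zero_or_pos K'.index with h0 | h0
    · rw [h0, mul_zero] at hidx
      have := Fintype.card_pos (α := σ → ZMod N)
      omega
    · exact h0
  have hmem : ∀ h, K'.index • h ∈ K := by
    intro h
    obtain ⟨g, hg1, hg2⟩ := K'.nsmul_index_mem (φ h)
    have : K'.index • h - g ∈ K := hker _ (by rw [map_sub, map_nsmul, hg2, sub_self])
    simpa using K.add_mem this hg1
  refine ⟨n * K'.index * (j + 1).factorial, ?_, ?_, fun m hm => ?_⟩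
  · exact Nat.mul_pos (Nat.mul_pos hn1 hi0) (Nat.factorial_pos _)
  · have : (j + 1).factorial ≤ Q ^ (j + 1).factorial :=
      (Nat.lt_two_pow_self.le).trans (Nat.pow_le_pow_left hQ _)
    calc _ ≤ Q ^ (3 * c) * Q ^ (3 * c + 3) * Q ^ (j + 1).factorial :=
          Nat.mul_le_mul (Nat.mul_le_mul hn2 hi1) this
      _ = _ := by ring
  · have hne : m ≠ 0 := by rintro rfl; simp at hm
    obtain ⟨a, ha⟩ := Finsupp.support_nonempty_iff.2 hne
    have h1 : m - Finsupp.single a 1 + Finsupp.single a 1 = m :=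
      Finsupp.sub_add_single_one_cancel (Finsupp.mem_support_iff.1 ha)
    have h2 := degree_add_single (m - Finsupp.single a 1) a
    rw [h1] at h2
    obtain ⟨k, hk⟩ := hmem (Pi.single a 1) (m - Finsupp.single a 1) (by omega)
    rw [coeff_dd, Finset.sum_eq_single a (fun b _ hb => by simp [toR, Pi.single_eq_of_ne hb])
      (fun hb => absurd (Finset.mem_univ a) hb), h1] at hk
    have h3 : (m - Finsupp.single a 1 : σ →₀ ℕ) a + 1 ≤ j + 1 := by
      have := Finsupp.le_degree a (m - Finsupp.single a 1)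
      omega
    generalize (m - Finsupp.single a 1 : σ →₀ ℕ) a = e at hk h3
    obtain ⟨q, hq⟩ := Nat.dvd_factorial (Nat.succ_pos _) h3
    refine ⟨k * q, ?_⟩
    rw [hq]
    push_cast
    rw [← hk]
    simp only [toR, Pi.smul_apply, Pi.single_eq_same, nsmul_eq_mul, mul_one, Int.cast_natCast]
    ring

theorem step {j c : ℕ} (H : St σ j c) :
    St σ (j + 1) (c + (j + 1) * (6 * c + 3 + (j + 1).factorial)) := by
  classical
  intro N _ P Q hQ hL hP hb
  obtain ⟨n, hn1, hn2, hn⟩ := top H hQ hL hP hb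
  set T := homogeneousComponent (j + 1) P with hT
  have hTi : IsInt (C (n : ℝ) * T) := by
    intro m
    rw [coeff_C_mul, hT, coeff_homogeneousComponent]
    split_ifs with hm
    · exact hn m hm
    · exact ⟨0, by simp⟩
  have hlow : Lo (j + 1) (P - T) := lo_sub_top hL
  have hlowi : IsInt (C (N : ℝ) * (P - T)) := by
    intro m
    rw [coeff_C_mul, coeff_sub, hT, coeff_homogeneousComponent]
    split_ifs with hm
    · exact ⟨0, by simp⟩
    · have := hP m
      rwa [coeff_C_mul, ← sub_zero (coeff m P)] at this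
  have key : ∀ x : σ → ZMod N, ∑ y : σ → ZMod N, ph P (lf x + n • lf y)
      = ph T (lf x) * sm N (sc n (sh (toR (lf x)) (P - T))) := by
    intro x
    unfold sm
    rw [Finset.mul_sum]
    refine Finset.sum_congr rfl fun y _ => ?_
    have h1 : ph T (lf x) = ph T (lf x + n • lf y) :=
      ph_per (by omega) hTi fun a => by simp
    have h2 : toR (lf x + n • lf y) = (n : ℝ) • toR (lf y) + toR (lf x) := by
      funext a; simp [toR, add_comm]
    rw [h1]
    unfold ph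
    rw [eval_sc, eval_sh, ← h2, ← ee_add, ← map_add, add_sub_cancel]
  have h3 : ∑ _y : σ → ZMod N, ‖sm N P‖
      ≤ ∑ x : σ → ZMod N, ‖sm N (sc n (sh (toR (lf x)) (P - T)))‖ := by
    have h4 : ∑ _y : σ → ZMod N, sm N P
        = ∑ x : σ → ZMod N, ph T (lf x) * sm N (sc n (sh (toR (lf x)) (P - T))) := by
      simp only [← key]
      rw [Finset.sum_comm]
      exact Finset.sum_congr rfl fun y _ => (sm_shift hP _).symm
    have h5 : ∑ _y : σ → ZMod N, ‖sm N P‖ = ‖∑ _y : σ → ZMod N, sm N P‖ := by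
      simp only [Finset.sum_const, nsmul_eq_mul, norm_mul, Complex.norm_natCast]
    rw [h5, h4]
    refine (norm_sum_le _ _).trans (le_of_eq (Finset.sum_congr rfl fun x _ => ?_))
    rw [norm_mul, ph, norm_ee, one_mul]
  obtain ⟨x, -, hx⟩ := Finset.exists_le_of_sum_le Finset.univ_nonempty h3
  set R := sh (toR (lf x)) (P - T) with hR
  have hRl : Lo (j + 1) R := hlow.sh _
  have hRi : IsInt (C (N : ℝ) * sc n R) := by
    intro m
    obtain ⟨k, hk⟩ := isInt_cmul_sh hlowi (lf x) m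
    rw [coeff_C_mul] at hk ⊢
    refine ⟨n ^ m.degree * k, ?_⟩
    rw [coeff_sc]
    push_cast
    rw [← hk]; ring
  obtain ⟨n2, h21, h22, h2⟩ := H N (sc n R) Q hQ (hRl.sc _) hRi
    (hb.trans (mul_le_mul_of_nonneg_left hx (by positivity)))
  have hI : IsInt (C ((n2 * n ^ j : ℕ) : ℝ) * (R - C (coeff 0 R))) := by
    intro m
    rw [coeff_C_mul, coeff_sub, coeff_C]
    split_ifs with hm
    · exact ⟨0, by rw [← hm]; simp⟩
    · by_cases hd : m.degree ≤ j
      · obtain ⟨k, hk⟩ := h2 m (Ne.symm hm)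
        rw [coeff_sc] at hk
        obtain ⟨e, he⟩ := Nat.exists_eq_add_of_le hd
        refine ⟨k * n ^ e, ?_⟩
        rw [he]
        push_cast
        rw [← hk]; ring
      · exact ⟨0, by rw [hRl m (by omega)]; simp⟩
  have hI2 := isInt_cmul_sh hI (-lf x)
  have h6 : toR (-lf x) + toR (lf x) = 0 := by funext a; simp [toR]
  rw [map_sub, sh_C, hR, sh_sh, h6, sh_zero] at hI2
  refine ⟨n2 * n ^ j * n, Nat.mul_pos (Nat.mul_pos h21 (Nat.pow_pos hn1)) hn1, ?_, fun m hm => ?_⟩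
  · calc n2 * n ^ j * n = n2 * n ^ (j + 1) := by ring
      _ ≤ Q ^ c * (Q ^ (6 * c + 3 + (j + 1).factorial)) ^ (j + 1) :=
          Nat.mul_le_mul h22 (Nat.pow_le_pow_left hn2 _)
      _ = _ := by rw [← pow_mul, ← pow_add, mul_comm (j + 1)]
  · obtain ⟨k, hk⟩ := hI2 m
    obtain ⟨l, hl⟩ := hTi m
    rw [coeff_C_mul, coeff_sub, coeff_sub, coeff_C, if_neg (Ne.symm hm), sub_zero] at hk
    rw [coeff_C_mul] at hl
    refine ⟨k * n + n2 * n ^ j * l, ?_⟩
    push_cast at hk ⊢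
    rw [← hk, ← hl]; ring

/-- The exponent in degree `j`. -/
def cst : ℕ → ℕ
  | 0 => 0
  | j + 1 => cst j + (j + 1) * (6 * cst j + 3 + (j + 1).factorial)

theorem st (j : ℕ) : St σ j (cst j) := by
  induction j with
  | zero =>
    intro N _ P Q _ hL _ _
    refine ⟨1, le_rfl, le_of_eq (pow_zero Q).symm, fun m hm => ⟨0, ?_⟩⟩
    rw [hL m (by
      have : m.degree ≠ 0 := fun h0 => hm ((Finsupp.degree_eq_zero_iff m).1 h0)
      omega)]
    simp
  | succ j ih => exact step ih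

theorem sm_eq_fin (N : ℕ) [NeZero N] (P : MvPolynomial σ ℝ) :
    sm N P = ∑ x : σ → Fin N, ee (eval (fun a => ((x a : ℕ) : ℝ)) P) := by
  obtain ⟨M, rfl⟩ := Nat.exists_eq_succ_of_ne_zero (NeZero.ne N)
  unfold sm ph
  refine Finset.sum_congr rfl fun x _ => ?_
  congr 2

/-- Large bias forces a small common denominator, uniformly in the number of variables. -/
theorem upgF (d N : ℕ) (hN : 1 ≤ N) (P : MvPolynomial σ ℝ) (hd : P.totalDegree ≤ d)
    (hP : IsInt (C (N : ℝ) * P)) (Q : ℝ) (hQ : 2 ≤ Q)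
    (hb : (N : ℝ) ^ Fintype.card σ
      ≤ Q * ‖∑ x : σ → Fin N, ee (eval (fun a => ((x a : ℕ) : ℝ)) P)‖) :
    ∃ n : ℕ, 1 ≤ n ∧ (n : ℝ) ≤ Q ^ (2 * cst d) ∧
      ∀ m : σ →₀ ℕ, m ≠ 0 → ∃ k : ℤ, n * coeff m P = k := by
  have : NeZero N := ⟨by omega⟩
  have h1 : Q ≤ ⌈Q⌉₊ := Nat.le_ceil Q
  have h2 : (⌈Q⌉₊ : ℝ) ≤ Q ^ 2 := by
    have := Nat.ceil_lt_add_one (by linarith : 0 ≤ Q)
    nlinarith
  obtain ⟨n, hn1, hn2, hn⟩ := st (σ := σ) d N P ⌈Q⌉₊ (by exact_mod_cast hQ.trans h1)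
    (lo_of_totalDegree hd) hP (by
      rw [Fintype.card_fun, ZMod.card, sm_eq_fin]
      push_cast
      exact hb.trans (mul_le_mul_of_nonneg_right h1 (norm_nonneg _)))
  refine ⟨n, hn1, ?_, hn⟩
  calc (n : ℝ) ≤ (⌈Q⌉₊ : ℝ) ^ cst d := by exact_mod_cast hn2
    _ ≤ (Q ^ 2) ^ cst d := pow_le_pow_left₀ (by positivity) h2 _
    _ = _ := by rw [← pow_mul]

end

end Vale.Agent.P057T.UpgF
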