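import Vale.Agent.P057L.Stz

/-! Local stability of real valued almost additive maps on the small points of a lattice. -/

set_option linter.all false

open Finset
open scoped BigOperators

namespace Vale.Agent.P057T.ExtH82

open Vale.Agent.P057L

noncomputable section

variable {D D' : Type} [Fintype D]

/-- small integer points -/
def Sm (A : D' → D → ℝ) (r : ℝ) (x : D → ℤ) : Prop := Sa A r (fun d => (x d : ℝ))

theorem Sm.mono {A : D' → D → ℝ} {r s : ℝ} {x : D → ℤ} (h : Sm A r x) (hs : r ≤ s) : Sm A s x :=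
  fun i => (h i).trans hs

theorem Sm.zero {A : D' → D → ℝ} {r : ℝ} (h : 0 ≤ r) : Sm A r 0 := fun i => by simpa using h

theorem Sm.neg {A : D' → D → ℝ} {r : ℝ} {x : D → ℤ} (h : Sm A r x) : Sm A r (-x) := fun i => by
  have := h i
  simpa [Finset.sum_neg_distrib, abs_neg] using this

theorem Sm.add {A : D' → D → ℝ} {r s : ℝ} {x y : D → ℤ} (h : Sm A r x) (k : Sm A s y) :
    Sm A (r + s) (x + y) := fun i => by
  have h1 := h i
  have h2 := k i
  have : ∑ d, A i d * (((x + y) d : ℤ) : ℝ) = ∑ d, A i d * (x d : ℝ) + ∑ d, A i d * (y d : ℝ) := by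
    rw [← sum_add_distrib]
    exact sum_congr rfl fun d _ => by simp [mul_add]
  show |∑ d, A i d * (((x + y) d : ℤ) : ℝ)| ≤ _
  rw [this]
  exact (abs_add_le _ _).trans (add_le_add h1 h2)

/-- lists of small points with sum zero -/
theorem lst {A : D' → D → ℝ} {η ρ ε : ℝ} {R : (D → ℤ) → ℝ} (ρ0 : 0 ≤ ρ)
    (hρ : (Fintype.card D + 1) * ρ ≤ η)
    (hR : ∀ a b, Sm A η a → Sm A η b → Sm A η (a + b) → |R (a + b) - R a - R b| ≤ ε)
    (m : ℕ) (v : Fin m → D → ℤ) (hv : ∀ i, Sm A ρ (v i)) (h0 : ∑ i, v i = 0) :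
    |∑ i, R (v i)| ≤ (m + 2) * ε := by
  classical
  have d0 : (0 : ℝ) ≤ Fintype.card D := Nat.cast_nonneg _
  have e1 : ρ ≤ η := by nlinarith
  have e2 : Fintype.card D * ρ ≤ η := by nlinarith
  have z0 : |R 0| ≤ ε := by
    have := hR 0 0 (Sm.zero (by linarith)) (Sm.zero (by linarith))
      (by simpa using Sm.zero (by linarith))
    rw [add_zero, sub_self, zero_sub, abs_neg] at this
    exact this
  obtain ⟨σ, hσ⟩ := stz D D' A ρ m (fun i d => (v i d : ℝ)) ρ0 hv (by
    funext d
    have := congrFun h0 d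
    simp only [Finset.sum_apply, Pi.zero_apply] at this ⊢
    exact_mod_cast this)
  set P : ℕ → D → ℤ := fun k => ∑ i ∈ univ.filter (fun i : Fin m => (i : ℕ) < k), v (σ i) with hP
  have sP : ∀ k, Sm A η (P k) := fun k => by
    refine Sm.mono (r := Fintype.card D * ρ) ?_ e2
    have := hσ k
    unfold Sm
    convert this using 2 with d
    simp [hP, Finset.sum_apply]
  have key : ∀ k, k ≤ m → |R (P k) -
      ∑ i ∈ univ.filter (fun i : Fin m => (i : ℕ) < k), R (v (σ i))| ≤ (k + 1) * ε := by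
    intro k
    induction k with
    | zero => intro _; simpa [hP] using z0
    | succ k ih =>
      intro hk
      have ih := ih (by omega)
      have fl : univ.filter (fun i : Fin m => (i : ℕ) < k + 1) =
          insert ⟨k, by omega⟩ (univ.filter (fun i : Fin m => (i : ℕ) < k)) := by
        ext i
        simp only [mem_filter, mem_univ, true_and, mem_insert, Fin.ext_iff]
        omega
      have nm : (⟨k, by omega⟩ : Fin m) ∉ univ.filter (fun i : Fin m => (i : ℕ) < k) := by simp
      have e3 : P (k + 1) = P k + v (σ ⟨k, by omega⟩) := by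
        simp only [hP]
        rw [fl, sum_insert nm, add_comm]
      have e4 := hR (P k) (v (σ ⟨k, by omega⟩)) (sP k) ((hv _).mono e1) (e3 ▸ sP (k + 1))
      rw [fl, sum_insert nm, e3]
      rw [abs_le] at *
      push_cast
      constructor <;> linarith [ih.1, ih.2, e4.1, e4.2]
  have k1 := key m le_rfl
  have fl : univ.filter (fun i : Fin m => (i : ℕ) < m) = univ := by
    ext i
    simp
  have e5 : P m = 0 := by
    simp only [hP]
    rw [fl, Equiv.sum_comp σ v, h0]
  rw [e5, fl, Equiv.sum_comp σ (fun i => R (v i))] at k1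
  rw [abs_le] at *
  constructor <;> linarith [k1.1, k1.2, z0.1, z0.2]

/-- integer relations -/
theorem rel {A : D' → D → ℝ} {η ρ ε : ℝ} {R : (D → ℤ) → ℝ} (ρ0 : 0 ≤ ρ)
    (hρ : (Fintype.card D + 1) * ρ ≤ η)
    (hR : ∀ a b, Sm A η a → Sm A η b → Sm A η (a + b) → |R (a + b) - R a - R b| ≤ ε)
    {ι : Type} [Fintype ι] (x : ι → D → ℤ) (hx : ∀ i, Sm A ρ (x i)) (c : ι → ℤ)
    (hc : ∑ i, c i • x i = 0) :
    |∑ i, (c i : ℝ) * R (x i)| ≤ 5 * ε * ∑ i, |(c i : ℝ)| := by
  classical
  have d0 : (0 : ℝ) ≤ Fintype.card D := Nat.cast_nonneg _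
  have e1 : ρ ≤ η := by nlinarith
  have z0 : |R 0| ≤ ε := by
    have := hR 0 0 (Sm.zero (by linarith)) (Sm.zero (by linarith))
      (by simpa using Sm.zero (by linarith))
    rw [add_zero, sub_self, zero_sub, abs_neg] at this
    exact this
  have ε0 : 0 ≤ ε := (abs_nonneg _).trans z0
  by_cases hz : ∀ i, c i = 0
  · simp [hz]
  push Not at hz
  obtain ⟨i0, hi0⟩ := hz
  let T := Σ i : ι, Fin (c i).natAbs
  let w : T → D → ℤ := fun t => (c t.1).sign • x t.1
  let e := (Fintype.equivFin T).symm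
  have hw : ∀ t, Sm A ρ (w t) := fun t => by
    rcases Int.sign_trichotomy (c t.1) with h | h | h
    · simpa [w, h] using hx t.1
    · simpa [w, h] using Sm.zero (A := A) ρ0
    · simpa [w, h] using (hx t.1).neg
  have s0 : ∑ t, w t = 0 := by
    rw [← hc, Fintype.sum_sigma]
    refine sum_congr rfl fun i _ => ?_
    simp only [w, sum_const, card_univ, Fintype.card_fin]
    rw [← natCast_zsmul, smul_smul, mul_comm, Int.sign_mul_natAbs]
  have h1 := lst ρ0 hρ hR _ (fun j => w (e j)) (fun j => hw _) (by rw [Equiv.sum_comp e w, s0])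
  rw [Equiv.sum_comp e (fun t => R (w t)), Fintype.sum_sigma] at h1
  have cT : (Fintype.card T : ℝ) = ∑ i, |(c i : ℝ)| := by
    rw [Fintype.card_sigma]
    push_cast
    refine sum_congr rfl fun i _ => ?_
    rw [Fintype.card_fin, Nat.cast_natAbs, Int.cast_abs]
  rw [cT] at h1
  have one : 1 ≤ ∑ i, |(c i : ℝ)| := by
    refine le_trans ?_ (single_le_sum (f := fun i => |(c i : ℝ)|) (fun _ _ => abs_nonneg _)
      (mem_univ i0))
    exact_mod_cast Int.one_le_abs hi0
  have h2 : |∑ i, (c i : ℝ) * R (x i) - ∑ i, ∑ j : Fin (c i).natAbs, R (w ⟨i, j⟩)| ≤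
      ∑ i, 2 * ε * |(c i : ℝ)| := by
    rw [← sum_sub_distrib]
    refine (abs_sum_le_sum_abs _ _).trans (sum_le_sum fun i _ => ?_)
    simp only [w, sum_const, card_univ, Fintype.card_fin, nsmul_eq_mul]
    rw [Nat.cast_natAbs, Int.cast_abs]
    rcases lt_trichotomy (c i) 0 with h | h | h
    · have h' : (c i : ℝ) < 0 := by exact_mod_cast h
      have k := hR (x i) (-x i) ((hx i).mono e1) ((hx i).neg.mono e1)
        (by simpa using Sm.zero (by linarith))
      rw [add_neg_cancel] at k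
      rw [Int.sign_eq_neg_one_of_neg h, neg_smul, one_smul, abs_of_neg h']
      have k2 : |R (x i) + R (-x i)| ≤ 2 * ε := by
        rw [abs_le] at *
        constructor <;> linarith [k.1, k.2, z0.1, z0.2]
      have : (c i : ℝ) * R (x i) - -(c i : ℝ) * R (-x i) = (c i : ℝ) * (R (x i) + R (-x i)) := by
        ring
      rw [this, abs_mul, abs_of_neg h', mul_comm]
      exact mul_le_mul_of_nonneg_right k2 (by linarith)
    · simp [h]
    · have h' : (0 : ℝ) < c i := by exact_mod_cast h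
      rw [Int.sign_eq_one_of_pos h, one_smul, abs_of_pos h', sub_self, abs_zero]
      positivity
  rw [← mul_sum] at h2
  rw [abs_le] at *
  constructor <;> nlinarith [h1.1, h1.2, h2.1, h2.2]

/-- values that almost respect all integer relations are close to a linear form -/
theorem hb {ι : Type} [Fintype ι] (x : ι → D → ℤ) (r : ι → ℝ) (K : ℝ)
    (h : ∀ c : ι → ℤ, ∑ i, c i • x i = 0 → |∑ i, (c i : ℝ) * r i| ≤ K * ∑ i, |(c i : ℝ)|)
    (K0 : 0 ≤ K) : ∃ ξ : D → ℝ, ∀ i, |r i - ∑ d, ξ d * x i d| ≤ K := by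
  classical
  let π : (ι → ℚ) →ₗ[ℚ] (D → ℚ) := Fintype.linearCombination ℚ (fun i d => (x i d : ℚ))
  have πa : ∀ c, π c = ∑ i, c i • fun d => (x i d : ℚ) := fun c =>
    Fintype.linearCombination_apply _ _ _
  let F : (ι → ℝ) →ₗ[ℝ] ℝ := Fintype.linearCombination ℝ r
  have Fa : ∀ c, F c = ∑ i, c i * r i := fun c => by
    simp [F, Fintype.linearCombination_apply]
  let N : (ι → ℝ) → ℝ := fun c => K * ∑ i, |c i|
  let Z : Set (ι → ℝ) := {w | ∃ c, π c = 0 ∧ w = fun i => (c i : ℝ)}
  have hZ : ∀ w ∈ Z, F w ≤ N w := by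
    rintro _ ⟨c, hc, rfl⟩
    obtain ⟨n, hn⟩ := IsLocalization.exist_integer_multiples_of_finite (nonZeroDivisors ℤ) c
    choose m hm using hn
    have n0 : (n : ℤ) ≠ 0 := nonZeroDivisors.coe_ne_zero n
    have hm' : ∀ i, (m i : ℚ) = (n : ℤ) * c i := fun i => by
      have := hm i
      simpa using this
    have a1 : ∀ i, (((n : ℤ).sign * m i : ℤ) : ℝ) = |((n : ℤ) : ℝ)| * c i := fun i => by
      have e1 : ((m i : ℚ) : ℝ) = (((n : ℤ) : ℚ) * c i : ℚ) := by rw [hm' i]
      have e2 : (((n : ℤ).sign * n : ℤ) : ℝ) = |((n : ℤ) : ℝ)| := by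
        rw [Int.sign_mul_self_eq_abs, Int.cast_abs]
      push_cast at e1 e2 ⊢
      rw [e1, ← mul_assoc, e2]
    have h1 := h (fun i => (n : ℤ).sign * m i) (by
      funext d
      have e1 := congrFun ((πa c).symm.trans hc) d
      simp only [Finset.sum_apply, Pi.smul_apply, smul_eq_mul, Pi.zero_apply] at e1 ⊢
      have e2 : ((∑ i, (n : ℤ).sign * m i * x i d : ℤ) : ℚ) = 0 := by
        push_cast
        simp only [hm', mul_assoc]
        rw [← mul_sum, ← mul_sum, e1, mul_zero, mul_zero]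
      exact_mod_cast e2)
    have np : (0 : ℝ) < |((n : ℤ) : ℝ)| := abs_pos.2 (by exact_mod_cast n0)
    simp only [a1, abs_mul, abs_abs, mul_assoc] at h1
    rw [← mul_sum, ← mul_sum, abs_mul, abs_abs, mul_left_comm] at h1
    rw [Fa]
    exact (le_abs_self _).trans (le_of_mul_le_mul_left h1 np)
  have cl : IsClosed {w | F w ≤ N w} :=
    isClosed_le F.continuous_of_finiteDimensional (by fun_prop)
  have hW : ∀ w ∈ Submodule.span ℝ Z, w ∈ closure Z := by
    intro w hw
    induction hw using Submodule.span_induction with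
    | mem w h => exact subset_closure h
    | zero => exact subset_closure ⟨0, map_zero _, by funext i; simp⟩
    | add u v _ _ hu hv =>
      refine map_mem_closure₂ continuous_add hu hv ?_
      rintro _ ⟨c, hc, rfl⟩ _ ⟨c', hc', rfl⟩
      exact ⟨c + c', by rw [map_add, hc, hc', add_zero], by funext i; simp⟩
    | smul t u _ hu =>
      have ht : t ∈ closure (Set.range ((↑) : ℚ → ℝ)) := Rat.denseRange_cast t
      refine map_mem_closure₂ (f := fun (t : ℝ) (u : ι → ℝ) => t • u) continuous_smul ht hu ?_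
      rintro _ ⟨q, rfl⟩ _ ⟨c, hc, rfl⟩
      exact ⟨q • c, by rw [map_smul, hc, smul_zero], by funext i; simp⟩
  obtain ⟨g, g1, g2⟩ := exists_extension_of_le_sublinear
    (⟨Submodule.span ℝ Z, F.domRestrict _⟩ : (ι → ℝ) →ₗ.[ℝ] ℝ) N
    (fun t ht c => by
      simp only [N, Pi.smul_apply, smul_eq_mul, abs_mul, abs_of_pos ht]
      rw [← mul_sum]
      ring)
    (fun u v => by
      simp only [N, Pi.add_apply]
      rw [← mul_add, ← sum_add_distrib]
      exact mul_le_mul_of_nonneg_left (sum_le_sum fun i _ => abs_add_le _ _) K0)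
    (fun w => closure_minimal hZ cl (hW w.1 w.2))
  let H : (ι → ℚ) →ₗ[ℚ] ℝ :=
    { toFun := fun c => F (fun i => (c i : ℝ)) - g (fun i => (c i : ℝ))
      map_add' := fun c c' => by
        have : (fun i => (((c + c') i : ℚ) : ℝ)) = (fun i => (c i : ℝ)) + fun i => (c' i : ℝ) := by
          funext i; simp
        rw [this, map_add, map_add]; ring
      map_smul' := fun q c => by
        have : (fun i => (((q • c) i : ℚ) : ℝ)) = (q : ℝ) • fun i => (c i : ℝ) := by
          funext i; simp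
        rw [this, map_smul, map_smul]
        simp only [smul_eq_mul, RingHom.id_apply, Rat.smul_def]; ring }
  have H0 : ∀ c, π c = 0 → H c = 0 := fun c hc => by
    have := g1 ⟨_, Submodule.subset_span ⟨c, hc, rfl⟩⟩
    exact sub_eq_zero.2 this.symm
  obtain ⟨s, hs⟩ := π.rangeRestrict.exists_rightInverse_of_surjective π.range_rangeRestrict
  obtain ⟨L, hL⟩ := LinearMap.exists_extend (H.comp s)
  have LH : ∀ c, L (π c) = H c := fun c => by
    have e1 := LinearMap.congr_fun hL (π.rangeRestrict c)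
    have e2 := congrArg Subtype.val (LinearMap.congr_fun hs (π.rangeRestrict c))
    have e3 := H0 (c - s (π.rangeRestrict c)) (by
      rw [map_sub]
      exact sub_eq_zero.2 e2.symm)
    rw [map_sub] at e3
    exact e1.trans (sub_eq_zero.1 e3).symm
  refine ⟨fun d => L (Pi.single d 1), fun i => ?_⟩
  have e1 : π (Pi.single i 1) = ∑ d, (x i d : ℚ) • (Pi.single d 1 : D → ℚ) := by
    rw [πa, Finset.sum_eq_single i (fun j _ hj => by simp [hj]) (by simp)]
    funext d
    simp [Finset.sum_apply, Pi.single_apply]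
  have e2 := LH (Pi.single i 1)
  rw [e1, map_sum] at e2
  have e3 : (fun j => (((Pi.single i 1 : ι → ℚ) j : ℚ) : ℝ)) = Pi.single i 1 := by
    funext j
    by_cases hj : j = i <;> simp [hj, Pi.single_apply]
  have e4 : H (Pi.single i 1) = r i - g (Pi.single i 1) := by
    show F _ - g _ = _
    rw [e3, Fa]
    simp [Pi.single_apply]
  have e5 : ∑ d, L (Pi.single d 1) * (x i d : ℝ) = r i - g (Pi.single i 1) := by
    rw [← e4, ← e2]
    refine sum_congr rfl fun d _ => ?_
    rw [map_smul, Rat.smul_def, mul_comm]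
    simp
  have n1 : ∀ t : ℝ, |t| = 1 → N (t • Pi.single i 1) = K := fun t ht => by
    simp only [N, Pi.smul_apply, smul_eq_mul, abs_mul, ht, one_mul]
    rw [Finset.sum_eq_single i (fun j _ hj => by simp [hj]) (by simp)]
    simp
  have b1 := g2 ((1 : ℝ) • Pi.single i 1)
  have b2 := g2 ((-1 : ℝ) • Pi.single i 1)
  rw [n1 _ (by simp), map_smul] at b1 b2
  rw [e5, sub_sub_cancel, abs_le]
  simp only [smul_eq_mul] at b1 b2
  constructor <;> linarith

/-- real valued almost additive maps are close to linear forms on a smaller ball -/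
theorem real {A : D' → D → ℝ} {η ρ ε : ℝ} {R : (D → ℤ) → ℝ} (ρ0 : 0 ≤ ρ) (ε0 : 0 ≤ ε)
    (hρ : (Fintype.card D + 1) * ρ ≤ η) (hf : {x | Sm A ρ x}.Finite)
    (hR : ∀ a b, Sm A η a → Sm A η b → Sm A η (a + b) → |R (a + b) - R a - R b| ≤ ε) :
    ∃ ξ : D → ℝ, ∀ x, Sm A ρ x → |R x - ∑ d, ξ d * x d| ≤ 5 * ε := by
  haveI := hf.fintype
  obtain ⟨ξ, hξ⟩ := hb (ι := {x | Sm A ρ x}) (fun i => i.1) (fun i => R i.1) (5 * ε)
    (fun c hc => rel ρ0 hρ hR _ (fun i => i.2) c hc) (by linarith)
  exact ⟨ξ, fun x hx => hξ ⟨x, hx⟩⟩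

end

end Vale.Agent.P057T.ExtH82
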