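import Vale.Agent.P057T.PoiH52
import Mathlib.Analysis.Real.Pi.Bounds
import Mathlib.Analysis.Complex.ExponentialBounds

/-!
One lattice with a Gaussian weight: moments, shifts, covering radius, affine relations.
-/

open MeasureTheory Set Complex Matrix
open scoped Real
open Vale.Agent.P267.H775

namespace Vale.Agent.P057T.Poi

noncomputable section

set_option linter.unusedSectionVars false

variable {ι : Type*} [Fintype ι] [DecidableEq ι]

/-- The bilinear form of `qf`. -/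
def bf (M : Matrix ι ι ℝ) (x y : ι → ℝ) : ℝ := ∑ i, (M *ᵥ x) i * (M *ᵥ y) i

theorem bf_self (M : Matrix ι ι ℝ) (x : ι → ℝ) : bf M x x = qf M x := by
  simp only [bf, qf, sq]

theorem bf_comm (M : Matrix ι ι ℝ) (x y : ι → ℝ) : bf M x y = bf M y x := by
  simp only [bf, mul_comm]

theorem qf_add (M : Matrix ι ι ℝ) (x y : ι → ℝ) :
    qf M (x + y) = qf M x + 2 * bf M x y + qf M y := by
  simp only [qf, bf, mulVec_add, Pi.add_apply, Finset.mul_sum, ← Finset.sum_add_distrib]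
  refine Finset.sum_congr rfl fun i _ => ?_
  ring

theorem qf_sub (M : Matrix ι ι ℝ) (x y : ι → ℝ) :
    qf M (x - y) = qf M x - 2 * bf M x y + qf M y := by
  simp only [qf, bf, mulVec_sub, Pi.sub_apply, Finset.mul_sum, ← Finset.sum_add_distrib,
    ← Finset.sum_sub_distrib]
  refine Finset.sum_congr rfl fun i _ => ?_
  ring

theorem qf_smul_vec (M : Matrix ι ι ℝ) (s : ℝ) (x : ι → ℝ) : qf M (s • x) = s ^ 2 * qf M x := by
  simp only [qf, mulVec_smul, Pi.smul_apply, smul_eq_mul, mul_pow, Finset.mul_sum]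

theorem bf_sq_le (M : Matrix ι ι ℝ) (x y : ι → ℝ) : bf M x y ^ 2 ≤ qf M x * qf M y :=
  Finset.sum_mul_sq_le_sq_mul_sq _ _ _

theorem qf_add_le (M : Matrix ι ι ℝ) (x y : ι → ℝ) : qf M (x + y) ≤ 2 * qf M x + 2 * qf M y := by
  have h1 := qf_add M x y
  have h2 := qf_sub M x y
  have h3 := qf_nonneg M (x - y)
  linarith

theorem qf_eq_zero {M : Matrix ι ι ℝ} (hM : M.det ≠ 0) {x : ι → ℝ} (h : qf M x = 0) : x = 0 := by
  obtain ⟨c, hc, hl⟩ := exists_lower M hM
  have h1 := hl x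
  rw [h] at h1
  have h2 : ∑ i, x i ^ 2 ≤ 0 := le_of_mul_le_mul_left (by rwa [mul_zero]) hc
  have h3 := (Finset.sum_eq_zero_iff_of_nonneg (fun i _ => sq_nonneg (x i))).1
    (le_antisymm h2 (Finset.sum_nonneg fun i _ => sq_nonneg (x i)))
  funext i
  exact pow_eq_zero_iff (two_ne_zero) |>.1 (h3 i (Finset.mem_univ i))

/-- The square identity behind van der Corput differencing. -/
theorem gq_mul_gq (M : Matrix ι ι ℝ) (u v : ι → ℝ) :
    gq M u * gq M (u + v) =
      gq (√2 • M) (u + (1 / 2 : ℝ) • v) * gq ((√2)⁻¹ • M) v := by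
  unfold gq
  rw [← Real.exp_add, ← Real.exp_add, qf_smul, qf_smul, inv_pow, Real.sq_sqrt (by norm_num),
    qf_add, qf_add, qf_smul_vec]
  have : bf M u ((1 / 2 : ℝ) • v) = 1 / 2 * bf M u v := by
    simp only [bf, mulVec_smul, Pi.smul_apply, smul_eq_mul, Finset.mul_sum]
    refine Finset.sum_congr rfl fun i _ => ?_
    ring
  rw [this]
  congr 1
  ring

/-- The vector dual to the linear form `l`. -/
def shp (M : Matrix ι ι ℝ) (l : ι → ℝ) : ι → ℝ := M⁻¹ *ᵥ ((M⁻¹)ᵀ *ᵥ l)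

theorem mul_shp {M : Matrix ι ι ℝ} (hM : M.det ≠ 0) (l : ι → ℝ) :
    M *ᵥ shp M l = (M⁻¹)ᵀ *ᵥ l := by
  rw [shp, mulVec_mulVec, mul_nonsing_inv _ (isUnit_iff_ne_zero.2 hM), one_mulVec]

theorem qf_shp {M : Matrix ι ι ℝ} (hM : M.det ≠ 0) (l : ι → ℝ) :
    qf M (shp M l) = qf (M⁻¹)ᵀ l := by
  simp only [qf, mul_shp hM]

theorem bf_shp {M : Matrix ι ι ℝ} (hM : M.det ≠ 0) (l y : ι → ℝ) :
    bf M (shp M l) y = ∑ i, l i * y i := by
  rw [bf, mul_shp hM, dot_dual hM]

theorem gq_mul_exp {M : Matrix ι ι ℝ} (hM : M.det ≠ 0) (l y : ι → ℝ) :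
    gq M y * Real.exp (2 * π * ∑ i, l i * y i) =
      Real.exp (π * qf (M⁻¹)ᵀ l) * gq M (y - shp M l) := by
  unfold gq
  rw [← Real.exp_add, ← Real.exp_add, qf_sub, bf_comm, bf_shp hM, qf_shp hM]
  congr 1
  ring

theorem hasSum_mgf {M : Matrix ι ι ℝ} (hM : M.det ≠ 0) (l x : ι → ℝ) :
    HasSum (fun n : ι → ℤ => gq M (x + toR n) * Real.exp (2 * π * ∑ i, l i * (x + toR n) i))
      (Real.exp (π * qf (M⁻¹)ᵀ l) * th M (x - shp M l)) := by
  have h := (summable_gq hM (x - shp M l)).hasSum.mul_left (Real.exp (π * qf (M⁻¹)ᵀ l))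
  have he : (fun n : ι → ℤ => gq M (x + toR n) * Real.exp (2 * π * ∑ i, l i * (x + toR n) i)) =
      fun n => Real.exp (π * qf (M⁻¹)ᵀ l) * gq M (x - shp M l + toR n) := by
    funext n
    rw [gq_mul_exp hM]
    congr 2
    abel
  rw [he]
  exact h

theorem sq_le_exp (u : ℝ) : u ^ 2 ≤ Real.exp u + Real.exp (-u) := by
  rcases le_total 0 u with h | h
  · have h1 := Real.pow_div_factorial_le_exp u h 2
    have h2 := Real.pow_div_factorial_le_exp u h 4
    have h3 := Real.exp_pos (-u)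
    have h4 := Real.sum_le_exp_of_nonneg h 5
    simp only [Finset.sum_range_succ, Finset.range_zero, Finset.sum_empty, Nat.factorial] at h4
    push_cast at h4
    nlinarith [sq_nonneg (u ^ 2 - 3), sq_nonneg (u - 1), pow_nonneg h 3, sq_nonneg u]
  · have h' : 0 ≤ -u := by linarith
    have h3 := Real.exp_pos u
    have h4 := Real.sum_le_exp_of_nonneg h' 5
    simp only [Finset.sum_range_succ, Finset.range_zero, Finset.sum_empty, Nat.factorial] at h4
    push_cast at h4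
    nlinarith [sq_nonneg (u ^ 2 - 3), sq_nonneg (u + 1), pow_nonneg h' 3, sq_nonneg u]

/-- Second moment of a linear form under the (shifted) lattice Gaussian. -/
theorem mom2 {M : Matrix ι ι ℝ} (hM : M.det ≠ 0) (l x : ι → ℝ) :
    Summable (fun n : ι → ℤ => gq M (x + toR n) * (∑ i, l i * (x + toR n) i) ^ 2) ∧
    ∑' n : ι → ℤ, gq M (x + toR n) * (∑ i, l i * (x + toR n) i) ^ 2 ≤
      qf (M⁻¹)ᵀ l * th M 0 := by
  by_cases hl : l = 0
  · subst hl
    simp [qf_zero, summable_zero]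
  have hq : 0 < qf (M⁻¹)ᵀ l :=
    lt_of_le_of_ne (qf_nonneg _ _) fun h => hl (qf_eq_zero (det_dual hM) h.symm)
  obtain ⟨t, ht0, ht⟩ : ∃ t : ℝ, 0 < t ∧ t ^ 2 * (π * qf (M⁻¹)ᵀ l) = 1 := by
    have hp : 0 < π * qf (M⁻¹)ᵀ l := mul_pos Real.pi_pos hq
    refine ⟨(√(π * qf (M⁻¹)ᵀ l))⁻¹, by positivity, ?_⟩
    rw [inv_pow, Real.sq_sqrt hp.le, inv_mul_cancel₀ hp.ne']
  have h1 := hasSum_mgf hM (t • l) x
  have h2 := hasSum_mgf hM (-(t • l)) x
  have e1 : π * qf (M⁻¹)ᵀ (t • l) = 1 := by rw [qf_smul_vec]; linarith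
  rw [e1] at h1
  rw [qf_neg, e1] at h2
  have h3 := (h1.add h2).mul_left ((2 * π * t) ^ 2)⁻¹
  have hc : 0 < (2 * π * t) ^ 2 := by have := Real.pi_pos; positivity
  have hle : ∀ n : ι → ℤ, gq M (x + toR n) * (∑ i, l i * (x + toR n) i) ^ 2 ≤
      ((2 * π * t) ^ 2)⁻¹ * (gq M (x + toR n) * Real.exp (2 * π * ∑ i, (t • l) i * (x + toR n) i) +
        gq M (x + toR n) * Real.exp (2 * π * ∑ i, (-(t • l)) i * (x + toR n) i)) := by
    intro n
    have a1 : ∑ i, (t • l) i * (x + toR n) i = t * ∑ i, l i * (x + toR n) i := by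
      simp only [Pi.smul_apply, smul_eq_mul, Finset.mul_sum, mul_assoc]
    have a2 : ∑ i, (-(t • l)) i * (x + toR n) i = -(t * ∑ i, l i * (x + toR n) i) := by
      rw [← a1, ← Finset.sum_neg_distrib]
      simp only [Pi.neg_apply, neg_mul]
    rw [a1, a2, ← mul_add, le_inv_mul_iff₀ hc, mul_neg]
    have a3 := sq_le_exp (2 * π * (t * ∑ i, l i * (x + toR n) i))
    have a4 := mul_le_mul_of_nonneg_left a3 (gq_pos M (x + toR n)).le
    calc _ = gq M (x + toR n) * (2 * π * (t * ∑ i, l i * (x + toR n) i)) ^ 2 := by ring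
      _ ≤ _ := a4
  have hs : Summable (fun n : ι → ℤ => gq M (x + toR n) * (∑ i, l i * (x + toR n) i) ^ 2) :=
    Summable.of_nonneg_of_le (fun n => mul_nonneg (gq_pos _ _).le (sq_nonneg _)) hle h3.summable
  refine ⟨hs, (hasSum_le hle hs.hasSum h3).trans ?_⟩
  rw [inv_mul_le_iff₀ hc]
  have b1 := th_le hM (x - shp M (t • l))
  have b2 := th_le hM (x - shp M (-(t • l)))
  have b3 : Real.exp 1 ≤ 3 := by have := Real.exp_one_lt_d9; linarith
  have b4 := (th_pos hM 0).le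
  have b5 : (2 * π * t) ^ 2 * (qf (M⁻¹)ᵀ l * th M 0) = 4 * π * th M 0 := by
    calc _ = 4 * π * (t ^ 2 * (π * qf (M⁻¹)ᵀ l)) * th M 0 := by ring
      _ = _ := by rw [ht, mul_one]
  rw [b5]
  have b6 := Real.pi_gt_three
  have b7 := Real.exp_pos 1
  nlinarith [mul_le_mul b3 b1 (th_pos hM _).le (by norm_num : (0 : ℝ) ≤ 3),
    mul_le_mul b3 b2 (th_pos hM _).le (by norm_num : (0 : ℝ) ≤ 3)]

/-- First absolute moment of `bf M g`. -/
theorem mom1 {M : Matrix ι ι ℝ} (hM : M.det ≠ 0) (g x : ι → ℝ) {γ : ℝ} (hγ : 0 < γ)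
    (hg : qf M g ≤ γ ^ 2) :
    Summable (fun n : ι → ℤ => gq M (x + toR n) * |bf M g (x + toR n)|) ∧
    ∑' n : ι → ℤ, gq M (x + toR n) * |bf M g (x + toR n)| ≤ γ * th M 0 := by
  set l : ι → ℝ := Mᵀ *ᵥ (M *ᵥ g) with hl
  have hb : ∀ y, bf M g y = ∑ i, l i * y i := by
    intro y
    have : (M *ᵥ g) ⬝ᵥ (M *ᵥ y) = (Mᵀ *ᵥ (M *ᵥ g)) ⬝ᵥ y := by
      rw [mulVec_transpose, ← dotProduct_mulVec]
    exact this
  have hq : qf (M⁻¹)ᵀ l = qf M g := by
    simp only [qf, hl]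
    rw [mulVec_mulVec, ← transpose_mul, mul_nonsing_inv _ (isUnit_iff_ne_zero.2 hM),
      transpose_one, one_mulVec]
  obtain ⟨hs, hm⟩ := mom2 hM l x
  have h3 := (hs.hasSum.mul_left (2 * γ)⁻¹).add ((summable_gq hM x).hasSum.mul_left (γ / 2))
  have hle : ∀ n : ι → ℤ, gq M (x + toR n) * |bf M g (x + toR n)| ≤
      (2 * γ)⁻¹ * (gq M (x + toR n) * (∑ i, l i * (x + toR n) i) ^ 2) +
        γ / 2 * gq M (x + toR n) := by
    intro n
    rw [← hb, ← sq_abs]
    have a1 : |bf M g (x + toR n)| ≤ (2 * γ)⁻¹ * |bf M g (x + toR n)| ^ 2 + γ / 2 := by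
      rw [← sub_nonneg]
      have : (2 * γ)⁻¹ * |bf M g (x + toR n)| ^ 2 + γ / 2 - |bf M g (x + toR n)| =
          (2 * γ)⁻¹ * (|bf M g (x + toR n)| - γ) ^ 2 := by
        field_simp
        ring
      rw [this]
      positivity
    have a2 := mul_le_mul_of_nonneg_left a1 (gq_pos M (x + toR n)).le
    linarith
  have hs1 := Summable.of_nonneg_of_le
    (fun n => mul_nonneg (gq_pos _ _).le (abs_nonneg _)) hle h3.summable
  refine ⟨hs1, (hasSum_le hle hs1.hasSum h3).trans ?_⟩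
  have b1 : ∑' n : ι → ℤ, gq M (x + toR n) ≤ th M 0 := th_le hM x
  have b2 := (th_pos hM 0).le
  have b3 : (2 * γ)⁻¹ * ∑' n : ι → ℤ, gq M (x + toR n) * (∑ i, l i * (x + toR n) i) ^ 2 ≤
      γ / 2 * th M 0 := by
    rw [inv_mul_le_iff₀ (by positivity)]
    refine hm.trans ?_
    rw [hq]
    nlinarith
  nlinarith

theorem abs_exp_sub_le (a b : ℝ) :
    |Real.exp a - Real.exp b| ≤ |a - b| * (Real.exp a + Real.exp b) := by
  have key : ∀ a b : ℝ, b ≤ a → Real.exp a - Real.exp b ≤ (a - b) * Real.exp a := by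
    intro a b _
    have h1 := Real.add_one_le_exp (b - a)
    have h2 : Real.exp b = Real.exp (b - a) * Real.exp a := by rw [← Real.exp_add]; ring_nf
    have h3 := Real.exp_pos a
    nlinarith
  rcases le_total b a with h | h
  · rw [abs_of_nonneg (sub_nonneg.2 (Real.exp_le_exp.2 h)), abs_of_nonneg (sub_nonneg.2 h)]
    have := key a b h
    nlinarith [Real.exp_pos b, sub_nonneg.2 h]
  · rw [abs_sub_comm, abs_sub_comm a, abs_of_nonneg (sub_nonneg.2 (Real.exp_le_exp.2 h)),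
      abs_of_nonneg (sub_nonneg.2 h)]
    have := key b a h
    nlinarith [Real.exp_pos a, sub_nonneg.2 h]

/-- Total variation of a shift. -/
theorem tv_le {M : Matrix ι ι ℝ} (hM : M.det ≠ 0) (g x : ι → ℝ) {γ : ℝ} (hγ : 0 < γ)
    (hg : qf M g ≤ γ ^ 2) :
    Summable (fun n : ι → ℤ => |gq M (x + g + toR n) - gq M (x + toR n)|) ∧
    ∑' n : ι → ℤ, |gq M (x + g + toR n) - gq M (x + toR n)| ≤
      2 * π * (2 * γ + γ ^ 2) * th M 0 := by
  obtain ⟨s1, m1⟩ := mom1 hM g x hγ hg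
  obtain ⟨s2, m2⟩ := mom1 hM g (x + g) hγ hg
  have h3 := ((s1.hasSum.mul_left (2 * π)).add (s2.hasSum.mul_left (2 * π))).add
    (((summable_gq hM x).hasSum.mul_left (π * γ ^ 2)).add
      ((summable_gq hM (x + g)).hasSum.mul_left (π * γ ^ 2)))
  have hp := Real.pi_pos
  have hle : ∀ n : ι → ℤ, |gq M (x + g + toR n) - gq M (x + toR n)| ≤
      2 * π * (gq M (x + toR n) * |bf M g (x + toR n)|) +
        2 * π * (gq M (x + g + toR n) * |bf M g (x + g + toR n)|) +
        (π * γ ^ 2 * gq M (x + toR n) + π * γ ^ 2 * gq M (x + g + toR n)) := by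
    intro n
    have e0 : x + g + toR n = (x + toR n) + g := by abel
    rw [e0]
    generalize x + toR n = y
    have a0 := abs_exp_sub_le (-π * qf M (y + g)) (-π * qf M y)
    have q0 := qf_nonneg M g
    have e1 : qf M (y + g) - qf M y = 2 * bf M g y + qf M g := by
      rw [qf_add, bf_comm]; ring
    have e2 : qf M (y + g) - qf M y = 2 * bf M g (y + g) - qf M g := by
      have := qf_sub M (y + g) g
      rw [add_sub_cancel_right, bf_comm] at this
      linarith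
    have e3 : |-π * qf M (y + g) - -π * qf M y| = π * |qf M (y + g) - qf M y| := by
      rw [← mul_sub, abs_mul, abs_neg, abs_of_pos hp]
    have a1 : |qf M (y + g) - qf M y| ≤ 2 * |bf M g y| + γ ^ 2 := by
      rw [e1, abs_le]
      constructor <;> linarith [le_abs_self (bf M g y), neg_abs_le (bf M g y), sq_nonneg γ]
    have a2 : |qf M (y + g) - qf M y| ≤ 2 * |bf M g (y + g)| + γ ^ 2 := by
      rw [e2, abs_le]
      constructor <;>
        linarith [le_abs_self (bf M g (y + g)), neg_abs_le (bf M g (y + g)), sq_nonneg γ]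
    rw [e3] at a0
    have c1 := mul_le_mul_of_nonneg_left a1 (mul_pos hp (gq_pos M y)).le
    have c2 := mul_le_mul_of_nonneg_left a2 (mul_pos hp (gq_pos M (y + g))).le
    unfold gq at *
    nlinarith
  have hs1 := Summable.of_nonneg_of_le (fun n => abs_nonneg _) hle h3.summable
  refine ⟨hs1, (hasSum_le hle hs1.hasSum h3).trans ?_⟩
  have b1 : ∑' n : ι → ℤ, gq M (x + toR n) ≤ th M 0 := th_le hM x
  have b2 : ∑' n : ι → ℤ, gq M (x + g + toR n) ≤ th M 0 := th_le hM (x + g)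
  have c1 := mul_le_mul_of_nonneg_left m1 (by positivity : 0 ≤ 2 * π)
  have c2 := mul_le_mul_of_nonneg_left m2 (by positivity : 0 ≤ 2 * π)
  have c3 := mul_le_mul_of_nonneg_left b1 (by positivity : 0 ≤ π * γ ^ 2)
  have c4 := mul_le_mul_of_nonneg_left b2 (by positivity : 0 ≤ π * γ ^ 2)
  linarith

/-- Dimension free bound for a far shifted theta value. -/
theorem th_le_of_far2 {M : Matrix ι ι ℝ} (hM : M.det ≠ 0) (x : ι → ℝ) {K s : ℝ} (hs : 0 < s)
    (hs1 : s ≤ 1) (h : ∀ n : ι → ℤ, K ≤ qf M (x + toR n)) :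
    th M x ≤ Real.exp (-(π * (1 - s ^ 2) * K)) * th (s • M) 0 := by
  have hsM := det_smul_ne hs.ne' hM
  have hle : ∀ n : ι → ℤ, gq M (x + toR n) ≤
      Real.exp (-(π * (1 - s ^ 2) * K)) * gq (s • M) (x + toR n) := by
    intro n
    unfold gq
    rw [← Real.exp_add, Real.exp_le_exp, qf_smul]
    have h1 : 0 ≤ π * (1 - s ^ 2) := mul_nonneg Real.pi_pos.le (by nlinarith)
    nlinarith [mul_le_mul_of_nonneg_left (h n) h1]
  have h1 := (summable_gq hM x).tsum_le_tsum hle ((summable_gq hsM x).mul_left _)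
  rw [tsum_mul_left] at h1
  exact h1.trans (mul_le_mul_of_nonneg_left (th_le hsM x) (Real.exp_pos _).le)

theorem th_smul_mono {M : Matrix ι ι ℝ} (hM : M.det ≠ 0) (x : ι → ℝ) {s : ℝ} (hs : 0 < s)
    (hs1 : s ≤ 1) : th M x ≤ th (s • M) x := by
  refine (summable_gq hM x).tsum_le_tsum (fun n => ?_) (summable_gq (det_smul_ne hs.ne' hM) x)
  have h := gq_smul_le (one_le_inv₀ hs |>.2 hs1) (s • M) (x + toR n)
  rwa [smul_smul, inv_mul_cancel₀ hs.ne', one_smul] at h

/-- A non zero lattice vector contributes to the theta value. -/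
theorem gq_le_th_sub {M : Matrix ι ι ℝ} (hM : M.det ≠ 0) {k : ι → ℤ} (hk : k ≠ 0) :
    gq M (toR k) ≤ th M 0 - 1 := by
  have h := (summable_gq hM 0).sum_le_tsum ({0, k} : Finset (ι → ℤ)) fun _ _ => (gq_pos _ _).le
  rw [Finset.sum_pair hk.symm, toR_zero, add_zero, gq_zero, zero_add] at h
  unfold th
  linarith

/-- An affine relation on ninety percent of the mass is trivial. -/
theorem aff_zero {M : Matrix ι ι ℝ} (hM : M.det ≠ 0) (x l : ι → ℝ) (c : ℝ)
    (hθ : th ((1 / 4 : ℝ) • (M⁻¹)ᵀ) 0 ≤ 3 / 2)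
    (hb : ∑' n : ι → ℤ, (if ∑ i, l i * (n i : ℝ) + c = 0 then 0 else gq M (x + toR n)) ≤
      1 / 10 * th M x) : l = 0 := by
  by_contra hl
  have hD := det_dual hM
  have hq : 0 < qf (M⁻¹)ᵀ l := lt_of_le_of_ne (qf_nonneg _ _) fun h => hl (qf_eq_zero hD h.symm)
  obtain ⟨t, ht⟩ : ∃ t : ℝ, qf (M⁻¹)ᵀ (t • l) = 1 / 2 := by
    refine ⟨(√(2 * qf (M⁻¹)ᵀ l))⁻¹, ?_⟩
    rw [qf_smul_vec, inv_pow, Real.sq_sqrt (by positivity)]
    field_simp
  have h4 : (0 : ℝ) < 1 / 4 := by norm_num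
  have hp := Real.pi_gt_three
  have hp4 := Real.pi_lt_four
  have hfar : ∀ k : ι → ℤ, 1 / 2 ≤ qf (M⁻¹)ᵀ (-(t • l) + toR k) := by
    intro k
    by_cases hk : k = 0
    · rw [hk, toR_zero, add_zero, qf_neg, ht]
    have a1 := gq_le_th_sub (det_smul_ne h4.ne' hD) hk
    have a2 : 2 ≤ qf (M⁻¹)ᵀ (toR k) := by
      by_contra hc
      push Not at hc
      have a3 := Real.add_one_le_exp (-π * qf ((1 / 4 : ℝ) • (M⁻¹)ᵀ) (toR k))
      rw [qf_smul] at a3
      unfold gq at a1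
      rw [qf_smul] at a1
      have := qf_nonneg (M⁻¹)ᵀ (toR k)
      nlinarith
    have a4 := qf_add_le (M⁻¹)ᵀ (-(t • l) + toR k) (t • l)
    rw [show -(t • l) + toR k + t • l = toR k by abel, ht] at a4
    linarith
  have b1 := th_le_of_far2 hD (-(t • l)) h4 (by norm_num) hfar
  have b2 := norm_tw_le hM (t • l) x
  have b3 := abs_th_sub hM x
  have b4 := (th_smul_mono hD 0 h4 (by norm_num)).trans hθ
  have b5 : 1 / 2 ≤ |M.det| * th M x := by
    have := neg_abs_le (|M.det| * th M x - 1)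
    linarith
  set z : ℂ := cexp (2 * π * I * ((t * (∑ i, l i * x i - c) : ℝ) : ℂ)) with hz
  have hz1 : ‖z‖ = 1 := by
    rw [hz, Complex.norm_exp]
    simp
  have sB : Summable fun n : ι → ℤ =>
      (if ∑ i, l i * (n i : ℝ) + c = 0 then 0 else gq M (x + toR n)) := by
    refine Summable.of_nonneg_of_le (fun n => ?_) (fun n => ?_) (summable_gq hM x)
    · split_ifs
      · exact le_rfl
      · exact (gq_pos _ _).le
    · split_ifs
      · exact (gq_pos _ _).le
      · exact le_rfl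
  have d1 := (summable_gt hM (t • l) x).hasSum.sub
    ((Complex.hasSum_ofReal.2 (summable_gq hM x).hasSum).mul_right z)
  have d2 := d1.norm_le_of_bounded (sB.hasSum.mul_left 2) (fun n => by
    split_ifs with h
    · have : ec (t • l) (x + toR n) = z := by
        rw [hz, ec]
        congr 3
        simp only [Pi.smul_apply, smul_eq_mul, Pi.add_apply, toR_apply, mul_add, mul_assoc,
          Finset.sum_add_distrib, ← Finset.mul_sum]
        have : ∑ i, l i * (n i : ℝ) = -c := by linarith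
        rw [this]
        ring
      rw [this, sub_self, norm_zero, mul_zero]
    · rw [← mul_sub, norm_mul, Complex.norm_real, Real.norm_eq_abs, abs_of_pos (gq_pos _ _)]
      have := norm_sub_le (ec (t • l) (x + toR n)) z
      rw [norm_ec, hz1] at this
      nlinarith [gq_pos M (x + toR n)])
  have d3 := norm_sub_norm_le (((∑' n : ι → ℤ, gq M (x + toR n) : ℝ) : ℂ) * z)
    (∑' n : ι → ℤ, (gq M (x + toR n) : ℂ) * ec (t • l) (x + toR n))
  rw [norm_sub_rev, norm_mul, hz1, mul_one, Complex.norm_real, Real.norm_eq_abs] at d3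
  have d4 : th M x ≤ |∑' n : ι → ℤ, gq M (x + toR n)| := le_abs_self _
  have d5 : 4 / 5 * th M x ≤
      ‖∑' n : ι → ℤ, (gq M (x + toR n) : ℂ) * ec (t • l) (x + toR n)‖ := by linarith
  have d6 := mul_le_mul_of_nonneg_left d5 (abs_nonneg M.det)
  have d7 : Real.exp (-(π * (1 - (1 / 4) ^ 2) * (1 / 2))) ≤ 1 / 4 := by
    have e1 : Real.exp (-(π * (1 - (1 / 4) ^ 2) * (1 / 2))) ≤ Real.exp (-(7 / 5)) := by
      rw [Real.exp_le_exp]; nlinarith
    refine e1.trans ?_
    rw [Real.exp_neg, inv_le_comm₀ (Real.exp_pos _) (by norm_num)]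
    have h5 := Real.sum_le_exp_of_nonneg (by norm_num : (0 : ℝ) ≤ 7 / 5) 6
    simp only [Finset.sum_range_succ, Finset.range_zero, Finset.sum_empty, Nat.factorial] at h5
    push_cast at h5
    norm_num at h5 ⊢
    linarith
  have d8 := mul_le_mul d7 hθ (th_pos (det_smul_ne h4.ne' hD) 0).le (by norm_num)
  nlinarith

/-- Covering radius. -/
theorem cover {M : Matrix ι ι ℝ} (hM : M.det ≠ 0) (hθ : th (M⁻¹)ᵀ 0 ≤ 3 / 2) (x : ι → ℝ) :
    ∃ n : ι → ℤ, qf M (x + toR n) < Fintype.card ι + 1 := by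
  by_contra hc
  push Not at hc
  have h1 := th_le_of_far hM x hc
  have h2 := abs_th_sub hM x
  have h3 := th_dual hM
  have h4 := neg_abs_le (|M.det| * th M x - 1)
  have h5 := mul_le_mul_of_nonneg_left h1 (abs_nonneg M.det)
  have hp := Real.pi_gt_three
  have h6 : Real.exp (-(3 / 4 * π * (Fintype.card ι + 1))) * 2 ^ Fintype.card ι ≤ 1 / 4 := by
    have e1 : Real.exp (-(3 / 4 * π * (Fintype.card ι + 1))) ≤
        Real.exp (-2) ^ (Fintype.card ι + 1) := by
      rw [← Real.exp_nat_mul, Real.exp_le_exp]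
      push_cast
      have : (0 : ℝ) ≤ Fintype.card ι := Nat.cast_nonneg _
      nlinarith
    have e2 : Real.exp (-2) ≤ 1 / 4 := by
      rw [Real.exp_neg, inv_le_comm₀ (Real.exp_pos _) (by norm_num)]
      have := Real.add_one_le_exp 1
      have e3 : Real.exp 2 = Real.exp 1 * Real.exp 1 := by rw [← Real.exp_add]; norm_num
      norm_num
      nlinarith
    have e4 := pow_le_pow_left₀ (Real.exp_pos _).le e2 (Fintype.card ι + 1)
    have e5 : (1 / 4 : ℝ) ^ Fintype.card ι * 2 ^ Fintype.card ι ≤ 1 := by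
      rw [← mul_pow]
      exact pow_le_one₀ (by norm_num) (by norm_num)
    calc _ ≤ (1 / 4 : ℝ) ^ (Fintype.card ι + 1) * 2 ^ Fintype.card ι :=
          mul_le_mul_of_nonneg_right (e1.trans e4) (by positivity)
      _ = 1 / 4 * ((1 / 4 : ℝ) ^ Fintype.card ι * 2 ^ Fintype.card ι) := by ring
      _ ≤ 1 / 4 := by linarith
  have h7 : 0 ≤ |M.det| * th M 0 := mul_nonneg (abs_nonneg _) (th_pos hM 0).le
  have h8 := mul_le_mul_of_nonneg_right h6 h7
  nlinarith

end

end Vale.Agent.P057T.Poi
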