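import Vale.Agent.P057T.LvH29
import Vale.Agent.P057T.GauH52
import Vale.Agent.P057T.HermH83

set_option linter.all false

open Matrix
open scoped Real
open Vale.Agent.P267.H775 Vale.Agent.P057T.Poi

namespace Vale.Agent.P057T.Lv

variable {ι V : Type*} [Fintype ι] [DecidableEq ι] [AddCommGroup V] [Module ℝ V]

theorem norm_toLp_mulVec (M : Matrix ι ι ℝ) (y : ι → ℝ) :
    ‖(WithLp.toLp 2 (M *ᵥ y) : EuclideanSpace ℝ ι)‖ = √(qf M y) := by
  rw [EuclideanSpace.norm_eq]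
  simp [qf]

/-- LOCHOM for the lattice `ℤ^ι` with the norm `√(qf M ·)` and a seminorm `N` on the target. -/
theorem lochomM (N : Seminorm ℝ V) (I : AddSubgroup V) {M : Matrix ι ι ℝ} (hM : M.det ≠ 0)
    (U W : Matrix ι ι ℤ) (hUW : U * W = 1) (L : (ι → ℝ) →ₗ[ℝ] V) (H Hs r2 r3 : ℝ) (m : ℕ)
    (hm : 1 ≤ m) (hr2 : 0 < r2) (hr3 : 0 ≤ r3)
    (hI : ∀ x ∈ I, N x ≤ Hs → x = 0) (hH : 3 * (m : ℝ) ^ 3 * H ≤ Hs)
    (hg : ∀ j, qf M (fun i => (U i j : ℝ)) ≤ r3 ^ 2) (hr : Fintype.card ι * (m * r3) ≤ r2)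
    (hr' : 2 * (Fintype.card ι * r3) ≤ r2)
    (hL : ∀ h : ι → ℤ, qf M (toR h) ≤ r2 ^ 2 →
      ∃ t : ℕ, 1 ≤ t ∧ t ≤ m ∧ ∃ x ∈ I, N ((t : ℝ) • L (toR h) - x) ≤ H) :
    ∃ (io : (ι → ℝ) →ₗ[ℝ] V) (n : ℕ), 1 ≤ n ∧ n ≤ m ∧ (∀ c : ι → ℤ, (n : ℝ) • io (toR c) ∈ I) ∧
      ∀ y, N (L y - io y) ≤ 2 * H / r2 * √(qf M y) := by
  letI : SeminormedAddCommGroup V := N.toAddGroupSeminorm.toSeminormedAddCommGroup
  letI : NormedSpace ℝ V := ⟨fun a x => (map_smul_eq_mul N a x).le⟩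
  have hnorm : ∀ x : V, ‖x‖ = N x := fun _ => rfl
  let Ur : Matrix ι ι ℝ := U.map (Int.castRingHom ℝ)
  let Wr : Matrix ι ι ℝ := W.map (Int.castRingHom ℝ)
  have hUWr : Ur * Wr = 1 := by
    simp only [Ur, Wr]
    rw [← Matrix.map_mul, hUW, Matrix.map_one _ (map_zero _) (map_one _)]
  have hUd : Ur.det ≠ 0 := by
    intro h
    have := congrArg Matrix.det hUWr
    rw [det_mul, h, zero_mul, det_one] at this
    exact zero_ne_one this
  have hMu : IsUnit M.det := isUnit_iff_ne_zero.2 hM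
  have hMU : IsUnit (M * Ur).det := by
    rw [det_mul]; exact isUnit_iff_ne_zero.2 (mul_ne_zero hM hUd)
  let eM : (ι → ℝ) ≃ₗ[ℝ] EuclideanSpace ℝ ι :=
    (M.toLinearEquiv' (M.invertibleOfIsUnitDet hMu)).trans
      (WithLp.linearEquiv 2 ℝ (ι → ℝ)).symm
  let eU : (ι → ℝ) ≃ₗ[ℝ] (ι → ℝ) :=
    Ur.toLinearEquiv' (Ur.invertibleOfIsUnitDet (isUnit_iff_ne_zero.2 hUd))
  have heM : ∀ y, eM y = WithLp.toLp 2 (M *ᵥ y) := fun y => rfl
  have heU : ∀ y, eU y = Ur *ᵥ y := fun y => rfl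
  have hn : ∀ y, ‖eM y‖ = √(qf M y) := fun y => by rw [heM, norm_toLp_mulVec]
  let g : Module.Basis ι ℝ (EuclideanSpace ℝ ι) := (Pi.basisFun ℝ ι).map (eU.trans eM)
  have hgj : ∀ j, g j = eM (fun i => (U i j : ℝ)) := by
    intro j
    simp only [g, Module.Basis.map_apply, LinearEquiv.trans_apply, heU, Pi.basisFun_apply]
    congr 1
    funext i
    simp [Ur, mulVec_single_one]
  have hpt : ∀ c : ι → ℤ, pt g c = eM (toR (U *ᵥ c)) := by
    intro c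
    unfold pt
    simp only [hgj, ← map_smul, ← map_sum]
    congr 1
    funext i
    simp [toR, mulVec, dotProduct, mul_comm]
  have := lochom g I (L ∘ₗ eM.symm.toLinearMap) H Hs r2 r3 m hm hr2 hI hH
    (fun j => by
      rw [hgj, hn]
      exact Real.sqrt_le_iff.2 ⟨hr3, hg j⟩) hr hr'
    (fun c hc => by
      rw [hpt, hn] at hc
      obtain ⟨t, t1, t2, x, hx, hx'⟩ := hL (U *ᵥ c) (Real.sqrt_le_iff.1 hc).2
      refine ⟨t, t1, t2, x, hx, ?_⟩
      rw [hpt]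
      simpa [hnorm] using hx')
  obtain ⟨io, n, a1, a2, a3, a4⟩ := this
  refine ⟨io ∘ₗ eM.toLinearMap, n, a1, a2, fun c => ?_, fun y => ?_⟩
  · have h1 := a3 (W *ᵥ c)
    rw [hpt, mulVec_mulVec, hUW, one_mulVec] at h1
    exact h1
  · have h1 := a4 (eM y)
    rw [hn] at h1
    simpa [hnorm] using h1

open Classical in
/-- LV for a set `S` that is dense for the Gaussian weight. -/
theorem lvg (N : Seminorm ℝ V) (I : AddSubgroup V) {M : Matrix ι ι ℝ} (hM : M.det ≠ 0)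
    (U W : Matrix ι ι ℤ) (hUW : U * W = 1) (L : (ι → ℝ) →ₗ[ℝ] V) (H Hs r2 r3 δ γ : ℝ) (m : ℕ)
    (hm : 1 ≤ m) (hr2 : 0 < r2) (hr3 : 0 ≤ r3) (hmδ : 1 < (m + 1 : ℝ) * δ)
    (hγ : m * r2 ≤ γ) (hγδ : 2 * π * (2 * γ + γ ^ 2) ≤ δ)
    (hI : ∀ x ∈ I, N x ≤ Hs → x = 0) (hH : 6 * (m : ℝ) ^ 3 * H ≤ Hs)
    (hg : ∀ j, qf M (fun i => (U i j : ℝ)) ≤ r3 ^ 2) (hr : Fintype.card ι * (m * r3) ≤ r2)
    (hr' : 2 * (Fintype.card ι * r3) ≤ r2)
    (x : ι → ℝ) (S : Set (ι → ℤ))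
    (hS : 2 * δ * th M 0 ≤ ∑' n : ι → ℤ, if n ∈ S then gq M (x + toR n) else 0)
    (w : V) (hL : ∀ c ∈ S, ∃ a ∈ I, N (L (toR c) + w - a) ≤ H) :
    ∃ (io : (ι → ℝ) →ₗ[ℝ] V) (n : ℕ), 1 ≤ n ∧ n ≤ m ∧ (∀ c : ι → ℤ, (n : ℝ) • io (toR c) ∈ I) ∧
      ∀ y, N (L y - io y) ≤ 4 * H / r2 * √(qf M y) := by
  have hth := th_pos hM 0
  have hm' : (1 : ℝ) ≤ m := by exact_mod_cast hm
  have hγ0 : 0 < γ := lt_of_lt_of_le (by positivity) hγ
  let μ : (ι → ℤ) → ℝ := fun n => gq M (x + toR n) / th M 0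
  have hμ : ∀ n, 0 ≤ μ n := fun n => div_nonneg (gq_pos _ _).le hth.le
  have hs : Summable μ := (summable_gq hM x).div_const _
  have h1 : ∑' n, μ n ≤ 1 := by
    simp only [μ]
    rw [tsum_div_const, div_le_one hth]
    exact th_le hM x
  have hS' : 2 * δ ≤ ∑' n, if n ∈ S then μ n else 0 := by
    have e : (fun n => if n ∈ S then μ n else 0) =
        fun n => (if n ∈ S then gq M (x + toR n) else 0) / th M 0 := by
      funext n; simp only [μ]; split_ifs <;> simp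
    rw [e, tsum_div_const, le_div_iff₀ hth]
    exact hS
  have htoR : ∀ a b : ι → ℤ, toR (a + b) = toR a + toR b := by
    intro a b; funext i; simp [toR]
  have htoR' : ∀ (t : ℕ) (a : ι → ℤ), toR (t • a) = (t : ℝ) • toR a := by
    intro t a; funext i; simp [toR]
  have := lochomM N I hM U W hUW L (2 * H) Hs r2 r3 m hm hr2 hr3 hI (by linarith) hg hr hr'
    (fun c hc => by
      obtain ⟨t, t1, t2, y, hy, hy'⟩ := meet μ hμ hs h1 S c m δ hmδ (fun t ht => by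
        have hq : qf M (toR (t • c)) ≤ γ ^ 2 := by
          rw [htoR', qf_smul_vec]
          have h3 : (t : ℝ) ≤ m := by exact_mod_cast ht
          calc (t : ℝ) ^ 2 * qf M (toR c) ≤ (m : ℝ) ^ 2 * r2 ^ 2 := by
                gcongr
                exact qf_nonneg _ _
            _ = (m * r2) ^ 2 := by ring
            _ ≤ γ ^ 2 := by gcongr
        have h4 := (tv_le hM (toR (t • c)) x hγ0 hq).2
        have h2 := shift_le μ hμ hs S (t • c) δ (by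
          have e : (fun n => |μ (n + t • c) - μ n|) =
              fun n => |gq M (x + toR (t • c) + toR n) - gq M (x + toR n)| / th M 0 := by
            funext n
            simp only [μ]
            rw [← sub_div, abs_div, abs_of_pos hth, htoR, add_comm (toR n), ← add_assoc]
          rw [e, tsum_div_const, div_le_iff₀ hth]
          exact h4.trans (by gcongr))
        linarith)
      obtain ⟨a, ha, ha'⟩ := hL y hy
      obtain ⟨b, hb, hb'⟩ := hL _ hy'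
      refine ⟨t, t1, t2, b - a, I.sub_mem hb ha, ?_⟩
      have e : (t : ℝ) • L (toR c) - (b - a) =
          (L (toR (y + t • c)) + w - b) - (L (toR y) + w - a) := by
        rw [htoR, htoR', map_add, map_smul]; abel
      rw [e]
      exact (map_sub_le_add N _ _).trans (by linarith))
  obtain ⟨io, n, a1, a2, a3, a4⟩ := this
  refine ⟨io, n, a1, a2, a3, fun y => (a4 y).trans (le_of_eq (by ring))⟩

end Vale.Agent.P057T.Lv
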