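import Vale.Agent.P057T.ExtH10a
import Vale.Agent.P057T.LvgH29
import Vale.Agent.P057T.Gau2H52

/-! Reduced basis with polynomial loss and the extension lemma for lattices. -/

set_option linter.all false

open Matrix Finset
open Vale.Agent.P267.H775 Vale.Agent.P057T.Poi Vale.Agent.P057T.Herm

namespace Vale.Agent.P057T.Ext

theorem prim {n : ℕ} (x : Fin (n + 1) → ℤ) (hx : x ≠ 0) :
    ∃ (a : ℤ) (U : Matrix (Fin (n + 1)) (Fin (n + 1)) ℤ), a ≠ 0 ∧ IsUnit U.det ∧
      ∀ i, x i = a * U i 0 := by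
  obtain ⟨a, ha⟩ := (IsPrincipalIdealRing.principal (Ideal.span (Set.range x))).principal
  have h1 : ∀ i, ∃ v, x i = a * v := fun i => by
    have : x i ∈ Ideal.span {a} := by
      have h : x i ∈ Ideal.span (Set.range x) := Ideal.subset_span ⟨i, rfl⟩
      rwa [ha] at h
    exact Ideal.mem_span_singleton.1 this
  choose v hv using h1
  have ha0 : a ≠ 0 := by
    rintro rfl
    exact hx (funext fun i => by simpa using hv i)
  have h2 : a ∈ Ideal.span (Set.range x) := by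
    rw [ha]; exact Submodule.mem_span_singleton_self a
  obtain ⟨k, hk⟩ := Ideal.mem_span_range_iff_exists_fun.1 h2
  have h3 : ∑ i, k i * v i = 1 := by
    refine mul_left_cancel₀ ha0 ?_
    rw [mul_one, Finset.mul_sum]
    refine Eq.trans (Finset.sum_congr rfl fun i _ => ?_) hk
    rw [hv i]; ring
  obtain ⟨U, W, h4, -, -, h5⟩ := exists_uni k v h3
  refine ⟨a, U, ha0, Matrix.isUnit_det_of_right_inverse h4, fun i => by rw [h5, hv]⟩

theorem cong_q {m : Type*} [Fintype m] (H W : Matrix m m ℝ) (x : m → ℝ) :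
    x ⬝ᵥ (Wᵀ * H * W) *ᵥ x = (W *ᵥ x) ⬝ᵥ H *ᵥ (W *ᵥ x) := by
  rw [← Matrix.mulVec_mulVec, ← Matrix.mulVec_mulVec, Matrix.dotProduct_mulVec,
    Matrix.vecMul_transpose]

theorem cs_mulVec {m : Type*} [Fintype m] (W : Matrix m m ℤ) (x : m → ℤ) :
    cs W *ᵥ toR x = toR (W *ᵥ x) := by
  funext i; simp [cs, mulVec, dotProduct, toR]

/-- an almost shortest primitive vector -/
theorem first {n : ℕ} (G : Matrix (Fin (n + 1)) (Fin (n + 1)) ℝ) (hG : G.PosDef) :
    ∃ U : Matrix (Fin (n + 1)) (Fin (n + 1)) ℤ, IsUnit U.det ∧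
      ∀ x : Fin (n + 1) → ℤ, x ≠ 0 →
        ((cs U)ᵀ * G * cs U) 0 0 ≤ 2 * (toR x ⬝ᵥ G *ᵥ toR x) := by
  obtain ⟨l, hl, hlow⟩ := lower hG
  let val : {U : Matrix (Fin (n + 1)) (Fin (n + 1)) ℤ // IsUnit U.det} → ℝ :=
    fun U => ((cs U.1)ᵀ * G * cs U.1) 0 0
  have hval : ∀ U, l ≤ val U := by
    intro U
    have hne : (fun a => U.1 a 0) ≠ 0 := by
      intro h
      have : U.1.det = 0 := Matrix.det_eq_zero_of_column_eq_zero 0 fun a => congrFun h a
      exact U.2.ne_zero this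
    have := hlow _ hne
    simpa [val, cong_diag, cs] using this
  have : Nonempty {U : Matrix (Fin (n + 1)) (Fin (n + 1)) ℤ // IsUnit U.det} :=
    ⟨⟨1, by simp⟩⟩
  have hb : BddBelow (Set.range val) := ⟨l, by rintro _ ⟨U, rfl⟩; exact hval U⟩
  have hi : l ≤ ⨅ U, val U := le_ciInf hval
  obtain ⟨U0, hU0⟩ := exists_lt_of_ciInf_lt (f := val) (a := 2 * ⨅ U, val U) (by linarith)
  refine ⟨U0.1, U0.2, fun x hx => ?_⟩
  obtain ⟨a, U, ha, hU, hxa⟩ := prim x hx
  have h1 := ciInf_le hb ⟨U, hU⟩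
  have h2 := hval ⟨U, hU⟩
  have h3 : toR x = (a : ℝ) • fun i => cs U i 0 := by
    funext i; simp [toR, cs, hxa i]
  have h4 : toR x ⬝ᵥ G *ᵥ toR x = (a : ℝ) * (a * val ⟨U, hU⟩) := by
    rw [h3, Matrix.mulVec_smul, smul_dotProduct, dotProduct_smul, smul_eq_mul, smul_eq_mul]
    simp only [val, cong_diag]
  have h5 : (1 : ℝ) ≤ (a : ℝ) * a := by
    have : (1 : ℤ) ≤ a * a := by
      have := mul_self_pos.2 ha
      omega
    exact_mod_cast this
  change val U0 ≤ _
  rw [h4]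
  nlinarith

theorem kz_pd : ∀ (n : ℕ) (G : Matrix (Fin n) (Fin n) ℝ), G.PosDef →
    ∃ U : Matrix (Fin n) (Fin n) ℤ, IsUnit U.det ∧
      ∏ i, ((cs U)ᵀ * G * cs U) i i ≤ 2 ^ (n * n) * G.det ∧
      ∀ (x : Fin n → ℤ) j, x j ≠ 0 →
        ((cs U)ᵀ * G * cs U) j j ≤ 2 * n * (toR x ⬝ᵥ ((cs U)ᵀ * G * cs U) *ᵥ toR x)
  | 0, G, _ => ⟨1, by simp, by simp, fun _ j => j.elim0⟩
  | n + 1, G, hG => by
    obtain ⟨U0, hU0, hmin⟩ := first G hG
    set H := (cs U0)ᵀ * G * cs U0 with hHd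
    have hd0 : (cs U0).det ≠ 0 := by
      intro h; have := det_cs_sq hU0; rw [h] at this; norm_num at this
    have hH : H.PosDef := cong_pd hG hd0
    have hdet : H.det = G.det := by
      rw [hHd, det_mul, det_mul, det_transpose]
      have := det_cs_sq hU0
      linear_combination G.det * this
    have h0 := diag_pos hH 0
    have hinj : ∀ W : Matrix (Fin (n + 1)) (Fin (n + 1)) ℤ, IsUnit W.det →
        ∀ x : Fin (n + 1) → ℤ, x ≠ 0 → W *ᵥ x ≠ 0 := by
      intro W hW x hx h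
      apply hx
      have := congrArg (fun y => W⁻¹ *ᵥ y) h
      simpa [Matrix.mulVec_mulVec, Matrix.nonsing_inv_mul W hW] using this
    have hminH : ∀ W : Matrix (Fin (n + 1)) (Fin (n + 1)) ℤ, IsUnit W.det →
        ∀ x : Fin (n + 1) → ℤ, x ≠ 0 →
        H 0 0 ≤ 2 * (toR x ⬝ᵥ ((cs W)ᵀ * H * cs W) *ᵥ toR x) := by
      intro W hW x hx
      have := hmin _ (hinj U0 hU0 _ (hinj W hW x hx))
      rw [cong_q, hHd, cong_q, cs_mulVec, cs_mulVec]
      exact this
    have hmin' : ∀ W : Matrix (Fin (n + 1)) (Fin (n + 1)) ℤ, IsUnit W.det → ∀ i,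
        H 0 0 ≤ 2 * ((cs W)ᵀ * H * cs W) i i := by
      intro W hW i
      have h1 := hminH W hW (Pi.single i 1) (by
        intro h; have := congrFun h i; simp at this)
      have h2 : toR (Pi.single i (1 : ℤ) : Fin (n + 1) → ℤ) = Pi.single i (1 : ℝ) := by
        funext a; by_cases h : a = i
        · subst h; simp [toR]
        · simp [toR, Pi.single_eq_of_ne h]
      rw [h2] at h1
      simpa using h1
    obtain ⟨U', hU', hP, hQ⟩ := kz_pd n (sch H) (sch_posDef hH)
    let r : Fin n → ℝ := fun j => (∑ a : Fin n, H 0 a.succ * (U' a j : ℝ)) / H 0 0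
    let W : Matrix (Fin (n + 1)) (Fin (n + 1)) ℤ :=
      Matrix.of (Fin.cons (Fin.cons 1 fun j => -round (r j)) fun a => Fin.cons 0 (U' a))
    have hWd : W.det = U'.det := by
      rw [Matrix.det_succ_column_zero, Fin.sum_univ_succ]
      have : W.submatrix (Fin.succAbove 0) Fin.succ = U' := by
        ext a b; simp [W]
      rw [this]; simp [W]
    have hW : IsUnit W.det := hWd ▸ hU'
    have e : (cs (U0 * W))ᵀ * G * cs (U0 * W) = (cs W)ᵀ * H * cs W := by
      rw [hHd, cs_mul, transpose_mul]; simp only [Matrix.mul_assoc]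
    have e0 : ((cs W)ᵀ * H * cs W) 0 0 = H 0 0 := by
      rw [cong_diag]
      simp [W, cs, dotProduct, mulVec, Fin.sum_univ_succ]
    have e2 : ∀ j : Fin n, ((cs W)ᵀ * H * cs W) j.succ j.succ ≤
        H 0 0 / 4 + ((cs U')ᵀ * sch H * cs U') j j := by
      intro j
      have hq : ((cs W)ᵀ * H * cs W) j.succ j.succ =
          H 0 0 * (r j - round (r j)) ^ 2 + ((cs U')ᵀ * sch H * cs U') j j := by
        rw [cong_diag, cong_diag, quad_split hH]
        simp only [W, cs, r, map_apply, of_apply, Fin.cons_zero, Fin.cons_succ, Int.cast_neg]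
        ring
      have hr : (r j - round (r j)) ^ 2 ≤ 1 / 4 := by
        have := abs_sub_round (r j)
        have h2 := abs_le.1 this
        nlinarith [h2.1, h2.2]
      nlinarith
    refine ⟨U0 * W, by rw [det_mul]; exact hU0.mul hW, ?_, ?_⟩
    · rw [e, Fin.prod_univ_succ, ← hdet, det_sch h0.ne']
      have e1 : ∀ j : Fin n, ((cs W)ᵀ * H * cs W) j.succ j.succ ≤
          2 * ((cs U')ᵀ * sch H * cs U') j j := by
        intro j
        have hm := hmin' W hW j.succ
        have := e2 j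
        linarith
      have hWpd : ((cs W)ᵀ * H * cs W).PosDef := cong_pd hH (by
        intro h; have := det_cs_sq hW; rw [h] at this; norm_num at this)
      have hp : ∏ j : Fin n, ((cs W)ᵀ * H * cs W) j.succ j.succ ≤
          2 ^ n * (2 ^ (n * n) * (sch H).det) := by
        refine (Finset.prod_le_prod (fun j _ => (diag_pos hWpd _).le) fun j _ => e1 j).trans ?_
        rw [Finset.prod_mul_distrib, Finset.prod_const, card_univ, Fintype.card_fin]
        exact mul_le_mul_of_nonneg_left hP (by positivity)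
      have hs := (sch_posDef hH).det_pos
      have h2 : (2 : ℝ) ^ n * 2 ^ (n * n) ≤ 2 ^ ((n + 1) * (n + 1)) := by
        rw [← pow_add]; exact pow_le_pow_right₀ one_le_two (by nlinarith)
      rw [e0]
      calc H 0 0 * ∏ j : Fin n, ((cs W)ᵀ * H * cs W) j.succ j.succ
          ≤ H 0 0 * (2 ^ n * (2 ^ (n * n) * (sch H).det)) := mul_le_mul_of_nonneg_left hp h0.le
        _ = (2 ^ n * 2 ^ (n * n)) * (H 0 0 * (sch H).det) := by ring
        _ ≤ _ := mul_le_mul_of_nonneg_right h2 (by positivity)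
    · intro x j hj
      rw [e]
      have hx : x ≠ 0 := fun h => hj (by simp [h])
      have h1 := hminH W hW x hx
      have hn : (0 : ℝ) ≤ n := Nat.cast_nonneg _
      have hq0 : 0 ≤ toR x ⬝ᵥ ((cs W)ᵀ * H * cs W) *ᵥ toR x := by linarith
      refine Fin.cases (motive := fun j => x j ≠ 0 → ((cs W)ᵀ * H * cs W) j j ≤
        2 * ((n + 1 : ℕ) : ℝ) * (toR x ⬝ᵥ ((cs W)ᵀ * H * cs W) *ᵥ toR x)) ?_ ?_ j hj
      · intro _
        rw [e0]; push_cast; nlinarith
      · intro j hj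
        have h2 := hQ (fun a => x a.succ) j hj
        have h3 : toR (fun a : Fin n => x a.succ) ⬝ᵥ ((cs U')ᵀ * sch H * cs U') *ᵥ
            toR (fun a : Fin n => x a.succ) ≤ toR x ⬝ᵥ ((cs W)ᵀ * H * cs W) *ᵥ toR x := by
          rw [cong_q, cong_q, quad_split hH]
          have h4 : (fun i : Fin n => (cs W *ᵥ toR x) i.succ) =
              cs U' *ᵥ toR (fun a : Fin n => x a.succ) := by
            funext i
            simp [W, cs, mulVec, dotProduct, Fin.sum_univ_succ, toR]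
          rw [h4]
          have := mul_nonneg h0.le (sq_nonneg ((cs W *ᵥ toR x) 0 +
            (∑ j : Fin n, H 0 j.succ * (cs W *ᵥ toR x) j.succ) / H 0 0))
          linarith
        have h5 := e2 j
        have h6 := mul_le_mul_of_nonneg_left h3 (by linarith : (0 : ℝ) ≤ 2 * n)
        push_cast
        nlinarith

variable {ι : Type*} [Fintype ι] [DecidableEq ι]

theorem gram_q (B : Matrix ι ι ℝ) (x : ι → ℝ) : x ⬝ᵥ (Bᵀ * B) *ᵥ x = qf B x := by
  rw [← Matrix.mulVec_mulVec, Matrix.dotProduct_mulVec, Matrix.vecMul_transpose]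
  simp [qf, dotProduct, sq]

/-- reduced basis: the columns of `M U` -/
theorem kz (M : Matrix ι ι ℝ) (hM : M.det ≠ 0) :
    ∃ U : Matrix ι ι ℤ, IsUnit U.det ∧
      (∀ (x : ι → ℝ) j, x j ^ 2 * ∑ i, (M * cs U) i j ^ 2 ≤
        2 ^ (Fintype.card ι * Fintype.card ι) * qf (M * cs U) x) ∧
      ∀ (x : ι → ℤ) j, x j ≠ 0 →
        ∑ i, (M * cs U) i j ^ 2 ≤ 2 * Fintype.card ι * qf (M * cs U) (toR x) := by
  let e := (Fintype.equivFin ι).symm
  have hd : (M.submatrix e e).det = M.det := Matrix.det_submatrix_equiv_self e M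
  obtain ⟨U, hU, h, h'⟩ := kz_pd _ _ (gram_pd (B := M.submatrix e e) (hd ▸ hM))
  have hU1 : IsUnit (U.submatrix e.symm e.symm).det := by
    rwa [Matrix.det_submatrix_equiv_self]
  have e1 : (cs U)ᵀ * ((M.submatrix e e)ᵀ * M.submatrix e e) * cs U =
      (M.submatrix e e * cs U)ᵀ * (M.submatrix e e * cs U) := by
    rw [transpose_mul]; simp only [Matrix.mul_assoc]
  have e2 : M.submatrix e e * cs U = (M * cs (U.submatrix e.symm e.symm)).submatrix e e := by
    ext a b
    simp only [Matrix.mul_apply, submatrix_apply]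
    rw [← Equiv.sum_comp e]
    simp [cs]
  set B := M * cs (U.submatrix e.symm e.symm) with hB
  have e3 : ∀ j, ((B.submatrix e e)ᵀ * B.submatrix e e) j j = ∑ i, B i (e j) ^ 2 := fun j => by
    rw [gram_diag, ← Equiv.sum_comp e]; rfl
  rw [e1, e2] at h h'
  have hdB : B.det ^ 2 = M.det ^ 2 := by
    rw [hB, det_mul, mul_pow, det_cs_sq hU1, mul_one]
  have hB0 : B.det ≠ 0 := by
    intro h0; rw [h0] at hdB; exact hM (by simpa using hdB.symm)
  refine ⟨U.submatrix e.symm e.symm, hU1, fun x j => ?_, fun x j hj => ?_⟩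
  · refine cramer_bound B hB0 (K := 2 ^ (Fintype.card ι * Fintype.card ι)) ?_ x j
    rw [det_mul, det_transpose, hd, ← sq M.det] at h
    rw [hdB, ← Equiv.prod_comp e]
    simpa only [e3] using h
  · have h1 := h' (fun a => x (e a)) (e.symm j) (by simpa using hj)
    rw [e3, gram_q, Equiv.apply_symm_apply] at h1
    refine h1.trans (le_of_eq ?_)
    congr 1
    unfold qf
    rw [← Equiv.sum_comp e]
    refine Finset.sum_congr rfl fun i _ => ?_
    congr 1
    simp only [mulVec, dotProduct, submatrix_apply, toR]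
    rw [← Equiv.sum_comp e]

variable {V : Type*} [AddCommGroup V] [Module ℝ V]

/-- EXT: an almost additive map on the unit ball of a lattice is close to a linear map on a
ball that is smaller by a polynomial factor only. -/
theorem ext (N : Seminorm ℝ V) (I : AddSubgroup V) {M : Matrix ι ι ℝ} (hM : M.det ≠ 0)
    {ε Hs : ℝ} (hI : ∀ x ∈ I, N x ≤ Hs → x = 0) (hH : 100 * ε ≤ Hs) (Φ : (ι → ℤ) → V)
    (ha : ∀ x y : ι → ℤ, qf M (toR x) ≤ 1 → qf M (toR y) ≤ 1 → qf M (toR (x + y)) ≤ 1 →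
      ∃ i ∈ I, N (Φ (x + y) - Φ x - Φ y - i) ≤ ε) :
    ∃ F : (ι → ℝ) →ₗ[ℝ] V, ∀ x : ι → ℤ,
      16 * ((Fintype.card ι : ℝ) + 1) ^ 4 * qf M (toR x) ≤ 1 →
      ∃ i ∈ I, N (Φ x - F (toR x) - i) ≤
        12 * 2 ^ (Fintype.card ι * Fintype.card ι) * (Fintype.card ι + 1) * ε := by
  obtain ⟨U, hU, h1, h2⟩ := kz M hM
  set n := Fintype.card ι with hn
  set B := M * cs U with hB
  let g : ι → EuclideanSpace ℝ ι := fun j => WithLp.toLp 2 fun i => B i j
  have hgn : ∀ j, ‖g j‖ = √(∑ i, B i j ^ 2) := fun j => by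
    rw [EuclideanSpace.norm_eq]; simp [g]
  have hpt : ∀ c : ι → ℤ, ‖pt g c‖ = √(qf B (toR c)) := fun c => by
    rw [← Lv.norm_toLp_mulVec]
    congr 1
    ext i
    simp [pt, g, mulVec, dotProduct, toR, mul_comm]
  have hq : ∀ c : ι → ℤ, qf B (toR c) = qf M (toR (U *ᵥ c)) := fun c => by
    unfold qf
    rw [hB, ← Matrix.mulVec_mulVec, cs_mulVec]
  have hB0 : B.det ≠ 0 := by
    rw [hB, det_mul]
    refine mul_ne_zero hM fun h => ?_
    have := det_cs_sq hU
    rw [h] at this; norm_num at this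
  have hg : ∀ j, 0 < ‖g j‖ := fun j => by
    refine norm_pos_iff.2 fun h => hB0 (Matrix.det_eq_zero_of_column_eq_zero j fun i => ?_)
    have := congrArg (fun v : EuclideanSpace ℝ ι => v i) h
    simpa [g] using this
  have hn0 : (0 : ℝ) ≤ n := Nat.cast_nonneg _
  have hK : (1 : ℝ) ≤ 2 ^ (n * n) := one_le_pow₀ one_le_two
  obtain ⟨θ, hθ⟩ := ext0 (N := N) (I := I) (A := (n : ℝ) + 1) (r := (4 * ((n : ℝ) + 1) ^ 2)⁻¹)
    hI hH g hg (2 ^ (n * n)) Nat.one_le_two_pow (by linarith)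
    (fun c j hj => by
      rw [hgn, hpt, ← Real.sqrt_sq (by linarith : (0 : ℝ) ≤ n + 1), ← Real.sqrt_mul (sq_nonneg _)]
      refine Real.sqrt_le_sqrt ((h2 c j hj).trans ?_)
      exact mul_le_mul_of_nonneg_right (by nlinarith) (qf_nonneg _ _))
    (fun c j => by
      rw [hgn, hpt, ← Real.sqrt_sq_eq_abs, ← Real.sqrt_mul (sq_nonneg _),
        ← Real.sqrt_sq (Nat.cast_nonneg (2 ^ (n * n))), ← Real.sqrt_mul (sq_nonneg _)]
      refine Real.sqrt_le_sqrt ((h1 (toR c) j).trans ?_)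
      refine mul_le_mul_of_nonneg_right ?_ (qf_nonneg _ _)
      push_cast
      nlinarith)
    (by
      rw [← hn]
      exact le_of_eq (by field_simp))
    (fun c => Φ (U *ᵥ c))
    (fun x y hx hy hxy => by
      rw [hpt, Real.sqrt_le_left zero_le_one, one_pow, hq] at hx hy hxy
      simp only [Matrix.mulVec_add] at hxy ⊢
      exact ha _ _ hx hy hxy)
  let F : (ι → ℝ) →ₗ[ℝ] V := (Fintype.linearCombination ℝ θ).comp (Matrix.mulVecLin (cs U⁻¹))
  refine ⟨F, fun x hx => ?_⟩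
  have hUx : U *ᵥ (U⁻¹ *ᵥ x) = x := by
    rw [Matrix.mulVec_mulVec, Matrix.mul_nonsing_inv U hU, Matrix.one_mulVec]
  obtain ⟨i, hi, h⟩ := hθ (U⁻¹ *ᵥ x) (by
    rw [hpt, hq, hUx]
    refine Real.sqrt_le_iff.2 ⟨by positivity, ?_⟩
    rw [inv_pow, ← one_div, le_div_iff₀ (by positivity)]
    nlinarith)
  refine ⟨i, hi, ?_⟩
  have hF : F (toR x) = ∑ j, ((U⁻¹ *ᵥ x) j : ℝ) • θ j := by
    simp only [F, LinearMap.comp_apply, Matrix.mulVecLin_apply, cs_mulVec,
      Fintype.linearCombination_apply, toR]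
  rw [hUx] at h
  rw [hF]
  simpa using h

end Vale.Agent.P057T.Ext
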