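import Mathlib

/-! Almost additive maps modulo a discrete subgroup: one variable, cubes, paths. -/

set_option linter.all false

open Finset

namespace Vale.Agent.P057T.Ext

variable {V : Type*} [AddCommGroup V] [Module ℝ V]

/-- within `e` of the subgroup -/
def Nr (N : Seminorm ℝ V) (I : AddSubgroup V) (e : ℝ) (v : V) : Prop := ∃ i ∈ I, N (v - i) ≤ e

variable {N : Seminorm ℝ V} {I : AddSubgroup V}

theorem Nr.mono {e e' : ℝ} {v : V} (h : Nr N I e v) (he : e ≤ e') : Nr N I e' v := by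
  obtain ⟨i, hi, h⟩ := h
  exact ⟨i, hi, h.trans he⟩

theorem Nr.add {e e' : ℝ} {v w : V} (h : Nr N I e v) (h' : Nr N I e' w) :
    Nr N I (e + e') (v + w) := by
  obtain ⟨i, hi, h⟩ := h
  obtain ⟨j, hj, h'⟩ := h'
  refine ⟨i + j, I.add_mem hi hj, ?_⟩
  rw [show v + w - (i + j) = (v - i) + (w - j) by abel]
  exact (map_add_le_add N _ _).trans (add_le_add h h')

theorem Nr.neg {e : ℝ} {v : V} (h : Nr N I e v) : Nr N I e (-v) := by
  obtain ⟨i, hi, h⟩ := h
  refine ⟨-i, I.neg_mem hi, ?_⟩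
  rw [show -v - -i = -(v - i) by abel, map_neg_eq_map]
  exact h

theorem Nr.of_le {e : ℝ} {v : V} (h : N v ≤ e) : Nr N I e v := ⟨0, I.zero_mem, by simpa using h⟩

theorem Nr.cast {e : ℝ} {v w : V} (h : Nr N I e v) (hw : v = w) : Nr N I e w := hw ▸ h

theorem Nr.nonneg {e : ℝ} {v : V} (h : Nr N I e v) : 0 ≤ e := by
  obtain ⟨i, -, h⟩ := h
  exact (apply_nonneg N _).trans h

/-- a small vector near the subgroup is near zero -/
theorem Nr.gap {Hs e s : ℝ} (hI : ∀ x ∈ I, N x ≤ Hs → x = 0) {v : V} (h : Nr N I e v)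
    (hv : N v ≤ s) (hs : e + s ≤ Hs) : N v ≤ e := by
  obtain ⟨i, hi, h⟩ := h
  have h1 : N i ≤ Hs := by
    have : i = v + -(v - i) := by abel
    rw [this]
    refine (map_add_le_add N _ _).trans ?_
    rw [map_neg_eq_map]
    linarith
  rw [hI i hi h1, sub_zero] at h
  exact h

theorem improve {ε s : ℝ} (L : ℕ) (e : ℕ → V) (hL : N (e (2 * L)) ≤ 0)
    (ha : ∀ a b, a + b ≤ 2 * L → N (e (a + b) - e a - e b) ≤ ε)
    (hs : ∀ m, m ≤ 2 * L → N (e m) ≤ s) : ∀ m, m ≤ 2 * L → N (e m) ≤ (s + 3 * ε) / 2 := by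
  have hε : 0 ≤ ε := (apply_nonneg N _).trans (ha 0 0 (by omega))
  have h1 : ∀ m, m ≤ L → N (e m) ≤ (s + ε) / 2 := by
    intro m hm
    have h2 := ha m m (by omega)
    have h3 := hs (m + m) (by omega)
    have h4 : (2 : ℝ) • e m = e (m + m) + -(e (m + m) - e m - e m) := by
      rw [two_smul]; abel
    have h5 := map_add_le_add N (e (m + m)) (-(e (m + m) - e m - e m))
    rw [← h4, map_neg_eq_map, map_smul_eq_mul] at h5
    norm_num at h5
    linarith
  intro m hm
  by_cases h : m ≤ L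
  · have := h1 m h
    linarith
  · have h2 := ha m (2 * L - m) (by omega)
    have h3 := h1 (2 * L - m) (by omega)
    rw [show m + (2 * L - m) = 2 * L by omega] at h2
    have h4 : e m = e (2 * L) + (-(e (2 * L) - e m - e (2 * L - m)) + -e (2 * L - m)) := by abel
    have h5 := map_add_le_add N (e (2 * L))
      (-(e (2 * L) - e m - e (2 * L - m)) + -e (2 * L - m))
    have h6 := map_add_le_add N (-(e (2 * L) - e m - e (2 * L - m))) (-e (2 * L - m))
    rw [map_neg_eq_map, map_neg_eq_map] at h6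
    rw [← h4] at h5
    linarith

theorem dyad {ε Hs : ℝ} (hI : ∀ x ∈ I, N x ≤ Hs → x = 0) (hH : 100 * ε ≤ Hs) (φ : ℕ → V) :
    ∀ k : ℕ, (∀ a b, a + b ≤ 2 ^ k → Nr N I ε (φ (a + b) - φ a - φ b)) →
      ∃ θ : V, ∀ m, m ≤ 2 ^ k → Nr N I (6 * ε) (φ m - (m : ℝ) • θ)
  | 0, ha => by
    have h0 := (ha 0 0 (by omega)).neg
    have hε := h0.nonneg
    refine ⟨φ 1, fun m hm => ?_⟩
    have hm' : m = 0 ∨ m = 1 := by omega
    rcases hm' with rfl | rfl
    · exact (h0.mono (by linarith)).cast (by simp)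
    · exact Nr.of_le (by simpa using hε)
  | k + 1, ha => by
    obtain ⟨θ, hθ⟩ := dyad hI hH φ k fun a b h => ha a b (h.trans (by rw [pow_succ]; omega))
    set L := 2 ^ k with hL
    have hL2 : 2 ^ (k + 1) = 2 * L := by rw [pow_succ]; omega
    rw [hL2] at ha ⊢
    have hε := (ha 0 0 (by omega)).nonneg
    have hLp : (0 : ℝ) < (2 * L : ℕ) := by
      have : 0 < L := by positivity
      exact_mod_cast (by omega : 0 < 2 * L)
    have h13 : ∀ m, m ≤ 2 * L → Nr N I (13 * ε) (φ m - (m : ℝ) • θ) := by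
      intro m hm
      have h1 := ((ha (m / 2) (m - m / 2) (by omega)).add (hθ (m / 2) (by omega))).add
        (hθ (m - m / 2) (by omega))
      rw [show m / 2 + (m - m / 2) = m by omega] at h1
      refine (h1.mono (by linarith)).cast ?_
      have : (m : ℝ) = ((m / 2 : ℕ) : ℝ) + ((m - m / 2 : ℕ) : ℝ) := by
        rw [← Nat.cast_add]; congr 1; omega
      rw [this, add_smul]; abel
    obtain ⟨i0, hi0, hb⟩ := h13 (2 * L) le_rfl
    set b := φ (2 * L) - ((2 * L : ℕ) : ℝ) • θ - i0 with hbd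
    let θ' : V := θ + (((2 * L : ℕ) : ℝ)⁻¹) • b
    have h26 : ∀ m, m ≤ 2 * L → Nr N I (26 * ε) (φ m - (m : ℝ) • θ') := by
      intro m hm
      have h1 : N (-(((m : ℝ) * ((2 * L : ℕ) : ℝ)⁻¹) • b)) ≤ 13 * ε := by
        rw [map_neg_eq_map, map_smul_eq_mul, Real.norm_of_nonneg (by positivity)]
        have h2 : (m : ℝ) * ((2 * L : ℕ) : ℝ)⁻¹ ≤ 1 := by
          rw [← div_eq_mul_inv, div_le_one hLp]; exact_mod_cast hm
        have := apply_nonneg N b
        nlinarith
      refine (((h13 m hm).add (Nr.of_le h1)).mono (by linarith)).cast ?_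
      simp only [θ', smul_add, mul_smul]; abel
    have hch : ∀ m : ℕ, ∃ i ∈ I, m ≤ 2 * L → N (φ m - (m : ℝ) • θ' - i) ≤ 26 * ε := by
      intro m
      by_cases hm : m ≤ 2 * L
      · obtain ⟨i, hi, h⟩ := h26 m hm
        exact ⟨i, hi, fun _ => h⟩
      · exact ⟨0, I.zero_mem, fun h => absurd h hm⟩
    choose i hi he using hch
    let e : ℕ → V := fun m => φ m - (m : ℝ) • θ' - i m
    have hL0 : N (e (2 * L)) ≤ 0 := by
      have h1 : e (2 * L) = i0 - i (2 * L) := by
        simp only [e, θ', smul_add, smul_smul, mul_inv_cancel₀ hLp.ne', one_smul, hbd]; abel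
      have h2 : e (2 * L) = 0 :=
        hI _ (h1 ▸ I.sub_mem hi0 (hi _)) ((he _ le_rfl).trans (by linarith))
      rw [h2, map_zero]
    have had : ∀ a b, a + b ≤ 2 * L → N (e (a + b) - e a - e b) ≤ ε := by
      intro a b hab
      have h1 : Nr N I ε (e (a + b) - e a - e b) := by
        obtain ⟨j, hj, h⟩ := ha a b hab
        refine ⟨j - i (a + b) + i a + i b, I.add_mem (I.add_mem (I.sub_mem hj (hi _)) (hi _)) (hi _),
          le_trans (le_of_eq ?_) h⟩
        congr 1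
        simp only [e, Nat.cast_add, add_smul]; abel
      refine h1.gap hI (s := 78 * ε) ?_ (by linarith)
      have h2 := map_sub_le_add N (e (a + b) - e a) (e b)
      have h3 := map_sub_le_add N (e (a + b)) (e a)
      have h4 : N (e (a + b)) ≤ 26 * ε := he _ hab
      have h5 : N (e a) ≤ 26 * ε := he _ (by omega)
      have h6 : N (e b) ≤ 26 * ε := he _ (by omega)
      linarith
    have h3 := improve L e hL0 had (improve L e hL0 had (improve L e hL0 had he))
    exact ⟨θ', fun m hm => ⟨i m, hi m, (h3 m hm).trans (by linarith)⟩⟩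

/-- one variable -/
theorem hy {ε Hs : ℝ} (hI : ∀ x ∈ I, N x ≤ Hs → x = 0) (hH : 100 * ε ≤ Hs) (φ : ℤ → V)
    (γ : ℝ) (hγ : 0 < γ)
    (ha : ∀ a b : ℤ, |(a : ℝ)| * γ ≤ 1 → |(b : ℝ)| * γ ≤ 1 → |((a + b : ℤ) : ℝ)| * γ ≤ 1 →
      Nr N I ε (φ (a + b) - φ a - φ b)) :
    ∃ θ : V, ∀ m : ℤ, 2 * (|(m : ℝ)| * γ) ≤ 1 → Nr N I (8 * ε) (φ m - (m : ℝ) • θ) := by
  have h0 : Nr N I ε (φ 0) := by
    have := (ha 0 0 (by simp) (by simp) (by simp)).neg
    exact this.cast (by simp)
  have hε := h0.nonneg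
  by_cases hγ1 : γ ≤ 1
  swap
  · refine ⟨0, fun m hm => ?_⟩
    have hm0 : m = 0 := by
      by_contra h
      have h1 : (1 : ℝ) ≤ |(m : ℝ)| := by exact_mod_cast Int.one_le_abs h
      nlinarith
    subst hm0
    exact (h0.mono (by linarith)).cast (by simp)
  obtain ⟨k, hk1, hk2⟩ := exists_nat_pow_near (x := γ⁻¹) (y := (2 : ℝ))
    (one_le_inv₀ hγ |>.2 hγ1) one_lt_two
  have hk3 : (2 : ℝ) ^ k * γ ≤ 1 := by
    have := mul_le_mul_of_nonneg_right hk1 hγ.le
    rwa [inv_mul_cancel₀ hγ.ne'] at this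
  have hk4 : 1 < 2 * ((2 : ℝ) ^ k * γ) := by
    have := mul_lt_mul_of_pos_right hk2 hγ
    rw [inv_mul_cancel₀ hγ.ne', pow_succ] at this
    linarith
  have hn : ∀ a : ℕ, a ≤ 2 ^ k → |((a : ℤ) : ℝ)| * γ ≤ 1 := by
    intro a h
    have h1 : (a : ℝ) ≤ 2 ^ k := by exact_mod_cast h
    rw [Int.cast_natCast, Nat.abs_cast]
    nlinarith
  obtain ⟨θ, hθ⟩ := dyad hI hH (fun a : ℕ => φ a) k fun a b h => by
    have := ha a b (hn a (by omega)) (hn b (by omega)) (by exact_mod_cast hn (a + b) h)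
    simpa using this
  refine ⟨θ, fun m hm => ?_⟩
  have hle : m.natAbs ≤ 2 ^ k := by
    have h1 : |(m : ℝ)| ≤ 2 ^ k := by
      by_contra h
      have := mul_lt_mul_of_pos_right (not_le.1 h) hγ
      linarith
    have h2 : ((m.natAbs : ℕ) : ℝ) = |(m : ℝ)| := by
      rw [← Int.cast_abs, ← Int.natCast_natAbs]; simp
    have h3 : ((m.natAbs : ℕ) : ℝ) ≤ ((2 ^ k : ℕ) : ℝ) := by rw [h2]; exact_mod_cast h1
    exact_mod_cast h3
  have h1 := hθ _ hle
  rcases Int.natAbs_eq m with h | h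
  · refine (h1.mono (by linarith)).cast ?_
    rw [← h]
    congr 2
    conv_rhs => rw [h]
    simp
  · have hm1 : |(m : ℝ)| * γ ≤ 1 := by
      have : 0 ≤ |(m : ℝ)| * γ := by positivity
      linarith
    have h2 := (ha m (m.natAbs : ℤ) hm1 (hn _ hle) (by
      rw [show m + (m.natAbs : ℤ) = 0 by omega]; simp)).neg
    rw [show m + (m.natAbs : ℤ) = 0 by omega] at h2
    refine (((h2.add h0).add h1.neg).mono (by linarith)).cast ?_
    have h3 : (m : ℝ) = -((m.natAbs : ℕ) : ℝ) := by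
      conv_lhs => rw [h]
      simp
    rw [h3, neg_smul]
    abel

section path

variable {ι E : Type*} [Fintype ι] [DecidableEq ι] [SeminormedAddCommGroup E] [NormedSpace ℝ E]

/-- the point with integer coordinates `c` -/
noncomputable def pt (g : ι → E) (c : ι → ℤ) : E := ∑ j, (c j : ℝ) • g j

theorem pt_le (g : ι → E) (c : ι → ℤ) (s : ℝ) (h : ∀ j, |(c j : ℝ)| * ‖g j‖ ≤ s) :
    ‖pt g c‖ ≤ Fintype.card ι * s := by
  refine (norm_sum_le _ _).trans ?_
  refine (Finset.sum_le_card_nsmul _ _ s fun j _ => ?_).trans (by simp)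
  rw [norm_smul, Real.norm_eq_abs]
  exact h j

theorem pt_single (g : ι → E) (j : ι) (a : ℤ) :
    ‖pt g (Pi.single j a)‖ = |(a : ℝ)| * ‖g j‖ := by
  have : pt g (Pi.single j a) = (a : ℝ) • g j := by
    unfold pt
    rw [Finset.sum_eq_single j]
    · simp
    · intro b _ hb; simp [Pi.single_eq_of_ne hb]
    · simp
  rw [this, norm_smul, Real.norm_eq_abs]

/-- almost additive on the unit ball -/
def Ad (N : Seminorm ℝ V) (I : AddSubgroup V) (g : ι → E) (Φ : (ι → ℤ) → V) (ε : ℝ) : Prop :=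
  ∀ x y, ‖pt g x‖ ≤ 1 → ‖pt g y‖ ≤ 1 → ‖pt g (x + y)‖ ≤ 1 → Nr N I ε (Φ (x + y) - Φ x - Φ y)

theorem ad_zero {g : ι → E} {Φ : (ι → ℤ) → V} {ε : ℝ} (ha : Ad N I g Φ ε) : Nr N I ε (Φ 0) := by
  have := (ha 0 0 (by simp [pt]) (by simp [pt]) (by simp [pt])).neg
  exact this.cast (by simp)

theorem cube {g : ι → E} {Φ : (ι → ℤ) → V} {ε s : ℝ} (ha : Ad N I g Φ ε) (θ : ι → V)
    (hθ : ∀ j (m : ℤ), 2 * (|(m : ℝ)| * ‖g j‖) ≤ 1 →
      Nr N I (8 * ε) (Φ (Pi.single j m) - (m : ℝ) • θ j))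
    (hs0 : 0 ≤ s) (hs : Fintype.card ι * s ≤ 1) (hs2 : 2 * s ≤ 1) (d : ι → ℤ)
    (hd : ∀ j, |(d j : ℝ)| * ‖g j‖ ≤ s) :
    Nr N I ((9 * Fintype.card ι + 1) * ε) (Φ d - ∑ j, (d j : ℝ) • θ j) := by
  have key : ∀ S : Finset ι, Nr N I ((9 * S.card + 1) * ε)
      (Φ (fun j => if j ∈ S then d j else 0) - ∑ j ∈ S, (d j : ℝ) • θ j) := by
    have hb : ∀ S : Finset ι, ‖pt g (fun j => if j ∈ S then d j else 0)‖ ≤ 1 := by
      intro S
      refine (pt_le g _ s fun j => ?_).trans hs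
      by_cases h : j ∈ S
      · simpa [h] using hd j
      · simpa [h] using hs0
    intro S
    induction S using Finset.induction_on with
    | empty => exact ((ad_zero ha).mono (by simp)).cast (by simp; rfl)
    | insert a S haS ih =>
      have e : (fun j => if j ∈ insert a S then d j else 0) =
          (fun j => if j ∈ S then d j else 0) + Pi.single a (d a) := by
        funext j
        by_cases h : j = a
        · subst h; simp [haS]
        · simp [h, Pi.single_eq_of_ne h]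
      have h1 := ha (fun j => if j ∈ S then d j else 0) (Pi.single a (d a)) (hb S)
        (by rw [pt_single]; have := hd a; linarith) (e ▸ hb _)
      have h2 := hθ a (d a) (by have := hd a; linarith)
      rw [e, Finset.sum_insert haS, Finset.card_insert_of_notMem haS]
      refine (((h1.add ih).add h2).mono (le_of_eq ?_)).cast (by abel)
      push_cast; ring
  have := key univ
  simpa using this

/-- the extension lemma in a reduced basis -/
theorem ext0 {ε Hs A r : ℝ} (hI : ∀ x ∈ I, N x ≤ Hs → x = 0) (hH : 100 * ε ≤ Hs) (g : ι → E)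
    (hg : ∀ j, 0 < ‖g j‖) (K : ℕ) (hK : 1 ≤ K) (hA : 1 ≤ A)
    (h1 : ∀ (c : ι → ℤ) j, c j ≠ 0 → ‖g j‖ ≤ A * ‖pt g c‖)
    (h2 : ∀ (c : ι → ℤ) j, |(c j : ℝ)| * ‖g j‖ ≤ K * ‖pt g c‖)
    (hr : 4 * (Fintype.card ι + 1) * A * r ≤ 1) (Φ : (ι → ℤ) → V) (ha : Ad N I g Φ ε) :
    ∃ θ : ι → V, ∀ c : ι → ℤ, ‖pt g c‖ ≤ r →
      Nr N I (12 * K * (Fintype.card ι + 1) * ε) (Φ c - ∑ j, (c j : ℝ) • θ j) := by
  have hθ : ∀ j, ∃ θ : V, ∀ m : ℤ, 2 * (|(m : ℝ)| * ‖g j‖) ≤ 1 →
      Nr N I (8 * ε) (Φ (Pi.single j m) - (m : ℝ) • θ) := fun j =>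
    hy hI hH (fun m => Φ (Pi.single j m)) ‖g j‖ (hg j) fun a b h3 h4 h5 => by
      have := ha (Pi.single j a) (Pi.single j b) (by rwa [pt_single]) (by rwa [pt_single])
        (by rwa [← Pi.single_add, pt_single])
      rwa [← Pi.single_add] at this
  choose θ hθ using hθ
  have hε := (ad_zero ha).nonneg
  refine ⟨θ, fun c hc => ?_⟩
  have hr0 : 0 ≤ r := (norm_nonneg _).trans hc
  have hKp : (0 : ℝ) < K := by exact_mod_cast hK
  have hn : (0 : ℝ) ≤ Fintype.card ι := Nat.cast_nonneg _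
  have hAr : 0 ≤ A * r := by positivity
  have hrA : r ≤ A * r := le_mul_of_one_le_left hr0 hA
  have hnA : 0 ≤ Fintype.card ι * (A * r) := by positivity
  have hr' : 4 * (Fintype.card ι * (A * r)) + 4 * (A * r) ≤ 1 := by linarith
  let p : ℕ → ι → ℤ := fun k j => ⌊(k : ℝ) / K * c j⌋
  have hgj : ∀ j (t : ℝ), |t| ≤ 1 → (c j = 0 → t = 0) → |t| * ‖g j‖ ≤ A * r := by
    intro j t ht h0
    by_cases h : c j = 0
    · rw [h0 h]; simpa using hAr
    · have h3 := (h1 c j h).trans (mul_le_mul_of_nonneg_left hc (by linarith))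
      have := hg j
      nlinarith [abs_nonneg t]
  have hfr : ∀ (k : ℕ) j, |(p k j : ℝ) - (k : ℝ) / K * c j| ≤ 1 := fun k j => by
    have h3 := Int.floor_le ((k : ℝ) / K * c j)
    have h4 := Int.lt_floor_add_one ((k : ℝ) / K * c j)
    rw [abs_le]; constructor <;> simp only [p] <;> linarith
  have hp0 : ∀ (k : ℕ) j, c j = 0 → p k j = 0 := fun k j h => by simp [p, h]
  have hp : ∀ k : ℕ, k ≤ K → ‖pt g (p k)‖ ≤ 1 := by
    intro k hk
    have e : pt g (p k) = ((k : ℝ) / K) • pt g c +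
        ∑ j, ((p k j : ℝ) - (k : ℝ) / K * c j) • g j := by
      unfold pt
      rw [Finset.smul_sum, ← Finset.sum_add_distrib]
      refine Finset.sum_congr rfl fun j _ => ?_
      rw [smul_smul, ← add_smul]; congr 1; ring
    have h3 : ‖∑ j, ((p k j : ℝ) - (k : ℝ) / K * c j) • g j‖ ≤ Fintype.card ι * (A * r) := by
      refine (norm_sum_le _ _).trans ?_
      refine (Finset.sum_le_card_nsmul _ _ (A * r) fun j _ => ?_).trans (by simp)
      rw [norm_smul, Real.norm_eq_abs]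
      exact hgj j _ (hfr k j) fun h => by simp [hp0 k j h, h]
    have h4 : ‖((k : ℝ) / K) • pt g c‖ ≤ r := by
      rw [norm_smul, Real.norm_of_nonneg (by positivity)]
      have h5 : (k : ℝ) / K ≤ 1 := by rw [div_le_one hKp]; exact_mod_cast hk
      have := norm_nonneg (pt g c)
      nlinarith
    rw [e]
    refine (norm_add_le _ _).trans ?_
    linarith
  have hd : ∀ (k : ℕ) j, |((p (k + 1) - p k) j : ℝ)| * ‖g j‖ ≤ 2 * (A * r) := by
    intro k j
    have h3 : |((p (k + 1) j : ℝ) - p k j) - (c j : ℝ) / K| ≤ 1 := by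
      have h4 := Int.floor_le ((k : ℝ) / K * c j)
      have h5 := Int.lt_floor_add_one ((k : ℝ) / K * c j)
      have h6 := Int.floor_le (((k + 1 : ℕ) : ℝ) / K * c j)
      have h7 := Int.lt_floor_add_one (((k + 1 : ℕ) : ℝ) / K * c j)
      have e : ((k + 1 : ℕ) : ℝ) / K * c j = (k : ℝ) / K * c j + (c j : ℝ) / K := by
        push_cast; ring
      rw [abs_le]; constructor <;> simp only [p] <;> linarith
    have h4 := hgj j _ h3 fun h => by simp [hp0 _ j h, h]
    have h5 : |(c j : ℝ) / K| * ‖g j‖ ≤ r := by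
      rw [abs_div, abs_of_pos hKp, div_mul_eq_mul_div, div_le_iff₀ hKp]
      have := h2 c j
      nlinarith
    have h6 : |((p (k + 1) - p k) j : ℝ)| ≤
        |((p (k + 1) j : ℝ) - p k j) - (c j : ℝ) / K| + |(c j : ℝ) / K| := by
      have := abs_add_le (((p (k + 1) j : ℝ) - p k j) - (c j : ℝ) / K) ((c j : ℝ) / K)
      simpa using this
    have := mul_le_mul_of_nonneg_right h6 (hg j).le
    nlinarith
  have key : ∀ k : ℕ, k ≤ K → Nr N I ((k * (9 * Fintype.card ι + 2) + 1) * ε)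
      (Φ (p k) - ∑ j, (p k j : ℝ) • θ j) := by
    intro k
    induction k with
    | zero =>
      intro _
      have e : p 0 = 0 := by funext j; simp [p]
      rw [e]
      exact ((ad_zero ha).mono (by simp)).cast (by simp)
    | succ k ih =>
      intro hk
      have h3 := cube ha θ hθ (s := 2 * (A * r)) (by linarith) (by linarith) (by linarith)
        (p (k + 1) - p k) (hd k)
      have h4 := ha (p k) (p (k + 1) - p k) (hp k (by omega))
        ((pt_le g _ _ (hd k)).trans (by linarith)) (by rw [add_sub_cancel]; exact hp _ hk)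
      rw [add_sub_cancel] at h4
      refine (((h4.add (ih (by omega))).add h3).mono (le_of_eq ?_)).cast ?_
      · push_cast; ring
      · have : ∑ j, ((p (k + 1) - p k) j : ℝ) • θ j =
            ∑ j, (p (k + 1) j : ℝ) • θ j - ∑ j, (p k j : ℝ) • θ j := by
          rw [← Finset.sum_sub_distrib]
          refine Finset.sum_congr rfl fun j _ => ?_
          simp [sub_smul]
        rw [this]; abel
  have e : p K = c := by
    funext j; simp [p, div_self hKp.ne']
  have h3 := key K le_rfl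
  rw [e] at h3
  refine h3.mono (mul_le_mul_of_nonneg_right ?_ hε)
  have : (1 : ℝ) ≤ K := by exact_mod_cast hK
  nlinarith

end path

end Vale.Agent.P057T.Ext
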