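import Mathlib.Analysis.Normed.Group.Quotient
import Mathlib.LinearAlgebra.Dimension.RankNullity
import Mathlib.LinearAlgebra.Dimension.Localization
import Mathlib.LinearAlgebra.FiniteDimensional.Basic
import Mathlib.Algebra.Order.Floor.Ring
import Mathlib.Algebra.Order.Round
import Mathlib.Tactic

/-! A reduced basis for an arbitrary norm, and extension of nearly additive maps. -/

set_option linter.all false

open Finset
open scoped BigOperators

namespace Vale.Agent.P057T.ExtH17

/-- v is within a of the subgroup I -/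
def Cl {V : Type} [SeminormedAddCommGroup V] (I : AddSubgroup V) (v : V) (a : ℝ) : Prop :=
  ∃ i ∈ I, ‖v - i‖ ≤ a

section cl
variable {V : Type} [SeminormedAddCommGroup V] {I : AddSubgroup V}

theorem Cl.add {v w : V} {a b : ℝ} (h : Cl I v a) (h' : Cl I w b) : Cl I (v + w) (a + b) := by
  obtain ⟨i, hi, e⟩ := h
  obtain ⟨j, hj, e'⟩ := h'
  refine ⟨i + j, I.add_mem hi hj, ?_⟩
  have : v + w - (i + j) = (v - i) + (w - j) := by abel
  rw [this]
  exact (norm_add_le _ _).trans (add_le_add e e')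

theorem Cl.neg {v : V} {a : ℝ} (h : Cl I v a) : Cl I (-v) a := by
  obtain ⟨i, hi, e⟩ := h
  refine ⟨-i, I.neg_mem hi, ?_⟩
  have : -v - -i = -(v - i) := by abel
  rw [this, norm_neg]
  exact e

theorem Cl.mono {v : V} {a b : ℝ} (h : Cl I v a) (hab : a ≤ b) : Cl I v b := by
  obtain ⟨i, hi, e⟩ := h
  exact ⟨i, hi, e.trans hab⟩

theorem Cl.congr {v w : V} {a : ℝ} (h : Cl I v a) (e : v = w) : Cl I w a := e ▸ h

theorem Cl.of_norm {v : V} {a : ℝ} (h : ‖v‖ ≤ a) : Cl I v a := ⟨0, I.zero_mem, by simpa using h⟩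

end cl

/-- stability of the additive equation on an interval, real values -/
theorem hyR {V : Type} [SeminormedAddCommGroup V] [NormedSpace ℝ V] (g : ℕ → V) (R : ℕ) (ε : ℝ)
    (h : ∀ a b, a + b ≤ R → ‖g (a + b) - g a - g b‖ ≤ ε) :
    ∃ θ : V, ∀ a, a ≤ R → ‖g a - (a : ℝ) • θ‖ ≤ 3 * ε := by
  have h0 : ‖g 0‖ ≤ ε := by
    have := h 0 0 (by omega)
    simpa using this
  have hε : 0 ≤ ε := (norm_nonneg _).trans h0
  rcases Nat.eq_zero_or_pos R with rfl | hR
  · refine ⟨0, fun a ha => ?_⟩
    obtain rfl : a = 0 := by omega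
    simp only [smul_zero, sub_zero]
    linarith
  set θ : V := (R : ℝ)⁻¹ • g R with hθ
  set u : ℕ → V := fun a => g a - (a : ℝ) • θ with hu
  have hRp : (R : ℝ) ≠ 0 := by positivity
  have uR : u R = 0 := by
    simp only [hu, hθ, smul_smul, mul_inv_cancel₀ hRp, one_smul, sub_self]
  have ua : ∀ a b, a + b ≤ R → ‖u (a + b) - u a - u b‖ ≤ ε := by
    intro a b hab
    have : u (a + b) - u a - u b = g (a + b) - g a - g b := by
      simp only [hu, Nat.cast_add, add_smul]
      abel
    rw [this]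
    exact h a b hab
  have dbl : ∀ a, a + a ≤ R → 2 * ‖u a‖ ≤ ‖u (a + a)‖ + ε := by
    intro a ha
    have e1 := ua a a ha
    have e2 : (2 : ℝ) • u a = u (a + a) - (u (a + a) - u a - u a) := by
      rw [two_smul]; abel
    have e3 : ‖(2 : ℝ) • u a‖ = 2 * ‖u a‖ := by
      rw [norm_smul]; simp
    rw [← e3, e2]
    exact (norm_sub_le _ _).trans (by linarith)
  obtain ⟨m, hm, hmax⟩ := exists_max_image (range (R + 1)) (fun a => ‖u a‖) ⟨0, by simp⟩
  have hm' : m ≤ R := by simpa [Nat.lt_succ_iff] using hm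
  have hM : ‖u m‖ ≤ 3 * ε := by
    by_cases h2 : m + m ≤ R
    · have := dbl m h2
      have := hmax (m + m) (by simp; omega)
      linarith
    · obtain ⟨k, hk⟩ : ∃ k, m + k = R := ⟨R - m, by omega⟩
      have e1 := ua m k hk.le
      rw [hk, uR] at e1
      have e2 := dbl k (by omega)
      have e3 := hmax (k + k) (by simp; omega)
      have e4 : u m = -(0 - u m - u k) - u k := by abel
      have e5 : ‖u m‖ ≤ ‖0 - u m - u k‖ + ‖u k‖ := by
        conv_lhs => rw [e4]
        refine (norm_sub_le _ _).trans ?_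
        rw [norm_neg]
      linarith
  refine ⟨θ, fun a ha => ?_⟩
  have := hmax a (by simp; omega)
  exact this.trans hM

/-- stability of the additive equation on an interval, values modulo a sparse subgroup -/
theorem hyI {V : Type} [SeminormedAddCommGroup V] [NormedSpace ℝ V] (I : AddSubgroup V) (Hs ε : ℝ)
    (hI : ∀ v ∈ I, ‖v‖ < Hs → v = 0) (hε : 4 * ε < Hs) (f : ℤ → V) (R : ℕ)
    (h : ∀ a b : ℤ, |a| ≤ R → |b| ≤ R → |a + b| ≤ R → Cl I (f (a + b) - f a - f b) ε) :
    ∃ θ : V, ∀ a : ℤ, |a| ≤ R → Cl I (f a - (a : ℝ) • θ) (5 * ε) := by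
  classical
  have hR0 : (0 : ℤ) ≤ R := by positivity
  have h0 : Cl I (f 0) ε := by
    have := (h 0 0 (by simpa using hR0) (by simpa using hR0) (by simpa using hR0)).neg
    exact this.congr (by simp)
  obtain ⟨i0, hi0, e0⟩ := h0
  have ε0 : 0 ≤ ε := (norm_nonneg _).trans e0
  -- one step of the lift
  have st : ∀ (a : ℕ) (w : V), ∃ w' : V, a + 1 ≤ R → f a - w ∈ I →
      f ((a + 1 : ℕ) : ℤ) - w' ∈ I ∧ ‖w' - w - f 1‖ ≤ ε := by
    intro a w
    by_cases ha : a + 1 ≤ R
    · have ha' : (a : ℤ) + 1 ≤ R := by exact_mod_cast ha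
      obtain ⟨i, hi, e⟩ := h a 1 (by rw [abs_of_nonneg (by positivity)]; omega)
        (by simp; omega) (by rw [abs_of_nonneg (by positivity)]; omega)
      refine ⟨f (a + 1) - i - (f a - w), fun _ hw => ⟨?_, ?_⟩⟩
      · have : f ((a + 1 : ℕ) : ℤ) - (f (a + 1) - i - (f a - w)) = i + (f a - w) := by
          push_cast; abel
        rw [this]
        exact I.add_mem hi hw
      · have : f (a + 1) - i - (f a - w) - w - f 1 = f (a + 1) - f a - f 1 - i := by abel
        rw [this]
        exact e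
    · exact ⟨0, fun h' => absurd h' ha⟩
  choose nx hnx using st
  let g : ℕ → V := fun a => Nat.rec (f 0 - i0) (fun a w => nx a w) a
  have g0 : g 0 = f 0 - i0 := rfl
  have gs : ∀ a, g (a + 1) = nx a (g a) := fun a => rfl
  have gI : ∀ a, a ≤ R → f a - g a ∈ I := by
    intro a
    induction a with
    | zero => intro _; rw [g0]; simpa using hi0
    | succ a ih => intro ha; rw [gs]; exact (hnx a (g a) ha (ih (by omega))).1
  have gst : ∀ a, a + 1 ≤ R → ‖g (a + 1) - g a - f 1‖ ≤ ε := by
    intro a ha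
    rw [gs]
    exact (hnx a (g a) ha (gI a (by omega))).2
  have gad : ∀ a b, a + b ≤ R → ‖g (a + b) - g a - g b‖ ≤ ε := by
    intro a b
    induction b with
    | zero =>
      intro _
      have : g (a + 0) - g a - g 0 = -(f 0 - i0) := by rw [g0]; simp
      rw [this, norm_neg]
      exact e0
    | succ b ih =>
      intro hab
      have e1 := ih (by omega)
      have e2 := gst (a + b) (by omega)
      have e3 := gst b (by omega)
      have hab' : (a : ℤ) + (b + 1) ≤ R := by exact_mod_cast hab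
      obtain ⟨i, hi, e⟩ := h a ((b + 1 : ℕ) : ℤ) (by rw [abs_of_nonneg (by positivity)]; omega)
        (by rw [abs_of_nonneg (by positivity)]; push_cast; omega)
        (by rw [abs_of_nonneg (by positivity)]; push_cast; omega)
      have m1 := gI (a + (b + 1)) hab
      have m2 := gI a (by omega)
      have m3 := gI (b + 1) (by omega)
      set D := g (a + (b + 1)) - g a - g (b + 1) with hD
      have hD3 : ‖D‖ ≤ 3 * ε := by
        have : D = (g (a + b) - g a - g b) + (g (a + b + 1) - g (a + b) - f 1) -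
            (g (b + 1) - g b - f 1) := by
          rw [hD, ← add_assoc]; abel
        rw [this]
        refine (norm_sub_le _ _).trans ?_
        have := norm_add_le (g (a + b) - g a - g b) (g (a + b + 1) - g (a + b) - f 1)
        linarith
      set j := i - (f ((a + (b + 1) : ℕ) : ℤ) - g (a + (b + 1))) + (f a - g a) +
        (f ((b + 1 : ℕ) : ℤ) - g (b + 1)) with hj
      have hjI : j ∈ I := I.add_mem (I.add_mem (I.sub_mem hi m1) m2) m3
      have hDj : D - j = f (a + ((b + 1 : ℕ) : ℤ)) - f a - f ((b + 1 : ℕ) : ℤ) - i := by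
        rw [hD, hj]
        have : ((a + (b + 1) : ℕ) : ℤ) = a + ((b + 1 : ℕ) : ℤ) := by push_cast; ring
        rw [this]
        abel
      have hj0 : j = 0 := by
        refine hI j hjI ?_
        have : j = D - (D - j) := by abel
        rw [this]
        refine (norm_sub_le _ _).trans_lt ?_
        rw [hDj]
        linarith
      rw [hj0, sub_zero] at hDj
      rw [hDj]
      exact e
  obtain ⟨θ, hθ⟩ := hyR g R ε gad
  have pos : ∀ a : ℕ, a ≤ R → Cl I (f a - (a : ℝ) • θ) (3 * ε) := by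
    intro a ha
    refine ⟨f a - g a, gI a ha, ?_⟩
    have : f a - (a : ℝ) • θ - (f a - g a) = g a - (a : ℝ) • θ := by abel
    rw [this]
    exact hθ a ha
  refine ⟨θ, fun a ha => ?_⟩
  rcases le_total 0 a with h1 | h1
  · obtain ⟨k, rfl⟩ := Int.eq_ofNat_of_zero_le h1
    have hk : k ≤ R := by
      rw [abs_of_nonneg h1] at ha
      exact_mod_cast ha
    exact ((pos k hk).mono (by linarith)).congr (by simp)
  · obtain ⟨k, rfl⟩ : ∃ k : ℕ, a = -(k : ℤ) := ⟨a.natAbs, by omega⟩
    have hk : k ≤ R := by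
      rw [abs_neg, abs_of_nonneg (by positivity)] at ha
      exact_mod_cast ha
    have e1 := (h (-(k : ℤ)) k ha (by rwa [abs_neg] at ha) (by simpa using hR0)).neg
    have e2 : Cl I (f 0) ε := ⟨i0, hi0, e0⟩
    have e3 := (e1.add e2).add (pos k hk).neg
    refine (e3.mono (by linarith)).congr ?_
    simp only [neg_add_cancel, Int.cast_neg, Int.cast_natCast, neg_smul]
    abel

/-- a reduced basis for an arbitrary norm -/
theorem kz (n : ℕ) : ∀ (G : Type) [AddCommGroup G] [Module.Finite ℤ G] (E : Type)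
    [SeminormedAddCommGroup E] [NormedSpace ℝ E] (p : G →+ E), Module.finrank ℤ G ≤ n →
    (∀ r : ℝ, {x : G | ‖p x‖ ≤ r}.Finite) → (∀ x, ‖p x‖ = 0 → x = 0) →
    ∃ (t : ℕ) (b : Fin t → G) (c : G →+ (Fin t → ℤ)), t ≤ n ∧ (∀ j, b j ≠ 0) ∧
      (∀ x, ∑ j, c x j • b j = x) ∧ (∀ x j, c x j ≠ 0 → ‖p (b j)‖ ≤ n * ‖p x‖) ∧
      ∀ x j, |(c x j : ℝ)| * ‖p (b j)‖ ≤ (4 * n + 4) ^ n * ‖p x‖ := by
  induction n with
  | zero =>
    intro G _ _ E _ _ p hr hfin hdef
    haveI : Module.IsTorsionFree ℤ G := by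
      refine Module.IsTorsionFree.of_smul_eq_zero fun k x hk => ?_
      have : |(k : ℝ)| * ‖p x‖ = 0 := by
        rw [← Real.norm_eq_abs, ← norm_smul, Int.cast_smul_eq_zsmul, ← map_zsmul, hk, map_zero,
          norm_zero]
      rcases mul_eq_zero.1 this with h | h
      · left; exact_mod_cast abs_eq_zero.1 h
      · right; exact hdef x h
    have hs : Subsingleton G := Module.finrank_zero_iff.1 (show Module.finrank ℤ G = 0 by omega)
    have hz : ∀ x : G, x = 0 := fun x => Subsingleton.elim _ _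
    exact ⟨0, fun j => j.elim0, 0, le_rfl, fun j => j.elim0, fun x => by simp [hz x],
      fun x j => j.elim0, fun x j => j.elim0⟩
  | succ n ih =>
    intro G _ _ E _ _ p hr hfin hdef
    classical
    have nz : ∀ (k : ℤ) (x : G), ‖p (k • x)‖ = |(k : ℝ)| * ‖p x‖ := by
      intro k x
      rw [← Real.norm_eq_abs, ← norm_smul, Int.cast_smul_eq_zsmul, ← map_zsmul]
    haveI : Module.IsTorsionFree ℤ G := by
      refine Module.IsTorsionFree.of_smul_eq_zero fun k x hk => ?_
      have : |(k : ℝ)| * ‖p x‖ = 0 := by rw [← nz, hk, map_zero, norm_zero]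
      rcases mul_eq_zero.1 this with h | h
      · left; exact_mod_cast abs_eq_zero.1 h
      · right; exact hdef x h
    by_cases hz : ∀ x : G, x = 0
    · exact ⟨0, fun j => j.elim0, 0, by omega, fun j => j.elim0, fun x => by simp [hz x],
        fun x j => j.elim0, fun x j => j.elim0⟩
    push Not at hz
    obtain ⟨x1, hx1⟩ := hz
    obtain ⟨b0, hb0, hmin⟩ := exists_min_image ((hfin ‖p x1‖).toFinset.filter fun x => x ≠ 0)
      (fun x => ‖p x‖) ⟨x1, by simp [hx1]⟩
    simp only [mem_filter, Set.Finite.mem_toFinset, Set.mem_setOf_eq] at hb0 hmin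
    have hb : b0 ≠ 0 := hb0.2
    set lam := ‖p b0‖ with hlam
    have hl : ∀ x, x ≠ 0 → lam ≤ ‖p x‖ := by
      intro x hx
      by_cases h : ‖p x‖ ≤ ‖p x1‖
      · exact hmin x ⟨h, hx⟩
      · linarith [hb0.1, not_le.1 h]
    have lp : 0 < lam := lt_of_le_of_ne (norm_nonneg _) fun h => hb (hdef b0 h.symm)
    set S : Submodule ℤ G := Submodule.span ℤ {b0} with hS
    set T : Submodule ℝ E := Submodule.span ℝ {p b0} with hT
    let p' : (G ⧸ S) →+ (E ⧸ T) :=
      (S.liftQ (T.mkQ.toAddMonoidHom.comp p).toIntLinearMap (by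
        rw [hS, Submodule.span_le]
        rintro _ rfl
        simp only [SetLike.mem_coe, LinearMap.mem_ker, AddMonoidHom.coe_toIntLinearMap,
          AddMonoidHom.coe_comp, LinearMap.toAddMonoidHom_coe, Function.comp, Submodule.mkQ_apply,
          Submodule.Quotient.mk_eq_zero]
        exact Submodule.mem_span_singleton_self _)).toAddMonoidHom
    have p'mk : ∀ x : G, p' (Submodule.Quotient.mk x) = Submodule.Quotient.mk (p x) := fun x => rfl
    have le' : ∀ x : G, ‖p' (Submodule.Quotient.mk x)‖ ≤ ‖p x‖ := fun x => by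
      rw [p'mk]; exact Submodule.Quotient.norm_mk_le T _
    have lift : ∀ z : G ⧸ S, ∃ y : G, Submodule.Quotient.mk y = z ∧
        ‖p y‖ ≤ ‖p' z‖ + 3 / 4 * lam := by
      intro z
      obtain ⟨x, rfl⟩ := Submodule.Quotient.mk_surjective S z
      obtain ⟨m, hm, hm'⟩ := Submodule.Quotient.norm_mk_lt (p' (Submodule.Quotient.mk x))
        (show 0 < lam / 4 by positivity)
      rw [p'mk] at hm
      obtain ⟨τ, hτ⟩ := Submodule.mem_span_singleton.1 ((Submodule.Quotient.eq T).1 hm)
      refine ⟨x + round τ • b0, ?_, ?_⟩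
      · rw [Submodule.Quotient.eq]
        simp only [add_sub_cancel_left]
        exact S.smul_mem _ (Submodule.mem_span_singleton_self _)
      · have e : p (x + round τ • b0) = m - (τ - round τ) • p b0 := by
          rw [map_add, map_zsmul, sub_smul, hτ, Int.cast_smul_eq_zsmul]
          abel
        rw [e]
        refine (norm_sub_le _ _).trans ?_
        rw [norm_smul, Real.norm_eq_abs]
        have := abs_sub_round τ
        have : |τ - round τ| * lam ≤ 1 / 2 * lam := mul_le_mul_of_nonneg_right this lp.le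
        linarith
    have hr' : Module.finrank ℤ (G ⧸ S) ≤ n := by
      have h1 := Submodule.finrank_quotient_add_finrank S
      have h2 : 0 < Module.finrank ℤ S := by
        rw [Module.finrank_pos_iff]
        exact ⟨⟨b0, Submodule.mem_span_singleton_self b0⟩, 0, fun h => hb (congrArg Subtype.val h)⟩
      omega
    have hfin' : ∀ r : ℝ, {z : G ⧸ S | ‖p' z‖ ≤ r}.Finite := by
      intro r
      refine ((hfin (r + 3 / 4 * lam)).image Submodule.Quotient.mk).subset fun z hz => ?_
      obtain ⟨y, hy, hy'⟩ := lift z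
      exact ⟨y, hy'.trans (by simp only [Set.mem_setOf_eq] at hz; linarith), hy⟩
    have hdef' : ∀ z : G ⧸ S, ‖p' z‖ = 0 → z = 0 := by
      intro z hz
      obtain ⟨y, hy, hy'⟩ := lift z
      by_cases h0 : y = 0
      · rw [← hy, h0]; rfl
      · have := hl y h0
        linarith
    obtain ⟨t, b', c', ht, hb', hsum, hS', hC⟩ := ih (G ⧸ S) (E ⧸ T) p' hr' hfin' hdef'
    choose y hy hy' using fun j => lift (b' j)
    have y0 : ∀ j, y j ≠ 0 := fun j h => hb' j (by rw [← hy, h]; rfl)
    have y4 : ∀ j, ‖p (y j)‖ ≤ 4 * ‖p' (b' j)‖ := fun j => by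
      have := hl _ (y0 j)
      have := hy' j
      linarith
    have rem : ∀ x : G, ∃ k : ℤ, k • b0 = x - ∑ j, c' (Submodule.Quotient.mk x) j • y j := by
      intro x
      refine Submodule.mem_span_singleton.1 ((Submodule.Quotient.eq S).1 ?_)
      have : (Submodule.Quotient.mk (∑ j, c' (Submodule.Quotient.mk x) j • y j) : G ⧸ S) =
          ∑ j, c' (Submodule.Quotient.mk x) j • b' j := by
        rw [← Submodule.mkQ_apply, map_sum]
        refine sum_congr rfl fun j _ => ?_
        rw [map_zsmul, Submodule.mkQ_apply, hy]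
      rw [this, hsum]
    choose k hk using rem
    have kinj : ∀ a a' : ℤ, a • b0 = a' • b0 → a = a' := fun a a' h =>
      smul_left_injective ℤ hb h
    have kadd : ∀ x x', k (x + x') = k x + k x' := by
      intro x x'
      refine kinj _ _ ?_
      rw [add_smul, hk, hk, hk, Submodule.Quotient.mk_add, map_add]
      simp only [Pi.add_apply, add_smul, sum_add_distrib]
      abel
    let c : G →+ (Fin (t + 1) → ℤ) := AddMonoidHom.mk'
      (fun x => Fin.cons (k x) (c' (Submodule.Quotient.mk x))) (by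
        intro x x'
        funext j
        refine Fin.cases ?_ (fun j => ?_) j
        · simp [kadd]
        · simp [Submodule.Quotient.mk_add])
    have c0 : ∀ x, c x 0 = k x := fun x => rfl
    have cs : ∀ x j, c x (Fin.succ j) = c' (Submodule.Quotient.mk x) j := fun x j => rfl
    have hn0 : (0 : ℝ) ≤ n := by positivity
    have one : (1 : ℝ) ≤ (4 * n + 4) ^ n := one_le_pow₀ (by linarith)
    have cy : ∀ x j, |(c' (Submodule.Quotient.mk x) j : ℝ)| * ‖p (y j)‖ ≤
        4 * (4 * n + 4) ^ n * ‖p x‖ := by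
      intro x j
      have e1 := hC (Submodule.Quotient.mk x) j
      have e2 := mul_le_mul_of_nonneg_left (y4 j) (abs_nonneg (c' (Submodule.Quotient.mk x) j : ℝ))
      have e3 := mul_le_mul_of_nonneg_left (le' x) (show (0 : ℝ) ≤ (4 * n + 4) ^ n by positivity)
      nlinarith
    have big : (4 * n + 4) * (4 * (n : ℝ) + 4) ^ n ≤ (4 * ((n + 1 : ℕ) : ℝ) + 4) ^ (n + 1) := by
      rw [← pow_succ']
      refine pow_le_pow_left₀ (by positivity) ?_ _
      push_cast
      linarith
    refine ⟨t + 1, Fin.cons b0 y, c, by omega, fun j => ?_, fun x => ?_, fun x j => ?_,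
      fun x j => ?_⟩
    · refine Fin.cases ?_ (fun j => ?_) j
      · simpa using hb
      · simpa using y0 j
    · rw [Fin.sum_univ_succ]
      simp only [Fin.cons_zero, Fin.cons_succ, c0, cs]
      rw [hk]
      abel
    · have xn : c x j ≠ 0 → x ≠ 0 := fun h h0 => h (by rw [h0, map_zero]; rfl)
      revert xn
      refine Fin.cases ?_ (fun j => ?_) j
      · intro xn h
        have := hl x (xn h)
        simp only [Fin.cons_zero]
        push_cast
        nlinarith [norm_nonneg (p x)]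
      · intro xn h
        have e1 := hl x (xn h)
        have e2 := hS' (Submodule.Quotient.mk x) j h
        have e3 := mul_le_mul_of_nonneg_left (le' x) hn0
        have e4 := hy' j
        simp only [Fin.cons_succ]
        push_cast
        nlinarith
    · refine le_trans ?_ (mul_le_mul_of_nonneg_right big (norm_nonneg _))
      refine Fin.cases ?_ (fun j => ?_) j
      · simp only [Fin.cons_zero, c0]
        rw [← nz, hk, map_sub, map_sum]
        refine (norm_sub_le _ _).trans ?_
        have e1 : ‖∑ j, p (c' (Submodule.Quotient.mk x) j • y j)‖ ≤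
            t * (4 * (4 * n + 4) ^ n * ‖p x‖) := by
          refine (norm_sum_le _ _).trans ?_
          refine (sum_le_card_nsmul _ _ _ fun j _ => (nz _ _).le.trans (cy x j)).trans ?_
          simp
        have ht' : (t : ℝ) ≤ n := by exact_mod_cast ht
        have e2 : (t : ℝ) * (4 * (4 * n + 4) ^ n * ‖p x‖) ≤ n * (4 * (4 * n + 4) ^ n * ‖p x‖) :=
          mul_le_mul_of_nonneg_right ht' (by positivity)
        have e3 := mul_le_mul_of_nonneg_right one (norm_nonneg (p x))
        nlinarith [norm_nonneg (p x)]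
      · simp only [Fin.cons_succ, cs]
        refine (cy x j).trans ?_
        have : (0 : ℝ) ≤ (4 * n + 4) ^ n * ‖p x‖ := by positivity
        nlinarith

section walk
variable {G E V : Type} [AddCommGroup G] [SeminormedAddCommGroup E] [SeminormedAddCommGroup V]

/-- adding finitely many short steps -/
theorem chain (p : G →+ E) (I : AddSubgroup V) (Φ : G → V) (ε : ℝ)
    (h : ∀ x y, ‖p x‖ ≤ 1 → ‖p y‖ ≤ 1 → ‖p (x + y)‖ ≤ 1 → Cl I (Φ (x + y) - Φ x - Φ y) ε)
    {ι : Type} (z : ι → G) (u : ι → V) (a B A : ℝ) (ha : 0 ≤ a) (ha1 : a ≤ 1)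
    (hz : ∀ i, ‖p (z i)‖ ≤ a) (hu : ∀ i, Cl I (Φ (z i) - u i) B) (y : G) (w : V)
    (hy : Cl I (Φ y - w) A) (s : Finset ι) (hs : ‖p y‖ + s.card * a ≤ 1) :
    ‖p (y + ∑ i ∈ s, z i)‖ ≤ ‖p y‖ + s.card * a ∧
      Cl I (Φ (y + ∑ i ∈ s, z i) - (w + ∑ i ∈ s, u i)) (A + s.card * (B + ε)) := by
  classical
  induction s using Finset.induction_on with
  | empty => simpa using hy
  | insert i s hi ih =>
    rw [card_insert_of_notMem hi] at hs ⊢
    push_cast at hs ⊢
    obtain ⟨e1, e2⟩ := ih (by linarith)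
    rw [sum_insert hi, sum_insert hi]
    have e : y + (z i + ∑ i ∈ s, z i) = (y + ∑ i ∈ s, z i) + z i := by abel
    have e3 : ‖p ((y + ∑ i ∈ s, z i) + z i)‖ ≤ ‖p y‖ + (s.card + 1) * a := by
      rw [map_add]
      have := hz i
      exact (norm_add_le _ _).trans (by linarith)
    rw [e]
    refine ⟨e3, ?_⟩
    have e4 := h (y + ∑ i ∈ s, z i) (z i) (by linarith) ((hz i).trans ha1) (by linarith)
    refine (((e4.add e2).add (hu i)).mono (by linarith)).congr ?_
    abel

end walk

/-- a nearly additive map on the unit ball is near an additive map on a smaller ball -/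
theorem ext (n : ℕ) (G : Type) [AddCommGroup G] [Module.Finite ℤ G] (E : Type)
    [SeminormedAddCommGroup E] [NormedSpace ℝ E] (p : G →+ E) (hr : Module.finrank ℤ G ≤ n)
    (hfin : ∀ r : ℝ, {x : G | ‖p x‖ ≤ r}.Finite) (hdef : ∀ x, ‖p x‖ = 0 → x = 0)
    (V : Type) [SeminormedAddCommGroup V] [NormedSpace ℝ V] (I : AddSubgroup V) (Hs ε : ℝ)
    (hI : ∀ v ∈ I, ‖v‖ < Hs → v = 0) (hε : 4 * ε < Hs) (Φ : G → V)
    (h : ∀ x y, ‖p x‖ ≤ 1 → ‖p y‖ ≤ 1 → ‖p (x + y)‖ ≤ 1 → Cl I (Φ (x + y) - Φ x - Φ y) ε) :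
    ∃ L : G →+ V, ∀ x, (3 * n ^ 2 + 1) * ‖p x‖ ≤ 1 →
      Cl I (Φ x - L x) ((4 * n + 4) ^ (n + 2) * ε) := by
  classical
  obtain ⟨t, b, c, ht, hb, hsum, hS, hC⟩ := kz n G E p hr hfin hdef
  have nz : ∀ (k : ℤ) (x : G), ‖p (k • x)‖ = |(k : ℝ)| * ‖p x‖ := by
    intro k x
    rw [← Real.norm_eq_abs, ← norm_smul, Int.cast_smul_eq_zsmul, ← map_zsmul]
  have bp : ∀ j, 0 < ‖p (b j)‖ := fun j =>
    lt_of_le_of_ne (norm_nonneg _) fun h0 => hb j (hdef _ h0.symm)
  have h0 : Cl I (Φ 0 - 0) ε := by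
    have := (h 0 0 (by simp) (by simp) (by simp)).neg
    exact this.congr (by simp)
  have ε0 : 0 ≤ ε := by
    obtain ⟨i, -, e⟩ := h0
    exact (norm_nonneg _).trans e
  have hy : ∀ j, ∃ θ : V, ∀ a : ℤ, ‖p (a • b j)‖ ≤ 1 → Cl I (Φ (a • b j) - a • θ) (5 * ε) := by
    intro j
    have key : ∀ a : ℤ, |a| ≤ (⌊1 / ‖p (b j)‖⌋₊ : ℕ) ↔ ‖p (a • b j)‖ ≤ 1 := by
      intro a
      rw [nz, ← le_div_iff₀ (bp j), Int.abs_eq_natAbs, Nat.cast_le,
        Nat.le_floor_iff (div_nonneg zero_le_one (bp j).le), Nat.cast_natAbs, Int.cast_abs]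
    obtain ⟨θ, hθ⟩ := hyI I Hs ε hI hε (fun a => Φ (a • b j)) ⌊1 / ‖p (b j)‖⌋₊ (by
      intro a a' e1 e2 e3
      have := h (a • b j) (a' • b j) ((key a).1 e1) ((key a').1 e2)
        (by rw [← add_smul]; exact (key _).1 e3)
      rwa [← add_smul] at this)
    exact ⟨θ, fun a ha => (hθ a ((key a).2 ha)).congr (by rw [Int.cast_smul_eq_zsmul])⟩
  choose θ hθ using hy
  let L : G →+ V := AddMonoidHom.mk' (fun x => ∑ j, c x j • θ j) (by
    intro x x'
    simp only [map_add, Pi.add_apply, add_smul, sum_add_distrib])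
  refine ⟨L, fun x hx => ?_⟩
  have hn0 : (0 : ℝ) ≤ n := by positivity
  have ht' : (t : ℝ) ≤ n := by exact_mod_cast ht
  set r := ‖p x‖ with hrx
  have r0 : 0 ≤ r := norm_nonneg _
  rcases Nat.eq_zero_or_pos n with rfl | hn
  · have : t = 0 := by omega
    subst this
    have hx0 : x = 0 := by rw [← hsum x]; simp
    rw [hx0, map_zero]
    exact h0.mono (by norm_num; linarith)
  have hn1 : (1 : ℝ) ≤ n := by exact_mod_cast hn
  set M : ℕ := (4 * n + 4) ^ n with hM
  have hMR : (M : ℝ) = (4 * n + 4) ^ n := by rw [hM]; push_cast; rfl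
  have Mp : 0 < M := by positivity
  have MZ : (0 : ℤ) < M := by exact_mod_cast Mp
  have MR : (0 : ℝ) < M := by exact_mod_cast Mp
  let P : ℕ → Fin t → ℤ := fun k j => (k * c x j) / M
  let ρ : ℕ → Fin t → ℤ := fun k j => (k * c x j) % M
  have Pe : ∀ k j, (M : ℤ) * P k j = k * c x j - ρ k j := fun k j => by
    have := Int.mul_ediv_add_emod (k * c x j) M
    simp only [P, ρ]
    linarith
  have ρb : ∀ k j, 0 ≤ ρ k j ∧ ρ k j ≤ M := fun k j =>
    ⟨Int.emod_nonneg _ MZ.ne', (Int.emod_lt_of_pos _ MZ).le⟩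
  have ρs : ∀ k j, ‖p (ρ k j • b j)‖ ≤ M * (n * r) := by
    intro k j
    by_cases h0 : c x j = 0
    · have : ρ k j = 0 := by simp [ρ, h0]
      rw [this, zero_smul, map_zero, norm_zero]
      positivity
    · rw [nz]
      have e1 : |(ρ k j : ℝ)| ≤ M := by
        rw [abs_of_nonneg (by exact_mod_cast (ρb k j).1)]
        exact_mod_cast (ρb k j).2
      exact mul_le_mul e1 (hS x j h0) (norm_nonneg _) MR.le
  have Pn : ∀ k, k ≤ M → ‖p (∑ j, P k j • b j)‖ ≤ r + n * (n * r) := by
    intro k hk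
    have e1 : (M : ℤ) • ∑ j, P k j • b j = (k : ℤ) • x - ∑ j, ρ k j • b j := by
      conv_rhs => rw [← hsum x]
      rw [smul_sum, smul_sum, ← sum_sub_distrib]
      refine sum_congr rfl fun j _ => ?_
      rw [smul_smul, smul_smul, Pe, sub_smul]
    have e2 := nz M (∑ j, P k j • b j)
    rw [e1, map_sub, map_sum] at e2
    have e3 : ‖∑ j, p (ρ k j • b j)‖ ≤ t * (M * (n * r)) := by
      refine (norm_sum_le _ _).trans ((sum_le_card_nsmul _ _ _ fun j _ => ρs k j).trans ?_)
      simp
    have e4 := norm_sub_le (p ((k : ℤ) • x)) (∑ j, p (ρ k j • b j))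
    rw [nz] at e4
    simp only [Int.cast_natCast, Nat.abs_cast] at e2 e4
    have hk' : (k : ℝ) ≤ M := by exact_mod_cast hk
    have e5 : (k : ℝ) * r ≤ M * r := mul_le_mul_of_nonneg_right hk' r0
    have e6 : (t : ℝ) * (M * (n * r)) ≤ n * (M * (n * r)) :=
      mul_le_mul_of_nonneg_right ht' (by positivity)
    refine le_of_mul_le_mul_left ?_ MR
    nlinarith
  have δn : ∀ k j, ‖p ((P (k + 1) j - P k j) • b j)‖ ≤ 2 * (n * r) := by
    intro k j
    have e1 : (M : ℤ) • ((P (k + 1) j - P k j) • b j) =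
        c x j • b j + (ρ k j - ρ (k + 1) j) • b j := by
      rw [smul_smul, mul_sub, Pe, Pe, ← add_smul]
      congr 1
      push_cast
      ring
    have e2 := nz M ((P (k + 1) j - P k j) • b j)
    rw [e1, map_add] at e2
    have e3 : ‖p ((ρ k j - ρ (k + 1) j) • b j)‖ ≤ M * (n * r) := by
      by_cases h0 : c x j = 0
      · have : ρ k j - ρ (k + 1) j = 0 := by simp [ρ, h0]
        rw [this, zero_smul, map_zero, norm_zero]
        positivity
      · rw [nz]
        have e1 : |((ρ k j - ρ (k + 1) j : ℤ) : ℝ)| ≤ M := by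
          have a1 := ρb k j
          have a2 := ρb (k + 1) j
          have : |ρ k j - ρ (k + 1) j| ≤ M := abs_le.2 ⟨by omega, by omega⟩
          exact_mod_cast this
        exact mul_le_mul e1 (hS x j h0) (norm_nonneg _) MR.le
    have e4 := norm_add_le (p (c x j • b j)) (p ((ρ k j - ρ (k + 1) j) • b j))
    have e5 := hC x j
    rw [← nz, ← hMR] at e5
    simp only [Int.cast_natCast, Nat.abs_cast] at e2
    have e6 : (M : ℝ) * r ≤ M * (n * r) :=
      mul_le_mul_of_nonneg_left (le_mul_of_one_le_left r0 hn1) MR.le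
    refine le_of_mul_le_mul_left ?_ MR
    nlinarith
  have a1 : 2 * (n * r) ≤ 1 := by nlinarith [mul_nonneg r0 (sq_nonneg ((n : ℝ) - 1))]
  have main : ∀ k, k ≤ M → Cl I (Φ (∑ j, P k j • b j) - ∑ j, P k j • θ j)
      (ε + k * (n * (6 * ε))) := by
    intro k
    induction k with
    | zero => intro _; simpa [P] using h0
    | succ k ih =>
      intro hk
      have e0 := Pn k (by omega)
      have e7 : (t : ℝ) * (2 * (n * r)) ≤ n * (2 * (n * r)) :=
        mul_le_mul_of_nonneg_right ht' (by positivity)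
      have := (chain p I Φ ε h (fun j => (P (k + 1) j - P k j) • b j)
        (fun j => (P (k + 1) j - P k j) • θ j) (2 * (n * r)) (5 * ε) _ (by positivity) a1
        (δn k) (fun j => hθ j _ ((δn k j).trans a1)) _ _ (ih (by omega)) univ
        (by simp only [card_univ, Fintype.card_fin]; nlinarith)).2
      simp only [← sum_add_distrib, ← add_smul, add_sub_cancel, card_univ, Fintype.card_fin] at this
      refine this.mono ?_
      push_cast
      have : (t : ℝ) * (5 * ε + ε) ≤ n * (5 * ε + ε) :=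
        mul_le_mul_of_nonneg_right ht' (by positivity)
      linarith
  have fin := main M le_rfl
  have PM : ∀ j, P M j = c x j := fun j => Int.mul_ediv_cancel_left _ MZ.ne'
  simp only [PM, hsum] at fin
  refine fin.mono ?_
  have M1 : (1 : ℝ) ≤ M := by exact_mod_cast Mp
  rw [pow_add, ← hMR]
  have : 1 + (M : ℝ) * (n * 6) ≤ M * (4 * n + 4) ^ 2 := by nlinarith
  nlinarith

end Vale.Agent.P057T.ExtH17
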