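import Mathlib

/-! Local stability of the additive equation on a ball of a lattice. -/

set_option linter.all false

open Finset
open scoped BigOperators

namespace Vale.Agent.P057T.ExtH61

noncomputable section

theorem spanner {E : Type} [AddCommGroup E] [Module ℝ E] [FiniteDimensional ℝ E] {G : Type}
    (π : G → E) (S : Finset G) :
    ∃ (κ : Type) (_ : Fintype κ) (_ : DecidableEq κ) (v : κ → G) (co : E →ₗ[ℝ] (κ → ℝ)),
      Fintype.card κ ≤ Module.finrank ℝ E ∧ (∀ j, v j ∈ S) ∧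
      (∀ j, co (π (v j)) = Pi.single j 1) ∧
      (∀ x ∈ S, π x = ∑ j, co (π x) j • π (v j)) ∧ ∀ x ∈ S, ∀ j, |co (π x) j| ≤ 1 := by
  classical
  obtain ⟨κ, a, ha, hsp, hli⟩ := exists_linearIndependent' ℝ (fun s : S => π s.1)
  haveI : Finite κ := Finite.of_injective a ha
  letI : Fintype κ := Fintype.ofFinite κ
  set b : κ → E := (fun s : S => π s.1) ∘ a with hb
  have hinj : LinearMap.ker (Fintype.linearCombination ℝ b) = ⊥ :=
    LinearMap.ker_eq_bot.2 (linearIndependent_iff_injective_fintypeLinearCombination.1 hli)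
  obtain ⟨c0, hc0⟩ := LinearMap.exists_leftInverse_of_injective _ hinj
  have hc0' : ∀ t, c0 (Fintype.linearCombination ℝ b t) = t := fun t =>
    LinearMap.congr_fun hc0 t
  have hback : ∀ s : S, Fintype.linearCombination ℝ b (c0 (π s.1)) = π s.1 := by
    intro s
    have h1 : π s.1 ∈ Submodule.span ℝ (Set.range b) := by
      rw [hsp]; exact Submodule.subset_span ⟨s, rfl⟩
    rw [← Fintype.range_linearCombination] at h1
    obtain ⟨t, ht⟩ := h1
    rw [← ht, hc0']
  set e := Pi.basisFun ℝ κ with he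
  obtain ⟨u, -, hu⟩ := exists_max_image (univ : Finset (κ → S))
    (fun u => |e.det (fun j => c0 (π (u j).1))|) ⟨a, mem_univ _⟩
  have ha1 : (fun j => c0 (π (a j).1)) = e := by
    funext j
    have : π (a j).1 = Fintype.linearCombination ℝ b (Pi.single j 1) := by
      simp [Fintype.linearCombination_apply_single, hb]
    rw [this, hc0', he, Pi.basisFun_apply]
  have hpos : 1 ≤ |e.det (fun j => c0 (π (u j).1))| := by
    have := hu a (mem_univ _)
    rw [ha1, e.det_self, abs_one] at this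
    exact this
  have hne : e.det (fun j => c0 (π (u j).1)) ≠ 0 := by
    intro h; rw [h, abs_zero] at hpos; linarith
  obtain ⟨hl, hs⟩ := (e.is_basis_iff_det (v := fun j => c0 (π (u j).1))).2 hne.isUnit
  set B := Module.Basis.mk hl hs.ge with hB
  have hBj : ∀ j, B j = c0 (π (u j).1) := fun j => by simp [hB]
  refine ⟨κ, inferInstance, inferInstance, fun j => (u j).1, B.equivFun.toLinearMap ∘ₗ c0,
    hli.fintype_card_le_finrank, fun j => (u j).2, ?_, ?_, ?_⟩
  · intro j
    funext i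
    simp only [LinearMap.comp_apply, LinearEquiv.coe_coe, ← hBj, Module.Basis.equivFun_self]
    by_cases h : j = i
    · subst h; simp
    · simp [h, Ne.symm h]
  · intro x hx
    have h1 := B.sum_equivFun (c0 (π x))
    have h2 := congrArg (Fintype.linearCombination ℝ b) h1
    rw [hback ⟨x, hx⟩, map_sum] at h2
    rw [← h2]
    refine sum_congr rfl fun j _ => ?_
    rw [map_smul, hBj, hback, h2]
    rfl
  · intro x hx j
    have h1 := LinearMap.congr_fun (e.det_smul_mk_coord_eq_det_update hl hs.ge j) (c0 (π x))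
    simp only [LinearMap.smul_apply, smul_eq_mul, MultilinearMap.toLinearMap_apply] at h1
    have h2 := hu (Function.update u j ⟨x, hx⟩) (mem_univ _)
    have h3 : (fun i => c0 (π ((Function.update u j ⟨x, hx⟩) i).1)) =
        Function.update (fun j => c0 (π (u j).1)) j (c0 (π x)) := by
      funext i
      by_cases h : i = j
      · subst h; simp
      · simp [h]
    rw [h3] at h2
    have h4 : |e.det (fun j => c0 (π (u j).1))| * |B.coord j (c0 (π x))| ≤
        |e.det (fun j => c0 (π (u j).1))| := by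
      rw [← abs_mul, hB, h1]; exact h2
    have h5 : |B.coord j (c0 (π x))| ≤ 1 := by
      by_contra h
      rw [not_le] at h
      nlinarith
    simpa using h5

variable {V : Type} [AddCommGroup V] [Module ℝ V]

/-- within r of the subgroup -/
def Nr (N : Seminorm ℝ V) (I : AddSubgroup V) (r : ℝ) (w : V) : Prop := ∃ i ∈ I, N (w - i) ≤ r

variable {N : Seminorm ℝ V} {I : AddSubgroup V}

theorem Nr.add {r s : ℝ} {w u : V} (h : Nr N I r w) (k : Nr N I s u) : Nr N I (r + s) (w + u) := by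
  obtain ⟨i, hi, h⟩ := h
  obtain ⟨j, hj, k⟩ := k
  refine ⟨i + j, I.add_mem hi hj, ?_⟩
  have : w + u - (i + j) = (w - i) + (u - j) := by abel
  rw [this]
  exact (map_add_le_add N _ _).trans (add_le_add h k)

theorem Nr.neg {r : ℝ} {w : V} (h : Nr N I r w) : Nr N I r (-w) := by
  obtain ⟨i, hi, h⟩ := h
  refine ⟨-i, I.neg_mem hi, ?_⟩
  have : -w - -i = -(w - i) := by abel
  rw [this, map_neg_eq_map]
  exact h

theorem Nr.sub {r s : ℝ} {w u : V} (h : Nr N I r w) (k : Nr N I s u) : Nr N I (r + s) (w - u) := by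
  rw [sub_eq_add_neg]; exact h.add k.neg

theorem Nr.mono {r s : ℝ} {w : V} (h : Nr N I r w) (k : r ≤ s) : Nr N I s w := by
  obtain ⟨i, hi, h⟩ := h
  exact ⟨i, hi, h.trans k⟩

theorem Nr.of_eq {r : ℝ} {w u : V} (h : Nr N I r w) (k : w = u) : Nr N I r u := k ▸ h

theorem nr_zero {r : ℝ} (h : 0 ≤ r) : Nr N I r 0 := ⟨0, I.zero_mem, by simpa using h⟩

theorem nr_of_le {r : ℝ} {w : V} (h : N w ≤ r) : Nr N I r w := ⟨0, I.zero_mem, by simpa using h⟩

theorem nr_of_mem {w : V} (h : w ∈ I) : Nr N I 0 w := ⟨w, h, by simp⟩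

/-- averaging over a finite period set -/
theorem per {A : Type} [AddCommGroup A] (Ψ : A → V) (r : ℝ) (T : Finset A) (hT : T.Nonempty)
    (fr : A → A) (hgap : ∀ F ∈ I, N F ≤ 4 * r → F = 0)
    (hD : ∀ x y, Nr N I r (Ψ (x + y) - Ψ x - Ψ y))
    (hfr : ∀ x w, Ψ (x + fr w) - Ψ x - Ψ (fr w) = Ψ (x + w) - Ψ x - Ψ w)
    (hm : ∀ w, fr w ∈ T) (hi : ∀ y, ∀ w ∈ T, ∀ w' ∈ T, fr (y + w) = fr (y + w') → w = w') :
    ∃ F : A →+ V ⧸ I, ∀ x, ∃ w : V, (w : V ⧸ I) = F x ∧ N (Ψ x - w) ≤ r := by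
  classical
  have hl : ∀ d : V, ∃ o : V, Nr N I r d → d - o ∈ I ∧ N o ≤ r := by
    intro d
    by_cases h : Nr N I r d
    · obtain ⟨i, hi, h⟩ := h
      exact ⟨d - i, fun _ => ⟨by simpa using hi, h⟩⟩
    · exact ⟨0, fun k => absurd k h⟩
  choose li hli using hl
  set D : A → A → V := fun x y => Ψ (x + y) - Ψ x - Ψ y with hDdef
  set ω : A → A → V := fun x y => li (D x y) with hω
  have o1 : ∀ x y, D x y - ω x y ∈ I := fun x y => (hli _ (hD x y)).1
  have o2 : ∀ x y, N (ω x y) ≤ r := fun x y => (hli _ (hD x y)).2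
  have o3 : ∀ x w, ω x (fr w) = ω x w := fun x w => by
    simp only [hω, hDdef]; rw [hfr]
  have co : ∀ x y w, ω x y + ω (x + y) w - ω y w - ω x (y + w) = 0 := by
    intro x y w
    apply hgap
    · have e : ω x y + ω (x + y) w - ω y w - ω x (y + w) =
          (D y w - ω y w) + (D x (y + w) - ω x (y + w)) - (D x y - ω x y) -
            (D (x + y) w - ω (x + y) w) := by
        simp only [hDdef, add_assoc]; abel
      rw [e]
      exact I.sub_mem (I.sub_mem (I.add_mem (o1 _ _) (o1 _ _)) (o1 _ _)) (o1 _ _)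
    · have a1 := map_sub_le_add N (ω x y + ω (x + y) w - ω y w) (ω x (y + w))
      have a2 := map_sub_le_add N (ω x y + ω (x + y) w) (ω y w)
      have a3 := map_add_le_add N (ω x y) (ω (x + y) w)
      linarith [o2 x y, o2 (x + y) w, o2 y w, o2 x (y + w)]
  have sh : ∀ x y, ∑ w ∈ T, ω x (y + w) = ∑ w ∈ T, ω x w := by
    intro x y
    have himg : T.image (fun w => fr (y + w)) = T := by
      apply eq_of_subset_of_card_le
      · intro z hz
        obtain ⟨w, -, rfl⟩ := mem_image.1 hz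
        exact hm _
      · rw [card_image_of_injOn (fun w hw w' hw' h => hi y w hw w' hw' h)]
    conv_rhs => rw [← himg]
    rw [sum_image (fun w hw w' hw' h => hi y w hw w' hw' h)]
    exact sum_congr rfl fun w _ => (o3 _ _).symm
  have hc : (0 : ℝ) < T.card := by exact_mod_cast hT.card_pos
  set ψ : A → V := fun x => ((T.card : ℝ)⁻¹) • ∑ w ∈ T, ω x w with hψ
  have p1 : ∀ x y, ω x y = ψ x + ψ y - ψ (x + y) := by
    intro x y
    have h0 : ∑ w ∈ T, (ω x y + ω (x + y) w - ω y w - ω x (y + w)) = 0 :=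
      sum_eq_zero fun w _ => co x y w
    rw [sum_sub_distrib, sum_sub_distrib, sum_add_distrib, sh, sum_const] at h0
    have h1 : (T.card : ℝ) • ω x y =
        ∑ w ∈ T, ω x w + ∑ w ∈ T, ω y w - ∑ w ∈ T, ω (x + y) w := by
      rw [Nat.cast_smul_eq_nsmul, ← sub_eq_zero, ← h0]; abel
    simp only [hψ]
    rw [← smul_add, ← smul_sub, ← h1, smul_smul, inv_mul_cancel₀ hc.ne', one_smul]
  have p2 : ∀ x, N (ψ x) ≤ r := by
    intro x
    simp only [hψ]
    rw [map_smul_eq_mul, Real.norm_eq_abs, abs_of_pos (inv_pos.2 hc), inv_mul_le_iff₀ hc]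
    refine (le_sum_of_subadditive N (map_zero N).le (map_add_le_add N) T _).trans ?_
    have := sum_le_card_nsmul T (fun w => N (ω x w)) r fun w _ => o2 x w
    simpa using this
  refine ⟨AddMonoidHom.mk' (fun x => ((Ψ x + ψ x : V) : V ⧸ I)) ?_, fun x => ⟨Ψ x + ψ x, rfl, ?_⟩⟩
  · intro x y
    rw [← QuotientAddGroup.mk_add, QuotientAddGroup.eq_iff_sub_mem]
    have := o1 x y
    rw [p1] at this
    convert this using 1
    simp only [hDdef]; abel
  · have : Ψ x - (Ψ x + ψ x) = -ψ x := by abel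
    rw [this, map_neg_eq_map]; exact p2 x

theorem ext {G E : Type} [AddCommGroup G] [AddCommGroup E] [Module ℝ E] [FiniteDimensional ℝ E]
    (π : G →+ E) (hπ : Function.Injective π) (p : Seminorm ℝ E)
    (hfin : {g | p (π g) ≤ 1}.Finite) (Φ : G → V) (ε ρ : ℝ) (n : ℕ)
    (hn : Module.finrank ℝ E ≤ n) (hε : 0 ≤ ε) (hρ0 : 0 ≤ ρ) (hρ : 2 * (n + 1) * ρ ≤ 1)
    (hgap : ∀ F ∈ I, N F ≤ 4 * ((n + 1) * ε) → F = 0)
    (hΦ : ∀ x y, p (π x) ≤ 1 → p (π y) ≤ 1 → p (π (x + y)) ≤ 1 →
      Nr N I ε (Φ (x + y) - Φ x - Φ y)) :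
    ∃ F : G →+ V ⧸ I, ∀ x, p (π x) ≤ ρ →
      ∃ w : V, (w : V ⧸ I) = F x ∧ N (Φ x - w) ≤ (2 * n + 1) * ε := by
  classical
  have hn0 : (0 : ℝ) ≤ n := Nat.cast_nonneg n
  have hρ1 : ρ ≤ 1 := by nlinarith
  have hS : {g | p (π g) ≤ ρ}.Finite := hfin.subset fun g hg => le_trans hg hρ1
  obtain ⟨κ, _, _, v, co, hk, hv, hco, hsp, hb⟩ := spanner π hS.toFinset
  have hk' : (Fintype.card κ : ℝ) ≤ n := by exact_mod_cast hk.trans hn
  have hv' : ∀ j, p (π (v j)) ≤ ρ := fun j => by simpa using hv j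
  let G1 : AddSubgroup G :=
    { carrier := {g | π g = ∑ j, co (π g) j • π (v j)}
      zero_mem' := by simp
      add_mem' := by
        intro a b ha hb
        simp only [Set.mem_setOf_eq] at ha hb ⊢
        rw [map_add, map_add]
        simp only [Pi.add_apply, add_smul, sum_add_distrib]
        rw [← ha, ← hb]
      neg_mem' := by
        intro a ha
        simp only [Set.mem_setOf_eq] at ha ⊢
        rw [map_neg, map_neg]
        simp only [Pi.neg_apply, neg_smul, sum_neg_distrib]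
        rw [← ha] }
  have m1 : ∀ g, g ∈ G1 ↔ π g = ∑ j, co (π g) j • π (v j) := fun g => Iff.rfl
  have vm : ∀ j, v j ∈ G1 := fun j => hsp _ (hv j)
  have sz : ∀ g ∈ G1, (∀ j, |co (π g) j| ≤ 2) → p (π g) ≤ 1 := by
    intro g hg h
    rw [(m1 g).1 hg]
    refine (le_sum_of_subadditive p (map_zero p).le (map_add_le_add p) univ _).trans ?_
    have : ∑ j, p (co (π g) j • π (v j)) ≤ (univ : Finset κ).card • (2 * ρ) := by
      refine sum_le_card_nsmul _ _ _ fun j _ => ?_
      rw [map_smul_eq_mul, Real.norm_eq_abs]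
      exact mul_le_mul (h j) (hv' j) (apply_nonneg _ _) (by norm_num)
    refine this.trans ?_
    rw [card_univ, nsmul_eq_mul]
    nlinarith
  have cz : ∀ (s : Finset κ) (z : κ → ℤ) (j : κ),
      co (π (∑ i ∈ s, z i • v i)) j = if j ∈ s then (z j : ℝ) else 0 := by
    intro s z j
    rw [map_sum, map_sum, Finset.sum_apply]
    have : ∀ i ∈ s, co (π (z i • v i)) j = if j = i then (z i : ℝ) else 0 := by
      intro i _
      rw [map_zsmul, map_zsmul, hco, Pi.smul_apply, Pi.single_apply]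
      split_ifs <;> simp
    rw [sum_congr rfl this, sum_ite_eq]
  have zm : ∀ (s : Finset κ) (z : κ → ℤ), ∑ i ∈ s, z i • v i ∈ G1 := fun s z =>
    G1.sum_mem fun i _ => G1.zsmul_mem (vm i) _
  have v1 : ∀ j, p (π (v j)) ≤ 1 := fun j => (hv' j).trans hρ1
  -- adding unit vectors
  have lA : ∀ y ∈ G1, (∀ j, |co (π y) j| ≤ 1) → ∀ z : κ → ℤ, (∀ j, |z j| ≤ 1) → ∀ s : Finset κ,
      Nr N I (s.card * ε) (Φ (y + ∑ i ∈ s, z i • v i) - Φ y - ∑ i ∈ s, z i • Φ (v i)) := by
    intro y hy hc z hz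
    have small : ∀ s : Finset κ, p (π (y + ∑ i ∈ s, z i • v i)) ≤ 1 := by
      intro s
      refine sz _ (G1.add_mem hy (zm s z)) fun j => ?_
      rw [map_add, map_add, Pi.add_apply, cz]
      have h1 : |(z j : ℝ)| ≤ 1 := by exact_mod_cast hz j
      have h2 := hc j
      split_ifs
      · exact (abs_add_le _ _).trans (by linarith)
      · rw [add_zero]; linarith
    intro s
    induction s using Finset.induction_on with
    | empty => simpa using nr_zero le_rfl
    | insert a s ha ih =>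
      have h1 := small s
      have h2 := small (insert a s)
      rw [sum_insert ha] at h2
      rw [sum_insert ha, sum_insert ha, card_insert_of_notMem ha]
      set u := y + ∑ i ∈ s, z i • v i with hu
      have e : y + (z a • v a + ∑ i ∈ s, z i • v i) = u + z a • v a := by rw [hu]; abel
      rw [e] at h2 ⊢
      have step : Nr N I ε (Φ (u + z a • v a) - Φ u - z a • Φ (v a)) := by
        have := abs_le.1 (hz a)
        have h3 : z a = -1 ∨ z a = 0 ∨ z a = 1 := by omega
        rcases h3 with h | h | h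
        · rw [h] at h2 ⊢
          have h4 := hΦ _ _ h2 (v1 a) (by simpa using h1)
          refine h4.neg.of_eq ?_
          simp only [neg_smul, one_smul, neg_add_cancel_right]
          abel
        · rw [h]; simpa using nr_zero hε
        · rw [h] at h2 ⊢
          simpa using hΦ _ _ h1 (v1 a) (by simpa using h2)
      refine ((ih.add step).mono (le_of_eq (by push_cast; ring))).of_eq ?_
      abel
  have lA' : ∀ y ∈ G1, (∀ j, |co (π y) j| ≤ 1) → ∀ z : κ → ℤ, (∀ j, |z j| ≤ 1) →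
      Nr N I (n * ε) (Φ (y + ∑ i, z i • v i) - Φ y - ∑ i, z i • Φ (v i)) := fun y hy hc z hz =>
    (lA y hy hc z hz univ).mono (by rw [card_univ]; exact mul_le_mul_of_nonneg_right hk' hε)
  let fl : G → κ → ℤ := fun x j => ⌊co (π x) j⌋
  let fr : G → G := fun x => x - ∑ i, fl x i • v i
  have f1 : ∀ x j, co (π (fr x)) j = Int.fract (co (π x) j) := by
    intro x j
    simp only [fr]
    rw [map_sub, map_sub, Pi.sub_apply, cz, if_pos (mem_univ _)]
    rfl
  have f2 : ∀ x ∈ G1, fr x ∈ G1 := fun x hx => G1.sub_mem hx (zm _ _)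
  have f3 : ∀ x j, |co (π (fr x)) j| ≤ 1 := fun x j => by
    rw [f1, abs_of_nonneg (Int.fract_nonneg _)]; exact (Int.fract_lt_one _).le
  have f4 : ∀ x ∈ G1, p (π (fr x)) ≤ 1 := fun x hx =>
    sz _ (f2 x hx) fun j => (f3 x j).trans (by norm_num)
  have f5 : ∀ x (z : κ → ℤ), fl (x + ∑ i, z i • v i) = fl x + z := by
    intro x z; funext j
    simp only [fl]
    rw [map_add, map_add, Pi.add_apply, cz, if_pos (mem_univ _), Int.floor_add_intCast]
    rfl
  have f6 : ∀ x (z : κ → ℤ), fr (x + ∑ i, z i • v i) = fr x := by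
    intro x z
    simp only [fr, f5, Pi.add_apply, add_smul, sum_add_distrib]
    abel
  let Ψ : G → V := fun x => Φ (fr x) + ∑ i, fl x i • Φ (v i)
  have f7 : ∀ x (z : κ → ℤ), Ψ (x + ∑ i, z i • v i) = Ψ x + ∑ i, z i • Φ (v i) := by
    intro x z
    simp only [Ψ, f5, f6, Pi.add_apply, add_smul, sum_add_distrib]
    abel
  have f8 : ∀ x, fr x = x + ∑ i, (-fl x) i • v i := fun x => by
    simp only [fr, Pi.neg_apply, neg_smul, sum_neg_distrib]; abel
  have lB : ∀ x ∈ G1, ∀ y ∈ G1, Nr N I ((n + 1) * ε) (Ψ (x + y) - Ψ x - Ψ y) := by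
    intro x hx y hy
    set z : κ → ℤ := fun j => fl (x + y) j - fl x j - fl y j with hz
    have hz1 : ∀ j, |z j| ≤ 1 := by
      intro j
      simp only [hz, fl, map_add, Pi.add_apply]
      have a1 := Int.le_floor_add (co (π x) j) (co (π y) j)
      have a2 := Int.le_floor_add_floor (co (π x) j) (co (π y) j)
      rw [abs_le]; constructor <;> omega
    have e : fr x + fr y = fr (x + y) + ∑ i, z i • v i := by
      simp only [fr, hz, sub_smul, sum_sub_distrib]; abel
    have h1 := lA' _ (f2 _ (G1.add_mem hx hy)) (f3 _) z hz1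
    rw [← e] at h1
    have h2 := hΦ _ _ (f4 x hx) (f4 y hy) (sz _ (G1.add_mem (f2 x hx) (f2 y hy)) fun j => by
      rw [map_add, map_add, Pi.add_apply]
      exact (abs_add_le _ _).trans (by linarith [f3 x j, f3 y j]))
    refine ((h2.sub h1).mono (le_of_eq (by ring))).of_eq ?_
    simp only [Ψ, hz, sub_smul, sum_sub_distrib]; abel
  have hTf : {g : G1 | ∀ j, fl g.1 j = 0}.Finite := by
    refine Set.Finite.of_finite_image (f := fun g : G1 => g.1) (hfin.subset ?_)
      Subtype.val_injective.injOn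
    rintro _ ⟨g, hg, rfl⟩
    have : fr g.1 = g.1 := by
      simp only [fr]; rw [sum_eq_zero fun i _ => by rw [hg i, zero_smul], sub_zero]
    have h := f4 g.1 g.2
    rw [this] at h
    exact h
  have f9 : ∀ x j, fl (fr x) j = 0 := fun x j => by
    rw [f8, f5]; simp
  obtain ⟨F1, hF1⟩ := per (N := N) (I := I) (A := G1) (fun g => Ψ g.1) ((n + 1) * ε)
    hTf.toFinset ⟨0, by simp [fl]⟩ (fun g => ⟨fr g.1, f2 _ g.2⟩) hgap
    (fun x y => lB _ x.2 _ y.2)
    (fun x w => by
      show Ψ (x.1 + fr w.1) - Ψ x.1 - Ψ (fr w.1) = Ψ (x.1 + w.1) - Ψ x.1 - Ψ w.1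
      rw [f8, ← add_assoc, f7, f7]; abel)
    (fun w => by simpa using f9 w.1)
    (fun y w hw w' hw' h => by
      have hw1 : ∀ j, fl w.1 j = 0 := by simpa using hw
      have hw2 : ∀ j, fl w'.1 j = 0 := by simpa using hw'
      have h1 : fr (y.1 + w.1) = fr (y.1 + w'.1) := congrArg Subtype.val h
      have h2 : w'.1 = w.1 + ∑ i, (fl (y.1 + w'.1) - fl (y.1 + w.1)) i • v i := by
        simp only [fr] at h1
        simp only [Pi.sub_apply, sub_smul, sum_sub_distrib]
        rw [← sub_eq_zero] at h1 ⊢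
        rw [← neg_eq_zero, ← h1]; abel
      have h3 := f5 w.1 (fl (y.1 + w'.1) - fl (y.1 + w.1))
      rw [← h2] at h3
      have h4 : ∀ i, (fl (y.1 + w'.1) - fl (y.1 + w.1)) i = 0 := fun i => by
        have := congrFun h3 i
        rw [Pi.add_apply, hw1, hw2] at this
        omega
      apply Subtype.ext
      rw [h2, sum_eq_zero fun i _ => by rw [h4 i, zero_smul], add_zero])
  letI : DivisibleBy (V ⧸ I) ℤ := divisibleByOfSMulRightSurj _ _ (by
    intro m hm a
    obtain ⟨w, rfl⟩ := QuotientAddGroup.mk_surjective a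
    refine ⟨(((m : ℝ)⁻¹ • w : V) : V ⧸ I), ?_⟩
    show m • (((m : ℝ)⁻¹ • w : V) : V ⧸ I) = w
    rw [← QuotientAddGroup.mk_zsmul, ← Int.cast_smul_eq_zsmul ℝ, smul_smul,
      mul_inv_cancel₀ (by exact_mod_cast hm), one_smul])
  obtain ⟨F, hF⟩ := (Module.Baer.of_divisible (V ⧸ I)).extension_property_addMonoidHom
    G1.subtype G1.subtype_injective F1
  refine ⟨F, fun x hx => ?_⟩
  have hxS : x ∈ hS.toFinset := by simpa using hx
  have hx1 : x ∈ G1 := hsp x hxS
  obtain ⟨w, hw, hw'⟩ := hF1 ⟨x, hx1⟩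
  have hz : ∀ j, |fl x j| ≤ 1 := by
    intro j
    have := abs_le.1 (hb x hxS j)
    have a1 : (-1 : ℤ) ≤ ⌊co (π x) j⌋ := Int.le_floor.2 (by simpa using this.1)
    have a2 : ⌊co (π x) j⌋ < (2 : ℤ) := Int.floor_lt.2 (by push_cast; linarith [this.2])
    simp only [fl]
    rw [abs_le]; constructor <;> omega
  obtain ⟨i, hi, h1⟩ := lA' _ (f2 x hx1) (f3 x) (fl x) hz
  have e : fr x + ∑ i, fl x i • v i = x := by simp only [fr]; abel
  rw [e] at h1
  refine ⟨w + i, ?_, ?_⟩
  · rw [QuotientAddGroup.mk_add, (QuotientAddGroup.eq_zero_iff i).2 hi, add_zero, hw, ← hF]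
    rfl
  · have e2 : Φ x - (w + i) = (Φ x - Φ (fr x) - ∑ i, fl x i • Φ (v i) - i) + (Ψ x - w) := by
      simp only [Ψ]; abel
    rw [e2]
    refine (map_add_le_add N _ _).trans ?_
    have : N (Ψ x - w) ≤ (n + 1) * ε := hw'
    linarith

/-- the lattice of integer vectors: a real linear map -/
theorem extZ {ι : Type} [Fintype ι] [DecidableEq ι] (p : Seminorm ℝ (ι → ℝ))
    (hfin : {g : ι → ℤ | p (fun i => (g i : ℝ)) ≤ 1}.Finite) (Φ : (ι → ℤ) → V) (ε ρ : ℝ) (n : ℕ)
    (hn : Fintype.card ι ≤ n) (hε : 0 ≤ ε) (hρ0 : 0 ≤ ρ) (hρ : 2 * (n + 1) * ρ ≤ 1)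
    (hgap : ∀ F ∈ I, N F ≤ 4 * ((n + 1) * ε) → F = 0)
    (hΦ : ∀ x y : ι → ℤ, p (fun i => (x i : ℝ)) ≤ 1 → p (fun i => (y i : ℝ)) ≤ 1 →
      p (fun i => ((x + y) i : ℝ)) ≤ 1 → ∃ i ∈ I, N (Φ (x + y) - Φ x - Φ y - i) ≤ ε) :
    ∃ L : (ι → ℝ) →ₗ[ℝ] V, ∀ x : ι → ℤ, p (fun i => (x i : ℝ)) ≤ ρ →
      ∃ i ∈ I, N (Φ x - L (fun i => (x i : ℝ)) - i) ≤ (2 * n + 1) * ε := by
  let π : (ι → ℤ) →+ (ι → ℝ) := AddMonoidHom.mk' (fun g i => (g i : ℝ)) fun a b => by
    funext i; simp
  have hπ : Function.Injective π := fun a b h => by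
    funext i
    have : (a i : ℝ) = b i := congrFun h i
    exact_mod_cast this
  obtain ⟨F, hF⟩ := ext (N := N) (I := I) π hπ p hfin Φ ε ρ n (by simpa using hn) hε hρ0 hρ hgap hΦ
  choose t ht using fun i : ι => QuotientAddGroup.mk_surjective (F (Pi.single i 1))
  refine ⟨Fintype.linearCombination ℝ t, fun x hx => ?_⟩
  obtain ⟨w, hw, hw'⟩ := hF x hx
  refine ⟨w - Fintype.linearCombination ℝ t (fun i => (x i : ℝ)), ?_, ?_⟩
  · rw [← QuotientAddGroup.eq_iff_sub_mem, hw, Fintype.linearCombination_apply,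
      QuotientAddGroup.mk_sum]
    have : x = ∑ i, x i • (Pi.single i 1 : ι → ℤ) := by
      funext j; simp [Finset.sum_apply, Pi.single_apply]
    conv_lhs => rw [this]
    rw [map_sum]
    refine sum_congr rfl fun i _ => ?_
    rw [map_zsmul, ← ht, Int.cast_smul_eq_zsmul, QuotientAddGroup.mk_zsmul]
  · convert hw' using 2; abel

end

end Vale.Agent.P057T.ExtH61
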