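import Vale.Agent.P057T.ExtAH82

/-! Local stability of almost additive maps modulo one on the small points of a lattice. -/

set_option linter.all false

open Finset
open scoped BigOperators ComplexConjugate

namespace Vale.Agent.P057T.ExtH82

open Vale.Agent.P057L

noncomputable section

/-- the standard character -/
def ee (t : ℝ) : ℂ := Complex.exp (((2 * Real.pi * t : ℝ) : ℂ) * Complex.I)

theorem ee_add (s t : ℝ) : ee (s + t) = ee s * ee t := by
  unfold ee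
  rw [← Complex.exp_add]
  congr 1
  push_cast
  ring

theorem ee_zero : ee 0 = 1 := by simp [ee]

theorem ee_neg (t : ℝ) : ee (-t) = conj (ee t) := by
  unfold ee
  rw [← Complex.exp_conj, map_mul, Complex.conj_ofReal, Complex.conj_I]
  congr 1
  push_cast
  ring

theorem ee_re (t : ℝ) : (ee t).re = Real.cos (2 * Real.pi * t) := Complex.exp_ofReal_mul_I_re _

theorem ee_conj (t : ℝ) : ee t * conj (ee t) = 1 := by
  rw [← ee_neg, ← ee_add, add_neg_cancel, ee_zero]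

theorem cos_int (t : ℝ) (m : ℤ) : Real.cos (2 * Real.pi * t) = Real.cos (2 * Real.pi * (t - m)) := by
  rw [← Real.cos_sub_int_mul_two_pi (2 * Real.pi * t) m]
  congr 1
  ring

theorem cos_ge {t ε : ℝ} {m : ℤ} (h : |t - m| ≤ ε) (hε : ε ≤ 1 / 100) :
    1 - 1 / 500 ≤ Real.cos (2 * Real.pi * t) := by
  rw [cos_int t m]
  refine le_trans ?_ Real.one_sub_sq_div_two_le_cos
  have p1 := Real.pi_lt_d2
  have p0 := Real.pi_pos
  have h1 : (t - m) ^ 2 ≤ (1 / 100) ^ 2 := by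
    rw [← sq_abs]
    exact pow_le_pow_left₀ (abs_nonneg _) (h.trans hε) 2
  have h2 : Real.pi ^ 2 ≤ 10 := by nlinarith
  have h3 : (2 * Real.pi * (t - m)) ^ 2 = 4 * (Real.pi ^ 2 * (t - m) ^ 2) := by ring
  have h4 := mul_le_mul h2 h1 (sq_nonneg _) (by norm_num)
  rw [h3]
  linarith

theorem cos_le {t : ℝ} (h : 1 / 10 < |t - round t|) :
    Real.cos (2 * Real.pi * t) ≤ 1 - 2 / 25 := by
  rw [cos_int t (round t)]
  have p0 := Real.pi_pos
  have h1 := abs_sub_round t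
  have h2 : |2 * Real.pi * (t - round t)| ≤ Real.pi := by
    rw [abs_mul, abs_of_pos (by positivity : 0 < 2 * Real.pi)]
    nlinarith
  refine (Real.cos_le_one_sub_mul_cos_sq h2).trans ?_
  have h3 : 2 / Real.pi ^ 2 * (2 * Real.pi * (t - round t)) ^ 2 = 8 * |t - round t| ^ 2 := by
    rw [sq_abs]
    field_simp
    ring
  rw [h3]
  nlinarith

theorem pig (f : ℕ → ℝ) (c : ℝ) (c0 : 0 ≤ c) (R : ℕ) (h : f R < c ^ R * f 0) :
    ∃ i < R, f (i + 1) ≤ c * f i := by
  by_contra hn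
  push Not at hn
  have : ∀ k ≤ R, c ^ k * f 0 ≤ f k := by
    intro k
    induction k with
    | zero => intro _; simp
    | succ k ih =>
      intro hk
      have h1 := mul_le_mul_of_nonneg_left (ih (by omega)) c0
      have h2 := hn k (by omega)
      rw [pow_succ]
      nlinarith
  exact absurd (this R le_rfl) (not_le.2 h)

variable {D D' : Type} [Fintype D]

theorem dbl {A : D' → D → ℝ} {B : ℝ → Finset (D → ℤ)} (hB : ∀ r x, x ∈ B r ↔ Sm A r x) (r : ℝ) :
    (#(B (2 * r)) : ℝ) ≤ 4 ^ Fintype.card D * #(B r) := by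
  classical
  have h0 : #(Fintype.piFinset fun _ : D => Ico (0 : ℤ) 4) = 4 ^ Fintype.card D := by simp
  have : #(B (2 * r)) ≤ #(B r) * #(Fintype.piFinset fun _ : D => Ico (0 : ℤ) 4) := by
    refine card_le_mul_card_image_of_maps_to (f := fun x : D → ℤ => fun i => x i % 4)
      (fun x _ => Fintype.mem_piFinset.2 fun i => mem_Ico.2
        ⟨Int.emod_nonneg _ (by norm_num), Int.emod_lt_of_pos _ (by norm_num)⟩) _ fun c _ => ?_
    rcases (filter (fun x : D → ℤ => (fun i => x i % 4) = c) (B (2 * r))).eq_empty_or_nonempty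
      with h | ⟨x0, h0⟩
    · rw [h]; simp
    have k0 := mem_filter.1 h0
    have dv : ∀ x ∈ filter (fun x : D → ℤ => (fun i => x i % 4) = c) (B (2 * r)), ∀ i,
        4 * ((x i - x0 i) / 4) = x i - x0 i := fun x hx i => by
      have e1 := congrFun (mem_filter.1 hx).2 i
      have e2 := congrFun k0.2 i
      omega
    refine card_le_card_of_injOn (fun x i => (x i - x0 i) / 4) (fun x hx => ?_)
      fun x hx y hy e => ?_
    · have hx := mem_coe.1 hx
      refine mem_coe.2 ((hB _ _).2 fun j => ?_)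
      have s := ((hB _ _).1 (mem_filter.1 hx).1).add ((hB _ _).1 k0.1).neg j
      have e : ∑ d, A j d * (((x + -x0) d : ℤ) : ℝ) =
          4 * ∑ d, A j d * (((x d - x0 d) / 4 : ℤ) : ℝ) := by
        rw [mul_sum]
        refine sum_congr rfl fun d _ => ?_
        have : ((x + -x0) d : ℤ) = 4 * ((x d - x0 d) / 4) := by
          rw [dv x hx d]
          simp [sub_eq_add_neg]
        rw [this]
        push_cast
        ring
      change |∑ d, A j d * (((x + -x0) d : ℤ) : ℝ)| ≤ _ at s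
      rw [e, abs_mul, abs_of_pos (by norm_num : (0 : ℝ) < 4)] at s
      change |∑ d, A j d * (((x d - x0 d) / 4 : ℤ) : ℝ)| ≤ r
      linarith
    · funext i
      have e1 := congrFun e i
      have e2 := dv x (mem_coe.1 hx) i
      have e3 := dv y (mem_coe.1 hy) i
      simp only at e1
      omega
  rw [h0, mul_comm (#(B r))] at this
  exact_mod_cast this

theorem reg {A : D' → D → ℝ} {B : ℝ → Finset (D → ℤ)} (hB : ∀ r x, x ∈ B r ↔ Sm A r x)
    {w c : ℝ} (w0 : 0 ≤ w) (c0 : 0 ≤ c) (R : ℕ) (hR : (4 : ℝ) ^ Fintype.card D < c ^ R) :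
    ∃ s, 0 ≤ s ∧ s + w ≤ 2 * R * w ∧ (#(B (s + w)) : ℝ) ≤ c * #(B s) := by
  have h3 : (0 : ℝ) < #(B (R * w)) := by
    exact_mod_cast card_pos.2 ⟨0, (hB _ _).2 (Sm.zero (by positivity))⟩
  obtain ⟨i, hi, h4⟩ := pig (fun i => #(B ((R + i) * w))) c c0 R (by
    show (#(B ((R + R) * w)) : ℝ) < c ^ R * #(B ((R + ((0 : ℕ) : ℝ)) * w))
    rw [Nat.cast_zero, add_zero, show ((R : ℝ) + R) * w = 2 * (R * w) by ring]
    exact (dbl hB _).trans_lt (mul_lt_mul_of_pos_right hR h3))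
  refine ⟨(R + i) * w, by positivity, ?_, ?_⟩
  · have : (i : ℝ) + 1 ≤ R := by exact_mod_cast hi
    nlinarith
  · have e : ((R : ℝ) + ((i + 1 : ℕ) : ℝ)) * w = (R + i) * w + w := by
      push_cast
      ring
    simpa only [e] using h4

/-- characters of the lattice -/
theorem chr {G : Type} [AddCommGroup G] [Finite G] (π : (D → ℤ) →+ G) (ψ : AddChar G ℂ) :
    ∃ ξ : D → ℝ, ∀ x, ψ (π x) = ee (∑ d, ξ d * x d) := by
  classical
  have h1 : ∀ g : G, ψ g = ee (Complex.arg (ψ g) / (2 * Real.pi)) := fun g => by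
    have := Complex.norm_mul_exp_arg_mul_I (ψ g)
    rw [AddChar.norm_apply, Complex.ofReal_one, one_mul] at this
    unfold ee
    rw [mul_div_cancel₀ _ (by positivity : (2 * Real.pi) ≠ 0), this]
  refine ⟨fun d => Complex.arg (ψ (π (Pi.single d 1))) / (2 * Real.pi), fun x => ?_⟩
  have zs : ∀ (t : ℝ) (m : ℤ), ee t ^ m = ee (t * m) := fun t m => by
    unfold ee
    rw [← Complex.exp_int_mul]
    congr 1
    push_cast
    ring
  have h2 : ∀ s : Finset D, ψ (π (∑ d ∈ s, x d • Pi.single d 1)) =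
      ee (∑ d ∈ s, Complex.arg (ψ (π (Pi.single d 1))) / (2 * Real.pi) * x d) := by
    intro s
    induction s using Finset.induction_on with
    | empty => simp [ee_zero]
    | insert a s ha ih =>
      rw [sum_insert ha, sum_insert ha, map_add, AddChar.map_add_eq_mul, ih, ee_add, map_zsmul,
        AddChar.map_zsmul_eq_zpow, ← zs, ← h1]
  have h3 : ∑ d, x d • (Pi.single d 1 : D → ℤ) = x := by
    funext i
    simp [Finset.sum_apply, Pi.single_apply]
  have := h2 univ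
  rwa [h3] at this

/-- a correlating character -/
theorem par (U V E : Finset (D → ℤ)) (Φ : (D → ℤ) → ℝ) (c : ℝ) (c0 : 0 ≤ c) (hU : U.Nonempty)
    (hV : V ⊆ U) (hE : ∀ x ∈ V, ∀ y ∈ E, x + y ∈ U)
    (h : ∀ x ∈ U, ∀ y ∈ E, x + y ∈ U → c ≤ Real.cos (2 * Real.pi * (Φ (x + y) - Φ x - Φ y))) :
    ∃ ξ : D → ℝ, c * #V * #E ≤
      #U * ∑ y ∈ E, Real.cos (2 * Real.pi * (Φ y - ∑ d, ξ d * y d)) := by
  classical
  obtain ⟨Q, hQ⟩ : ∃ Q : ℕ, ∀ p ∈ U ×ˢ U ×ˢ insert 0 E, ∀ d, (p.2.1 d + p.2.2 d - p.1 d).natAbs < Q + 1 := by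
    refine ⟨((U ×ˢ U ×ˢ insert 0 E) ×ˢ (univ : Finset D)).sup
      fun q => (q.1.2.1 q.2 + q.1.2.2 q.2 - q.1.1 q.2).natAbs, fun p hp d => Nat.lt_succ_of_le ?_⟩
    exact le_sup (f := fun q : ((D → ℤ) × (D → ℤ) × (D → ℤ)) × D =>
      (q.1.2.1 q.2 + q.1.2.2 q.2 - q.1.1 q.2).natAbs) (b := (p, d))
      (mem_product.2 ⟨hp, mem_univ _⟩)
  let G := D → ZMod (Q + 1)
  let π : (D → ℤ) →+ G := (Int.castAddHom (ZMod (Q + 1))).compLeft D
  have inj : ∀ x ∈ U, ∀ x' ∈ U, ∀ y ∈ insert 0 E, π (x' + y - x) = 0 ↔ x' + y = x := by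
    intro x hx x' hx' y hy
    refine ⟨fun e => funext fun d => ?_, fun e => by rw [e, sub_self, map_zero]⟩
    have e1 : ((x' d + y d - x d : ℤ) : ZMod (Q + 1)) = 0 := congrFun e d
    rw [ZMod.intCast_zmod_eq_zero_iff_dvd] at e1
    have e2 := hQ (x, x', y) (mem_product.2 ⟨hx, mem_product.2 ⟨hx', hy⟩⟩) d
    have e3 := Int.eq_zero_of_dvd_of_natAbs_lt_natAbs e1 (by rw [Int.natAbs_natCast]; exact e2)
    show x' d + y d = x d
    omega
  let S : AddChar G ℂ → ℂ := fun ψ => ∑ x ∈ U, ee (Φ x) * ψ (-π x)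
  have key : ∀ y ∈ insert 0 E, ∑ ψ : AddChar G ℂ, S ψ * conj (S ψ) * ψ (π y) =
      Fintype.card G * ∑ x' ∈ U.filter (fun x' => x' + y ∈ U), ee (Φ (x' + y) - Φ x') := by
    intro y hy
    have e1 : ∀ ψ : AddChar G ℂ, S ψ * conj (S ψ) * ψ (π y) =
        ∑ x' ∈ U, ∑ x ∈ U, ee (Φ x - Φ x') * ψ (π (x' + y - x)) := fun ψ => by
      simp only [S, map_sum, sum_mul, mul_sum]
      refine sum_congr rfl fun x' _ => sum_congr rfl fun x _ => ?_
      rw [map_mul, ← ee_neg, ← AddChar.map_neg_eq_conj, neg_neg, sub_eq_add_neg (Φ x), ee_add,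
        map_sub, map_add, sub_eq_add_neg, AddChar.map_add_eq_mul, AddChar.map_add_eq_mul]
      ring
    simp only [e1]
    rw [sum_comm, sum_filter, mul_sum]
    refine sum_congr rfl fun x' hx' => ?_
    rw [sum_comm]
    simp only [← mul_sum, AddChar.sum_apply_eq_ite]
    rw [sum_congr rfl fun x hx => by rw [if_congr (inj x hx x' hx' y hy) rfl rfl]]
    simp only [mul_ite, mul_zero]
    rw [sum_ite_eq]
    split_ifs <;> ring
  have k0 : ∑ ψ : AddChar G ℂ, Complex.normSq (S ψ) = Fintype.card G * #U := by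
    have := congrArg Complex.re (key 0 (mem_insert_self _ _))
    simp only [map_zero, AddChar.map_zero_eq_one, mul_one, add_zero, sub_self, ee_zero,
      Complex.mul_conj, Complex.re_sum, Complex.ofReal_re] at this
    rw [this, filter_true_of_mem (fun _ h => h)]
    simp
  let T : AddChar G ℂ → ℝ := fun ψ => ∑ y ∈ E, (ee (-Φ y) * ψ (π y)).re
  have k1 : Fintype.card G * (c * #V * #E) ≤ ∑ ψ : AddChar G ℂ, Complex.normSq (S ψ) * T ψ := by
    have e1 : ∑ ψ : AddChar G ℂ, Complex.normSq (S ψ) * T ψ =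
        ∑ y ∈ E, (ee (-Φ y) * ∑ ψ : AddChar G ℂ, S ψ * conj (S ψ) * ψ (π y)).re := by
      simp only [T, mul_sum, Complex.re_sum]
      rw [sum_comm]
      refine sum_congr rfl fun y _ => sum_congr rfl fun ψ _ => ?_
      rw [Complex.mul_conj, ← Complex.re_ofReal_mul]
      congr 1
      ring
    rw [e1]
    have e2 : ∀ y ∈ E, Fintype.card G * (c * #V) ≤
        (ee (-Φ y) * ∑ ψ : AddChar G ℂ, S ψ * conj (S ψ) * ψ (π y)).re := fun y hy => by
      rw [key y (mem_insert_of_mem hy), mul_left_comm (ee (-Φ y)), ← Complex.ofReal_natCast,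
        Complex.re_ofReal_mul, mul_sum, Complex.re_sum]
      refine mul_le_mul_of_nonneg_left ?_ (Nat.cast_nonneg _)
      have e3 : (#V : ℝ) ≤ #(U.filter (fun x' => x' + y ∈ U)) := by
        exact_mod_cast card_le_card fun x hx => mem_filter.2 ⟨hV hx, hE x hx y hy⟩
      refine (mul_le_mul_of_nonneg_left e3 c0).trans ?_
      rw [mul_comm, ← nsmul_eq_mul]
      refine card_nsmul_le_sum _ _ _ fun x hx => ?_
      rw [← ee_add, ee_re, show -Φ y + (Φ (x + y) - Φ x) = Φ (x + y) - Φ x - Φ y by ring]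
      exact h x (mem_filter.1 hx).1 y hy (mem_filter.1 hx).2
    refine le_trans (le_of_eq ?_) (card_nsmul_le_sum _ _ _ e2)
    rw [nsmul_eq_mul]
    ring
  obtain ⟨ψ, -, hψ⟩ := exists_max_image (univ : Finset (AddChar G ℂ)) T ⟨1, mem_univ _⟩
  have k2 : ∑ ψ' : AddChar G ℂ, Complex.normSq (S ψ') * T ψ' ≤ Fintype.card G * (#U * T ψ) := by
    rw [← mul_assoc, ← k0, sum_mul]
    exact sum_le_sum fun ψ' _ =>
      mul_le_mul_of_nonneg_left (hψ ψ' (mem_univ _)) (Complex.normSq_nonneg _)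
  have g0 : (0 : ℝ) < Fintype.card G := by exact_mod_cast Fintype.card_pos
  obtain ⟨ξ, hξ⟩ := chr π ψ
  refine ⟨ξ, (le_of_mul_le_mul_left (k1.trans k2) g0).trans (le_of_eq ?_)⟩
  congr 1
  refine sum_congr rfl fun y _ => ?_
  rw [hξ, ← ee_add, ee_re, ← Real.cos_neg]
  congr 1
  ring

theorem lin_add (ξ : D → ℝ) (a b : D → ℤ) :
    ∑ d, ξ d * (((a + b) d : ℤ) : ℝ) = ∑ d, ξ d * (a d : ℝ) + ∑ d, ξ d * (b d : ℝ) := by
  rw [← sum_add_distrib]
  exact sum_congr rfl fun d _ => by simp [mul_add]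

/-- a character within one quarter on a smaller ball -/
theorem rough {A : D' → D → ℝ} {τ η ε : ℝ} {Φ : (D → ℤ) → ℝ} (η0 : 0 ≤ η) (hε : ε ≤ 1 / 100)
    (hη : 2400 * (Fintype.card D + 1) ^ 2 * η ≤ τ) (hf : ∀ r, {x | Sm A r x}.Finite)
    (hΦ : ∀ a b, Sm A τ a → Sm A τ b → Sm A τ (a + b) →
      ∃ m : ℤ, |Φ (a + b) - Φ a - Φ b - m| ≤ ε) :
    ∃ ξ : D → ℝ, ∀ x, Sm A η x → ∃ m : ℤ, |Φ x - ∑ d, ξ d * x d - m| ≤ 1 / 4 := by
  classical
  obtain ⟨n, hn⟩ : ∃ n, n = Fintype.card D := ⟨_, rfl⟩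
  let B : ℝ → Finset (D → ℤ) := fun r => (hf r).toFinset
  have hB : ∀ r x, x ∈ B r ↔ Sm A r x := fun r x => Set.Finite.mem_toFinset _
  have n0 : (0 : ℝ) ≤ n := Nat.cast_nonneg _
  rw [← hn] at hη
  obtain ⟨s2, s20, s21, s22⟩ := reg hB η0 (by norm_num : (0 : ℝ) ≤ 2) (2 * (n + 1)) (by
    rw [← hn, pow_mul]
    norm_num
    exact pow_lt_pow_right₀ (by norm_num) (by omega))
  obtain ⟨w, hw⟩ : ∃ w, w = 4 * ((n : ℝ) + 1) * η := ⟨_, rfl⟩
  have w0 : 0 ≤ w := by rw [hw]; positivity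
  have s23 : s2 + η ≤ w := by
    rw [hw]
    push_cast at s21
    linarith
  obtain ⟨s1, s10, s11, s12⟩ := reg hB w0 (by norm_num : (0 : ℝ) ≤ 1 + 1 / 100) (300 * (n + 1)) (by
    rw [← hn, pow_mul]
    have := one_add_mul_le_pow (by norm_num : (-2 : ℝ) ≤ 1 / 100) 300
    refine lt_of_lt_of_le (pow_lt_pow_right₀ (by norm_num) (by omega : n < n + 1)) ?_
    exact pow_le_pow_left₀ (by norm_num) (le_trans (by norm_num) this) _)
  have s13 : s1 + w ≤ τ := by
    refine s11.trans (le_trans (le_of_eq ?_) hη)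
    rw [hw]
    push_cast
    ring
  have ne : ∀ r, 0 ≤ r → (B r).Nonempty := fun r hr => ⟨0, (hB _ _).2 (Sm.zero hr)⟩
  obtain ⟨ξ, hξ⟩ := par (B (s1 + w)) (B s1) (B (s2 + η)) Φ (1 - 1 / 500) (by norm_num)
    (ne _ (by linarith)) (fun x hx => (hB _ _).2 (((hB _ _).1 hx).mono (by linarith)))
    (fun x hx y hy => (hB _ _).2 ((((hB _ _).1 hx).add ((hB _ _).1 hy)).mono (by linarith)))
    (fun x hx y hy hxy => by
      obtain ⟨m, hm⟩ := hΦ x y (((hB _ _).1 hx).mono s13) (((hB _ _).1 hy).mono (by linarith))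
        (((hB _ _).1 hxy).mono s13)
      exact cos_ge hm hε)
  refine ⟨ξ, fun x hx => ?_⟩
  let g : (D → ℤ) → ℝ := fun y => Φ y - ∑ d, ξ d * y d
  let E := B (s2 + η)
  let Bad := E.filter fun y => 1 / 10 < |g y - round (g y)|
  have u0 : (0 : ℝ) < #(B (s1 + w)) := by exact_mod_cast card_pos.2 (ne _ (by linarith))
  have e0 : (0 : ℝ) < #E := by exact_mod_cast card_pos.2 (ne _ (by linarith))
  have c1 : ∑ y ∈ E, Real.cos (2 * Real.pi * g y) ≤ #E - 2 / 25 * #Bad := by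
    have : ∀ y ∈ E, Real.cos (2 * Real.pi * g y) ≤
        1 - if 1 / 10 < |g y - round (g y)| then 2 / 25 else 0 := fun y _ => by
      split_ifs with h
      · exact cos_le h
      · simpa using Real.cos_le_one _
    refine (sum_le_sum this).trans (le_of_eq ?_)
    rw [sum_sub_distrib, ← sum_filter]
    simp [Bad, mul_comm]
  have c2 : (98.8 / 100 : ℝ) * #E ≤ #E - 2 / 25 * #Bad := by
    refine le_of_mul_le_mul_left ?_ u0
    refine le_trans ?_ (hξ.trans (mul_le_mul_of_nonneg_left c1 u0.le))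
    have := mul_le_mul_of_nonneg_right s12 e0.le
    have v0 : (0 : ℝ) ≤ #(B s1) * #E := by positivity
    nlinarith
  have c3 : (#(Bad ∪ Bad.image (· - x)) : ℝ) < #(B s2) := by
    have h1 : #(Bad ∪ Bad.image (· - x)) ≤ #Bad + #Bad :=
      (card_union_le _ _).trans (Nat.add_le_add_left card_image_le _)
    have h2 : (#(Bad ∪ Bad.image (· - x)) : ℝ) ≤ #Bad + #Bad := by exact_mod_cast h1
    have h3 : (#E : ℝ) ≤ 2 * #(B s2) := s22
    linarith
  obtain ⟨y, hy, hy'⟩ := exists_mem_notMem_of_card_lt_card (by exact_mod_cast c3 :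
    #(Bad ∪ Bad.image (· - x)) < #(B s2))
  have y1 := (hB _ _).1 hy
  have y2 : Sm A (s2 + η) (y + x) := y1.add hx
  have g1 : |g y - round (g y)| ≤ 1 / 10 := not_lt.1 fun h =>
    hy' (mem_union_left _ (mem_filter.2 ⟨(hB _ _).2 (y1.mono (by linarith)), h⟩))
  have g2 : |g (y + x) - round (g (y + x))| ≤ 1 / 10 := not_lt.1 fun h =>
    hy' (mem_union_right _ (mem_image.2 ⟨y + x, mem_filter.2 ⟨(hB _ _).2 y2, h⟩,
      add_sub_cancel_right _ _⟩))
  obtain ⟨m, hm⟩ := hΦ y x (y1.mono (by linarith)) (hx.mono (by linarith)) (y2.mono (by linarith))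
  refine ⟨round (g (y + x)) - round (g y) - m, ?_⟩
  have e1 : g (y + x) = Φ (y + x) - (∑ d, ξ d * (y d : ℝ) + ∑ d, ξ d * (x d : ℝ)) := by
    rw [← lin_add]
  have e2 : g y = Φ y - ∑ d, ξ d * (y d : ℝ) := rfl
  push_cast
  rw [abs_le] at *
  constructor <;> linarith [g1.1, g1.2, g2.1, g2.2, hm.1, hm.2]

/-- maps that are almost additive modulo one are close to linear forms on a smaller ball -/
theorem ext {A : D' → D → ℝ} {τ ρ ε : ℝ} {Φ : (D → ℤ) → ℝ} (ρ0 : 0 ≤ ρ) (ε0 : 0 ≤ ε)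
    (hε : ε ≤ 1 / 100) (hρ : 2400 * (Fintype.card D + 1) ^ 3 * ρ ≤ τ)
    (hf : ∀ r, {x | Sm A r x}.Finite)
    (hΦ : ∀ a b, Sm A τ a → Sm A τ b → Sm A τ (a + b) →
      ∃ m : ℤ, |Φ (a + b) - Φ a - Φ b - m| ≤ ε) :
    ∃ ξ : D → ℝ, ∀ x, Sm A ρ x → ∃ m : ℤ, |Φ x - ∑ d, ξ d * x d - m| ≤ 5 * ε := by
  have n0 : (0 : ℝ) ≤ Fintype.card D := Nat.cast_nonneg _
  obtain ⟨η, hη⟩ : ∃ η, η = ((Fintype.card D : ℝ) + 1) * ρ := ⟨_, rfl⟩
  have η0 : 0 ≤ η := by rw [hη]; positivity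
  have h1 : 2400 * ((Fintype.card D : ℝ) + 1) ^ 2 * η ≤ τ := by
    refine le_trans (le_of_eq ?_) hρ
    rw [hη]
    ring
  have h2 : η ≤ τ := by nlinarith [mul_nonneg (mul_nonneg n0 n0) η0, mul_nonneg n0 η0]
  obtain ⟨ξ, hξ⟩ := rough η0 hε h1 hf hΦ
  choose! m hm using hξ
  obtain ⟨ζ, hζ⟩ := real (A := A) (η := η) (ε := ε)
    (R := fun x => Φ x - ∑ d, ξ d * x d - m x) ρ0 ε0 hη.ge (hf ρ) (fun a b ha hb hab => by
      obtain ⟨k, hk⟩ := hΦ a b (ha.mono h2) (hb.mono h2) (hab.mono h2)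
      have k1 := hm a ha
      have k2 := hm b hb
      have k3 := hm _ hab
      rw [lin_add] at k3 ⊢
      have e : k + m a + m b - m (a + b) = 0 := by
        have : |((k + m a + m b - m (a + b) : ℤ) : ℝ)| < 1 := by
          push_cast
          rw [abs_le] at *
          rw [abs_lt]
          constructor <;> linarith [k1.1, k1.2, k2.1, k2.2, k3.1, k3.2, hk.1, hk.2]
        exact Int.abs_lt_one_iff.1 (by exact_mod_cast this)
      have e' : (k : ℝ) + m a + m b - m (a + b) = 0 := by exact_mod_cast e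
      rw [abs_le] at *
      constructor <;> linarith [hk.1, hk.2])
  refine ⟨ξ + ζ, fun x hx => ⟨m x, ?_⟩⟩
  have := hζ x hx
  simp only [Pi.add_apply, add_mul, sum_add_distrib]
  convert this using 2
  ring

end

end Vale.Agent.P057T.ExtH82
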