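import Vale.Agent.P057Z.Fr.All
import Vale.Agent.P057T.BogH81

/-! Metric Freiman step for abstract systems of balls, real torus targets and lattices. -/

set_option linter.all false

open Finset
open scoped BigOperators

namespace Vale.Agent.P057T.FrH81

open Vale.Agent.P057Z Vale.Agent.P057Z.Fr Vale.Agent.P057T.BogH81

open Classical in
theorem core {G : Type} [AddCommGroup G] [DecidableEq G] {B : ℕ → Finset G} (hB : Sys B)
    {Q : ℕ} [Fact Q.Prime] {m : ℕ} (f g ζ : G → V Q m) (r : G → G → Prop)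
    [∀ a b, Decidable (r a b)] (P1 P2 X1 U2 : Finset G) (W R w0 : ℕ) (ρ L γ : ℝ)
    (hL1 : 1 ≤ L) (hρ : 0 < ρ) (hρ1 : 100000 * ((m : ℝ) + 1) ^ 2 * ρ ≤ 1) (hR : 1 ≤ R)
    (hg : ∀ a, 2 * a ≤ W → (#(B (2 * a)) : ℝ) ≤ γ * #(B a)) (hγ : γ < 2 ^ R)
    (hW : 24 * R * R * w0 ≤ W) (n1 : P1.Nonempty) (n2 : P2.Nonempty)
    (hX1m : ∀ a ∈ P1, ∀ b ∈ P2, a + b ∈ X1) (cX1 : (#X1 : ℝ) ≤ Real.exp L * #P1)
    (hU2 : ∀ b ∈ P2, ∀ x ∈ B W, b + x ∈ U2) (cU2 : (#U2 : ℝ) ≤ Real.exp L * #P2)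
    (hr : ∀ a b, r a b → sn (f a + g b - ζ (a + b)) ≤ ρ)
    (hcount : (#P1 : ℝ) * #P2 ≤ Real.exp L * #((P1 ×ˢ P2).filter fun p => r p.1 p.2)) :
    ∃ (x : G) (T : ℕ) (S : Finset G), S ⊆ P2 ∧ (∀ s ∈ S, ∃ a, r a s) ∧ (∀ s ∈ S, x - s ∈ B T) ∧
      T + w0 ≤ 2 * R * w0 ∧ (#(B (T + w0)) : ℝ) ≤ 2 * Real.exp (14000 * L) * #S ∧
      ∀ z ∈ Rel g S 6, sn z ≤ 20000 * ((m : ℝ) + 1) ^ 2 * ρ := by
  obtain ⟨K, hKdef⟩ : ∃ K, K = Real.exp L := ⟨_, rfl⟩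
  have hK2 : Real.exp (2 * L) = K ^ 2 := by
    rw [hKdef, ← Real.exp_nat_mul]
    norm_num
  rw [← hKdef] at cX1 cU2 hcount
  have hK1 : 1 ≤ K := hKdef ▸ Real.one_le_exp (by linarith)
  have hK0 : 0 < K := by linarith
  obtain ⟨hr1, hr2⟩ := num_rad m ρ hρ hρ1
  obtain ⟨w, hw⟩ : ∃ w, w = 12 * (R * w0) := ⟨_, rfl⟩
  have hW' : 2 * (R * w) ≤ W := by
    rw [hw]
    exact le_trans (le_of_eq (by ring)) hW
  have hw2 : w ≤ R * w := Nat.le_mul_of_pos_left _ hR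
  obtain ⟨i4, hi4, c4⟩ := hB.reg R w0 2 γ (by norm_num) (hg _ (by omega)) hγ
  obtain ⟨i3, hi3, c3⟩ := hB.reg R w 2 γ (by norm_num) (hg _ hW') hγ
  have e4 : (i4 + 1) * w0 = i4 * w0 + w0 := by ring
  have e3 : (i3 + 1) * w = i3 * w + w := by ring
  have l4 : (i4 + 1) * w0 ≤ 2 * (R * w0) :=
    (Nat.mul_le_mul_right _ hi4).trans (le_of_eq (by ring))
  have l3 : (i3 + 1) * w ≤ 2 * (R * w) :=
    (Nat.mul_le_mul_right _ hi3).trans (le_of_eq (by ring))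
  rw [e4] at c4 l4
  rw [e3] at c3 l3
  obtain ⟨T4, hT4⟩ : ∃ T, T = i4 * w0 := ⟨_, rfl⟩
  obtain ⟨T3, hT3⟩ : ∃ T, T = i3 * w := ⟨_, rfl⟩
  rw [← hT4] at c4 l4
  rw [← hT3] at c3 l3
  have p1 : (0 : ℝ) < #P1 := by exact_mod_cast n1.card_pos
  have p2 : (0 : ℝ) < #P2 := by exact_mod_cast n2.card_pos
  have p3 : (0 : ℝ) < #(B T3) := by exact_mod_cast card_pos.2 ⟨0, hB.zero _⟩
  have p4 : (0 : ℝ) < #(B T4) := by exact_mod_cast card_pos.2 ⟨0, hB.zero _⟩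
  obtain ⟨A', hA', B', hB', cA, cB, hU, hfew⟩ := Fr.list G (V Q m) sn sz_sn P1 P2
    f g ζ r K ρ hK1 n1 n2 hr hcount
  have pB' : (0 : ℝ) < #B' := num_pos p2 (Nat.cast_nonneg _) cB
  have pA : (0 : ℝ) < #A' := num_pos p1 (Nat.cast_nonneg _) cA
  obtain ⟨x3, hx3⟩ := dense_piece B' U2 (B T3) (by rw [← card_pos]; exact_mod_cast pB')
    ⟨0, hB.zero _⟩ fun s hs e he => hU2 s (hB' hs) e (hB.mono (by omega) he)
  obtain ⟨B2, hB2⟩ : ∃ B2, B2 = ({s ∈ B' | x3 - s ∈ B T3} : Finset G) := ⟨_, rfl⟩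
  rw [← hB2] at hx3
  have m2 : ∀ b ∈ B2, b ∈ B' ∧ x3 - b ∈ B T3 := fun b hb => mem_filter.1 (hB2 ▸ hb)
  have hx3' : (#B' : ℝ) * #(B T3) ≤ #U2 * #B2 := by exact_mod_cast hx3
  have cB2 : (#(B T3) : ℝ) ≤ 4 * K ^ 2 * #B2 := by
    refine le_of_mul_le_mul_left (hx3'.trans ?_) pB'
    calc (#U2 : ℝ) * #B2 ≤ K * (4 * K * #B') * #B2 := by
          have := cU2.trans (mul_le_mul_of_nonneg_left cB hK0.le)
          gcongr
      _ = _ := by ring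
  have pB2 : (0 : ℝ) < #B2 := num_pos p3 (Nat.cast_nonneg _) cB2
  have cX2 : (#(U2.image fun u => u - x3) : ℝ) ≤ K * #P2 :=
    le_trans (by exact_mod_cast card_image_le) cU2
  have f0 : ∀ c, Few sn (3072 * K ^ 7) (6 * ρ) (Fib2 f g A' B2 c) := by
    intro c
    refine (hfew B2 (fun b hb => (m2 b hb).1) X1 (U2.image fun u => u - x3) hX1m
      (fun b' hb' b hb => mem_image.2
        ⟨_, hU2 b' hb' _ (hB.mono (by omega) (m2 b hb).2), by abel⟩) c).mono ?_ le_rfl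
      (fun _ h => h)
    rw [div_le_iff₀ (by positivity)]
    calc 3072 * K ^ 5 * #X1 * #(U2.image fun u => u - x3)
        ≤ 3072 * K ^ 5 * (K * #P1) * (K * #P2) := by gcongr
      _ = _ := by ring
  have hm0 : (0 : ℝ) ≤ m := Nat.cast_nonneg m
  obtain ⟨Wt, Wt', nW, hW1, hW2, hW3⟩ := Fr.fat Q m (6 * ρ) (by positivity) hr1
  have f1 : ∀ c, Few sn ((294912 * (K ^ 2) ^ 6) ^ 7) (2 * (2 * m * (6 * ρ)))
      (Fib g B2 (6 + 1) c) := by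
    intro c
    refine (Fr.plu G (V Q m) sn sz_sn A' B2 X1 Wt Wt' f g (3072 * K ^ 7) (6 * ρ)
      (2 * m * (6 * ρ)) 7 (by rw [← card_pos]; exact_mod_cast pA) nW (by positivity)
      (fun a ha b hb => hX1m a (hA' ha) b (hB' (m2 b hb).1)) hW1 hW2 hW3 f0 c).mono ?_
      le_rfl (fun _ h => h)
    refine pow_le_pow_left₀ (by positivity) ?_ 7
    rw [div_le_iff₀ pA]
    have k1 : K ^ 9 ≤ K ^ 12 := pow_le_pow_right₀ hK1 (by norm_num)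
    calc 2 * (3072 * K ^ 7) * #X1 ≤ 2 * (3072 * K ^ 7) * (K * (6 * K * #A')) := by
          have := cX1.trans (mul_le_mul_of_nonneg_left cA hK0.le)
          gcongr
      _ = 36864 * K ^ 9 * #A' := by ring
      _ ≤ 294912 * K ^ 12 * #A' := by gcongr; norm_num
      _ = _ := by ring
  obtain ⟨x4, hx4⟩ := dense_piece B2 ((B (T3 + w)).image fun u => x3 - u) (B T4)
    (by rw [← card_pos]; exact_mod_cast pB2) ⟨0, hB.zero _⟩ fun s hs e he =>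
      mem_image.2 ⟨_, hB.mono (by omega) (hB.sub (m2 s hs).2 he), by abel⟩
  obtain ⟨B5, hB5⟩ : ∃ B5, B5 = ({s ∈ B2 | x4 - s ∈ B T4} : Finset G) := ⟨_, rfl⟩
  rw [← hB5] at hx4
  have m5 : ∀ b ∈ B5, b ∈ B2 ∧ x4 - b ∈ B T4 := fun b hb => mem_filter.1 (hB5 ▸ hb)
  have cI : ∀ y : G, (#((B (T3 + w)).image fun u => y - u) : ℝ) ≤ 8 * K ^ 2 * #B2 := fun y => by
    have a1 : (#((B (T3 + w)).image fun u => y - u) : ℝ) ≤ #(B (T3 + w)) := by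
      exact_mod_cast card_image_le
    linarith
  have hx4' : (#B2 : ℝ) * #(B T4) ≤ #((B (T3 + w)).image fun u => x3 - u) * #B5 := by
    exact_mod_cast hx4
  have cB5 : (#(B T4) : ℝ) ≤ 16 * K ^ 2 * #B5 := by
    refine le_of_mul_le_mul_left (hx4'.trans ?_) pB2
    have := cI x3
    calc (#((B (T3 + w)).image fun u => x3 - u) : ℝ) * #B5 ≤ 8 * K ^ 2 * #B2 * #B5 := by gcongr
      _ ≤ 16 * K ^ 2 * #B2 * #B5 := by gcongr; norm_num
      _ = _ := by ring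
  have f2 : Few sn (Real.exp (270 * (2 * L))) (96 * (m + 1) * ρ) (Rel g B5 6) := by
    refine (Fr.csl G (V Q m) sn sz_sn B2 B5
      ((B (T3 + w)).image fun u => (x3 + ∑ _i : Fin 6, x4) - u) g _ _ 6 (fun b hb => (m5 b hb).1)
      (by rw [← card_pos]; exact_mod_cast pB2) (by positivity)
      (fun b hb s hs => mem_image.2 ⟨_, hB.mono (by omega)
        (hB.add _ _ _ _ (m2 b hb).2 (hB.sum (d := fun i => x4 - s i) fun i => (m5 _ (hs i)).2)),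
        by rw [sum_sub_distrib]; abel⟩)
      f1).mono ?_ hr2 (fun _ h => h)
    refine le_trans ?_ (num_M2 (2 * L) (by linarith))
    rw [div_le_iff₀ pB2, hK2]
    have := cI (x3 + ∑ _i : Fin 6, x4)
    calc ((294912 * (K ^ 2) ^ 6) ^ 7) ^ 2 *
          #((B (T3 + w)).image fun u => (x3 + ∑ _i : Fin 6, x4) - u)
        ≤ ((294912 * (K ^ 2) ^ 6) ^ 7) ^ 2 * (8 * K ^ 2 * #B2) := by gcongr
      _ ≤ ((294912 * (K ^ 2) ^ 6) ^ 7) ^ 2 * (16 * K ^ 2 * #B2) := by gcongr; norm_num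
      _ = _ := by ring
  obtain ⟨t, ht1, ht2⟩ := num_t (2 * L) (by linarith)
  obtain ⟨T', hT'1, hT'2, hT'3⟩ := num_T m ρ hρ hρ1
  obtain ⟨S, hS, cS, hrel⟩ := Fr.rnd Fr.sep Q m G g B5 _ _ T' t hT'1 (by positivity) hT'2 ht1 f2
  have hSB' : S ⊆ B' := fun s hs => (m2 _ (m5 _ (hS hs)).1).1
  refine ⟨x4, T4, S, fun s hs => hB' (hSB' hs), fun s hs => hU s (hSB' hs),
    fun s hs => (m5 _ (hS hs)).2, l4.trans (le_of_eq (by ring)), ?_,
    fun z hz => (hrel z hz).trans hT'3⟩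
  have cS' : (#B5 : ℝ) ≤ 1200 ^ t * #S := by exact_mod_cast cS
  rw [hK2, show 7000 * (2 * L) = 14000 * L by ring] at ht2
  have k1 : (#(B T4) : ℝ) ≤ Real.exp (14000 * L) * #S :=
    calc (#(B T4) : ℝ) ≤ 16 * K ^ 2 * (1200 ^ t * #S) := cB5.trans (by gcongr)
      _ = 16 * K ^ 2 * 1200 ^ t * #S := by ring
      _ ≤ Real.exp (14000 * L) * #S := by gcongr
  linarith

/-- every coordinate is within e of an integer -/
def NZ {m : ℕ} (y : Fin m → ℝ) (e : ℝ) : Prop := ∀ i, ∃ k : ℤ, |y i - k| ≤ e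

/-- all relations with six terms on each side hold up to e on the torus -/
def R6 {G : Type} [AddCommGroup G] {m : ℕ} (g : G → Fin m → ℝ) (S : Finset G) (e : ℝ) : Prop :=
  ∀ s t : Fin 6 → G, (∀ i, s i ∈ S) → (∀ i, t i ∈ S) → ∑ i, s i = ∑ i, t i →
    NZ (∑ i, g (s i) - ∑ i, g (t i)) e

/-- rounding to the finite torus -/
noncomputable def rd (Q : ℕ) {m : ℕ} (y : Fin m → ℝ) : V Q m :=
  fun i => ((round (Q * y i) : ℤ) : ZMod Q)

theorem rd_err (Q : ℕ) (u : ℝ) : |(round (Q * u) : ℝ) - Q * u| ≤ 1 / 2 := by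
  rw [abs_sub_comm]
  exact abs_sub_round _

theorem near_of_nm {Q : ℕ} [Fact Q.Prime] (n : ℤ) (u e d : ℝ) (h : nm (n : ZMod Q) ≤ e)
    (hd : |(n : ℝ) - Q * u| ≤ d) : ∃ k : ℤ, |u - k| ≤ e + d / Q := by
  have hQ : (0 : ℝ) < Q := Fr.Qpos
  have h1 : ((n : ZMod Q).valMinAbs : ZMod Q) = (n : ℤ) := ZMod.coe_valMinAbs _
  obtain ⟨k, hk⟩ := (ZMod.intCast_eq_intCast_iff_dvd_sub _ _ Q).1 h1
  refine ⟨k, ?_⟩
  have h2 : (n : ℝ) - (n : ZMod Q).valMinAbs = Q * k := by exact_mod_cast hk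
  unfold nm at h
  rw [div_le_iff₀ hQ] at h
  have h3 : u - k = (((n : ZMod Q).valMinAbs : ℝ) - (n - Q * u)) / Q := by
    field_simp
    linarith
  rw [h3, abs_div, abs_of_pos hQ, div_le_iff₀ hQ, add_mul, div_mul_cancel₀ _ hQ.ne']
  exact (abs_sub _ _).trans (add_le_add h hd)

theorem nm_of_near {Q : ℕ} [Fact Q.Prime] (n k : ℤ) (u e d : ℝ) (h : |u - k| ≤ e)
    (hd : |(n : ℝ) - Q * u| ≤ d) : nm (n : ZMod Q) ≤ e + d / Q := by
  have hQ : (0 : ℝ) < Q := Fr.Qpos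
  have h1 : (n : ZMod Q) = ((n - k * Q : ℤ) : ZMod Q) := by simp
  rw [h1]
  refine (nm_cast_le _).trans ?_
  rw [div_le_iff₀ hQ, add_mul, div_mul_cancel₀ _ hQ.ne']
  have h2 : ((n - k * Q : ℤ) : ℝ) = (u - k) * Q + (n - Q * u) := by
    push_cast
    ring
  rw [h2]
  refine (abs_add_le _ _).trans (add_le_add ?_ hd)
  rw [abs_mul, abs_of_pos hQ]
  gcongr

/-- the metric Freiman step with values in a real torus -/
theorem coreR {G : Type} [AddCommGroup G] [DecidableEq G] {B : ℕ → Finset G} (hB : Sys B)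
    {m : ℕ} (f g ζ : G → Fin m → ℝ) (r : G → G → Prop)
    [∀ a b, Decidable (r a b)] (P1 P2 X1 U2 : Finset G) (W R w0 : ℕ) (ρ L γ : ℝ)
    (hL1 : 1 ≤ L) (hρ : 0 < ρ) (hρ1 : 200000 * ((m : ℝ) + 1) ^ 2 * ρ ≤ 1) (hR : 1 ≤ R)
    (hg : ∀ a, 2 * a ≤ W → (#(B (2 * a)) : ℝ) ≤ γ * #(B a)) (hγ : γ < 2 ^ R)
    (hW : 24 * R * R * w0 ≤ W) (n1 : P1.Nonempty) (n2 : P2.Nonempty)
    (hX1m : ∀ a ∈ P1, ∀ b ∈ P2, a + b ∈ X1) (cX1 : (#X1 : ℝ) ≤ Real.exp L * #P1)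
    (hU2 : ∀ b ∈ P2, ∀ x ∈ B W, b + x ∈ U2) (cU2 : (#U2 : ℝ) ≤ Real.exp L * #P2)
    (hr : ∀ a b, r a b → NZ (f a + g b - ζ (a + b)) ρ)
    (hcount : (#P1 : ℝ) * #P2 ≤ Real.exp L * #((P1 ×ˢ P2).filter fun p => r p.1 p.2)) :
    ∃ (x : G) (T : ℕ) (S : Finset G), S ⊆ P2 ∧ (∀ s ∈ S, ∃ a, r a s) ∧ (∀ s ∈ S, x - s ∈ B T) ∧
      T + w0 ≤ 2 * R * w0 ∧ (#(B (T + w0)) : ℝ) ≤ 2 * Real.exp (14000 * L) * #S ∧
      R6 g S (50000 * ((m : ℝ) + 1) ^ 2 * ρ) := by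
  obtain ⟨Q, hQ, hQp⟩ := Nat.exists_infinite_primes ⌈6 / ρ⌉₊
  haveI : Fact Q.Prime := ⟨hQp⟩
  have hQ0 : (0 : ℝ) < Q := Fr.Qpos
  have hQ1 : 6 / (Q : ℝ) ≤ ρ := by
    have a1 : 6 / ρ ≤ Q := (Nat.le_ceil _).trans (by exact_mod_cast hQ)
    rw [div_le_iff₀ hρ] at a1
    rw [div_le_iff₀ hQ0]
    linarith
  obtain ⟨x, T, S, h1, h2, h3, h4, h5, h6⟩ := core hB (fun a => rd Q (f a)) (fun a => rd Q (g a))
    (fun a => rd Q (ζ a)) r P1 P2 X1 U2 W R w0 (2 * ρ) L γ hL1 (by linarith) (by linarith) hR hg hγ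
    hW n1 n2 hX1m cX1 hU2 cU2 (fun a b h => by
      rw [sn_le_iff (by linarith)]
      intro i
      obtain ⟨k, hk⟩ := hr a b h i
      have a1 := rd_err Q (f a i)
      have a2 := rd_err Q (g b i)
      have a3 := rd_err Q (ζ (a + b) i)
      have a4 := nm_of_near (Q := Q)
        (round (Q * f a i) + round (Q * g b i) - round (Q * ζ (a + b) i)) k _ ρ 6 hk (by
          simp only [Pi.sub_apply, Pi.add_apply]
          push_cast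
          rw [abs_le] at a1 a2 a3 ⊢
          constructor <;> linarith [a1.1, a1.2, a2.1, a2.2, a3.1, a3.2])
      have a5 : (rd Q (f a) + rd Q (g b) - rd Q (ζ (a + b))) i =
          ((round (Q * f a i) + round (Q * g b i) - round (Q * ζ (a + b) i) : ℤ) : ZMod Q) := by
        simp [rd]
      rw [a5]
      linarith) hcount
  refine ⟨x, T, S, h1, h2, h3, h4, h5, fun s t hs ht e i => ?_⟩
  have a0 := (nm_le_sn _ i).trans (h6 _ ⟨s, t, hs, ht, e, rfl⟩)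
  have a5 : (∑ j, rd Q (g (s j)) - ∑ j, rd Q (g (t j))) i =
      ((∑ j, round (Q * g (s j) i) - ∑ j, round (Q * g (t j) i) : ℤ) : ZMod Q) := by
    simp [rd, Finset.sum_apply]
  rw [a5] at a0
  obtain ⟨k, hk⟩ := near_of_nm _ ((∑ j, g (s j) - ∑ j, g (t j)) i) _ 6 a0 (by
    have b1 : ((∑ j, round (Q * g (s j) i) - ∑ j, round (Q * g (t j) i) : ℤ) : ℝ) -
        Q * (∑ j, g (s j) - ∑ j, g (t j)) i =
        ∑ j, ((round (Q * g (s j) i) - Q * g (s j) i) -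
          (round (Q * g (t j) i) - Q * g (t j) i)) := by
      simp only [Pi.sub_apply, Finset.sum_apply, sum_sub_distrib, mul_sub, mul_sum]
      push_cast
      ring
    rw [b1]
    refine (abs_sum_le_sum_abs _ _).trans ((sum_le_card_nsmul _ _ 1 fun j _ => ?_).trans ?_)
    · exact (abs_sub _ _).trans (by linarith [rd_err Q (g (s j) i), rd_err Q (g (t j) i)])
    · simp)
  refine ⟨k, hk.trans ?_⟩
  have b2 : (1 : ℝ) ≤ ((m : ℝ) + 1) ^ 2 := one_le_pow₀ (by linarith [Nat.cast_nonneg (α := ℝ) m])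
  nlinarith

/-- the Bohr body of a lattice norm and finitely many real frequencies -/
def Bo {n r : ℕ} (N : (Fin n → ℤ) → ℝ) (θ : Fin r → Fin n → ℝ) (τ η : ℝ) (x : Fin n → ℤ) : Prop :=
  N x ≤ τ ∧ ∀ j, ∃ k : ℤ, |∑ i, θ j i * x i - k| ≤ η

theorem R6.app {G : Type} [AddCommGroup G] {m : ℕ} {g : G → Fin m → ℝ} {S : Finset G} {e : ℝ}
    (h6 : R6 g S e) {a1 a2 a3 a4 a5 a6 b1 b2 b3 b4 b5 b6 : G} (g1 : a1 ∈ S) (g2 : a2 ∈ S)
    (g3 : a3 ∈ S) (g4 : a4 ∈ S) (g5 : a5 ∈ S) (g6 : a6 ∈ S) (k1 : b1 ∈ S) (k2 : b2 ∈ S)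
    (k3 : b3 ∈ S) (k4 : b4 ∈ S) (k5 : b5 ∈ S) (k6 : b6 ∈ S)
    (h : a1 + (a2 + (a3 + (a4 + (a5 + a6)))) = b1 + (b2 + (b3 + (b4 + (b5 + b6))))) :
    NZ (g a1 + (g a2 + (g a3 + (g a4 + (g a5 + g a6)))) -
      (g b1 + (g b2 + (g b3 + (g b4 + (g b5 + g b6)))))) e := by
  have := h6 ![a1, a2, a3, a4, a5, a6] ![b1, b2, b3, b4, b5, b6]
    (fun i => by fin_cases i <;> assumption) (fun i => by fin_cases i <;> assumption) (by
      simpa only [Fin.sum_univ_succ, Fin.sum_univ_zero, Matrix.cons_val_zero, Matrix.cons_val_succ,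
        add_zero] using h)
  simpa only [Fin.sum_univ_succ, Fin.sum_univ_zero, Matrix.cons_val_zero, Matrix.cons_val_succ,
    add_zero] using this

/-- relations of six terms and a Bohr body in 2S - 2S give an almost additive extension -/
theorem ext_of {G : Type} [AddCommGroup G] {m : ℕ} (g : G → Fin m → ℝ) (S : Finset G) (e : ℝ)
    (P : G → Prop) (h6 : R6 g S e)
    (hP : ∀ x, P x → ∃ s1 ∈ S, ∃ s2 ∈ S, ∃ s3 ∈ S, ∃ s4 ∈ S, x = s1 + s2 - s3 - s4) :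
    ∃ Φ : G → Fin m → ℝ, (∀ x y, P x → P y → P (x + y) → NZ (Φ (x + y) - Φ x - Φ y) e) ∧
      ∀ s ∈ S, ∀ s' ∈ S, P (s - s') → NZ (g s - g s' - Φ (s - s')) e := by
  classical
  choose! s1 h1 s2 h2 s3 h3 s4 h4 he using hP
  refine ⟨fun x => g (s1 x) + g (s2 x) - g (s3 x) - g (s4 x), fun x y hx hy hxy => ?_,
    fun s hs s' hs' hx => ?_⟩
  · have := h6.app (h1 _ hxy) (h2 _ hxy) (h3 _ hx) (h4 _ hx) (h3 _ hy) (h4 _ hy)
      (h3 _ hxy) (h4 _ hxy) (h1 _ hx) (h2 _ hx) (h1 _ hy) (h2 _ hy) (by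
        have a1 := he x hx
        have a2 := he y hy
        have a3 := he _ hxy
        have a4 := (congrArg₂ (· + ·) a1 a2).symm.trans a3
        rw [← sub_eq_zero] at a4 ⊢
        rw [← neg_eq_zero, ← a4]
        abel)
    refine (congrArg (fun z => NZ z e) ?_).mp this
    beta_reduce
    abel
  · have := h6.app hs (h3 _ hx) (h4 _ hx) hs hs hs hs' (h1 _ hx) (h2 _ hx) hs hs hs (by
        have a1 := he _ hx
        generalize s1 (s - s') = u1 at a1 ⊢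
        generalize s2 (s - s') = u2 at a1 ⊢
        generalize s3 (s - s') = u3 at a1 ⊢
        generalize s4 (s - s') = u4 at a1 ⊢
        rw [← sub_eq_zero] at a1 ⊢
        rw [← a1]
        abel)
    refine (congrArg (fun z => NZ z e) ?_).mp this
    beta_reduce
    abel

theorem nrm_sys {n : ℕ} {N : (Fin n → ℤ) → ℝ} {B : ℝ → Finset (Fin n → ℤ)} (hN : Nrm N B)
    {σ : ℝ} (hσ : 0 ≤ σ) : Sys fun a : ℕ => B (a * σ) :=
  ⟨fun a => (hN.mem _ _).2 (hN.zero.trans (by positivity)),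
    fun a b x y hx hy => (hN.mem _ _).2 (by
      have a1 := (hN.mem _ _).1 hx
      have a2 := (hN.mem _ _).1 hy
      have a3 := hN.add x y
      push_cast
      linarith),
    fun a x hx => (hN.mem _ _).2 ((hN.neg x).trans ((hN.mem _ _).1 hx))⟩

/-- the metric Freiman theorem in a lattice with an arbitrary norm, rank free of the dimension -/
def FRZ : Prop := ∃ X0 : ℝ, ∀ X L : ℝ, X0 ≤ X → 1 ≤ L → 14002 * L ≤ X →
  ∀ (n m : ℕ) (N : (Fin n → ℤ) → ℝ) (B : ℝ → Finset (Fin n → ℤ)) (τ ρ : ℝ)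
    (f g ζ : (Fin n → ℤ) → Fin m → ℝ) (r : (Fin n → ℤ) → (Fin n → ℤ) → Prop)
    [∀ a b, Decidable (r a b)] (P1 P2 X1 U2 : Finset (Fin n → ℤ)),
    Nrm N B → 0 ≤ τ → 2 * (n : ℝ) ≤ Real.exp X → 0 < ρ → 200000 * ((m : ℝ) + 1) ^ 2 * ρ ≤ 1 →
    P1.Nonempty → P2.Nonempty → (∀ a ∈ P1, ∀ b ∈ P2, a + b ∈ X1) → (#X1 : ℝ) ≤ Real.exp L * #P1 →
    (∀ b ∈ P2, ∀ x, N x ≤ τ → b + x ∈ U2) → (#U2 : ℝ) ≤ Real.exp L * #P2 →
    (∀ a b, r a b → NZ (f a + g b - ζ (a + b)) ρ) →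
    (#P1 : ℝ) * #P2 ≤ Real.exp L * #((P1 ×ˢ P2).filter fun p => r p.1 p.2) →
    ∃ (x0 : Fin n → ℤ) (τ1 : ℝ) (S : Finset (Fin n → ℤ)) (t : ℕ) (θ : Fin t → Fin n → ℝ)
      (Φ : (Fin n → ℤ) → Fin m → ℝ),
      S ⊆ P2 ∧ (∀ s ∈ S, ∃ a, r a s) ∧ τ * Real.exp (-(3 * X)) ≤ τ1 ∧ τ1 ≤ τ ∧
      (∀ s ∈ S, N (x0 - s) ≤ τ1) ∧ (#(B τ1) : ℝ) ≤ Real.exp X * #S ∧
      R6 g S (50000 * ((m : ℝ) + 1) ^ 2 * ρ) ∧ (t : ℝ) ≤ X ^ 6 ∧
      (∀ x y, Bo N θ (τ * Real.exp (-(16 * X))) (Real.exp (-(3 * X))) x →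
        Bo N θ (τ * Real.exp (-(16 * X))) (Real.exp (-(3 * X))) y →
        Bo N θ (τ * Real.exp (-(16 * X))) (Real.exp (-(3 * X))) (x + y) →
        NZ (Φ (x + y) - Φ x - Φ y) (50000 * ((m : ℝ) + 1) ^ 2 * ρ)) ∧
      ∀ s ∈ S, ∀ s' ∈ S, Bo N θ (τ * Real.exp (-(16 * X))) (Real.exp (-(3 * X))) (s - s') →
        NZ (g s - g s' - Φ (s - s')) (50000 * ((m : ℝ) + 1) ^ 2 * ρ)

theorem frz : FRZ := by
  obtain ⟨X0, hA⟩ := bogz
  refine ⟨max X0 100, fun X L hX hL hLX n m N B τ ρ f g ζ r _ P1 P2 X1 U2 hN hτ hn hρ hρ1 n1 n2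
    hX1 cX1 hU2 cU2 hr hc => ?_⟩
  have hX0 : 100 ≤ X := (le_max_right _ _).trans hX
  obtain ⟨W, hW⟩ : ∃ W, W = 24 * (2 * n + 1) * (2 * n + 1) * 1 := ⟨_, rfl⟩
  have W0 : (0 : ℝ) < W := by
    rw [hW]
    positivity
  obtain ⟨σ, hσ⟩ : ∃ σ, σ = τ / W := ⟨_, rfl⟩
  have σ0 : 0 ≤ σ := by rw [hσ]; positivity
  have t3 : W * σ = τ := by rw [hσ]; field_simp
  have e1 : X + 1 ≤ Real.exp X := Real.add_one_le_exp X
  have W1 : (W : ℝ) ≤ Real.exp (3 * X) := by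
    have a1 : Real.exp (3 * X) = Real.exp X * (Real.exp X * Real.exp X) := by
      rw [← Real.exp_add, ← Real.exp_add]
      congr 1
      ring
    have a2 : 2 * (n : ℝ) + 1 ≤ 2 * Real.exp X := by linarith
    have a3 : (2 * (n : ℝ) + 1) * (2 * n + 1) ≤ 2 * Real.exp X * (2 * Real.exp X) := by gcongr
    have a4 : 96 * (Real.exp X * Real.exp X) ≤ Real.exp X * (Real.exp X * Real.exp X) := by
      gcongr
      linarith
    rw [hW, a1]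
    push_cast
    linarith
  have σ1 : τ * Real.exp (-(3 * X)) ≤ σ := by
    rw [hσ, le_div_iff₀ W0, mul_assoc]
    refine mul_le_of_le_one_right hτ ?_
    have a1 := mul_le_mul_of_nonneg_left W1 (Real.exp_pos (-(3 * X))).le
    rwa [← Real.exp_add, neg_add_cancel, Real.exp_zero] at a1
  obtain ⟨x0, T, S, h1, h2, h3, h4, h5, h6⟩ := coreR (nrm_sys hN σ0) f g ζ r P1 P2 X1 U2 W
    (2 * n + 1) 1 ρ L (4 ^ n) hL hρ hρ1 (by omega)
    (fun a _ => by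
      have a2 := hN.dbl (a * σ)
      rw [show ((2 * a : ℕ) : ℝ) * σ = 2 * (a * σ) by push_cast; ring]
      exact_mod_cast a2)
    (by
      rw [pow_succ, pow_mul]
      have : (0 : ℝ) < 4 ^ n := by positivity
      norm_num)
    hW.ge n1 n2 hX1 cX1 (fun b hb x hx => hU2 b hb x (((hN.mem _ _).1 hx).trans t3.le)) cU2 hr hc
  have k0 : 4 * Real.exp (14000 * L) ≤ Real.exp X := by
    have a1 : Real.exp (14000 * L + 2) ≤ Real.exp X := Real.exp_le_exp.2 (by linarith)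
    have a2 : (4 : ℝ) ≤ Real.exp 2 := by
      have := Real.add_one_le_exp (1 : ℝ)
      rw [show (2 : ℝ) = 1 + 1 by norm_num, Real.exp_add]
      nlinarith
    rw [Real.exp_add] at a1
    nlinarith [Real.exp_pos (14000 * L)]
  have k1 : 2 * (#(B (((T + 1 : ℕ) : ℝ) * σ)) : ℝ) ≤ Real.exp X * #S := by
    have := mul_le_mul_of_nonneg_right k0 (Nat.cast_nonneg (α := ℝ) #S)
    linarith
  have p0 : (0 : ℝ) < #(B (((T + 1 : ℕ) : ℝ) * σ)) := by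
    exact_mod_cast card_pos.2 ⟨0, (nrm_sys hN σ0).zero (T + 1)⟩
  have nS : S.Nonempty := by
    rw [← card_pos]
    have a1 : (0 : ℝ) < Real.exp X * #S := by linarith
    exact_mod_cast (pos_iff_pos_of_mul_pos a1).1 (Real.exp_pos X)
  obtain ⟨t, θ, ht, hθ⟩ := hA X ((le_max_left _ _).trans hX) n N B σ S
    ((B (((T + 1 : ℕ) : ℝ) * σ)).image fun u => x0 - u) hN σ0 hn nS
    (by
      have a1 : (#((B (((T + 1 : ℕ) : ℝ) * σ)).image fun u => x0 - u) : ℝ) ≤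
        #(B (((T + 1 : ℕ) : ℝ) * σ)) := by exact_mod_cast card_image_le
      linarith)
    (fun s hs x hx => mem_image.2 ⟨x0 - s - x, (nrm_sys hN σ0).sub (h3 s hs)
      ((hN.mem _ _).2 (by rwa [Nat.cast_one, one_mul])), by abel⟩)
  obtain ⟨Φ, g1, g2⟩ := ext_of g S _ (Bo N θ (τ * Real.exp (-(16 * X))) (Real.exp (-(3 * X)))) h6
    fun x hx => hθ x (hx.1.trans (by
      rw [show -(16 * X) = -(3 * X) + -(13 * X) by ring, Real.exp_add, ← mul_assoc]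
      exact mul_le_mul_of_nonneg_right σ1 (Real.exp_pos _).le)) hx.2
  have T1 : (1 : ℝ) ≤ ((T + 1 : ℕ) : ℝ) := by exact_mod_cast Nat.le_add_left 1 T
  have T2 : ((T + 1 : ℕ) : ℝ) ≤ W := by
    have a1 : 2 * (2 * n + 1) * 1 ≤ W := by
      rw [hW]
      nlinarith
    exact_mod_cast h4.trans a1
  refine ⟨x0, ((T + 1 : ℕ) : ℝ) * σ, S, t, θ, Φ, h1, h2, σ1.trans (le_mul_of_one_le_left σ0 T1),
    (mul_le_mul_of_nonneg_right T2 σ0).trans t3.le, fun s hs => ((hN.mem _ _).1 (h3 s hs)).trans ?_,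
    by linarith, h6, ht, g1, g2⟩
  push_cast
  linarith

end Vale.Agent.P057T.FrH81
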