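import Vale.Agent.P057T.ExtH61
import Vale.Agent.P057T.FrH81

/-! Metric Freiman theorem with a linear chart on the lattice extended by the brackets. -/

set_option linter.all false

open Finset
open scoped BigOperators

namespace Vale.Agent.P057T.FrdH61

open Vale.Agent.P057T.ExtH61 Vale.Agent.P057T.BogH81 Vale.Agent.P057T.FrH81

noncomputable section

/-- real vector of an integer vector -/
def cr {ι : Type} (x : ι → ℤ) : ι → ℝ := fun i => (x i : ℝ)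

theorem cr_add {ι : Type} (x y : ι → ℤ) : cr (x + y) = cr x + cr y := by
  funext i; simp [cr]

theorem cr_neg {ι : Type} (x : ι → ℤ) : cr (-x) = -cr x := by
  funext i; simp [cr]

theorem cr_sub {ι : Type} (x y : ι → ℤ) : cr (x - y) = cr x - cr y := by
  funext i; simp [cr]

variable {V : Type} [AddCommGroup V] [Module ℝ V]

/-- an almost additive map on a Bohr body is linear in the point and its brackets -/
theorem lin {ι κ : Type} [Fintype ι] [DecidableEq ι] [Fintype κ] [DecidableEq κ]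
    (N : Seminorm ℝ V) (I : AddSubgroup V) (p : Seminorm ℝ (ι → ℝ)) (θ : κ → ι → ℝ)
    (τ η ε ρ : ℝ) (n : ℕ) (hτ : 0 < τ) (hη : 0 < η)
    (hfin : {g : ι → ℤ | p (cr g) ≤ τ}.Finite) (Φ : (ι → ℤ) → V)
    (hn : Fintype.card ι + Fintype.card κ ≤ n) (hε : 0 ≤ ε) (hρ0 : 0 ≤ ρ)
    (hρ : 2 * (n + 1) * ρ ≤ 1) (hgap : ∀ F ∈ I, N F ≤ 4 * ((n + 1) * ε) → F = 0)
    (hΦ : ∀ x y : ι → ℤ,
      (p (cr x) ≤ τ ∧ ∀ j, ∃ k : ℤ, |∑ i, θ j i * x i - k| ≤ η) →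
      (p (cr y) ≤ τ ∧ ∀ j, ∃ k : ℤ, |∑ i, θ j i * y i - k| ≤ η) →
      (p (cr (x + y)) ≤ τ ∧ ∀ j, ∃ k : ℤ, |∑ i, θ j i * (x + y) i - k| ≤ η) →
      ∃ i ∈ I, N (Φ (x + y) - Φ x - Φ y - i) ≤ ε) :
    ∃ (Θ : (ι → ℝ) →ₗ[ℝ] V) (C : (κ → ℝ) →ₗ[ℝ] V), ∀ (x : ι → ℤ) (z : κ → ℤ),
      p (cr x) ≤ ρ * τ → (∀ j, |∑ i, θ j i * x i - z j| ≤ ρ * η) →
      ∃ i ∈ I, N (Φ x - Θ (cr x) - C (cr z) - i) ≤ (2 * n + 1) * ε := by
  classical
  let l1 : (ι ⊕ κ → ℝ) →ₗ[ℝ] (ι → ℝ) := τ⁻¹ • LinearMap.funLeft ℝ ℝ Sum.inl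
  let l2 : (ι ⊕ κ → ℝ) →ₗ[ℝ] (κ → ℝ) :=
    η⁻¹ • ((Matrix.mulVecLin (Matrix.of θ)) ∘ₗ LinearMap.funLeft ℝ ℝ Sum.inl -
      LinearMap.funLeft ℝ ℝ Sum.inr)
  let q : Seminorm ℝ (ι ⊕ κ → ℝ) := p.comp l1 ⊔ (normSeminorm ℝ (κ → ℝ)).comp l2
  have hq : ∀ (w : ι ⊕ κ → ℤ) (a : ℝ), 0 ≤ a → (q (cr w) ≤ a ↔
      p (cr (fun i => w (Sum.inl i))) ≤ a * τ ∧
        ∀ j, |∑ i, θ j i * w (Sum.inl i) - w (Sum.inr j)| ≤ a * η) := by
    intro w a ha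
    have e1 : p (l1 (cr w)) = τ⁻¹ * p (cr (fun i => w (Sum.inl i))) := by
      simp only [l1, LinearMap.smul_apply, map_smul_eq_mul, Real.norm_eq_abs,
        abs_of_pos (inv_pos.2 hτ)]
      rfl
    have e2 : ∀ j, ‖l2 (cr w) j‖ = η⁻¹ * |∑ i, θ j i * w (Sum.inl i) - w (Sum.inr j)| := by
      intro j
      simp only [l2, LinearMap.smul_apply, Pi.smul_apply, smul_eq_mul, Real.norm_eq_abs, abs_mul,
        abs_of_pos (inv_pos.2 hη)]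
      rfl
    simp only [q, Seminorm.sup_apply, Seminorm.comp_apply, coe_normSeminorm, sup_le_iff]
    rw [e1, pi_norm_le_iff_of_nonneg ha, inv_mul_le_iff₀ hτ, mul_comm τ]
    refine and_congr Iff.rfl (forall_congr' fun j => ?_)
    rw [e2, inv_mul_le_iff₀ hη, mul_comm η]
  have hf : {g : ι ⊕ κ → ℤ | q (fun i => (g i : ℝ)) ≤ 1}.Finite := by
    have hz : ∀ x : ι → ℤ, {z : κ → ℤ | ∀ j, |∑ i, θ j i * x i - z j| ≤ η}.Finite := by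
      intro x
      refine (Set.Finite.pi' (t := fun j => Set.Icc ⌈∑ i, θ j i * x i - η⌉
        ⌊∑ i, θ j i * x i + η⌋) fun j => Set.finite_Icc _ _).subset fun z hz j => ?_
      have := abs_le.1 (hz j)
      exact ⟨Int.ceil_le.2 (by linarith [this.2]), Int.le_floor.2 (by linarith [this.1])⟩
    refine ((hfin.biUnion fun x _ => (hz x).image fun z => Sum.elim x z)).subset fun g hg => ?_
    have := (hq g 1 zero_le_one).1 hg
    simp only [one_mul] at this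
    refine Set.mem_biUnion (x := fun i => g (Sum.inl i)) this.1
      ⟨fun j => g (Sum.inr j), this.2, ?_⟩
    funext i; cases i <;> rfl
  obtain ⟨L, hL⟩ := extZ (N := N) (I := I) q hf (fun w => Φ fun i => w (Sum.inl i)) ε ρ n
    (by simpa using hn) hε hρ0 hρ hgap (fun x y hx hy hxy => by
      have a1 := (hq x 1 zero_le_one).1 hx
      have a2 := (hq y 1 zero_le_one).1 hy
      have a3 := (hq (x + y) 1 zero_le_one).1 hxy
      simp only [one_mul] at a1 a2 a3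
      exact hΦ _ _ ⟨a1.1, fun j => ⟨_, a1.2 j⟩⟩ ⟨a2.1, fun j => ⟨_, a2.2 j⟩⟩
        ⟨a3.1, fun j => ⟨_, a3.2 j⟩⟩)
  let e := LinearEquiv.sumArrowLequivProdArrow ι κ ℝ ℝ
  refine ⟨L ∘ₗ e.symm.toLinearMap ∘ₗ LinearMap.inl ℝ _ _,
    L ∘ₗ e.symm.toLinearMap ∘ₗ LinearMap.inr ℝ _ _, fun x z hx hz => ?_⟩
  obtain ⟨i, hi, h⟩ := hL (Sum.elim x z) ((hq _ ρ hρ0).2 ⟨hx, hz⟩)
  refine ⟨i, hi, ?_⟩
  convert h using 3
  rw [sub_sub]
  congr 1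
  simp only [LinearMap.comp_apply, LinearEquiv.coe_coe]
  rw [← map_add, ← map_add]
  congr 1
  funext a; cases a <;> simp [e, cr]

/-- integer vectors -/
def IZ (m : ℕ) : AddSubgroup (Fin m → ℝ) :=
  (AddMonoidHom.mk' (cr : (Fin m → ℤ) → Fin m → ℝ) cr_add).range

theorem nz_iff {m : ℕ} {y : Fin m → ℝ} {e : ℝ} (he : 0 ≤ e) :
    NZ y e ↔ ∃ i ∈ IZ m, normSeminorm ℝ (Fin m → ℝ) (y - i) ≤ e := by
  simp only [coe_normSeminorm, pi_norm_le_iff_of_nonneg he]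
  constructor
  · intro h
    choose k hk using h
    exact ⟨cr k, ⟨k, rfl⟩, hk⟩
  · rintro ⟨_, ⟨k, rfl⟩, hk⟩ i
    exact ⟨k i, hk i⟩

theorem iz_gap {m : ℕ} {r : ℝ} (hr : r < 1) :
    ∀ F ∈ IZ m, normSeminorm ℝ (Fin m → ℝ) F ≤ r → F = 0 := by
  rintro _ ⟨k, rfl⟩ h
  funext i
  have h1 : |(k i : ℝ)| < 1 := lt_of_le_of_lt ((norm_le_pi_norm (cr k) i).trans h) hr
  have h2 : |k i| < 1 := by exact_mod_cast h1
  have h3 : k i = 0 := Int.abs_lt_one_iff.1 h2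
  show (k i : ℝ) = 0
  rw [h3]; simp

theorem nrm_of {n : ℕ} (p : Seminorm ℝ (Fin n → ℝ)) (B : ℝ → Finset (Fin n → ℤ))
    (hB : ∀ r x, x ∈ B r ↔ p (cr x) ≤ r) : Nrm (fun x => p (cr x)) B where
  mem := hB
  zero := by
    have : cr (0 : Fin n → ℤ) = 0 := by funext i; simp [cr]
    simp [this]
  add := fun x y => by rw [cr_add]; exact map_add_le_add p _ _
  neg := fun x => by rw [cr_neg, map_neg_eq_map]
  four := fun x => by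
    have : cr ((4 : ℤ) • x) = (4 : ℝ) • cr x := by funext i; simp [cr]
    rw [this, map_smul_eq_mul]; simp

/-- energy gives a dense set on which the map is linear in the point and in few brackets -/
def FRD : Prop := ∃ X0 : ℝ, ∀ X L : ℝ, X0 ≤ X → 1 ≤ L → 14002 * L ≤ X →
  ∀ (n m : ℕ) (p : Seminorm ℝ (Fin n → ℝ)) (B : ℝ → Finset (Fin n → ℤ)) (τ ρ : ℝ)
    (f g ζ : (Fin n → ℤ) → Fin m → ℝ) (r : (Fin n → ℤ) → (Fin n → ℤ) → Prop)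
    [∀ a b, Decidable (r a b)] (P1 P2 X1 U2 : Finset (Fin n → ℤ)),
    (∀ r x, x ∈ B r ↔ p (cr x) ≤ r) → 0 < τ → 2 * (n : ℝ) ≤ Real.exp X → 0 < ρ →
    200000 * Real.exp (2 * X) * ((m : ℝ) + 1) ^ 2 * ρ ≤ 1 →
    P1.Nonempty → P2.Nonempty → (∀ a ∈ P1, ∀ b ∈ P2, a + b ∈ X1) → (#X1 : ℝ) ≤ Real.exp L * #P1 →
    (∀ b ∈ P2, ∀ x, p (cr x) ≤ τ → b + x ∈ U2) → (#U2 : ℝ) ≤ Real.exp L * #P2 →
    (∀ a b, r a b → NZ (f a + g b - ζ (a + b)) ρ) →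
    (#P1 : ℝ) * #P2 ≤ Real.exp L * #((P1 ×ˢ P2).filter fun p => r p.1 p.2) →
    ∃ (x0 : Fin n → ℤ) (τ1 : ℝ) (S : Finset (Fin n → ℤ)) (t : ℕ) (θ : Fin t → Fin n → ℝ)
      (Θ : (Fin n → ℝ) →ₗ[ℝ] (Fin m → ℝ)) (C : (Fin t → ℝ) →ₗ[ℝ] (Fin m → ℝ)),
      S ⊆ P2 ∧ (∀ s ∈ S, ∃ a, r a s) ∧ τ * Real.exp (-(3 * X)) ≤ τ1 ∧ τ1 ≤ τ ∧
      (∀ s ∈ S, p (cr (x0 - s)) ≤ τ1) ∧ (#(B τ1) : ℝ) ≤ Real.exp X * #S ∧
      R6 g S (50000 * ((m : ℝ) + 1) ^ 2 * ρ) ∧ (t : ℝ) ≤ X ^ 6 ∧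
      ∀ s ∈ S, ∀ s' ∈ S, ∀ z : Fin t → ℤ, p (cr (s - s')) ≤ τ * Real.exp (-(18 * X)) →
        (∀ j, |∑ i, θ j i * (s - s') i - z j| ≤ Real.exp (-(5 * X))) →
        NZ (g s - g s' - Θ (cr (s - s')) - C (cr z))
          (50000 * Real.exp (2 * X) * ((m : ℝ) + 1) ^ 2 * ρ)

theorem num1 (X n t : ℝ) (hX : 2000 ≤ X) (hn : 2 * n ≤ Real.exp X) (ht : t ≤ X ^ 6) :
    2 * (n + t + 1) ≤ Real.exp (2 * X) := by
  have e1 : X + 1 ≤ Real.exp X := Real.add_one_le_exp X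
  have e2 : Real.exp (2 * X) = Real.exp X * Real.exp X := by rw [← Real.exp_add]; ring_nf
  have e3 : X ^ 6 / 720 ≤ Real.exp X := by
    have := Real.pow_div_factorial_le_exp X (by linarith) 6
    simpa [Nat.factorial] using this
  rw [e2]
  nlinarith

theorem num2 (E c e i : ℝ) (hc : 2 * (c + 1) ≤ E) (he : 0 < e) (h : 4 * E * e ≤ 1) (hi : E * i = 1)
    (i0 : 0 < i) (c0 : 0 ≤ c) :
    2 * (c + 1) * i ≤ 1 ∧ 4 * ((c + 1) * e) < 1 ∧ (2 * c + 1) * e + e ≤ E * e ∧ 4 * e ≤ 1 := by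
  refine ⟨by nlinarith, by nlinarith, by nlinarith, by nlinarith⟩

theorem frd : FRD := by
  obtain ⟨X0, hA⟩ := frz
  refine ⟨max X0 2000, fun X L hX hL hLX n m p B τ ρ f g ζ r _ P1 P2 X1 U2 hB hτ hn hρ hρ1 n1 n2
    hX1 cX1 hU2 cU2 hr hc => ?_⟩
  have hX0 : 2000 ≤ X := (le_max_right _ _).trans hX
  have e4 : 1 ≤ Real.exp (2 * X) := Real.one_le_exp (by linarith)
  obtain ⟨e, he⟩ : ∃ e, e = 50000 * ((m : ℝ) + 1) ^ 2 * ρ := ⟨_, rfl⟩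
  have e0 : 0 < e := by rw [he]; positivity
  have he1 : 4 * Real.exp (2 * X) * e ≤ 1 := by rw [he]; linarith
  have he2 : 200000 * ((m : ℝ) + 1) ^ 2 * ρ ≤ 1 := by
    have : e ≤ Real.exp (2 * X) * e := le_mul_of_one_le_left e0.le e4
    linarith
  obtain ⟨x0, τ1, S, t, θ, Φ, h1, h2, h3, h4, h5, h6, h7, h8, h9, h10⟩ := hA X L
    ((le_max_left _ _).trans hX) hL hLX n m _ B τ ρ f g ζ r P1 P2 X1 U2 (nrm_of p B hB) hτ.le hn hρ
    he2 n1 n2 hX1 cX1 hU2 cU2 hr hc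
  rw [← he] at h9 h10
  have hnt : 2 * (((n + t : ℕ) : ℝ) + 1) ≤ Real.exp (2 * X) := by
    push_cast
    exact num1 X n t hX0 hn h8
  have hi : Real.exp (2 * X) * Real.exp (-(2 * X)) = 1 := by rw [← Real.exp_add]; simp
  have hi0 : 0 < Real.exp (-(2 * X)) := Real.exp_pos _
  have hi1 : Real.exp (-(2 * X)) ≤ 1 := Real.exp_le_one_iff.2 (by linarith)
  obtain ⟨u1, u2, u3, -⟩ := num2 _ _ _ _ hnt e0 he1 hi hi0 (Nat.cast_nonneg _)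
  obtain ⟨Θ, C, hl⟩ := lin (normSeminorm ℝ (Fin m → ℝ)) (IZ m) p θ (τ * Real.exp (-(16 * X)))
    (Real.exp (-(3 * X))) e (Real.exp (-(2 * X))) (n + t) (by positivity) (by positivity)
    ((B (τ * Real.exp (-(16 * X)))).finite_toSet.subset fun x hx => (hB _ x).2 hx) Φ (by simp)
    e0.le hi0.le u1 (iz_gap u2)
    (fun x y hx hy hxy => (nz_iff e0.le).1 (h9 x y hx hy hxy))
  refine ⟨x0, τ1, S, t, θ, Θ, C, h1, h2, h3, h4, h5, h6, h7, h8, fun s hs s' hs' z hp hz => ?_⟩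
  have k1 : Real.exp (-(18 * X)) = Real.exp (-(2 * X)) * Real.exp (-(16 * X)) := by
    rw [← Real.exp_add]; ring_nf
  have k2 : Real.exp (-(5 * X)) = Real.exp (-(2 * X)) * Real.exp (-(3 * X)) := by
    rw [← Real.exp_add]; ring_nf
  have k3 : 0 < Real.exp (-(16 * X)) := Real.exp_pos _
  have k4 : 0 < Real.exp (-(3 * X)) := Real.exp_pos _
  rw [k1, mul_left_comm] at hp
  rw [k2] at hz
  have a1 := (nz_iff (by positivity)).2 (hl (s - s') z hp hz)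
  have a2 := h10 s hs s' hs' ⟨hp.trans (mul_le_of_le_one_left (by positivity) hi1),
    fun j => ⟨z j, (hz j).trans (mul_le_of_le_one_left k4.le hi1)⟩⟩
  intro i
  obtain ⟨u, hu⟩ := a1 i
  obtain ⟨w, hw⟩ := a2 i
  refine ⟨u + w, ?_⟩
  have : (g s - g s' - Θ (cr (s - s')) - C (cr z)) i - ((u + w : ℤ) : ℝ) =
      ((Φ (s - s') - Θ (cr (s - s')) - C (cr z)) i - u) + ((g s - g s' - Φ (s - s')) i - w) := by
    simp only [Pi.sub_apply]; push_cast; ring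
  rw [this]
  refine (abs_add_le _ _).trans ?_
  have : 50000 * Real.exp (2 * X) * ((m : ℝ) + 1) ^ 2 * ρ = Real.exp (2 * X) * e := by
    rw [he]; ring
  rw [this]
  exact (add_le_add hu hw).trans u3

end

end Vale.Agent.P057T.FrdH61
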