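import Vale.Agent.P057T.Mfr2H53
import Vale.Agent.P057T.FrH81
import Vale.Agent.P057T.ExtH61

/-! Metric Freiman theorem on a lattice with a target modulo a discrete subgroup. -/

set_option linter.all false

open Finset
open scoped BigOperators

namespace Vale.Agent.P057T.Mfr

open Vale.Agent.P057Z Vale.Agent.P057Z.Fr Vale.Agent.P057T.BogH81

open Classical in
theorem coreW {G : Type} [AddCommGroup G] [DecidableEq G] {B : ℕ → Finset G} (hB : Sys B)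
    {Q : ℕ} [Fact Q.Prime] {m : ℕ} (ω : Fin m → ℕ) (hω : ∀ i, 1 ≤ ω i) (f g ζ : G → V Q m) (r : G → G → Prop)
    [∀ a b, Decidable (r a b)] (P1 P2 X1 U2 : Finset G) (W R w0 : ℕ) (ρ L γ : ℝ)
    (hL1 : 1 ≤ L) (hρ : 0 < ρ) (hρ1 : 100000 * ((m : ℝ) + 1) ^ 2 * ρ ≤ 1) (hR : 1 ≤ R)
    (hg : ∀ a, 2 * a ≤ W → (#(B (2 * a)) : ℝ) ≤ γ * #(B a)) (hγ : γ < 2 ^ R)
    (hW : 24 * R * R * w0 ≤ W) (n1 : P1.Nonempty) (n2 : P2.Nonempty)
    (hX1m : ∀ a ∈ P1, ∀ b ∈ P2, a + b ∈ X1) (cX1 : (#X1 : ℝ) ≤ Real.exp L * #P1)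
    (hU2 : ∀ b ∈ P2, ∀ x ∈ B W, b + x ∈ U2) (cU2 : (#U2 : ℝ) ≤ Real.exp L * #P2)
    (hr : ∀ a b, r a b → sw ω (f a + g b - ζ (a + b)) ≤ ρ)
    (hcount : (#P1 : ℝ) * #P2 ≤ Real.exp L * #((P1 ×ˢ P2).filter fun p => r p.1 p.2)) :
    ∃ (x : G) (T : ℕ) (S : Finset G), S ⊆ P2 ∧ (∀ s ∈ S, ∃ a, r a s) ∧ (∀ s ∈ S, x - s ∈ B T) ∧
      T + w0 ≤ 2 * R * w0 ∧ (#(B (T + w0)) : ℝ) ≤ 2 * Real.exp (14000 * L) * #S ∧
      ∀ z ∈ Rel g S 6, sw ω z ≤ 20000 * ((m : ℝ) + 1) ^ 2 * ρ := by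
  obtain ⟨K, hKdef⟩ : ∃ K, K = Real.exp L := ⟨_, rfl⟩
  have hK2 : Real.exp (2 * L) = K ^ 2 := by
    rw [hKdef, ← Real.exp_nat_mul]
    norm_num
  rw [← hKdef] at cX1 cU2 hcount
  have hK1 : 1 ≤ K := hKdef ▸ Real.one_le_exp (by linarith)
  have hK0 : 0 < K := by linarith
  obtain ⟨hr1, hr2⟩ := num_rad m ρ hρ hρ1
  obtain ⟨w, hw⟩ : ∃ w, w = 12 * (R * w0) := ⟨_, rfl⟩
  have hW' : 2 * (R * w) ≤ W := by
    rw [hw]
    exact le_trans (le_of_eq (by ring)) hW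
  have hw2 : w ≤ R * w := Nat.le_mul_of_pos_left _ hR
  obtain ⟨i4, hi4, c4⟩ := hB.reg R w0 2 γ (by norm_num) (hg _ (by omega)) hγ
  obtain ⟨i3, hi3, c3⟩ := hB.reg R w 2 γ (by norm_num) (hg _ hW') hγ
  have e4 : (i4 + 1) * w0 = i4 * w0 + w0 := by ring
  have e3 : (i3 + 1) * w = i3 * w + w := by ring
  have l4 : (i4 + 1) * w0 ≤ 2 * (R * w0) :=
    (Nat.mul_le_mul_right _ hi4).trans (le_of_eq (by ring))
  have l3 : (i3 + 1) * w ≤ 2 * (R * w) :=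
    (Nat.mul_le_mul_right _ hi3).trans (le_of_eq (by ring))
  rw [e4] at c4 l4
  rw [e3] at c3 l3
  obtain ⟨T4, hT4⟩ : ∃ T, T = i4 * w0 := ⟨_, rfl⟩
  obtain ⟨T3, hT3⟩ : ∃ T, T = i3 * w := ⟨_, rfl⟩
  rw [← hT4] at c4 l4
  rw [← hT3] at c3 l3
  have p1 : (0 : ℝ) < #P1 := by exact_mod_cast n1.card_pos
  have p2 : (0 : ℝ) < #P2 := by exact_mod_cast n2.card_pos
  have p3 : (0 : ℝ) < #(B T3) := by exact_mod_cast card_pos.2 ⟨0, hB.zero _⟩
  have p4 : (0 : ℝ) < #(B T4) := by exact_mod_cast card_pos.2 ⟨0, hB.zero _⟩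
  obtain ⟨A', hA', B', hB', cA, cB, hU, hfew⟩ := Fr.list G (V Q m) (sw ω) (sz_sw ω) P1 P2
    f g ζ r K ρ hK1 n1 n2 hr hcount
  have pB' : (0 : ℝ) < #B' := num_pos p2 (Nat.cast_nonneg _) cB
  have pA : (0 : ℝ) < #A' := num_pos p1 (Nat.cast_nonneg _) cA
  obtain ⟨x3, hx3⟩ := dense_piece B' U2 (B T3) (by rw [← card_pos]; exact_mod_cast pB')
    ⟨0, hB.zero _⟩ fun s hs e he => hU2 s (hB' hs) e (hB.mono (by omega) he)
  obtain ⟨B2, hB2⟩ : ∃ B2, B2 = ({s ∈ B' | x3 - s ∈ B T3} : Finset G) := ⟨_, rfl⟩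
  rw [← hB2] at hx3
  have m2 : ∀ b ∈ B2, b ∈ B' ∧ x3 - b ∈ B T3 := fun b hb => mem_filter.1 (hB2 ▸ hb)
  have hx3' : (#B' : ℝ) * #(B T3) ≤ #U2 * #B2 := by exact_mod_cast hx3
  have cB2 : (#(B T3) : ℝ) ≤ 4 * K ^ 2 * #B2 := by
    refine le_of_mul_le_mul_left (hx3'.trans ?_) pB'
    calc (#U2 : ℝ) * #B2 ≤ K * (4 * K * #B') * #B2 := by
          have := cU2.trans (mul_le_mul_of_nonneg_left cB hK0.le)
          gcongr
      _ = _ := by ring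
  have pB2 : (0 : ℝ) < #B2 := num_pos p3 (Nat.cast_nonneg _) cB2
  have cX2 : (#(U2.image fun u => u - x3) : ℝ) ≤ K * #P2 :=
    le_trans (by exact_mod_cast card_image_le) cU2
  have f0 : ∀ c, Few (sw ω) (3072 * K ^ 7) (6 * ρ) (Fib2 f g A' B2 c) := by
    intro c
    refine (hfew B2 (fun b hb => (m2 b hb).1) X1 (U2.image fun u => u - x3) hX1m
      (fun b' hb' b hb => mem_image.2
        ⟨_, hU2 b' hb' _ (hB.mono (by omega) (m2 b hb).2), by abel⟩) c).mono ?_ le_rfl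
      (fun _ h => h)
    rw [div_le_iff₀ (by positivity)]
    calc 3072 * K ^ 5 * #X1 * #(U2.image fun u => u - x3)
        ≤ 3072 * K ^ 5 * (K * #P1) * (K * #P2) := by gcongr
      _ = _ := by ring
  have hm0 : (0 : ℝ) ≤ m := Nat.cast_nonneg m
  obtain ⟨Wt, Wt', nW, hW1, hW2, hW3⟩ := fatw (Q := Q) ω hω (6 * ρ) (by positivity) hr1
  have f1 : ∀ c, Few (sw ω) ((294912 * (K ^ 2) ^ 6) ^ 7) (2 * (2 * m * (6 * ρ)))
      (Fib g B2 (6 + 1) c) := by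
    intro c
    refine (Fr.plu G (V Q m) (sw ω) (sz_sw ω) A' B2 X1 Wt Wt' f g (3072 * K ^ 7) (6 * ρ)
      (2 * m * (6 * ρ)) 7 (by rw [← card_pos]; exact_mod_cast pA) nW (by positivity)
      (fun a ha b hb => hX1m a (hA' ha) b (hB' (m2 b hb).1)) hW1 hW2 hW3 f0 c).mono ?_
      le_rfl (fun _ h => h)
    refine pow_le_pow_left₀ (by positivity) ?_ 7
    rw [div_le_iff₀ pA]
    have k1 : K ^ 9 ≤ K ^ 12 := pow_le_pow_right₀ hK1 (by norm_num)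
    calc 2 * (3072 * K ^ 7) * #X1 ≤ 2 * (3072 * K ^ 7) * (K * (6 * K * #A')) := by
          have := cX1.trans (mul_le_mul_of_nonneg_left cA hK0.le)
          gcongr
      _ = 36864 * K ^ 9 * #A' := by ring
      _ ≤ 294912 * K ^ 12 * #A' := by gcongr; norm_num
      _ = _ := by ring
  obtain ⟨x4, hx4⟩ := dense_piece B2 ((B (T3 + w)).image fun u => x3 - u) (B T4)
    (by rw [← card_pos]; exact_mod_cast pB2) ⟨0, hB.zero _⟩ fun s hs e he =>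
      mem_image.2 ⟨_, hB.mono (by omega) (hB.sub (m2 s hs).2 he), by abel⟩
  obtain ⟨B5, hB5⟩ : ∃ B5, B5 = ({s ∈ B2 | x4 - s ∈ B T4} : Finset G) := ⟨_, rfl⟩
  rw [← hB5] at hx4
  have m5 : ∀ b ∈ B5, b ∈ B2 ∧ x4 - b ∈ B T4 := fun b hb => mem_filter.1 (hB5 ▸ hb)
  have cI : ∀ y : G, (#((B (T3 + w)).image fun u => y - u) : ℝ) ≤ 8 * K ^ 2 * #B2 := fun y => by
    have a1 : (#((B (T3 + w)).image fun u => y - u) : ℝ) ≤ #(B (T3 + w)) := by
      exact_mod_cast card_image_le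
    linarith
  have hx4' : (#B2 : ℝ) * #(B T4) ≤ #((B (T3 + w)).image fun u => x3 - u) * #B5 := by
    exact_mod_cast hx4
  have cB5 : (#(B T4) : ℝ) ≤ 16 * K ^ 2 * #B5 := by
    refine le_of_mul_le_mul_left (hx4'.trans ?_) pB2
    have := cI x3
    calc (#((B (T3 + w)).image fun u => x3 - u) : ℝ) * #B5 ≤ 8 * K ^ 2 * #B2 * #B5 := by gcongr
      _ ≤ 16 * K ^ 2 * #B2 * #B5 := by gcongr; norm_num
      _ = _ := by ring
  have f2 : Few (sw ω) (Real.exp (270 * (2 * L))) (96 * (m + 1) * ρ) (Rel g B5 6) := by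
    refine (Fr.csl G (V Q m) (sw ω) (sz_sw ω) B2 B5
      ((B (T3 + w)).image fun u => (x3 + ∑ _i : Fin 6, x4) - u) g _ _ 6 (fun b hb => (m5 b hb).1)
      (by rw [← card_pos]; exact_mod_cast pB2) (by positivity)
      (fun b hb s hs => mem_image.2 ⟨_, hB.mono (by omega)
        (hB.add _ _ _ _ (m2 b hb).2 (hB.sum (d := fun i => x4 - s i) fun i => (m5 _ (hs i)).2)),
        by rw [sum_sub_distrib]; abel⟩)
      f1).mono ?_ hr2 (fun _ h => h)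
    refine le_trans ?_ (num_M2 (2 * L) (by linarith))
    rw [div_le_iff₀ pB2, hK2]
    have := cI (x3 + ∑ _i : Fin 6, x4)
    calc ((294912 * (K ^ 2) ^ 6) ^ 7) ^ 2 *
          #((B (T3 + w)).image fun u => (x3 + ∑ _i : Fin 6, x4) - u)
        ≤ ((294912 * (K ^ 2) ^ 6) ^ 7) ^ 2 * (8 * K ^ 2 * #B2) := by gcongr
      _ ≤ ((294912 * (K ^ 2) ^ 6) ^ 7) ^ 2 * (16 * K ^ 2 * #B2) := by gcongr; norm_num
      _ = _ := by ring
  obtain ⟨t, ht1, ht2⟩ := num_t (2 * L) (by linarith)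
  obtain ⟨T', hT'1, hT'2, hT'3⟩ := num_T m ρ hρ hρ1
  obtain ⟨S, hS, cS, hrel⟩ := rndw ω hω g B5 _ _ T' t hT'1 (by positivity) hT'2 ht1 f2
  have hSB' : S ⊆ B' := fun s hs => (m2 _ (m5 _ (hS hs)).1).1
  refine ⟨x4, T4, S, fun s hs => hB' (hSB' hs), fun s hs => hU s (hSB' hs),
    fun s hs => (m5 _ (hS hs)).2, l4.trans (le_of_eq (by ring)), ?_,
    fun z hz => (hrel z hz).trans hT'3⟩
  have cS' : (#B5 : ℝ) ≤ 1200 ^ t * #S := by exact_mod_cast cS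
  rw [hK2, show 7000 * (2 * L) = 14000 * L by ring] at ht2
  have k1 : (#(B T4) : ℝ) ≤ Real.exp (14000 * L) * #S :=
    calc (#(B T4) : ℝ) ≤ 16 * K ^ 2 * (1200 ^ t * #S) := cB5.trans (by gcongr)
      _ = 16 * K ^ 2 * 1200 ^ t * #S := by ring
      _ ≤ Real.exp (14000 * L) * #S := by gcongr
  linarith

open Classical in
/-- passage to a finite weighted torus -/
theorem disc {Y : Type} [AddCommGroup Y] {N : Y → ℝ} {I : AddSubgroup Y} {m : ℕ}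
    {c : Y →+ Fin m → ℝ} {p : Fin m → Prop} {w : Fin m → ℝ} {E : ℝ} (hc : Cha N I c p w E)
    (A : Finset Y) (ε : ℝ) (hε : 0 < ε) (hE : 0 < E)
    (hw : ∀ i, p i → 300000 * ((m : ℝ) + 1) ^ 2 * (E * ε) ≤ w i) :
    ∃ (Q : ℕ) (_ : Fact Q.Prime) (ω : Fin m → ℕ) (d : Y → V Q m) (ρ : ℝ), (∀ i, 1 ≤ ω i) ∧ 0 < ρ ∧
      100000 * ((m : ℝ) + 1) ^ 2 * ρ ≤ 1 ∧
      (∀ a b z, (∃ y ∈ I, N (a + b - z - y) ≤ ε) → sw ω (d a + d b - d z) ≤ ρ) ∧
      ∀ s t : Fin 6 → Y, (∀ k, s k ∈ A) → (∀ k, t k ∈ A) →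
        sw ω (∑ k, d (s k) - ∑ k, d (t k)) ≤ 20000 * ((m : ℝ) + 1) ^ 2 * ρ →
        ∃ y ∈ I, N (∑ k, s k - ∑ k, t k - y) ≤ 70000 * ((m : ℝ) + 1) ^ 2 * E ^ 2 * ε := by
  set κ := 300000 * ((m : ℝ) + 1) ^ 2 * (E * ε) with hκ
  have κ0 : 0 < κ := by positivity
  let M : Fin m → ℝ := fun i => ∑ a ∈ A, |c a i|
  have M0 : ∀ i, 0 ≤ M i := fun i => sum_nonneg fun _ _ => abs_nonneg _
  let l : Fin m → ℝ := fun i => if p i then 1 else 25 * M i + κ / w i + 1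
  have wp := hc.pos
  have l1 : ∀ i, 1 ≤ l i := fun i => by
    have := M0 i
    have := div_pos κ0 (wp i)
    simp only [l]
    split_ifs <;> linarith
  have l0 : ∀ i, 0 < l i := fun i => by linarith [l1 i]
  let v : Fin m → ℝ := fun i => w i * l i / κ
  have hv : ∀ i, 1 ≤ v i := fun i => by
    rw [le_div_iff₀ κ0, one_mul]
    by_cases a : p i
    · simpa [l, a] using hw i a
    · have := mul_nonneg (wp i).le (M0 i)
      have e := mul_div_cancel₀ κ (wp i).ne'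
      have := wp i
      simp only [l, a, if_false]
      nlinarith
  set ρ := E * ε / κ with hρd
  have hρ : 0 < ρ := by positivity
  have hρ1 : 300000 * ((m : ℝ) + 1) ^ 2 * ρ ≤ 1 := by rw [hρd, ← mul_div_assoc, div_self κ0.ne']
  let w' : Fin m → ℕ := fun i => ⌈v i⌉₊
  have w1 : ∀ i, v i ≤ w' i := fun i => Nat.le_ceil _
  have w2 : ∀ i, (w' i : ℝ) ≤ 2 * v i := fun i => by
    have := Nat.ceil_lt_add_one (a := v i) (by linarith [hv i])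
    linarith [hv i]
  obtain ⟨Q, hQ1, hQ2⟩ := Nat.exists_infinite_primes ⌈12 * (∑ i, (w' i : ℝ)) / ρ⌉₊
  haveI : Fact Q.Prime := ⟨hQ2⟩
  have hQ := Qpos (Q := Q)
  have q : ∀ i, (w' i : ℝ) * (12 * (1 / (Q : ℝ))) ≤ ρ := fun i => by
    have := (Nat.le_ceil _).trans (Nat.cast_le.2 hQ1 : (⌈12 * (∑ i, (w' i : ℝ)) / ρ⌉₊ : ℝ) ≤ Q)
    have b := single_le_sum (f := fun i => (w' i : ℝ)) (fun i _ => Nat.cast_nonneg _) (mem_univ i)
    rw [div_le_iff₀ hρ] at this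
    rw [mul_one_div, ← mul_div_assoc, div_le_iff₀ hQ]
    linarith
  have q0 : 0 < 1 / (Q : ℝ) := by positivity
  have key : ∀ i (x y : ℝ), |x - y| ≤ 12 * (1 / Q) → w' i * dz x ≤ w' i * dz y + ρ :=
    fun i x y e => by
      refine (mul_le_mul_of_nonneg_left ((dz_near x y).trans (add_le_add le_rfl e))
        (Nat.cast_nonneg _)).trans ?_
      rw [mul_add]
      exact add_le_add le_rfl (q i)
  refine ⟨Q, inferInstance, w', fun a i => (round (Q * (c a i / l i)) : ℤ), 3 * ρ,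
    fun i => by exact_mod_cast (hv i).trans (w1 i), by positivity, by linarith, ?_, ?_⟩
  · rintro a b z ⟨y, hy, e⟩
    refine (sw_le_iff (by positivity)).2 fun i => ?_
    obtain ⟨k, k1, k2⟩ := hc.int y hy i
    have e1 := (hc.lo _ i).trans (mul_le_mul_of_nonneg_left e hE.le)
    simp only [map_sub, map_add, Pi.sub_apply, Pi.add_apply, k1] at e1
    have e2 : v i * dz (c a i / l i + c b i / l i - c z i / l i) ≤ ρ := by
      rw [div_mul_eq_mul_div]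
      refine div_le_div_of_nonneg_right (le_trans ?_ e1) κ0.le
      rw [mul_assoc]
      refine mul_le_mul_of_nonneg_left ((mul_le_mul_of_nonneg_left (dz_le _ k) (l0 i).le).trans
        (le_of_eq ?_)) (wp i).le
      rw [← abs_of_pos (l0 i), ← abs_mul, abs_of_pos (l0 i)]
      have := (l0 i).ne'
      by_cases a : p i
      · simp [l, a]
      · rw [k2 a]
        congr 1
        field_simp
        simp
    simp only [Pi.sub_apply, Pi.add_apply]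
    rw [← Int.cast_add, ← Int.cast_sub, nm_dz]
    have a1 := abs_le.1 (rd Q (c a i / l i))
    have a2 := abs_le.1 (rd Q (c b i / l i))
    have a3 := abs_le.1 (rd Q (c z i / l i))
    have := mul_le_mul_of_nonneg_right (w2 i) (dz_nonneg (c a i / l i + c b i / l i - c z i / l i))
    refine (key i _ (c a i / l i + c b i / l i - c z i / l i) ?_).trans (by linarith)
    push_cast
    rw [sub_div, add_div]
    exact abs_le.2 ⟨by linarith, by linarith⟩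
  · intro s t hs ht h5
    set z := ∑ k, s k - ∑ k, t k with hz
    have cz : ∀ i, c z i = ∑ k, c (s k) i - ∑ k, c (t k) i := fun i => by
      simp [hz, Finset.sum_apply]
    obtain ⟨y, hy, ey⟩ := hc.sur (fun i => if p i then round (c z i) else 0) fun i a => if_neg a
    refine ⟨y, hy, (hc.up _ (70000 * ((m : ℝ) + 1) ^ 2 * (E * ε)) (by positivity)
      fun i => ?_).trans (le_of_eq (by ring))⟩
    have a := (le_sw _ _ i).trans h5
    simp only [Pi.sub_apply, Finset.sum_apply] at a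
    rw [← Int.cast_sum, ← Int.cast_sum, ← Int.cast_sub, nm_dz] at a
    have b : ∀ u : Fin 6 → Y, |∑ k, (round (Q * (c (u k) i / l i)) : ℝ) / Q -
        ∑ k, c (u k) i / l i| ≤ 6 * (1 / Q) := fun u => by
      rw [← sum_sub_distrib]
      exact (abs_sum_le_sum_abs _ _).trans ((sum_le_card_nsmul _ _ _ fun k _ => rd Q _).trans
        (by simp))
    have b1 := abs_le.1 (b s)
    have b2 := abs_le.1 (b t)
    have a' : v i * dz (∑ k, c (s k) i / l i - ∑ k, c (t k) i / l i) ≤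
        70000 * ((m : ℝ) + 1) ^ 2 * ρ := by
      refine (mul_le_mul_of_nonneg_right (w1 i) (dz_nonneg _)).trans
        ((key i _ _ (abs_le.2 ⟨?_, ?_⟩)).trans ((add_le_add a le_rfl).trans ?_))
      · push_cast; rw [sub_div, sum_div, sum_div]; linarith
      · push_cast; rw [sub_div, sum_div, sum_div]; linarith
      · nlinarith [mul_nonneg (by positivity : (0 : ℝ) ≤ m ^ 2 + 2 * m) hρ.le]
    rw [← sum_div, ← sum_div, ← sub_div, ← cz, div_mul_eq_mul_div, hρd, ← mul_div_assoc,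
      div_le_div_iff_of_pos_right κ0] at a'
    refine le_trans (le_of_eq ?_) a'
    rw [map_sub, Pi.sub_apply, ey, mul_assoc]
    congr 1
    by_cases b : p i
    · simp [l, b, dz]
    · have b1 : ∀ u : Fin 6 → Y, (∀ k, u k ∈ A) → |∑ k, c (u k) i| ≤ 6 * M i := fun u hu =>
        (abs_sum_le_sum_abs _ _).trans ((sum_le_card_nsmul _ _ (M i) fun k _ =>
          single_le_sum (f := fun a => |c a i|) (fun _ _ => abs_nonneg _) (hu k)).trans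
            (by simp))
      have b2 := abs_le.1 (b1 s hs)
      have b3 := abs_le.1 (b1 t ht)
      have b4 : 25 * M i + 1 ≤ l i := by
        have := div_pos κ0 (wp i)
        simp only [l, b, if_false]
        linarith
      have b5 : round (c z i / l i) = 0 := by
        have := M0 i
        rw [round_eq_zero_iff, Set.mem_Ico, le_div_iff₀ (l0 i), div_lt_iff₀ (l0 i), cz]
        constructor <;> linarith
      rw [dz, b5, if_neg b, Int.cast_zero, sub_zero, sub_zero, abs_div, abs_of_pos (l0 i),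
        mul_div_cancel₀ _ (l0 i).ne']

/-- all relations with six terms on each side have a defect with the property D -/
def R6 {G Y : Type} [AddCommGroup G] [AddCommGroup Y] (g : G → Y) (S : Finset G) (D : Y → Prop) :
    Prop :=
  ∀ s t : Fin 6 → G, (∀ i, s i ∈ S) → (∀ i, t i ∈ S) → ∑ i, s i = ∑ i, t i →
    D (∑ i, g (s i) - ∑ i, g (t i))

theorem R6.app {G Y : Type} [AddCommGroup G] [AddCommGroup Y] {g : G → Y} {S : Finset G}
    {D : Y → Prop} (h6 : R6 g S D) {a1 a2 a3 a4 a5 a6 b1 b2 b3 b4 b5 b6 : G} (g1 : a1 ∈ S)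
    (g2 : a2 ∈ S) (g3 : a3 ∈ S) (g4 : a4 ∈ S) (g5 : a5 ∈ S) (g6 : a6 ∈ S) (k1 : b1 ∈ S)
    (k2 : b2 ∈ S) (k3 : b3 ∈ S) (k4 : b4 ∈ S) (k5 : b5 ∈ S) (k6 : b6 ∈ S)
    (h : a1 + (a2 + (a3 + (a4 + (a5 + a6)))) = b1 + (b2 + (b3 + (b4 + (b5 + b6))))) :
    D (g a1 + (g a2 + (g a3 + (g a4 + (g a5 + g a6)))) -
      (g b1 + (g b2 + (g b3 + (g b4 + (g b5 + g b6)))))) := by
  have := h6 ![a1, a2, a3, a4, a5, a6] ![b1, b2, b3, b4, b5, b6]
    (fun i => by fin_cases i <;> assumption) (fun i => by fin_cases i <;> assumption) (by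
      simpa only [Fin.sum_univ_succ, Fin.sum_univ_zero, Matrix.cons_val_zero, Matrix.cons_val_succ,
        add_zero] using h)
  simpa only [Fin.sum_univ_succ, Fin.sum_univ_zero, Matrix.cons_val_zero, Matrix.cons_val_succ,
    add_zero] using this

/-- an almost additive extension to a part of 2S - 2S -/
theorem phi {G Y : Type} [AddCommGroup G] [AddCommGroup Y] (g : G → Y) (S : Finset G)
    (D : Y → Prop) (P : G → Prop) (h6 : R6 g S D)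
    (hP : ∀ x, P x → ∃ s1 ∈ S, ∃ s2 ∈ S, ∃ s3 ∈ S, ∃ s4 ∈ S, x = s1 + s2 - s3 - s4) :
    ∃ Φ : G → Y, (∀ x y, P x → P y → P (x + y) → D (Φ (x + y) - Φ x - Φ y)) ∧
      ∀ s ∈ S, ∀ s' ∈ S, P (s - s') → D (g s - g s' - Φ (s - s')) := by
  classical
  choose! s1 h1 s2 h2 s3 h3 s4 h4 he using hP
  refine ⟨fun x => g (s1 x) + g (s2 x) - g (s3 x) - g (s4 x), fun x y hx hy hxy => ?_,
    fun s hs s' hs' hx => ?_⟩
  · have := h6.app (h1 _ hxy) (h2 _ hxy) (h3 _ hx) (h4 _ hx) (h3 _ hy) (h4 _ hy)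
      (h3 _ hxy) (h4 _ hxy) (h1 _ hx) (h2 _ hx) (h1 _ hy) (h2 _ hy) (by
        have a1 := he x hx
        have a2 := he y hy
        have a3 := he _ hxy
        have a4 := (congrArg₂ (· + ·) a1 a2).symm.trans a3
        rw [← sub_eq_zero] at a4 ⊢
        rw [← neg_eq_zero, ← a4]
        abel)
    refine (congrArg D ?_).mp this
    beta_reduce
    abel
  · have := h6.app hs (h3 _ hx) (h4 _ hx) hs hs hs hs' (h1 _ hx) (h2 _ hx) hs hs hs (by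
        have a1 := he _ hx
        generalize s1 (s - s') = u1 at a1 ⊢
        generalize s2 (s - s') = u2 at a1 ⊢
        generalize s3 (s - s') = u3 at a1 ⊢
        generalize s4 (s - s') = u4 at a1 ⊢
        rw [← sub_eq_zero] at a1 ⊢
        rw [← a1]
        abel)
    refine (congrArg D ?_).mp this
    beta_reduce
    abel

theorem coreI {G : Type} [AddCommGroup G] [DecidableEq G] {B : ℕ → Finset G} (hB : Sys B)
    {Y : Type} [AddCommGroup Y] {N : Y → ℝ} {I : AddSubgroup Y} {m : ℕ}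
    {c : Y →+ Fin m → ℝ} {p : Fin m → Prop} {w : Fin m → ℝ} {E : ℝ} (hc : Cha N I c p w E)
    (f g ζ : G → Y) (r : G → G → Prop)
    [∀ a b, Decidable (r a b)] (P1 P2 X1 U2 : Finset G) (W R w0 : ℕ) (ε L γ : ℝ)
    (hL1 : 1 ≤ L) (hε : 0 < ε) (hE : 0 < E)
    (hw : ∀ i, p i → 300000 * ((m : ℝ) + 1) ^ 2 * (E * ε) ≤ w i) (hR : 1 ≤ R)
    (hg : ∀ a, 2 * a ≤ W → (#(B (2 * a)) : ℝ) ≤ γ * #(B a)) (hγ : γ < 2 ^ R)
    (hW : 24 * R * R * w0 ≤ W) (n1 : P1.Nonempty) (n2 : P2.Nonempty)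
    (hX1m : ∀ a ∈ P1, ∀ b ∈ P2, a + b ∈ X1) (cX1 : (#X1 : ℝ) ≤ Real.exp L * #P1)
    (hU2 : ∀ b ∈ P2, ∀ x ∈ B W, b + x ∈ U2) (cU2 : (#U2 : ℝ) ≤ Real.exp L * #P2)
    (hr : ∀ a b, r a b → ∃ y ∈ I, N (f a + g b - ζ (a + b) - y) ≤ ε)
    (hcount : (#P1 : ℝ) * #P2 ≤ Real.exp L * #((P1 ×ˢ P2).filter fun p => r p.1 p.2)) :
    ∃ (x : G) (T : ℕ) (S : Finset G), S ⊆ P2 ∧ (∀ s ∈ S, ∃ a, r a s) ∧ (∀ s ∈ S, x - s ∈ B T) ∧
      T + w0 ≤ 2 * R * w0 ∧ (#(B (T + w0)) : ℝ) ≤ 2 * Real.exp (14000 * L) * #S ∧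
      R6 g S fun z => ∃ y ∈ I, N (z - y) ≤ 70000 * ((m : ℝ) + 1) ^ 2 * E ^ 2 * ε := by
  classical
  obtain ⟨Q, _, ω, d, ρ, d1, d2, d3, d4, d5⟩ := disc hc (P2.image g) ε hε hE hw
  obtain ⟨x, T, S, h1, h2, h3, h4, h5, h6⟩ := coreW hB ω d1 (fun a => d (f a)) (fun a => d (g a))
    (fun a => d (ζ a)) r P1 P2 X1 U2 W R w0 ρ L γ hL1 d2 d3 hR hg hγ hW n1 n2 hX1m cX1 hU2 cU2
    (fun a b h => d4 _ _ _ (hr a b h)) hcount
  exact ⟨x, T, S, h1, h2, h3, h4, h5, fun s t hs ht e => d5 (fun k => g (s k)) (fun k => g (t k))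
    (fun k => mem_image_of_mem _ (h1 (hs k))) (fun k => mem_image_of_mem _ (h1 (ht k)))
    (h6 _ ⟨s, t, hs, ht, e, rfl⟩)⟩

/-- extension from a Bohr body to a linear map on the lifted lattice -/
theorem lift {n t : ℕ} (q : Seminorm ℝ (Fin n → ℝ)) (B : ℝ → Finset (Fin n → ℤ))
    (hB : ∀ r x, x ∈ B r ↔ q (fun i => (x i : ℝ)) ≤ r) (θ : Fin t → Fin n → ℝ) (τ η ε : ℝ)
    (hτ : 0 < τ) (hη : 0 < η) (hε : 0 ≤ ε) {Y : Type} [AddCommGroup Y] [Module ℝ Y]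
    (N : Seminorm ℝ Y) (I : AddSubgroup Y)
    (hgap : ∀ F ∈ I, N F ≤ 4 * (((n + t : ℕ) + 1) * ε) → F = 0) (Φ : (Fin n → ℤ) → Y)
    (hΦ : ∀ x y, FrH81.Bo (fun x => q fun i => (x i : ℝ)) θ τ η x →
      FrH81.Bo (fun x => q fun i => (x i : ℝ)) θ τ η y →
      FrH81.Bo (fun x => q fun i => (x i : ℝ)) θ τ η (x + y) →
      ∃ z ∈ I, N (Φ (x + y) - Φ x - Φ y - z) ≤ ε) :
    ∃ Λ : (Fin n ⊕ Fin t → ℝ) →ₗ[ℝ] Y, ∀ (x : Fin n → ℤ) (k : Fin t → ℤ),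
      2 * ((n : ℝ) + t + 1) * q (fun i => (x i : ℝ)) ≤ τ →
      (∀ j, 2 * ((n : ℝ) + t + 1) * |∑ i, θ j i * x i - k j| ≤ η) →
      ∃ z ∈ I, N (Φ x - Λ (Sum.elim (fun i => (x i : ℝ)) fun j => (k j : ℝ)) - z) ≤
        (2 * (n + t) + 1) * ε := by
  classical
  let A1 : (Fin n ⊕ Fin t → ℝ) →ₗ[ℝ] (Fin n → ℝ) := LinearMap.funLeft ℝ ℝ Sum.inl
  let A2 : (Fin n ⊕ Fin t → ℝ) →ₗ[ℝ] (Fin t → ℝ) :=
    (Matrix.mulVecLin (Matrix.of θ)).comp A1 - LinearMap.funLeft ℝ ℝ Sum.inr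
  let P : Seminorm ℝ (Fin n ⊕ Fin t → ℝ) :=
    q.comp (τ⁻¹ • A1) ⊔ (normSeminorm ℝ (Fin t → ℝ)).comp (η⁻¹ • A2)
  have hP : ∀ (v : Fin n ⊕ Fin t → ℝ) (ρ : ℝ), 0 ≤ ρ → (P v ≤ ρ ↔
      q (fun i => v (.inl i)) ≤ τ * ρ ∧ ∀ j, |∑ i, θ j i * v (.inl i) - v (.inr j)| ≤ η * ρ) :=
    fun v ρ h => by
      simp only [P, Seminorm.sup_apply, max_le_iff, Seminorm.comp_apply, LinearMap.smul_apply,
        map_smul_eq_mul, coe_normSeminorm, Real.norm_eq_abs, abs_inv, abs_of_pos hτ,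
        abs_of_pos hη]
      rw [inv_mul_le_iff₀ hτ, inv_mul_le_iff₀ hη, pi_norm_le_iff_of_nonneg (by positivity)]
      rfl
  have hb : ∀ g : Fin n ⊕ Fin t → ℤ, P (fun i => (g i : ℝ)) ≤ 1 →
      FrH81.Bo (fun x => q fun i => (x i : ℝ)) θ τ η fun i => g (.inl i) := fun g h => by
    have := (hP _ 1 zero_le_one).1 h
    rw [mul_one, mul_one] at this
    exact ⟨this.1, fun j => ⟨_, this.2 j⟩⟩
  have c0 : (0 : ℝ) < 2 * ((n : ℝ) + t + 1) := by positivity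
  have hfin : {g : Fin n ⊕ Fin t → ℤ | P (fun i => (g i : ℝ)) ≤ 1}.Finite := by
    refine ((B τ).finite_toSet.biUnion fun x _ => Set.Finite.pi'
      (t := Sum.elim (fun i => {x i}) fun j =>
        Set.Icc ⌈∑ i, θ j i * x i - η⌉ ⌊∑ i, θ j i * x i + η⌋) fun i => ?_).subset fun g hg => ?_
    · cases i
      · exact Set.finite_singleton _
      · exact Set.finite_Icc _ _
    · have := (hP _ 1 zero_le_one).1 hg
      rw [mul_one, mul_one] at this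
      refine Set.mem_biUnion (x := fun i => g (.inl i)) ((hB _ _).2 this.1) fun i => ?_
      cases i with
      | inl i => rfl
      | inr j =>
        have a := abs_le.1 (this.2 j)
        exact ⟨Int.ceil_le.2 (by linarith), Int.le_floor.2 (by linarith)⟩
  obtain ⟨Λ, hΛ⟩ := ExtH61.extZ (N := N) (I := I) P hfin (fun g => Φ fun i => g (.inl i)) ε
    (2 * ((n : ℝ) + t + 1))⁻¹ (n + t) (by simp) hε (by positivity)
    (by push_cast; exact (mul_inv_cancel₀ c0.ne').le) hgap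
    fun x y hx hy hxy => hΦ _ _ (hb x hx) (hb y hy) (hb _ hxy)
  refine ⟨Λ, fun x k h1 h2 => ?_⟩
  obtain ⟨z, hz, e⟩ := hΛ (Sum.elim x k) ((hP _ _ (by positivity)).2
    ⟨by rw [← div_eq_mul_inv, le_div_iff₀' c0]; exact h1,
      fun j => by rw [← div_eq_mul_inv, le_div_iff₀' c0]; exact h2 j⟩)
  refine ⟨z, hz, le_trans (le_of_eq ?_) (e.trans (by push_cast; exact le_rfl))⟩
  congr 4
  funext i
  cases i <;> rfl

/-- the metric Freiman theorem on a normed lattice with a target modulo I -/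
def FRI : Prop := ∃ X0 : ℝ, ∀ X L : ℝ, X0 ≤ X → 1 ≤ L → 14002 * L ≤ X →
  ∀ (n m : ℕ) (q : Seminorm ℝ (Fin n → ℝ)) (B : ℝ → Finset (Fin n → ℤ)) (τ ε E : ℝ)
    (Y : Type) [AddCommGroup Y] [Module ℝ Y] (N : Seminorm ℝ Y) (I : AddSubgroup Y)
    (c : Y →+ Fin m → ℝ) (p : Fin m → Prop) (w : Fin m → ℝ)
    (f g ζ : (Fin n → ℤ) → Y) (r : (Fin n → ℤ) → (Fin n → ℤ) → Prop)
    [∀ a b, Decidable (r a b)] (P1 P2 X1 U2 : Finset (Fin n → ℤ)),
    (∀ r x, x ∈ B r ↔ q (fun i => (x i : ℝ)) ≤ r) → Cha N I c p w E →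
    0 < τ → 2 * (n : ℝ) ≤ Real.exp X → 0 < ε → 0 < E →
    (∀ i, p i → 300000 * ((m : ℝ) + 1) ^ 2 * (E * ε) ≤ w i) →
    (∀ F ∈ I, N F ≤ 4 * ((n + X ^ 6 + 1) * (70000 * ((m : ℝ) + 1) ^ 2 * E ^ 2 * ε)) → F = 0) →
    P1.Nonempty → P2.Nonempty → (∀ a ∈ P1, ∀ b ∈ P2, a + b ∈ X1) → (#X1 : ℝ) ≤ Real.exp L * #P1 →
    (∀ b ∈ P2, ∀ x ∈ B τ, b + x ∈ U2) → (#U2 : ℝ) ≤ Real.exp L * #P2 →
    (∀ a b, r a b → ∃ y ∈ I, N (f a + g b - ζ (a + b) - y) ≤ ε) →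
    (#P1 : ℝ) * #P2 ≤ Real.exp L * #((P1 ×ˢ P2).filter fun p => r p.1 p.2) →
    ∃ (x0 : Fin n → ℤ) (τ1 : ℝ) (S : Finset (Fin n → ℤ)) (t : ℕ) (θ : Fin t → Fin n → ℝ)
      (Λ : (Fin n ⊕ Fin t → ℝ) →ₗ[ℝ] Y),
      S ⊆ P2 ∧ (∀ s ∈ S, ∃ a, r a s) ∧ τ * Real.exp (-(3 * X)) ≤ τ1 ∧ τ1 ≤ τ ∧
      (∀ s ∈ S, x0 - s ∈ B τ1) ∧ (#(B τ1) : ℝ) ≤ Real.exp X * #S ∧ (t : ℝ) ≤ X ^ 6 ∧
      ∀ s ∈ S, ∀ s' ∈ S, ∀ k : Fin t → ℤ,
        2 * ((n : ℝ) + t + 1) * q (fun i => ((s - s') i : ℝ)) ≤ τ * Real.exp (-(16 * X)) →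
        (∀ j, 2 * ((n : ℝ) + t + 1) * |∑ i, θ j i * (s - s') i - k j| ≤ Real.exp (-(3 * X))) →
        ∃ z ∈ I, N (g s - g s' - Λ (Sum.elim (fun i => ((s - s') i : ℝ)) fun j => (k j : ℝ)) - z) ≤
          (2 * (n + t) + 2) * (70000 * ((m : ℝ) + 1) ^ 2 * E ^ 2 * ε)

theorem fri : FRI := by
  obtain ⟨X0, hA⟩ := bogz
  refine ⟨max X0 100, fun X L hX hL hLX n m q B τ ε E Y _ _ NY I c p w f g ζ r _ P1 P2 X1 U2 hB
    hC hτ' hn hε hE hw hgap n1 n2 hX1 cX1 hU2 cU2 hr hc => ?_⟩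
  have hτ := hτ'.le
  let N : (Fin n → ℤ) → ℝ := fun x => q fun i => (x i : ℝ)
  have hN : Nrm N B := by
    refine ⟨hB, le_of_eq ?_, fun x y => le_trans (le_of_eq ?_) (map_add_le_add q _ _),
      fun x => le_of_eq ?_, fun x => le_of_eq ?_⟩
    · exact (congrArg q (funext fun i => by simp)).trans (map_zero q)
    · exact congrArg q (funext fun i => by simp)
    · exact (congrArg q (funext fun i => by simp)).trans (map_neg_eq_map q _)
    · have := map_smul_eq_mul q (4 : ℝ) fun i => (x i : ℝ)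
      rw [Real.norm_ofNat] at this
      exact this.symm.trans (congrArg q (funext fun i => by simp))
  have hX0 : 100 ≤ X := (le_max_right _ _).trans hX
  obtain ⟨W, hW⟩ : ∃ W, W = 24 * (2 * n + 1) * (2 * n + 1) * 1 := ⟨_, rfl⟩
  have W0 : (0 : ℝ) < W := by
    rw [hW]
    positivity
  obtain ⟨σ, hσ⟩ : ∃ σ, σ = τ / W := ⟨_, rfl⟩
  have σ0 : 0 ≤ σ := by rw [hσ]; positivity
  have t3 : W * σ = τ := by rw [hσ]; field_simp
  have e1 : X + 1 ≤ Real.exp X := Real.add_one_le_exp X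
  have W1 : (W : ℝ) ≤ Real.exp (3 * X) := by
    have a1 : Real.exp (3 * X) = Real.exp X * (Real.exp X * Real.exp X) := by
      rw [← Real.exp_add, ← Real.exp_add]
      congr 1
      ring
    have a2 : 2 * (n : ℝ) + 1 ≤ 2 * Real.exp X := by linarith
    have a3 : (2 * (n : ℝ) + 1) * (2 * n + 1) ≤ 2 * Real.exp X * (2 * Real.exp X) := by gcongr
    have a4 : 96 * (Real.exp X * Real.exp X) ≤ Real.exp X * (Real.exp X * Real.exp X) := by
      gcongr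
      linarith
    rw [hW, a1]
    push_cast
    linarith
  have σ1 : τ * Real.exp (-(3 * X)) ≤ σ := by
    rw [hσ, le_div_iff₀ W0, mul_assoc]
    refine mul_le_of_le_one_right hτ ?_
    have a1 := mul_le_mul_of_nonneg_left W1 (Real.exp_pos (-(3 * X))).le
    rwa [← Real.exp_add, neg_add_cancel, Real.exp_zero] at a1
  obtain ⟨x0, T, S, h1, h2, h3, h4, h5, h6⟩ := coreI (FrH81.nrm_sys hN σ0) hC f g ζ r P1 P2 X1 U2 W
    (2 * n + 1) 1 ε L (4 ^ n) hL hε hE hw (by omega)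
    (fun a _ => by
      have a2 := hN.dbl (a * σ)
      rw [show ((2 * a : ℕ) : ℝ) * σ = 2 * (a * σ) by push_cast; ring]
      exact_mod_cast a2)
    (by
      rw [pow_succ, pow_mul]
      have : (0 : ℝ) < 4 ^ n := by positivity
      norm_num)
    hW.ge n1 n2 hX1 cX1 (fun b hb x hx => hU2 b hb x (t3 ▸ hx)) cU2 hr hc
  have k0 : 4 * Real.exp (14000 * L) ≤ Real.exp X := by
    have a1 : Real.exp (14000 * L + 2) ≤ Real.exp X := Real.exp_le_exp.2 (by linarith)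
    have a2 : (4 : ℝ) ≤ Real.exp 2 := by
      have := Real.add_one_le_exp (1 : ℝ)
      rw [show (2 : ℝ) = 1 + 1 by norm_num, Real.exp_add]
      nlinarith
    rw [Real.exp_add] at a1
    nlinarith [Real.exp_pos (14000 * L)]
  have k1 : 2 * (#(B (((T + 1 : ℕ) : ℝ) * σ)) : ℝ) ≤ Real.exp X * #S := by
    have := mul_le_mul_of_nonneg_right k0 (Nat.cast_nonneg (α := ℝ) #S)
    linarith
  have p0 : (0 : ℝ) < #(B (((T + 1 : ℕ) : ℝ) * σ)) := by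
    exact_mod_cast card_pos.2 ⟨0, (FrH81.nrm_sys hN σ0).zero (T + 1)⟩
  have nS : S.Nonempty := by
    rw [← card_pos]
    have a1 : (0 : ℝ) < Real.exp X * #S := by linarith
    exact_mod_cast (pos_iff_pos_of_mul_pos a1).1 (Real.exp_pos X)
  obtain ⟨t, θ, ht, hθ⟩ := hA X ((le_max_left _ _).trans hX) n N B σ S
    ((B (((T + 1 : ℕ) : ℝ) * σ)).image fun u => x0 - u) hN σ0 hn nS
    (by
      have a1 : (#((B (((T + 1 : ℕ) : ℝ) * σ)).image fun u => x0 - u) : ℝ) ≤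
        #(B (((T + 1 : ℕ) : ℝ) * σ)) := by exact_mod_cast card_image_le
      linarith)
    (fun s hs x hx => mem_image.2 ⟨x0 - s - x, (FrH81.nrm_sys hN σ0).sub (h3 s hs)
      ((hN.mem _ _).2 (by rwa [Nat.cast_one, one_mul])), by abel⟩)
  obtain ⟨Φ, g1, g2⟩ := phi g S _
    (FrH81.Bo N θ (τ * Real.exp (-(16 * X))) (Real.exp (-(3 * X)))) h6
    fun x hx => hθ x (hx.1.trans (by
      rw [show -(16 * X) = -(3 * X) + -(13 * X) by ring, Real.exp_add, ← mul_assoc]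
      exact mul_le_mul_of_nonneg_right σ1 (Real.exp_pos _).le)) hx.2
  have T1 : (1 : ℝ) ≤ ((T + 1 : ℕ) : ℝ) := by exact_mod_cast Nat.le_add_left 1 T
  have T2 : ((T + 1 : ℕ) : ℝ) ≤ W := by
    have a1 : 2 * (2 * n + 1) * 1 ≤ W := by
      rw [hW]
      nlinarith
    exact_mod_cast h4.trans a1
  obtain ⟨Λ, hΛ⟩ := lift q B hB θ _ _ _ (by positivity) (by positivity) (by positivity) NY I
    (fun F hF e => hgap F hF (e.trans (by push_cast; gcongr))) Φ g1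
  refine ⟨x0, ((T + 1 : ℕ) : ℝ) * σ, S, t, θ, Λ, h1, h2, σ1.trans (le_mul_of_one_le_left σ0 T1),
    (mul_le_mul_of_nonneg_right T2 σ0).trans t3.le,
    fun s hs => (FrH81.nrm_sys hN σ0).mono (Nat.le_succ T) (h3 s hs), by linarith, ht,
    fun s hs s' hs' k a1 a2 => ?_⟩
  have c1 : (1 : ℝ) ≤ 2 * ((n : ℝ) + t + 1) := by
    linarith [Nat.cast_nonneg (α := ℝ) n, Nat.cast_nonneg (α := ℝ) t]
  obtain ⟨z, hz, b1⟩ := hΛ (s - s') k a1 a2
  obtain ⟨z', hz', b2⟩ := g2 s hs s' hs'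
    ⟨(le_mul_of_one_le_left (apply_nonneg q _) c1).trans a1,
      fun j => ⟨k j, (le_mul_of_one_le_left (abs_nonneg _) c1).trans (a2 j)⟩⟩
  refine ⟨z' + z, I.add_mem hz' hz, le_trans (le_of_eq (congrArg NY ?_))
    ((map_add_le_add NY _ _).trans ((add_le_add b2 b1).trans (le_of_eq (by ring))))⟩
  abel

end Vale.Agent.P057T.Mfr
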