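import Mathlib

set_option linter.all false

namespace Vale.Agent.P057T.Lv

open Finset

variable {E V ι : Type*} [NormedAddCommGroup E] [NormedSpace ℝ E] [SeminormedAddCommGroup V]
  [NormedSpace ℝ V] [Fintype ι] [DecidableEq ι]

/-- the lattice point with integer coordinates `c` in the family `g` -/
noncomputable def pt (g : ι → E) (c : ι → ℤ) : E := ∑ j, (c j : ℝ) • g j

theorem pt_add (g : ι → E) (c d : ι → ℤ) : pt g (c + d) = pt g c + pt g d := by
  simp [pt, add_smul, Finset.sum_add_distrib]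

theorem pt_zero (g : ι → E) : pt g 0 = 0 := by simp [pt]

theorem pt_neg (g : ι → E) (c : ι → ℤ) : pt g (-c) = - pt g c := by
  simp [pt, Finset.sum_neg_distrib]

theorem pt_single (g : ι → E) (j : ι) (a : ℤ) : pt g (Pi.single j a) = (a : ℝ) • g j := by
  unfold pt
  rw [Finset.sum_eq_single j]
  · simp
  · intro b _ hb
    simp [Pi.single_eq_of_ne hb]
  · simp

theorem nsum_le (g : ι → E) (r : ℝ) (hg : ∀ j, ‖g j‖ ≤ r) (a : ι → ℝ) (A : ℝ)
    (ha : ∀ j, |a j| ≤ A) : ‖∑ j, a j • g j‖ ≤ Fintype.card ι * (A * r) := by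
  calc ‖∑ j, a j • g j‖ ≤ ∑ j, ‖a j • g j‖ := _root_.norm_sum_le _ _
    _ ≤ ∑ _j : ι, A * r := by
        refine Finset.sum_le_sum fun j _ => ?_
        rw [norm_smul, Real.norm_eq_abs]
        exact mul_le_mul (ha j) (hg j) (norm_nonneg _) ((abs_nonneg _).trans (ha j))
    _ = _ := by simp

/-- `b` is the small part of `x` -/
def Sm (I : AddSubgroup V) (H : ℝ) (m : ℕ) (x b : V) : Prop :=
  ‖b‖ ≤ H ∧ ∃ t : ℕ, 1 ≤ t ∧ t ≤ m ∧ (t : ℝ) • (x - b) ∈ I

theorem nsmul_mem' (I : AddSubgroup V) {x : V} (hx : x ∈ I) (n : ℕ) : (n : ℝ) • x ∈ I := by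
  rw [Nat.cast_smul_eq_nsmul]; exact I.nsmul_mem hx n

theorem zsmul_mem' (I : AddSubgroup V) {x : V} (hx : x ∈ I) (n : ℤ) : (n : ℝ) • x ∈ I := by
  rw [Int.cast_smul_eq_zsmul]; exact I.zsmul_mem hx n

theorem sm_add (I : AddSubgroup V) (H Hs : ℝ) (m : ℕ) (hU : ∀ x ∈ I, ‖x‖ ≤ Hs → x = 0)
    (hH : 3 * (m : ℝ) ^ 3 * H ≤ Hs) {x y a b c : V} (ha : Sm I H m x a) (hb : Sm I H m y b)
    (hc : Sm I H m (x + y) c) : c = a + b := by
  obtain ⟨ha1, s, hs1, hs2, hs⟩ := ha
  obtain ⟨hb1, t, ht1, ht2, ht⟩ := hb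
  obtain ⟨hc1, u, hu1, hu2, hu⟩ := hc
  have h0 : (0 : ℝ) ≤ H := (norm_nonneg _).trans ha1
  have hm : ((s * t * u : ℕ) : ℝ) • (c - (a + b)) ∈ I := by
    have h1 := nsmul_mem' I hs (t * u)
    have h2 := nsmul_mem' I ht (s * u)
    have h3 := nsmul_mem' I hu (s * t)
    have h4 := I.sub_mem (I.add_mem h1 h2) h3
    have e : ((s * t * u : ℕ) : ℝ) • (c - (a + b)) =
        ((t * u : ℕ) : ℝ) • (s : ℝ) • (x - a) + ((s * u : ℕ) : ℝ) • (t : ℝ) • (y - b) -
          ((s * t : ℕ) : ℝ) • (u : ℝ) • (x + y - c) := by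
      push_cast
      module
    rw [e]; exact h4
  have hn : ‖((s * t * u : ℕ) : ℝ) • (c - (a + b))‖ ≤ Hs := by
    rw [norm_smul, Real.norm_natCast]
    have h1 : ‖c - (a + b)‖ ≤ 3 * H := by
      calc ‖c - (a + b)‖ ≤ ‖c‖ + ‖a + b‖ := norm_sub_le _ _
        _ ≤ ‖c‖ + (‖a‖ + ‖b‖) := by gcongr; exact norm_add_le _ _
        _ ≤ 3 * H := by linarith
    have h2 : ((s * t * u : ℕ) : ℝ) ≤ (m : ℝ) ^ 3 := by
      have : s * t * u ≤ m ^ 3 := by
        calc s * t * u ≤ m * m * m := by gcongr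
          _ = m ^ 3 := by ring
      exact_mod_cast this
    calc ((s * t * u : ℕ) : ℝ) * ‖c - (a + b)‖ ≤ (m : ℝ) ^ 3 * (3 * H) := by gcongr
      _ ≤ Hs := by linarith
  have hz := hU _ hm hn
  have hp : ((s * t * u : ℕ) : ℝ) ≠ 0 := by
    have : 0 < s * t * u := by positivity
    exact_mod_cast this.ne'
  have := (smul_eq_zero.mp hz).resolve_left hp
  exact sub_eq_zero.mp this

theorem sm_neg (I : AddSubgroup V) (H : ℝ) (m : ℕ) {x a : V} (ha : Sm I H m x a) :
    Sm I H m (-x) (-a) := by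
  obtain ⟨h1, s, hs1, hs2, hs⟩ := ha
  refine ⟨by simpa using h1, s, hs1, hs2, ?_⟩
  have e : (s : ℝ) • (-x - -a) = -((s : ℝ) • (x - a)) := by module
  rw [e]; exact I.neg_mem hs

/-- splitting a short lattice vector into two short ones with smaller `l1` size -/
theorem split (g : ι → E) (r2 r3 : ℝ) (hg : ∀ j, ‖g j‖ ≤ r3) (hr : Fintype.card ι * r3 ≤ r2)
    (c : ι → ℤ) (hc : ‖pt g c‖ ≤ r2) (h2 : 2 ≤ ∑ j, (c j).natAbs) :
    ∃ a b : ι → ℤ, c = a + b ∧ ‖pt g a‖ ≤ r2 ∧ ‖pt g b‖ ≤ r2 ∧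
      ∑ j, (a j).natAbs < ∑ j, (c j).natAbs ∧ ∑ j, (b j).natAbs < ∑ j, (c j).natAbs := by
  by_cases hbig : ∃ j, 2 ≤ (c j).natAbs
  · obtain ⟨j0, hj0⟩ := hbig
    let a : ι → ℤ := fun j => if 0 ≤ c j then c j / 2 else -((-c j) / 2)
    have hab : ∀ j, (a j).natAbs + (c j - a j).natAbs = (c j).natAbs := by
      intro j; simp only [a]; split_ifs <;> omega
    have ha0 : 0 < (a j0).natAbs := by simp only [a]; split_ifs <;> omega
    have hb0 : 0 < (c j0 - a j0).natAbs := by simp only [a]; split_ifs <;> omega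
    have hd : ∀ j, |(a j : ℝ) - (c j : ℝ) / 2| ≤ 1 / 2 := by
      intro j
      have h1 : -1 ≤ 2 * a j - c j ∧ 2 * a j - c j ≤ 1 := by
        simp only [a]; split_ifs <;> omega
      have h3 : (-1 : ℝ) ≤ 2 * (a j : ℝ) - c j := by exact_mod_cast h1.1
      have h4 : 2 * (a j : ℝ) - c j ≤ 1 := by exact_mod_cast h1.2
      rw [abs_le]; constructor <;> linarith
    have hw := nsum_le g r3 hg (fun j => (a j : ℝ) - (c j : ℝ) / 2) (1 / 2) hd
    set w := ∑ j, ((a j : ℝ) - (c j : ℝ) / 2) • g j with hwdef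
    have e1 : pt g a = (1 / 2 : ℝ) • pt g c + w := by
      simp only [pt, hwdef, Finset.smul_sum, ← Finset.sum_add_distrib]
      refine Finset.sum_congr rfl fun j _ => ?_
      module
    have e2 : pt g (c - a) = (1 / 2 : ℝ) • pt g c - w := by
      simp only [pt, hwdef, Finset.smul_sum, ← Finset.sum_sub_distrib]
      refine Finset.sum_congr rfl fun j _ => ?_
      simp only [Pi.sub_apply]
      push_cast
      module
    have hn : ‖(1 / 2 : ℝ) • pt g c‖ ≤ r2 / 2 := by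
      rw [norm_smul]; norm_num; linarith
    have hsum : ∑ j, (a j).natAbs + ∑ j, ((c - a) j).natAbs = ∑ j, (c j).natAbs := by
      rw [← Finset.sum_add_distrib]
      exact Finset.sum_congr rfl fun j _ => hab j
    have p1 : 0 < ∑ j, (a j).natAbs :=
      lt_of_lt_of_le ha0 (Finset.single_le_sum (f := fun j => (a j).natAbs)
        (fun _ _ => Nat.zero_le _) (Finset.mem_univ j0))
    have p2 : 0 < ∑ j, ((c - a) j).natAbs :=
      lt_of_lt_of_le hb0 (Finset.single_le_sum (f := fun j => ((c - a) j).natAbs)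
        (fun _ _ => Nat.zero_le _) (Finset.mem_univ j0))
    refine ⟨a, c - a, by simp, ?_, ?_, by omega, by omega⟩
    · rw [e1]
      have := norm_add_le ((1 / 2 : ℝ) • pt g c) w
      linarith
    · rw [e2]
      have := norm_sub_le ((1 / 2 : ℝ) • pt g c) w
      linarith
  · push Not at hbig
    have hex : ∃ j, c j ≠ 0 := by
      by_contra h
      push Not at h
      simp [h] at h2
    obtain ⟨j0, hj0⟩ := hex
    have small : ∀ d : ι → ℤ, (∀ j, (d j).natAbs ≤ 1) → ‖pt g d‖ ≤ r2 := by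
      intro d hd
      have := nsum_le g r3 hg (fun j => (d j : ℝ)) 1 (fun j => by
        have h1 : |d j| ≤ 1 := by have := hd j; rw [abs_le]; omega
        exact_mod_cast h1)
      unfold pt
      linarith
    have hab : ∀ j, ((Pi.single j0 (c j0) : ι → ℤ) j).natAbs +
        ((c - Pi.single j0 (c j0) : ι → ℤ) j).natAbs = (c j).natAbs := by
      intro j
      by_cases h : j = j0
      · subst h; simp
      · simp [Pi.single_eq_of_ne h]
    have hsum : ∑ j, ((Pi.single j0 (c j0) : ι → ℤ) j).natAbs +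
        ∑ j, ((c - Pi.single j0 (c j0) : ι → ℤ) j).natAbs = ∑ j, (c j).natAbs := by
      rw [← Finset.sum_add_distrib]
      exact Finset.sum_congr rfl fun j _ => hab j
    have h1 : ∑ j, ((Pi.single j0 (c j0) : ι → ℤ) j).natAbs = 1 := by
      rw [Finset.sum_eq_single j0]
      · have := hbig j0
        simp only [Pi.single_eq_same]; omega
      · intro b _ hb; simp [Pi.single_eq_of_ne hb]
      · simp
    refine ⟨Pi.single j0 (c j0), c - Pi.single j0 (c j0), by simp, small _ fun j => ?_,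
      small _ fun j => ?_, by omega, by omega⟩
    · have := hab j; have := hbig j; omega
    · have := hab j; have := hbig j; omega

theorem walk (g : ι → E) (I : AddSubgroup V) (L B : E →ₗ[ℝ] V) (H Hs r2 r3 : ℝ) (m : ℕ)
    (hm : 1 ≤ m) (hH0 : 0 ≤ H)
    (hU : ∀ x ∈ I, ‖x‖ ≤ Hs → x = 0) (hH : 3 * (m : ℝ) ^ 3 * H ≤ Hs)
    (hg : ∀ j, ‖g j‖ ≤ r3) (hr : Fintype.card ι * r3 ≤ r2)
    (hL : ∀ c : ι → ℤ, ‖pt g c‖ ≤ r2 → ∃ b, Sm I H m (L (pt g c)) b)
    (hB : ∀ j, Sm I H m (L (g j)) (B (g j))) :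
    ∀ (N : ℕ) (c : ι → ℤ), ∑ j, (c j).natAbs = N → ‖pt g c‖ ≤ r2 →
      Sm I H m (L (pt g c)) (B (pt g c)) := by
  intro N
  induction N using Nat.strong_induction_on with
  | _ N ih =>
    intro c hN hc
    by_cases h2 : 2 ≤ ∑ j, (c j).natAbs
    · obtain ⟨a, b, rfl, ha, hb, ha', hb'⟩ := split g r2 r3 hg hr c hc h2
      have h1 := ih _ (hN ▸ ha') a rfl ha
      have h3 := ih _ (hN ▸ hb') b rfl hb
      obtain ⟨w, hw⟩ := hL _ hc
      have hw' := hw
      rw [pt_add, map_add] at hw'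
      have := sm_add I H Hs m hU hH h1 h3 hw'
      rw [pt_add, map_add B, ← this, ← pt_add]
      exact hw
    · by_cases h0 : ∃ j, c j ≠ 0
      · obtain ⟨j0, hj0⟩ := h0
        have hle : ∀ j, j ≠ j0 → c j = 0 := by
          intro j hj
          have : (c j).natAbs + (c j0).natAbs ≤ ∑ j, (c j).natAbs := by
            rw [← Finset.sum_pair (f := fun j => (c j).natAbs) hj]
            exact Finset.sum_le_sum_of_subset (Finset.subset_univ _)
          omega
        have hj1 : (c j0).natAbs ≤ ∑ j, (c j).natAbs :=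
          Finset.single_le_sum (f := fun j => (c j).natAbs) (fun _ _ => Nat.zero_le _)
            (Finset.mem_univ j0)
        have ec : c = Pi.single j0 (c j0) := by
          funext j
          by_cases h : j = j0
          · subst h; simp
          · simp [Pi.single_eq_of_ne h, hle j h]
        have hpm : c j0 = 1 ∨ c j0 = -1 := by omega
        rw [ec, pt_single]
        rcases hpm with h | h
        · rw [h]; simpa using hB j0
        · rw [h]; simpa using sm_neg I H m (hB j0)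
      · push Not at h0
        have : c = 0 := funext h0
        subst this
        rw [pt_zero]
        exact ⟨by simpa using hH0, 1, le_rfl, hm, by simp⟩

/-- LV / LOCHOM. -/
theorem lochom (g : Module.Basis ι ℝ E) (I : AddSubgroup V) (L : E →ₗ[ℝ] V) (H Hs r2 r3 : ℝ)
    (m : ℕ) (hm : 1 ≤ m) (hr2 : 0 < r2)
    (hU : ∀ x ∈ I, ‖x‖ ≤ Hs → x = 0) (hH : 3 * (m : ℝ) ^ 3 * H ≤ Hs)
    (hg : ∀ j, ‖g j‖ ≤ r3) (hr : Fintype.card ι * (m * r3) ≤ r2)
    (hr' : 2 * (Fintype.card ι * r3) ≤ r2)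
    (hL : ∀ c : ι → ℤ, ‖pt g c‖ ≤ r2 →
      ∃ t : ℕ, 1 ≤ t ∧ t ≤ m ∧ ∃ x ∈ I, ‖(t : ℝ) • L (pt g c) - x‖ ≤ H) :
    ∃ (io : E →ₗ[ℝ] V) (n : ℕ), 1 ≤ n ∧ n ≤ m ∧ (∀ c : ι → ℤ, (n : ℝ) • io (pt g c) ∈ I) ∧
      ∀ y, ‖L y - io y‖ ≤ 2 * H / r2 * ‖y‖ := by
  have hL' : ∀ c : ι → ℤ, ‖pt g c‖ ≤ r2 → ∃ b, Sm I H m (L (pt g c)) b := by
    intro c hc
    obtain ⟨t, h1, h2, x, hx, h3⟩ := hL c hc
    have ht : (1 : ℝ) ≤ t := by exact_mod_cast h1
    refine ⟨(t : ℝ)⁻¹ • ((t : ℝ) • L (pt g c) - x), ?_, t, h1, h2, ?_⟩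
    · rw [norm_smul, norm_inv, Real.norm_natCast]
      calc (t : ℝ)⁻¹ * ‖(t : ℝ) • L (pt g c) - x‖ ≤ 1 * H := by
            gcongr
            exact inv_le_one_of_one_le₀ ht
        _ = H := one_mul _
    · have : (t : ℝ) • (L (pt g c) - (t : ℝ)⁻¹ • ((t : ℝ) • L (pt g c) - x)) = x := by
        rw [smul_sub, smul_smul, mul_inv_cancel₀ (by positivity), one_smul]; abel
      rw [this]; exact hx
  have hH0 : 0 ≤ H := by
    obtain ⟨b, hb, -⟩ := hL' 0 (by rw [pt_zero]; simpa using hr2.le)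
    exact (norm_nonneg _).trans hb
  have hm' : (1 : ℝ) ≤ m := by exact_mod_cast hm
  have hcr : 0 ≤ Fintype.card ι * r3 := by
    rcases isEmpty_or_nonempty ι with h | ⟨⟨j⟩⟩
    · simp
    · have := (norm_nonneg _).trans (hg j); positivity
  have hr1 : Fintype.card ι * r3 ≤ r2 := by linarith
  have hgj : ∀ j, ‖pt g (Pi.single j 1)‖ ≤ r2 := by
    intro j
    rw [pt_single]
    have h1 : (1 : ℝ) ≤ Fintype.card ι := by
      exact_mod_cast Fintype.card_pos_iff.mpr ⟨j⟩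
    have h2 := (norm_nonneg _).trans (hg j)
    have : r3 ≤ Fintype.card ι * r3 := by nlinarith
    simp only [Int.cast_one, one_smul]
    linarith [hg j]
  choose β hβ using fun j => hL' _ (hgj j)
  let B : E →ₗ[ℝ] V := g.constr ℝ β
  have hB : ∀ j, Sm I H m (L (g j)) (B (g j)) := by
    intro j
    have := hβ j
    rw [pt_single] at this
    simpa [B] using this
  have hW := fun c hc => walk g I L B H Hs r2 r3 m hm hH0 hU hH hg hr1 hL' hB _ c rfl hc
  -- the quotient group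
  let φ : (ι → ℤ) →+ V := AddMonoidHom.mk' (fun c => (L - B) (pt g c))
    (fun a b => by rw [pt_add, map_add])
  let K : AddSubgroup (ι → ℤ) := I.comap φ
  have hshort : ∀ c : ι → ℤ, ‖pt g c‖ ≤ r2 → ∃ t : ℕ, 1 ≤ t ∧ t ≤ m ∧ t • c ∈ K := by
    intro c hc
    obtain ⟨-, t, h1, h2, h3⟩ := hW c hc
    refine ⟨t, h1, h2, ?_⟩
    show φ (t • c) ∈ I
    rw [map_nsmul, ← Nat.cast_smul_eq_nsmul ℝ]
    exact h3
  choose tt htt1 htt2 htt3 using fun j => hshort _ (hgj j)
  have hall : ∀ c : ι → ℤ, ∃ t : ℕ, 1 ≤ t ∧ t ≤ m ∧ t • c ∈ K := by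
    intro c
    let d : ι → ℤ := fun j => c j % (tt j : ℤ)
    have hd : ‖pt g d‖ ≤ r2 := by
      have := nsum_le g r3 hg (fun j => (d j : ℝ)) m (fun j => by
        have h0 : (0 : ℤ) < tt j := by exact_mod_cast htt1 j
        have h1 := Int.emod_nonneg (c j) h0.ne'
        have h2 := Int.emod_lt_of_pos (c j) h0
        have h3 : (tt j : ℤ) ≤ m := by exact_mod_cast htt2 j
        have h4 : |d j| ≤ m := by rw [abs_le]; simp only [d]; omega
        exact_mod_cast h4)
      unfold pt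
      linarith
    have hcd : c - d ∈ K := by
      have e : c - d = ∑ j, (c j / (tt j : ℤ)) • (tt j • (Pi.single j 1 : ι → ℤ)) := by
        funext i
        simp only [Pi.sub_apply, Finset.sum_apply, Pi.smul_apply, d]
        rw [Finset.sum_eq_single i]
        · simp only [Pi.single_eq_same, smul_eq_mul, nsmul_eq_mul, mul_one]
          have := Int.emod_add_mul_ediv (c i) (tt i)
          linarith
        · intro b _ hb
          simp [Pi.single_eq_of_ne (Ne.symm hb)]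
        · simp
      rw [e]
      exact K.sum_mem fun j _ => K.zsmul_mem (htt3 j) _
    obtain ⟨t, h1, h2, h3⟩ := hshort d hd
    refine ⟨t, h1, h2, ?_⟩
    have : t • c = t • (c - d) + t • d := by rw [← nsmul_add]; simp
    rw [this]
    exact K.add_mem (K.nsmul_mem hcd t) h3
  have hord : ∀ x : (ι → ℤ) ⧸ K, ∃ t : ℕ, 1 ≤ t ∧ t ≤ m ∧ t • x = 0 := by
    intro x
    obtain ⟨c, rfl⟩ := QuotientAddGroup.mk_surjective x
    obtain ⟨t, h1, h2, h3⟩ := hall c
    refine ⟨t, h1, h2, ?_⟩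
    rw [← QuotientAddGroup.mk_nsmul, QuotientAddGroup.eq_zero_iff]
    exact h3
  have hex : AddMonoid.ExponentExists ((ι → ℤ) ⧸ K) := by
    refine ⟨m.factorial, Nat.factorial_pos m, fun x => ?_⟩
    obtain ⟨t, h1, h2, h3⟩ := hord x
    obtain ⟨u, hu⟩ := Nat.dvd_factorial h1 h2
    rw [hu, mul_comm, mul_nsmul', h3, nsmul_zero]
  obtain ⟨x0, hx0⟩ := AddMonoid.exists_addOrderOf_eq_exponent hex
  obtain ⟨t, h1, h2, h3⟩ := hord x0
  have hle : AddMonoid.exponent ((ι → ℤ) ⧸ K) ≤ t := by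
    rw [← hx0]
    exact Nat.le_of_dvd h1 (addOrderOf_dvd_of_nsmul_eq_zero h3)
  refine ⟨L - B, AddMonoid.exponent ((ι → ℤ) ⧸ K), hex.exponent_pos, hle.trans h2, fun c => ?_,
    fun y => ?_⟩
  · have h4 := AddMonoid.exponent_nsmul_eq_zero (QuotientAddGroup.mk c : (ι → ℤ) ⧸ K)
    rw [← QuotientAddGroup.mk_nsmul, QuotientAddGroup.eq_zero_iff] at h4
    have h5 : φ (AddMonoid.exponent ((ι → ℤ) ⧸ K) • c) ∈ I := h4
    rw [map_nsmul, ← Nat.cast_smul_eq_nsmul ℝ] at h5
    exact h5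
  · have e : L y - (L - B) y = B y := by simp
    rw [e]
    haveI : FiniteDimensional ℝ E := Module.Finite.of_basis g
    -- operator norm
    have hbd : ∃ C : ℝ, 0 ≤ C ∧ ∀ z, ‖B z‖ ≤ C * ‖z‖ := by
      let c0 : ℝ := ∑ j, ‖LinearMap.toContinuousLinearMap (g.coord j)‖ * ‖β j‖
      refine ⟨c0, Finset.sum_nonneg fun j _ => by positivity, fun z => ?_⟩
      have hz : B z = ∑ j, g.coord j z • β j := by
        conv_lhs => rw [← g.sum_repr z]
        simp [B]
      rw [hz, Finset.sum_mul]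
      refine (_root_.norm_sum_le _ _).trans (Finset.sum_le_sum fun j _ => ?_)
      rw [norm_smul]
      have := (LinearMap.toContinuousLinearMap (g.coord j)).le_opNorm z
      simp only [LinearMap.coe_toContinuousLinearMap'] at this
      calc ‖g.coord j z‖ * ‖β j‖
          ≤ (‖LinearMap.toContinuousLinearMap (g.coord j)‖ * ‖z‖) * ‖β j‖ := by gcongr
        _ = _ := by ring
    obtain ⟨C, hC0, hC⟩ := hbd
    let B' : E →L[ℝ] V := B.mkContinuous C hC
    have key : ∀ z : E, ‖z‖ ≤ 3 * r2 / 4 → ‖B z‖ ≤ H + ‖B'‖ * (r2 / 4) := by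
      intro z hz
      let c : ι → ℤ := fun j => round (g.repr z j)
      have hw := nsum_le g r3 hg (fun j => g.repr z j - (c j : ℝ)) (1 / 2)
        (fun j => abs_sub_round _)
      have ew : ∑ j, (g.repr z j - (c j : ℝ)) • g j = z - pt g c := by
        simp only [sub_smul, Finset.sum_sub_distrib, pt]
        rw [g.sum_repr z]
      rw [ew] at hw
      have hw' : ‖z - pt g c‖ ≤ r2 / 4 := by linarith
      have hc : ‖pt g c‖ ≤ r2 := by
        have := norm_sub_le z (z - pt g c)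
        rw [sub_sub_cancel] at this
        linarith
      have h6 := (hW c hc).1
      have h7 : ‖B (z - pt g c)‖ ≤ ‖B'‖ * (r2 / 4) :=
        (B'.le_opNorm (z - pt g c)).trans (by gcongr)
      have e2 : B z = B (pt g c) + B (z - pt g c) := by rw [← map_add]; simp
      rw [e2]
      exact (norm_add_le _ _).trans (by linarith)
    have hop : ‖B'‖ ≤ (H + ‖B'‖ * (r2 / 4)) / (3 * r2 / 4) := by
      refine ContinuousLinearMap.opNorm_le_bound _ (by positivity) fun z => ?_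
      by_cases hz : z = 0
      · simp [hz]
      · have hz' : 0 < ‖z‖ := norm_pos_iff.mpr hz
        have h8 := key (((3 * r2 / 4) / ‖z‖) • z) (by
          rw [norm_smul, Real.norm_of_nonneg (by positivity), div_mul_cancel₀ _ hz'.ne'])
        rw [map_smul, norm_smul, Real.norm_of_nonneg (by positivity)] at h8
        show ‖B z‖ ≤ _
        rw [div_mul_eq_mul_div, div_le_iff₀ hz'] at h8
        rw [div_mul_eq_mul_div, le_div_iff₀ (by positivity)]
        linarith
    rw [le_div_iff₀ (by positivity)] at hop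
    have hop' : ‖B'‖ ≤ 2 * H / r2 := by
      rw [le_div_iff₀ hr2]; linarith
    exact (B'.le_opNorm y).trans (by gcongr)

open Classical in
/-- MEET: translates of `S` that all have weight `≥ δ` must meet. -/
theorem meet {G : Type*} [AddCommGroup G] (μ : G → ℝ) (hμ : ∀ x, 0 ≤ μ x) (hs : Summable μ)
    (h1 : ∑' x, μ x ≤ 1) (S : Set G) (h : G) (m : ℕ) (δ : ℝ) (hm : 1 < (m + 1 : ℝ) * δ)
    (hS : ∀ t : ℕ, t ≤ m → δ ≤ ∑' x, if x + t • h ∈ S then μ x else 0) :
    ∃ t : ℕ, 1 ≤ t ∧ t ≤ m ∧ ∃ x ∈ S, x + t • h ∈ S := by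
  by_contra hc
  push Not at hc
  have hsum : ∀ t : ℕ, Summable fun x => if x + t • h ∈ S then μ x else 0 := by
    intro t
    refine Summable.of_nonneg_of_le (fun x => ?_) (fun x => ?_) hs
    · split_ifs; exacts [hμ x, le_rfl]
    · split_ifs; exacts [le_rfl, hμ x]
  have hpt : ∀ x, ∑ t ∈ range (m + 1), (if x + t • h ∈ S then μ x else 0) ≤ μ x := by
    intro x
    rw [← Finset.sum_filter, Finset.sum_const, nsmul_eq_mul]
    have : ((range (m + 1)).filter fun t => x + t • h ∈ S).card ≤ 1 := by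
      rw [Finset.card_le_one]
      intro a ha b hb
      simp only [Finset.mem_filter, Finset.mem_range] at ha hb
      by_contra hab
      have key : ∀ a b : ℕ, a < b → b < m + 1 → x + a • h ∈ S → x + b • h ∈ S → False := by
        intro a b h1 h2 h3 h4
        refine hc (b - a) (by omega) (by omega) _ h3 ?_
        have : x + a • h + (b - a) • h = x + b • h := by
          rw [add_assoc, ← add_nsmul]; congr 2; omega
        rw [this]; exact h4
      rcases lt_or_gt_of_ne hab with h' | h'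
      · exact key a b h' hb.1 ha.2 hb.2
      · exact key b a h' ha.1 hb.2 ha.2
    have h2 : (((range (m + 1)).filter fun t => x + t • h ∈ S).card : ℝ) ≤ 1 := by
      exact_mod_cast this
    nlinarith [hμ x]
  have h3 : ∑ t ∈ range (m + 1), ∑' x, (if x + t • h ∈ S then μ x else 0) ≤ ∑' x, μ x := by
    rw [← Summable.tsum_finsetSum (fun t _ => hsum t)]
    exact Summable.tsum_le_tsum hpt (summable_sum fun t _ => hsum t) hs
  have h4 : (m + 1 : ℝ) * δ ≤ ∑ t ∈ range (m + 1), ∑' x, (if x + t • h ∈ S then μ x else 0) := by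
    have := Finset.card_nsmul_le_sum (range (m + 1)) _ δ
      (fun t ht => hS t (by simp at ht; omega))
    simpa using this
  linarith

open Classical in
/-- a translate of `S` loses at most the total variation of the shift -/
theorem shift_le {G : Type*} [AddCommGroup G] (μ : G → ℝ) (hμ : ∀ x, 0 ≤ μ x) (hs : Summable μ)
    (S : Set G) (v : G) (ε : ℝ) (hv : ∑' x, |μ (x + v) - μ x| ≤ ε) :
    (∑' x, if x ∈ S then μ x else 0) - ε ≤ ∑' x, if x + v ∈ S then μ x else 0 := by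
  have hs' : Summable fun x => μ (x + v) := (Equiv.addRight v).summable_iff.mpr hs
  have e : (∑' x, if x ∈ S then μ x else 0) = ∑' x, if x + v ∈ S then μ (x + v) else 0 :=
    ((Equiv.addRight v).tsum_eq (fun x => if x ∈ S then μ x else 0)).symm
  have s1 : Summable fun x => if x + v ∈ S then μ (x + v) else 0 := by
    refine Summable.of_nonneg_of_le (fun x => ?_) (fun x => ?_) hs'
    · split_ifs; exacts [hμ _, le_rfl]
    · split_ifs; exacts [le_rfl, hμ _]
  have s2 : Summable fun x => if x + v ∈ S then μ x else 0 := by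
    refine Summable.of_nonneg_of_le (fun x => ?_) (fun x => ?_) hs
    · split_ifs; exacts [hμ _, le_rfl]
    · split_ifs; exacts [le_rfl, hμ _]
  have s3 : Summable fun x => |μ (x + v) - μ x| := (hs'.sub hs).abs
  have h1 : (∑' x, if x + v ∈ S then μ (x + v) else 0) ≤
      ∑' x, ((if x + v ∈ S then μ x else 0) + |μ (x + v) - μ x|) := by
    refine Summable.tsum_le_tsum (fun x => ?_) s1 (s2.add s3)
    split_ifs
    · linarith [le_abs_self (μ (x + v) - μ x)]
    · simp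
  rw [Summable.tsum_add s2 s3] at h1
  rw [e]; linarith

open Classical in
/-- LV from a dense set: `L` lies in `I + Ball H` on a set `S` of weight `≥ 2 δ`, and short
shifts move the weight by at most `δ`. -/
theorem lv (g : Module.Basis ι ℝ E) (I : AddSubgroup V) (L : E →ₗ[ℝ] V) (H Hs r2 r3 δ : ℝ)
    (m : ℕ) (hm : 1 ≤ m) (hr2 : 0 < r2) (hmδ : 1 < (m + 1 : ℝ) * δ)
    (hU : ∀ x ∈ I, ‖x‖ ≤ Hs → x = 0) (hH : 6 * (m : ℝ) ^ 3 * H ≤ Hs)
    (hg : ∀ j, ‖g j‖ ≤ r3) (hr : Fintype.card ι * (m * r3) ≤ r2)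
    (hr' : 2 * (Fintype.card ι * r3) ≤ r2)
    (μ : (ι → ℤ) → ℝ) (hμ : ∀ x, 0 ≤ μ x) (hs : Summable μ) (h1 : ∑' x, μ x ≤ 1)
    (S : Set (ι → ℤ)) (hS : 2 * δ ≤ ∑' x, if x ∈ S then μ x else 0)
    (hsh : ∀ v : ι → ℤ, ‖pt g v‖ ≤ m * r2 → ∑' x, |μ (x + v) - μ x| ≤ δ)
    (w : V) (hL : ∀ c ∈ S, ∃ x ∈ I, ‖L (pt g c) + w - x‖ ≤ H) :
    ∃ (io : E →ₗ[ℝ] V) (n : ℕ), 1 ≤ n ∧ n ≤ m ∧ (∀ c : ι → ℤ, (n : ℝ) • io (pt g c) ∈ I) ∧
      ∀ y, ‖L y - io y‖ ≤ 4 * H / r2 * ‖y‖ := by
  have hpt : ∀ (t : ℕ) (c : ι → ℤ), pt g (t • c) = (t : ℝ) • pt g c := by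
    intro t c
    simp [pt, Finset.smul_sum, smul_smul]
  have := lochom g I L (2 * H) Hs r2 r3 m hm hr2 hU (by linarith) hg hr hr' (fun c hc => by
    obtain ⟨t, t1, t2, x, hx, hx'⟩ := meet μ hμ hs h1 S c m δ hmδ (fun t ht => by
      have h2 := shift_le μ hμ hs S (t • c) δ (hsh _ (by
        rw [hpt, norm_smul, Real.norm_natCast]
        have : (t : ℝ) ≤ m := by exact_mod_cast ht
        gcongr))
      linarith)
    obtain ⟨a, ha, ha'⟩ := hL x hx
    obtain ⟨b, hb, hb'⟩ := hL _ hx'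
    refine ⟨t, t1, t2, b - a, I.sub_mem hb ha, ?_⟩
    have e : (t : ℝ) • L (pt g c) - (b - a) =
        (L (pt g (x + t • c)) + w - b) - (L (pt g x) + w - a) := by
      rw [pt_add, hpt, map_add, map_smul]; abel
    rw [e]
    exact (norm_sub_le _ _).trans (by linarith))
  obtain ⟨io, n, a1, a2, a3, a4⟩ := this
  refine ⟨io, n, a1, a2, a3, fun y => (a4 y).trans (le_of_eq (by ring))⟩

end Vale.Agent.P057T.Lv
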