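import Vale.Agent.P057T.Eq.HermH41
import Vale.Agent.P057T.LvH29

/-! Short bases of a lattice, and the gap lemma for successive minima. -/

set_option linter.all false

open Submodule Set Module

namespace Vale.Agent.P057T.H21

variable {E : Type*} [NormedAddCommGroup E] [InnerProductSpace ℝ E]

theorem coords {a : ℕ} (v : Fin a → E) (hv : LinearIndependent ℝ v) :
    ∃ F : E →ₗ[ℝ] (Fin a → ℝ), ∀ y : Fin a → ℝ, F (∑ l, y l • v l) = y := by
  have hinj : LinearMap.ker (Fintype.linearCombination ℝ v) = ⊥ := by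
    rw [LinearMap.ker_eq_bot]
    exact hv.fintypeLinearCombination_injective
  obtain ⟨F, hF⟩ := LinearMap.exists_leftInverse_of_injective _ hinj
  refine ⟨F, fun y => ?_⟩
  have := LinearMap.congr_fun hF y
  simpa [Fintype.linearCombination_apply] using this

theorem nsum {a : ℕ} (v : Fin a → E) (c : Fin a → ℝ) (h0 : ∀ l, 0 ≤ c l) (h1 : ∀ l, c l ≤ 1) :
    ‖∑ l, c l • v l‖ ≤ ∑ l, ‖v l‖ := by
  refine (norm_sum_le _ _).trans (Finset.sum_le_sum fun l _ => ?_)
  rw [norm_smul, Real.norm_eq_abs, abs_of_nonneg (h0 l)]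
  exact mul_le_of_le_one_left (norm_nonneg _) (h1 l)

theorem zmem (Λ : Submodule ℤ E) {x : E} (hx : x ∈ Λ) (n : ℤ) : (n : ℝ) • x ∈ Λ := by
  rw [Int.cast_smul_eq_zsmul]
  exact Λ.smul_mem n hx

/-- a short basis of the part of the lattice in the span of `v` -/
theorem tri (Λ : Submodule ℤ E) (hfin : ∀ R : ℝ, Set.Finite {x | x ∈ Λ ∧ ‖x‖ ≤ R}) :
    ∀ (a : ℕ) (v : Fin a → E), LinearIndependent ℝ v → (∀ i, v i ∈ Λ) →
      ∃ e : Fin a → E, (∀ i, e i ∈ Λ) ∧ LinearIndependent ℝ e ∧ (∀ i, ‖e i‖ ≤ ∑ l, ‖v l‖) ∧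
        (∀ i, e i ∈ span ℝ (range v)) ∧
        ∀ x ∈ Λ, x ∈ span ℝ (range v) → x ∈ span ℤ (range e) := by
  intro a
  induction a with
  | zero =>
    intro v hv _
    refine ⟨v, fun i => i.elim0, hv, fun i => i.elim0, fun i => i.elim0, fun x _ hx => ?_⟩
    have : x = 0 := by simpa using hx
    rw [this]
    exact zero_mem _
  | succ a ih =>
    intro v hv hΛ
    have hv' : LinearIndependent ℝ fun i : Fin a => v i.succ :=
      hv.comp _ (Fin.succ_injective a)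
    obtain ⟨e, he1, he2, he3, he4, he5⟩ := ih _ hv' fun i => hΛ _
    obtain ⟨F, hF⟩ := coords v hv
    have hsub : span ℝ (range fun i : Fin a => v i.succ) ≤ span ℝ (range v) :=
      span_mono (by rintro _ ⟨i, rfl⟩; exact ⟨_, rfl⟩)
    have hF0 : ∀ x ∈ span ℝ (range fun i : Fin a => v i.succ), F x 0 = 0 := by
      intro x hx
      obtain ⟨y, rfl⟩ := (mem_span_range_iff_exists_fun ℝ).1 hx
      have := congrFun (hF (Fin.cons 0 y)) 0
      simpa [Fin.sum_univ_succ] using this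
    set T : Set E := {x | x ∈ Λ ∧ ∃ c : Fin (a + 1) → ℝ, (∀ l, 0 ≤ c l) ∧ (∀ l, c l ≤ 1) ∧
      0 < c 0 ∧ x = ∑ l, c l • v l} with hT
    have hTf : T.Finite := by
      refine (hfin (∑ l, ‖v l‖)).subset ?_
      rintro x ⟨hx, c, h0, h1, -, rfl⟩
      exact ⟨hx, nsum v c h0 h1⟩
    have hTn : T.Nonempty := by
      refine ⟨v 0, hΛ 0, Pi.single 0 1, fun l => ?_, fun l => ?_, by simp, ?_⟩
      · by_cases h : l = 0 <;> simp [Pi.single_apply, h]
      · by_cases h : l = 0 <;> simp [Pi.single_apply, h]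
      · simp [Pi.single_apply]
    obtain ⟨x0, hx0, hmin⟩ := Set.exists_min_image T (fun x => F x 0) hTf hTn
    obtain ⟨hx0Λ, c, hc0, hc1, hcp, hxc⟩ := hx0
    have hFx0 : F x0 0 = c 0 := by rw [hxc, hF]
    refine ⟨Fin.cons x0 e, ?_, ?_, ?_, ?_, ?_⟩
    · intro i
      refine Fin.cases ?_ (fun i => ?_) i
      · simpa using hx0Λ
      · simpa using he1 i
    · refine LinearIndependent.finCons he2 fun h => ?_
      have h2 : span ℝ (range e) ≤ span ℝ (range fun i : Fin a => v i.succ) := by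
        rw [span_le]
        rintro _ ⟨i, rfl⟩
        exact he4 i
      have := hF0 x0 (h2 h)
      rw [hFx0] at this
      exact hcp.ne' this
    · intro i
      refine Fin.cases ?_ (fun i => ?_) i
      · simpa [hxc] using nsum v c hc0 hc1
      · have := he3 i
        rw [Fin.sum_univ_succ]
        simp only [Fin.cons_succ]
        linarith [norm_nonneg (v 0)]
    · intro i
      refine Fin.cases ?_ (fun i => ?_) i
      · simp only [Fin.cons_zero]
        exact (mem_span_range_iff_exists_fun ℝ).2 ⟨c, hxc.symm⟩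
      · simpa using hsub (he4 i)
    · intro x hx hxs
      obtain ⟨y, hy⟩ := (mem_span_range_iff_exists_fun ℝ).1 hxs
      set q : ℤ := ⌊y 0 / c 0⌋ with hq
      set y' : Fin (a + 1) → ℝ := fun l => y l - q * c l with hy'
      have hx1 : x - (q : ℝ) • x0 = ∑ l, y' l • v l := by
        rw [← hy, hxc, Finset.smul_sum, ← Finset.sum_sub_distrib]
        refine Finset.sum_congr rfl fun l _ => ?_
        rw [hy', smul_smul, sub_smul]
      have hx1Λ : x - (q : ℝ) • x0 ∈ Λ := Λ.sub_mem hx (zmem Λ hx0Λ q)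
      have h1 : 0 ≤ y' 0 := by
        have := Int.floor_le (y 0 / c 0)
        rw [le_div_iff₀ hcp] at this
        simp only [hy']
        linarith
      have h2 : y' 0 < c 0 := by
        have := Int.lt_floor_add_one (y 0 / c 0)
        rw [div_lt_iff₀ hcp] at this
        simp only [hy']
        linarith
      have h3 : y' 0 = 0 := by
        by_contra hne
        have hpos : 0 < y' 0 := lt_of_le_of_ne h1 (Ne.symm hne)
        set c' : Fin (a + 1) → ℝ := Fin.cons (y' 0) fun l : Fin a => Int.fract (y' l.succ) with hc'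
        have hmem : (∑ l, c' l • v l) ∈ T := by
          refine ⟨?_, c', fun l => ?_, fun l => ?_, by simpa [hc'] using hpos, rfl⟩
          · have : (∑ l, c' l • v l) = (x - (q : ℝ) • x0) -
                ∑ l : Fin a, ((⌊y' l.succ⌋ : ℤ) : ℝ) • v l.succ := by
              rw [hx1, Fin.sum_univ_succ, Fin.sum_univ_succ, add_sub_assoc,
                ← Finset.sum_sub_distrib]
              simp only [hc', Fin.cons_zero, Fin.cons_succ]
              congr 1
              refine Finset.sum_congr rfl fun l _ => ?_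
              rw [← sub_smul, Int.fract]
            rw [this]
            exact Λ.sub_mem hx1Λ (Λ.sum_mem fun l _ => zmem Λ (hΛ _) _)
          · refine Fin.cases ?_ (fun l => ?_) l
            · simpa [hc'] using h1
            · simpa [hc'] using Int.fract_nonneg _
          · refine Fin.cases ?_ (fun l => ?_) l
            · simpa [hc'] using h2.le.trans (hc1 0)
            · simpa [hc'] using (Int.fract_lt_one _).le
        have := hmin _ hmem
        rw [hFx0, hF] at this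
        simp only [hc', Fin.cons_zero] at this
        linarith
      have h4 : x - (q : ℝ) • x0 ∈ span ℝ (range fun i : Fin a => v i.succ) := by
        rw [hx1, Fin.sum_univ_succ, h3, zero_smul, zero_add]
        exact (mem_span_range_iff_exists_fun ℝ).2 ⟨_, rfl⟩
      have h5 := he5 _ hx1Λ h4
      have h6 : span ℤ (range e) ≤ span ℤ (range (Fin.cons x0 e : Fin (a + 1) → E)) :=
        span_mono (by rintro _ ⟨i, rfl⟩; exact ⟨i.succ, by simp⟩)
      have h7 : x0 ∈ span ℤ (range (Fin.cons x0 e : Fin (a + 1) → E)) :=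
        subset_span ⟨0, by simp⟩
      have : x = (x - (q : ℝ) • x0) + (q : ℝ) • x0 := by abel
      rw [this]
      exact add_mem (h6 h5) (zmem _ h7 q)

/-- some step of a bounded monotone sequence is flat -/
theorem flat (f : ℕ → ℕ) (hf : ∀ m, f (m + 1) ≤ f m) (ρ : ℕ) (h : f 0 ≤ f (ρ + 1) + ρ) :
    ∃ m ≤ ρ, f (m + 1) = f m := by
  by_contra hc
  push Not at hc
  have : ∀ m ≤ ρ + 1, f m + m ≤ f 0 := by
    intro m
    induction m with
    | zero => simp
    | succ m ih =>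
      intro hm
      have h1 := ih (by omega)
      have h2 := hc m (by omega)
      have h3 := hf m
      omega
  have := this (ρ + 1) le_rfl
  omega

variable [FiniteDimensional ℝ E]

/-- reduction modulo the vectors `v` -/
theorem red (Λ : Submodule ℤ E) {a : ℕ} (v : Fin a → E) (hΛ : ∀ i, v i ∈ Λ) (x : E)
    (hx : x ∈ Λ) : ∃ x' ∈ Λ, x - x' ∈ span ℝ (range v) ∧
      ‖x'‖ ≤ ‖(span ℝ (range v))ᗮ.starProjection x‖ + ∑ l, ‖v l‖ := by
  set S := span ℝ (range v) with hS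
  have h1 : x - Sᗮ.starProjection x ∈ S := by
    have := Submodule.sub_starProjection_mem_orthogonal (K := Sᗮ) x
    rwa [Submodule.orthogonal_orthogonal] at this
  obtain ⟨y, hy⟩ := (mem_span_range_iff_exists_fun ℝ).1 h1
  refine ⟨x - ∑ l, ((⌊y l⌋ : ℤ) : ℝ) • v l,
    Λ.sub_mem hx (Λ.sum_mem fun l _ => zmem Λ (hΛ _) _), ?_, ?_⟩
  · rw [sub_sub_cancel]
    exact (mem_span_range_iff_exists_fun ℝ).2 ⟨_, rfl⟩
  · have : x - ∑ l, ((⌊y l⌋ : ℤ) : ℝ) • v l =
        Sᗮ.starProjection x + ∑ l, Int.fract (y l) • v l := by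
      have h2 : ∑ l, Int.fract (y l) • v l = ∑ l, y l • v l - ∑ l, ((⌊y l⌋ : ℤ) : ℝ) • v l := by
        rw [← Finset.sum_sub_distrib]
        refine Finset.sum_congr rfl fun l _ => ?_
        rw [← sub_smul, Int.fract]
      rw [h2, hy]
      abel
    rw [this]
    exact (norm_add_le _ _).trans (add_le_add le_rfl
      (nsum v _ (fun l => Int.fract_nonneg _) fun l => (Int.fract_lt_one _).le))

/-- GAP: all but `ρ` successive minima are tiny. Then at some scale `s` the lattice points in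
the span of the points of norm at most `s` have a short basis `e`, and they are the common kernel
of at most `ρ` integral functionals of small norm. -/
theorem gap (Λ : Submodule ℤ E) (hfin : ∀ R : ℝ, Set.Finite {x | x ∈ Λ ∧ ‖x‖ ≤ R})
    (hsp : span ℝ (Λ : Set E) = ⊤) (ρ : ℕ) (η B : ℝ) (hη : 0 < η) (hB1 : 1 ≤ B)
    (hB : 2 * (finrank ℝ E : ℝ) ≤ B)
    (hsm : finrank ℝ E ≤ finrank ℝ (span ℝ {x | x ∈ Λ ∧ ‖x‖ ≤ η / B ^ (ρ + 1)}) + ρ) :
    ∃ (s : ℝ) (a b : ℕ) (e : Fin a → E) (k : Fin b → E →ₗ[ℝ] ℝ), η / B ^ ρ ≤ s ∧ s ≤ η ∧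
      a ≤ finrank ℝ E ∧ b ≤ ρ ∧ LinearIndependent ℝ e ∧ (∀ i, e i ∈ Λ) ∧
      (∀ i, ‖e i‖ ≤ finrank ℝ E * (s / B)) ∧ (∀ i, ∀ x ∈ Λ, ∃ n : ℤ, k i x = n) ∧
      (∀ i x, |k i x| ≤ 2 ^ (ρ ^ 2 + 1) / s * ‖x‖) ∧
      (∀ x, (∀ i, k i x = 0) ↔ x ∈ span ℝ (range e)) ∧
      ∀ x ∈ Λ, x ∈ span ℝ (range e) → x ∈ span ℤ (range e) := by
  have hB0 : 0 < B := by linarith
  set Sp : ℕ → Submodule ℝ E := fun m => span ℝ {x | x ∈ Λ ∧ ‖x‖ ≤ η / B ^ m} with hSp
  have hstep : ∀ m, η / B ^ (m + 1) ≤ η / B ^ m := fun m =>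
    div_le_div_of_nonneg_left hη.le (by positivity) (pow_le_pow_right₀ hB1 (by omega))
  have hmono : ∀ m, Sp (m + 1) ≤ Sp m := fun m =>
    span_mono fun x hx => ⟨hx.1, hx.2.trans (hstep m)⟩
  obtain ⟨m, hm, hfl⟩ := flat (fun m => finrank ℝ (Sp m))
    (fun m => Submodule.finrank_mono (hmono m)) ρ ((Submodule.finrank_le _).trans hsm)
  have heq : Sp (m + 1) = Sp m := Submodule.eq_of_le_of_finrank_eq (hmono m) hfl
  have hanti : ∀ m n, m ≤ n → Sp n ≤ Sp m := fun m n h =>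
    span_mono fun x hx => ⟨hx.1, hx.2.trans
      (div_le_div_of_nonneg_left hη.le (by positivity) (pow_le_pow_right₀ hB1 h))⟩
  set s : ℝ := η / B ^ m with hs
  have hs0 : 0 < s := by positivity
  have hsB : η / B ^ (m + 1) = s / B := by rw [hs, pow_succ, div_div]
  obtain ⟨v, hv1, hv2, hv3⟩ :=
    Submodule.exists_fun_fin_finrank_span_eq ℝ {x | x ∈ Λ ∧ ‖x‖ ≤ η / B ^ (m + 1)}
  have hvS : span ℝ (range v) = Sp m := by rw [hv2]; exact heq
  have ha : finrank ℝ (span ℝ {x | x ∈ Λ ∧ ‖x‖ ≤ η / B ^ (m + 1)}) ≤ finrank ℝ E :=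
    Submodule.finrank_le _
  have hsum : ∑ l, ‖v l‖ ≤ finrank ℝ E * (s / B) := by
    calc ∑ l, ‖v l‖ ≤ ∑ _l : Fin _, s / B :=
          Finset.sum_le_sum fun l _ => by rw [← hsB]; exact (hv1 l).2
      _ = (finrank ℝ (span ℝ {x | x ∈ Λ ∧ ‖x‖ ≤ η / B ^ (m + 1)}) : ℝ) * (s / B) := by simp
      _ ≤ _ := mul_le_mul_of_nonneg_right (by exact_mod_cast ha) (by positivity)
  have hsum2 : ∑ l, ‖v l‖ ≤ s / 2 := by
    refine hsum.trans ?_
    rw [← mul_div_assoc, div_le_div_iff₀ hB0 two_pos]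
    nlinarith
  obtain ⟨e, he1, he2, he3, he4, he5⟩ := tri Λ hfin _ v hv3 fun i => (hv1 i).1
  have heS : span ℝ (range e) = span ℝ (range v) := by
    refine le_antisymm ?_ ?_
    · rw [span_le]
      rintro _ ⟨i, rfl⟩
      exact he4 i
    · rw [span_le]
      rintro _ ⟨i, rfl⟩
      exact span_subset_span ℤ ℝ _ (he5 _ (hv1 i).1 (subset_span ⟨i, rfl⟩))
  set S := span ℝ (range v) with hS
  set P : E →ₗ[ℝ] E := (Sᗮ.starProjection : E →L[ℝ] E).toLinearMap with hP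
  have hPa : ∀ x, P x = Sᗮ.starProjection x := fun x => rfl
  have hP0 : ∀ x, P x = 0 ↔ x ∈ S := by
    intro x
    rw [hPa, Submodule.starProjection_apply_eq_zero_iff, Submodule.orthogonal_orthogonal]
  set Λ' : Submodule ℤ E := Λ.map (P.restrictScalars ℤ) with hΛ'
  have hmem : ∀ y, y ∈ Λ' ↔ ∃ x ∈ Λ, P x = y := fun y => by simp [hΛ']
  have hred : ∀ x ∈ Λ, ∃ x' ∈ Λ, P x' = P x ∧ ‖x'‖ ≤ ‖P x‖ + ∑ l, ‖v l‖ := by
    intro x hx
    obtain ⟨x', h1, h2, h3⟩ := red Λ v (fun i => (hv1 i).1) x hx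
    refine ⟨x', h1, ?_, h3⟩
    have := (hP0 _).2 h2
    rw [map_sub, sub_eq_zero] at this
    exact this.symm
  have hfin' : ∀ R : ℝ, Set.Finite {y | y ∈ Λ' ∧ ‖y‖ ≤ R} := by
    intro R
    refine ((hfin (R + ∑ l, ‖v l‖)).image P).subset ?_
    rintro y ⟨hy, hR⟩
    obtain ⟨x, hx, rfl⟩ := (hmem y).1 hy
    obtain ⟨x', h1, h2, h3⟩ := hred x hx
    exact ⟨x', ⟨h1, by linarith⟩, h2⟩
  have hlow : ∀ y ∈ Λ', y ≠ 0 → s / 2 ≤ ‖y‖ := by
    intro y hy hy0
    obtain ⟨x, hx, rfl⟩ := (hmem y).1 hy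
    obtain ⟨x', h1, h2, h3⟩ := hred x hx
    by_contra hlt
    push Not at hlt
    have : x' ∈ S := by
      rw [hvS]
      exact subset_span ⟨h1, by linarith⟩
    exact hy0 (h2 ▸ (hP0 _).2 this)
  obtain ⟨w, hw1, hw2, hw3⟩ := Submodule.exists_fun_fin_finrank_span_eq ℝ (Λ' : Set E)
  have hb : finrank ℝ (span ℝ (Λ' : Set E)) ≤ ρ := by
    have h1 : span ℝ (Λ' : Set E) ≤ Sᗮ := by
      rw [span_le]
      intro y hy
      obtain ⟨x, -, rfl⟩ := (hmem y).1 hy
      exact Submodule.starProjection_apply_mem _ x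
    have h2 := Submodule.finrank_mono h1
    have h3 := Submodule.finrank_add_finrank_orthogonal S
    have h4 : finrank ℝ (Sp (ρ + 1)) ≤ finrank ℝ S := by
      rw [hvS]
      exact Submodule.finrank_mono (hanti _ _ (by omega))
    have h5 : finrank ℝ E ≤ finrank ℝ (Sp (ρ + 1)) + ρ := hsm
    omega
  obtain ⟨f, hf1, hf2, -, -, hf5⟩ := tri Λ' hfin' _ w hw3 hw1
  have hfΛ : span ℤ (range f) = Λ' := by
    refine le_antisymm ?_ fun y hy => hf5 y hy ?_
    · rw [span_le]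
      rintro _ ⟨i, rfl⟩
      exact hf1 i
    · rw [hw2]
      exact subset_span hy
  obtain ⟨c, hc1, hc2, hc3⟩ := HermH41.herm_fin _ f hf2
  rw [hfΛ] at hc2
  obtain ⟨F, hF⟩ := coords c hc1
  have hcΛ : ∀ i, c i ∈ Λ' := fun i => hc2 ▸ subset_span ⟨i, rfl⟩
  have hrep : ∀ x, ∃ y : Fin _ → ℝ, ∑ j, y j • c j = P x := by
    intro x
    apply (mem_span_range_iff_exists_fun ℝ).1
    have hx : x ∈ span ℝ (Λ : Set E) := hsp ▸ Submodule.mem_top
    have h1 : span ℝ (Λ : Set E) ≤ (span ℝ (range c)).comap P := by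
      rw [span_le]
      intro z hz
      have : P z ∈ span ℤ (range c) := by
        rw [hc2]
        exact (hmem _).2 ⟨z, hz, rfl⟩
      exact span_subset_span ℤ ℝ _ this
    exact h1 hx
  refine ⟨s, _, _, e, fun i => (LinearMap.proj i).comp (F.comp P), ?_, ?_, ha, hb, he2, he1,
    fun i => (he3 i).trans hsum, ?_, ?_, ?_, fun x hx h => he5 x hx (heS ▸ h)⟩
  · exact div_le_div_of_nonneg_left hη.le (by positivity) (pow_le_pow_right₀ hB1 hm)
  · exact div_le_self hη.le (one_le_pow₀ hB1)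
  · intro i x hx
    have : P x ∈ span ℤ (range c) := by
      rw [hc2]
      exact (hmem _).2 ⟨x, hx, rfl⟩
    obtain ⟨n, hn⟩ := (HermH41.mem_spanZ c _).1 this
    refine ⟨n i, ?_⟩
    simp only [LinearMap.comp_apply, LinearMap.proj_apply]
    rw [← hn, hF]
  · intro i x
    obtain ⟨y, hy⟩ := hrep x
    simp only [LinearMap.comp_apply, LinearMap.proj_apply]
    rw [← hy, hF]
    have h1 := hc3 y i
    have h2 := hlow _ (hcΛ i) (hc1.ne_zero i)
    have h3 : ‖P x‖ ≤ ‖x‖ := Submodule.norm_starProjection_apply_le _ x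
    have h4 : (2 : ℝ) ^ (finrank ℝ (span ℝ (Λ' : Set E)) ^ 2) ≤ 2 ^ (ρ ^ 2) :=
      pow_le_pow_right₀ one_le_two (Nat.pow_le_pow_left hb 2)
    rw [hy] at h1
    have h5 : |y i| * (s / 2) ≤ 2 ^ (ρ ^ 2) * ‖x‖ :=
      (mul_le_mul_of_nonneg_left h2 (abs_nonneg _)).trans
        (h1.trans (mul_le_mul h4 h3 (norm_nonneg _) (by positivity)))
    rw [div_mul_eq_mul_div, le_div_iff₀ hs0, pow_succ]
    linarith
  · intro x
    rw [heS, ← hP0]
    obtain ⟨y, hy⟩ := hrep x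
    simp only [LinearMap.comp_apply, LinearMap.proj_apply]
    constructor
    · intro h
      rw [← hy, hF] at h
      rw [← hy]
      simp [h]
    · intro h i
      rw [h, map_zero]
      rfl

/-- GAP + LV: if every short lattice vector has a small multiple that `L` sends near `I`, then
one multiple works on the common kernel of at most `ρ` short integral functionals. -/
theorem gaplv {V : Type*} [SeminormedAddCommGroup V] [NormedSpace ℝ V]
    (Λ : Submodule ℤ E) (hfin : ∀ R : ℝ, Set.Finite {x | x ∈ Λ ∧ ‖x‖ ≤ R})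
    (hsp : span ℝ (Λ : Set E) = ⊤) (ρ m : ℕ) (η B : ℝ) (hη : 0 < η) (hB1 : 1 ≤ B) (hm : 1 ≤ m)
    (hB : 2 * (finrank ℝ E : ℝ) ≤ B) (hB2 : 2 * m * (finrank ℝ E : ℝ) ^ 2 ≤ B)
    (hsm : finrank ℝ E ≤ finrank ℝ (span ℝ {x | x ∈ Λ ∧ ‖x‖ ≤ η / B ^ (ρ + 1)}) + ρ) :
    ∃ (b : ℕ) (k : Fin b → E →ₗ[ℝ] ℝ), b ≤ ρ ∧ (∀ i, ∀ x ∈ Λ, ∃ n : ℤ, k i x = n) ∧
      (∀ i x, |k i x| ≤ 2 ^ (ρ ^ 2 + 1) * B ^ ρ / η * ‖x‖) ∧
      ∀ (I : AddSubgroup V) (L : E →ₗ[ℝ] V) (H Hs : ℝ), 0 ≤ H → (∀ x ∈ I, ‖x‖ ≤ Hs → x = 0) →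
        3 * (m : ℝ) ^ 3 * H ≤ Hs →
        (∀ x ∈ Λ, ‖x‖ ≤ η → ∃ t : ℕ, 1 ≤ t ∧ t ≤ m ∧ ∃ y ∈ I, ‖(t : ℝ) • L x - y‖ ≤ H) →
        ∃ n : ℕ, 1 ≤ n ∧ n ≤ m ∧ ∀ x ∈ Λ, (∀ i, k i x = 0) →
          ∃ y ∈ I, ‖(n : ℝ) • L x - y‖ ≤ n * (2 * H * B ^ ρ / η * ‖x‖) := by
  obtain ⟨s, a, b, e, k, h1, h2, h3, h4, h5, h6, h7, h8, h9, h10, h11⟩ :=
    gap Λ hfin hsp ρ η B hη hB1 hB hsm
  have hB0 : 0 < B := by linarith
  have hs0 : 0 < s := lt_of_lt_of_le (by positivity) h1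
  have hinv : 1 / s ≤ B ^ ρ / η := by
    rw [div_le_div_iff₀ hs0 hη]
    rw [div_le_iff₀ (by positivity)] at h1
    linarith
  refine ⟨b, k, h4, h8, fun i x => (h9 i x).trans ?_, ?_⟩
  · refine mul_le_mul_of_nonneg_right ?_ (norm_nonneg _)
    rw [mul_div_assoc, div_eq_mul_one_div _ s]
    exact mul_le_mul_of_nonneg_left hinv (by positivity)
  intro I L H Hs hH hU hHs hL
  set S := span ℝ (range e) with hS
  let g : Module.Basis (Fin a) ℝ S := Module.Basis.span h5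
  have hg : ∀ j, (g j : E) = e j := fun j =>
    congrArg Subtype.val (Module.Basis.span_apply h5 j)
  have hpt : ∀ c : Fin a → ℤ, ((Lv.pt g c : S) : E) = ∑ j, (c j : ℝ) • e j := by
    intro c
    simp [Lv.pt, hg]
  have ha : (a : ℝ) ≤ finrank ℝ E := by exact_mod_cast h3
  have hm' : (1 : ℝ) ≤ m := by exact_mod_cast hm
  have hkey : 2 * ((a : ℝ) * (m * (finrank ℝ E * (s / B)))) ≤ s := by
    have h0 : (0 : ℝ) ≤ finrank ℝ E := by positivity
    calc 2 * ((a : ℝ) * (m * (finrank ℝ E * (s / B))))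
        ≤ 2 * ((finrank ℝ E : ℝ) * (m * (finrank ℝ E * (s / B)))) := by gcongr
      _ = (2 * m * (finrank ℝ E : ℝ) ^ 2) * (s / B) := by ring
      _ ≤ B * (s / B) := by gcongr
      _ = s := by field_simp
  have hpos : 0 ≤ (a : ℝ) * (finrank ℝ E * (s / B)) := by positivity
  obtain ⟨io, n, hn1, hn2, hio1, hio2⟩ := Lv.lochom g I (L.comp S.subtype) H Hs s
    (finrank ℝ E * (s / B)) m hm hs0 hU hHs (fun j => by
      have := h7 j
      rw [← hg] at this
      exact this)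
    (by rw [Fintype.card_fin]; nlinarith)
    (by rw [Fintype.card_fin]; nlinarith)
    (fun c hc => by
      have hx : ((Lv.pt g c : S) : E) ∈ Λ := by
        rw [hpt]
        exact Λ.sum_mem fun j _ => zmem Λ (h6 j) _
      exact hL _ hx (le_trans hc h2))
  refine ⟨n, hn1, hn2, fun x hx hk => ?_⟩
  have hxS : x ∈ S := (h10 x).1 hk
  obtain ⟨c, hc⟩ := (HermH41.mem_spanZ e _).1 (h11 x hx hxS)
  have hxc : (⟨x, hxS⟩ : S) = Lv.pt g c := Subtype.ext (by rw [hpt, hc])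
  refine ⟨(n : ℝ) • io (Lv.pt g c), hio1 c, ?_⟩
  have h12 := hio2 ⟨x, hxS⟩
  rw [← hxc, ← smul_sub, norm_smul, Real.norm_natCast]
  refine mul_le_mul_of_nonneg_left (le_trans h12 ?_) (by positivity)
  refine mul_le_mul_of_nonneg_right ?_ (norm_nonneg _)
  rw [mul_div_assoc, mul_div_assoc, div_eq_mul_one_div H s, mul_assoc]
  exact mul_le_mul_of_nonneg_left (mul_le_mul_of_nonneg_left hinv hH) (by norm_num)

end Vale.Agent.P057T.H21
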