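import Vale.Agent.P057T.Eq.Defs
import Vale.Agent.P057T.Gkh.Frm

/-! Jets of multi-affine towers: cube values do not depend on the base point. -/

set_option linter.all false

open MvPolynomial Finset
open scoped BigOperators

namespace Vale.Agent.P057T.Val

open Vale.Agent.P057T.Eq

noncomputable section

variable {ι Γ : Type} [Fintype ι] [DecidableEq ι] [Fintype Γ] [DecidableEq Γ]

def ind (t : Finset Γ) : Γ → ℕ := fun c => if c ∈ t then 1 else 0

def tw (col : ι → Finset Γ) : ι → Γ → ℕ := fun v => ind (col v)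

/-- multi-affine, type inside `t` -/
def MA (col : ι → Finset Γ) (t : Finset Γ) (F : MvPolynomial ι ℝ) : Prop :=
  ∀ m ∈ F.support, Finsupp.weight (tw col) m ≤ ind t

/-- multilinear of type `t` -/
def ML (col : ι → Finset Γ) (t : Finset Γ) (F : MvPolynomial ι ℝ) : Prop :=
  IsWeightedHomogeneous (tw col) F (ind t)

/-- the monomials whose types partition `t` -/
def top (col : ι → Finset Γ) (t : Finset Γ) (F : MvPolynomial ι ℝ) : MvPolynomial ι ℝ :=
  weightedHomogeneousComponent (tw col) (ind t) F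

/-- alternating sum over the vertices -/
def dl {R : Type} [CommRing R] (S : Finset Γ) (f : Finset Γ → R) : R :=
  ∑ J ∈ S.powerset, (-1) ^ (S \ J).card * f J

/-- a jet: an integer point with all charts within `ρ` -/
def Jt (Q : ι → MvPolynomial ι ℝ) (br : Finset ι) (ρ : ℝ) (z : ι → ℤ) : Prop :=
  ∀ a ∈ br, |eval (cz z) (Q a) - z a| ≤ ρ

/-- levels -/
def Lv (Q : ι → MvPolynomial ι ℝ) (br : Finset ι) (lv : ι → ℕ) : Prop :=
  ∀ a ∈ br, ∀ b ∈ (Q a).vars, lv b < lv a

theorem top_ml (col : ι → Finset Γ) (t : Finset Γ) (F : MvPolynomial ι ℝ) : ML col t (top col t F) :=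
  weightedHomogeneousComponent_isWeightedHomogeneous _ _

theorem ML.ma {col : ι → Finset Γ} {t : Finset Γ} {F : MvPolynomial ι ℝ} (h : ML col t F) :
    MA col t F := fun m hm => (h (mem_support_iff.1 hm)).le

theorem top_supp (col : ι → Finset Γ) (t : Finset Γ) (F : MvPolynomial ι ℝ) :
    (top col t F).support ⊆ F.support := by
  classical
  intro m hm
  rw [mem_support_iff, top, coeff_weightedHomogeneousComponent] at hm
  rw [mem_support_iff]
  intro h0
  apply hm
  simp [h0]

theorem top_vars (col : ι → Finset Γ) (t : Finset Γ) (F : MvPolynomial ι ℝ) :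
    (top col t F).vars ⊆ F.vars := by
  intro v hv
  obtain ⟨m, hm, h⟩ := (mem_vars v).1 hv
  exact (mem_vars v).2 ⟨m, top_supp col t F hm, h⟩

theorem wt_ap (col : ι → Finset Γ) (m : ι →₀ ℕ) (c : Γ) :
    Finsupp.weight (tw col) m c = ∑ v ∈ m.support, m v * ind (col v) c := by
  rw [Finsupp.weight_apply, Finsupp.sum, Finset.sum_apply]
  simp [tw]

theorem MA.sub {col : ι → Finset Γ} {t : Finset Γ} {F : MvPolynomial ι ℝ} (h : MA col t F) :
    ∀ b ∈ F.vars, col b ⊆ t := by
  intro b hb c hc
  obtain ⟨m, hm, hbm⟩ := (mem_vars b).1 hb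
  have h1 := h m hm c
  rw [wt_ap] at h1
  have h2 : m b * ind (col b) c ≤ ∑ v ∈ m.support, m v * ind (col v) c :=
    single_le_sum (f := fun v => m v * ind (col v) c) (fun _ _ => Nat.zero_le _) hbm
  have h3 : 1 ≤ m b := Nat.one_le_iff_ne_zero.2 (Finsupp.mem_support_iff.1 hbm)
  by_contra hct
  simp only [ind, hc, hct, if_true, if_false] at h1 h2
  omega

/-! ### alternating sums -/

section dl

variable {R : Type} [CommRing R]

theorem dl_empty (f : Finset Γ → R) : dl ∅ f = f ∅ := by simp [dl]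

theorem dl_insert {S : Finset Γ} {c : Γ} (hc : c ∉ S) (f : Finset Γ → R) :
    dl (insert c S) f = dl S (fun J => f (insert c J)) - dl S f := by
  unfold dl
  rw [sum_powerset_insert hc, sub_eq_add_neg, add_comm, ← sum_neg_distrib]
  congr 1
  · refine sum_congr rfl fun J hJ => ?_
    have : insert c S \ insert c J = S \ J := by
      ext x; simp only [mem_sdiff, mem_insert]
      constructor
      · rintro ⟨h1 | h1, h2⟩
        · exact absurd (Or.inl h1) h2
        · exact ⟨h1, fun h => h2 (Or.inr h)⟩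
      · rintro ⟨h1, h2⟩
        exact ⟨Or.inr h1, fun h => h.elim (fun e => hc (e ▸ h1)) h2⟩
    rw [this]
  · refine sum_congr rfl fun J hJ => ?_
    have hJ' : c ∉ J := fun h => hc (mem_powerset.1 hJ h)
    have : insert c S \ J = insert c (S \ J) := by
      ext x; simp only [mem_sdiff, mem_insert]
      constructor
      · rintro ⟨h1 | h1, h2⟩
        · exact Or.inl h1
        · exact Or.inr ⟨h1, h2⟩
      · rintro (h1 | ⟨h1, h2⟩)
        · exact ⟨Or.inl h1, h1 ▸ hJ'⟩
        · exact ⟨Or.inr h1, h2⟩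
    rw [this, card_insert_of_notMem (by simp [hc]), pow_succ]
    ring

theorem dl_congr {S : Finset Γ} {f g : Finset Γ → R} (h : ∀ J ⊆ S, f J = g J) : dl S f = dl S g :=
  sum_congr rfl fun J hJ => by rw [h J (mem_powerset.1 hJ)]

theorem dl_sub (S : Finset Γ) (f g : Finset Γ → R) :
    dl S (fun J => f J - g J) = dl S f - dl S g := by
  simp [dl, mul_sub, sum_sub_distrib]

theorem dl_add (S : Finset Γ) (f g : Finset Γ → R) :
    dl S (fun J => f J + g J) = dl S f + dl S g := by
  simp [dl, mul_add, sum_add_distrib]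

theorem dl_mul (S : Finset Γ) (a : R) (f : Finset Γ → R) :
    dl S (fun J => a * f J) = a * dl S f := by
  simp [dl, mul_sum, mul_left_comm]

theorem dl_sum {α : Type} (s : Finset α) (S : Finset Γ) (f : α → Finset Γ → R) :
    dl S (fun J => ∑ a ∈ s, f a J) = ∑ a ∈ s, dl S (f a) := by
  simp only [dl, mul_sum]
  exact sum_comm

/-- a function that misses a class -/
theorem dl_miss {S : Finset Γ} {c : Γ} (hc : c ∈ S) {f : Finset Γ → R}
    (h : ∀ J, f (insert c J) = f J) : dl S f = 0 := by
  rw [← insert_erase hc, dl_insert (notMem_erase c S)]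
  simp [h]

theorem dl_const {S : Finset Γ} (hS : S.Nonempty) (a : R) : dl S (fun _ => a) = 0 := by
  obtain ⟨c, hc⟩ := hS
  exact dl_miss hc fun _ => rfl

theorem dl_prod (C : Finset Γ) (g : Finset Γ → R) (hg : ∀ J, g J = g (J ∩ C)) (B : Finset Γ) :
    ∀ f : Finset Γ → R, Disjoint B C → (∀ J ⊆ B ∪ C, f J = f (J ∩ B)) →
      dl (B ∪ C) (fun J => f J * g J) = dl B f * dl C g := by
  induction B using Finset.induction_on with
  | empty =>
    intro f _ hf
    rw [dl_empty, empty_union, ← dl_mul]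
    exact dl_congr fun J hJ => by rw [hf J (by simpa using hJ)]; simp
  | insert c B hc ih =>
    intro f hd hf
    have hcC : c ∉ C := fun h => disjoint_left.1 hd (mem_insert_self c B) h
    have hd' : Disjoint B C := hd.mono_left (subset_insert c B)
    have hg' : ∀ J, g (insert c J) = g J := fun J => by
      rw [hg, hg J, insert_inter_of_notMem hcC]
    rw [insert_union, dl_insert (by simp [hc, hcC]), dl_insert hc, sub_mul]
    simp only [hg']
    rw [ih (fun J => f (insert c J)) hd', ih f hd']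
    · intro J hJ
      have hcJ : c ∉ J := fun h => by have := hJ h; simp [hc, hcC] at this
      rw [hf J (hJ.trans (union_subset_union_left (subset_insert c B))), inter_insert_of_notMem hcJ]
    · intro J hJ
      rw [hf (insert c J) (by rw [insert_union]; exact insert_subset_insert c hJ),
        insert_inter_distrib]

theorem dl_cast (S : Finset Γ) (f : Finset Γ → ℤ) :
    ((dl S f : ℤ) : ℝ) = dl S fun J => (f J : ℝ) := by
  simp [dl]

theorem dl_abs (S : Finset Γ) (f : Finset Γ → ℝ) {ρ : ℝ} (h : ∀ J ⊆ S, |f J| ≤ ρ) :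
    |dl S f| ≤ 2 ^ S.card * ρ := by
  refine (abs_sum_le_sum_abs _ _).trans ?_
  refine (sum_le_card_nsmul _ _ ρ fun J hJ => ?_).trans ?_
  · rw [abs_mul, abs_pow, abs_neg, abs_one, one_pow, one_mul]
    exact h J (mem_powerset.1 hJ)
  · simp

end dl

/-! ### monomials as multisets -/

theorem ev_mon (u : ι → ℝ) (m : ι →₀ ℕ) (c : ℝ) :
    eval u (monomial m c) = c * ((Finsupp.toMultiset m).map u).prod := by
  rw [eval_monomial, Finsupp.toMultiset_map, Finsupp.prod_toMultiset, Finsupp.prod_mapDomain_index]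
  · simp
  · intro a x y; exact pow_add _ _ _

theorem wt_ms (col : ι → Finset Γ) (m : ι →₀ ℕ) :
    Finsupp.weight (tw col) m = ((Finsupp.toMultiset m).map (tw col)).sum := by
  induction m using Finsupp.induction_linear with
  | zero => simp
  | add f g hf hg => simp [hf, hg]
  | single a n => simp [Finsupp.weight_single, Multiset.map_nsmul, Multiset.sum_nsmul]

theorem ms_sub (col : ι → Finset Γ) (s : Multiset ι) (t : Finset Γ)
    (h : (s.map (tw col)).sum ≤ ind t) : ∀ v ∈ s, col v ⊆ t := by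
  intro v hv c hc
  obtain ⟨s', rfl⟩ := Multiset.exists_cons_of_mem hv
  have := h c
  simp only [Multiset.map_cons, Multiset.sum_cons, Pi.add_apply, tw, ind, hc, if_true] at this
  by_contra hct
  simp only [hct, if_false] at this
  omega

theorem ms_loc (col : ι → Finset Γ) (u : Finset Γ → ι → ℝ) (hu : ∀ J v, u J v = u (J ∩ col v) v)
    (s : Multiset ι) (A : Finset Γ) (h : ∀ v ∈ s, col v ⊆ A) (J : Finset Γ) :
    (s.map (u J)).prod = (s.map (u (J ∩ A))).prod := by
  congr 1
  refine Multiset.map_congr rfl fun v hv => ?_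
  rw [hu J, hu (J ∩ A), inter_assoc, inter_eq_right.2 (h v hv)]

theorem ms_cube (col : ι → Finset Γ) (u : Finset Γ → ι → ℝ) (hu : ∀ J v, u J v = u (J ∩ col v) v)
    (s : Multiset ι) : ∀ A : Finset Γ, (s.map (tw col)).sum = ind A →
      dl A (fun J => (s.map (u J)).prod) = (s.map fun v => dl (col v) fun J => u J v).prod := by
  induction s using Multiset.induction_on with
  | empty =>
    intro A hA
    have : A = ∅ := by
      ext c
      have := congrFun hA c
      by_cases hc : c ∈ A <;> simp [ind, hc] at this ⊢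
    simp [this, dl_empty]
  | cons v s ih =>
    intro A hA
    have hv : col v ⊆ A := ms_sub col _ A hA.le v (Multiset.mem_cons_self v s)
    have hs : (s.map (tw col)).sum = ind (A \ col v) := by
      funext c
      have := congrFun hA c
      simp only [Multiset.map_cons, Multiset.sum_cons, Pi.add_apply] at this
      by_cases h1 : c ∈ col v
      · have h2 := hv h1
        simp only [tw, ind, h1, h2, if_true, mem_sdiff, not_true, and_false, if_false] at this ⊢
        omega
      · simp only [tw, ind, h1, if_false, zero_add, mem_sdiff, not_false_eq_true, and_true] at this ⊢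
        exact this
    simp only [Multiset.map_cons, Multiset.prod_cons]
    rw [← ih _ hs]
    conv_lhs => rw [← union_sdiff_of_subset hv]
    exact dl_prod _ _ (ms_loc col u hu s _ (ms_sub col s _ hs.le)) _ _ disjoint_sdiff
      fun J _ => hu J v

/-- the value of a cube is the top part at the differences -/
theorem cube (col : ι → Finset Γ) (u : Finset Γ → ι → ℝ) (hu : ∀ J v, u J v = u (J ∩ col v) v)
    (t : Finset Γ) (F : MvPolynomial ι ℝ) (hF : MA col t F) :
    dl t (fun J => eval (u J) F) = eval (fun v => dl (col v) fun J => u J v) (top col t F) := by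
  classical
  have e1 : top col t F = ∑ m ∈ F.support, if Finsupp.weight (tw col) m = ind t then
      monomial m (coeff m F) else 0 := by
    rw [top, weightedHomogeneousComponent_apply, sum_filter]
  rw [e1, map_sum]
  conv_lhs => enter [2, J]; rw [F.as_sum, map_sum]
  rw [dl_sum]
  refine sum_congr rfl fun m hm => ?_
  simp only [ev_mon]
  rw [dl_mul]
  split_ifs with h
  · rw [ev_mon, ms_cube col u hu _ t (by rw [← wt_ms, h])]
  · have hle := hF m hm
    obtain ⟨c, hc⟩ : ∃ c, Finsupp.weight (tw col) m c ≠ ind t c := by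
      by_contra hn
      push Not at hn
      exact h (funext hn)
    have h1 := hle c
    have hct : c ∈ t := by
      by_contra hct
      simp only [ind, hct, if_false] at h1 hc
      omega
    have h2 : Finsupp.weight (tw col) m ≤ ind (t.erase c) := by
      intro c'
      by_cases e : c' = c
      · subst e
        simp only [ind, hct, if_true] at h1 hc
        simp only [ind, notMem_erase, if_false]
        omega
      · have := hle c'
        simpa [ind, e] using this
    rw [wt_ms] at h2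
    rw [dl_miss hct, mul_zero, map_zero]
    intro J
    rw [ms_loc col u hu _ _ (ms_sub col _ _ h2), ms_loc col u hu _ _ (ms_sub col _ _ h2) J,
      insert_inter_of_notMem (notMem_erase c t)]

/-! ### linearity in one class -/

theorem ms_lin {κ : Type} (col : ι → Finset Γ) (c : Γ) (K : Finset κ) (n : κ → ℝ) (x : κ → ι → ℝ)
    (y : ι → ℝ) (hx : ∀ k ∈ K, ∀ v, c ∉ col v → x k v = y v)
    (hy : ∀ v, c ∈ col v → y v = ∑ k ∈ K, n k * x k v) (s : Multiset ι) :
    ((s.map (tw col)).sum c = 0 → ∀ k ∈ K, (s.map (x k)).prod = (s.map y).prod) ∧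
    ((s.map (tw col)).sum c = 1 → (s.map y).prod = ∑ k ∈ K, n k * (s.map (x k)).prod) := by
  induction s using Multiset.induction_on with
  | empty => simp
  | cons v s ih =>
    simp only [Multiset.map_cons, Multiset.sum_cons, Multiset.prod_cons, Pi.add_apply, tw, ind]
    by_cases h : c ∈ col v
    · simp only [h, if_true]
      refine ⟨fun e => by omega, fun e => ?_⟩
      rw [hy v h, sum_mul]
      exact sum_congr rfl fun k hk => by rw [ih.1 (by omega) k hk, mul_assoc]
    · simp only [h, if_false, zero_add]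
      refine ⟨fun e k hk => by rw [ih.1 e k hk, hx k hk v h], fun e => ?_⟩
      rw [ih.2 e, mul_sum]
      exact sum_congr rfl fun k hk => by rw [hx k hk v h]; ring

/-- a multilinear form is linear in each class of its type -/
theorem lin {κ : Type} (col : ι → Finset Γ) (c : Γ) (K : Finset κ) (n : κ → ℝ) (x : κ → ι → ℝ)
    (y : ι → ℝ) (hx : ∀ k ∈ K, ∀ v, c ∉ col v → x k v = y v)
    (hy : ∀ v, c ∈ col v → y v = ∑ k ∈ K, n k * x k v) {t : Finset Γ} {F : MvPolynomial ι ℝ}
    (hF : ML col t F) (hc : c ∈ t) : eval y F = ∑ k ∈ K, n k * eval (x k) F := by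
  conv_lhs => rw [F.as_sum, map_sum]
  conv_rhs => enter [2, k]; rw [F.as_sum, map_sum, mul_sum]
  rw [sum_comm]
  refine sum_congr rfl fun m hm => ?_
  have h1 := congrFun (hF (mem_support_iff.1 hm)) c
  rw [wt_ms] at h1
  simp only [ev_mon]
  rw [(ms_lin col c K n x y hx hy _).2 (by rw [h1]; simp [ind, hc]), mul_sum]
  exact sum_congr rfl fun k _ => by ring

theorem ev_congr {F : MvPolynomial ι ℝ} {x y : ι → ℝ} (h : ∀ v ∈ F.vars, x v = y v) :
    eval x F = eval y F := eval₂Hom_congr' rfl (fun v hv _ => h v hv) rfl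

/-- a form does not see the classes outside its type -/
theorem loc {col : ι → Finset Γ} {t : Finset Γ} {F : MvPolynomial ι ℝ} (hF : MA col t F)
    {x y : ι → ℝ} (h : ∀ v, col v ⊆ t → x v = y v) : eval x F = eval y F :=
  ev_congr fun v hv => h v (hF.sub v hv)

/-! ### jets -/

theorem Jt.mono {Q : ι → MvPolynomial ι ℝ} {br : Finset ι} {ρ ρ' : ℝ} {z : ι → ℤ}
    (h : Jt Q br ρ z) (e : ρ ≤ ρ') : Jt Q br ρ' z := fun a ha => (h a ha).trans e

/-- uniqueness on a closed set `U` of variables -/
theorem uniqU {Q : ι → MvPolynomial ι ℝ} {br : Finset ι} {lv : ι → ℕ} (hl : Lv Q br lv)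
    (U : ι → Prop) (hU : ∀ a ∈ br, U a → ∀ b ∈ (Q a).vars, U b) {ρ ρ' : ℝ} {z z' : ι → ℤ}
    (h : ∀ a ∈ br, U a → |eval (cz z) (Q a) - z a| ≤ ρ)
    (h' : ∀ a ∈ br, U a → |eval (cz z') (Q a) - z' a| ≤ ρ') (e : ρ + ρ' < 1)
    (h0 : ∀ v, v ∉ br → U v → z v = z' v) : ∀ a, U a → z a = z' a := by
  intro a
  induction hn : lv a using Nat.strong_induction_on generalizing a with
  | _ n ih =>
    intro ha
    by_cases hb : a ∈ br
    · have e1 : eval (cz z) (Q a) = eval (cz z') (Q a) := ev_congr fun v hv => by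
        simp only [cz]
        rw [ih (lv v) (hn ▸ hl a hb v hv) v rfl (hU a hb ha v hv)]
      have h1 := abs_le.1 (h a hb ha)
      have h2 := abs_le.1 (h' a hb ha)
      have h3 : |((z a - z' a : ℤ) : ℝ)| < 1 := by
        push_cast
        rw [abs_lt]; constructor <;> linarith [h1.1, h1.2, h2.1, h2.2]
      have h4 : |z a - z' a| < 1 := by exact_mod_cast h3
      have := abs_lt.1 h4
      omega
    · exact h0 a hb ha

theorem uniq {col : ι → Finset Γ} {Q : ι → MvPolynomial ι ℝ} {br : Finset ι} {lv : ι → ℕ}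
    (hl : Lv Q br lv) (hQ : ∀ a ∈ br, MA col (col a) (Q a)) {ρ ρ' : ℝ} {z z' : ι → ℤ}
    (h : Jt Q br ρ z) (h' : Jt Q br ρ' z') (e : ρ + ρ' < 1) (t : Finset Γ)
    (h0 : ∀ v, v ∉ br → col v ⊆ t → z v = z' v) : ∀ a, col a ⊆ t → z a = z' a :=
  uniqU hl (fun a => col a ⊆ t) (fun a ha hu b hb => ((hQ a ha).sub b hb).trans hu)
    (fun a ha _ => h a ha) (fun a ha _ => h' a ha) e h0

theorem uniq1 {Q : ι → MvPolynomial ι ℝ} {br : Finset ι} {lv : ι → ℕ} (hl : Lv Q br lv)
    {ρ ρ' : ℝ} {z z' : ι → ℤ} (h : Jt Q br ρ z) (h' : Jt Q br ρ' z') (e : ρ + ρ' < 1)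
    (h0 : ∀ v, v ∉ br → z v = z' v) : z = z' :=
  funext fun a => uniqU hl (fun _ => True) (fun _ _ _ _ _ => trivial) (fun a ha _ => h a ha)
    (fun a ha _ => h' a ha) e (fun v hv _ => h0 v hv) a trivial

/-- iterated rounding -/
def it (Q : ι → MvPolynomial ι ℝ) (br : Finset ι) (h : ι → ℤ) : ℕ → ι → ℤ
  | 0 => h
  | n + 1 => fun a => if a ∈ br then round (eval (cz (it Q br h n)) (Q a)) else h a

/-- the canonical jet with the entries `h` -/
def jz (Q : ι → MvPolynomial ι ℝ) (br : Finset ι) (lv : ι → ℕ) (h : ι → ℤ) : ι → ℤ :=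
  fun a => it Q br h (lv a + 1) a

theorem it_st {Q : ι → MvPolynomial ι ℝ} {br : Finset ι} {lv : ι → ℕ} (hl : Lv Q br lv) (h : ι → ℤ) :
    ∀ a n, lv a < n → it Q br h n a = jz Q br lv h a := by
  intro a
  induction hn : lv a using Nat.strong_induction_on generalizing a with
  | _ k ih =>
    intro n hk
    obtain ⟨n, rfl⟩ : ∃ n', n = n' + 1 := ⟨n - 1, by omega⟩
    simp only [jz, it]
    split_ifs with hb
    · congr 1
      refine ev_congr fun v hv => ?_
      have := hl a hb v hv
      simp only [cz]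
      rw [ih (lv v) (by omega) v rfl n (by omega), ih (lv v) (by omega) v rfl (lv a) this]
    · rfl

theorem jz_ent (Q : ι → MvPolynomial ι ℝ) {br : Finset ι} (lv : ι → ℕ) (h : ι → ℤ) {a : ι}
    (ha : a ∉ br) : jz Q br lv h a = h a := by simp [jz, it, ha]

theorem jz_br {Q : ι → MvPolynomial ι ℝ} {br : Finset ι} {lv : ι → ℕ} (hl : Lv Q br lv) (h : ι → ℤ)
    {a : ι} (ha : a ∈ br) : jz Q br lv h a = round (eval (cz (jz Q br lv h)) (Q a)) := by
  conv_lhs => simp only [jz, it, ha, if_true]
  congr 1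
  exact ev_congr fun v hv => by simp only [cz]; rw [it_st hl h v _ (hl a ha v hv)]

theorem jz_jt {Q : ι → MvPolynomial ι ℝ} {br : Finset ι} {lv : ι → ℕ} (hl : Lv Q br lv) (h : ι → ℤ) :
    Jt Q br (1 / 2) (jz Q br lv h) := fun a ha => by
  conv_lhs => rw [jz_br hl h ha]
  exact abs_sub_round _

/-- a narrow jet is the canonical one -/
theorem jz_eq {Q : ι → MvPolynomial ι ℝ} {br : Finset ι} {lv : ι → ℕ} (hl : Lv Q br lv) {ρ : ℝ}
    {z h : ι → ℤ} (hz : Jt Q br ρ z) (e : ρ < 1 / 2) (h0 : ∀ v, v ∉ br → z v = h v) :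
    z = jz Q br lv h :=
  uniq1 hl hz (jz_jt hl h) (by linarith) fun v hv => by rw [h0 v hv, jz_ent Q lv h hv]

/-- the canonical jet is local -/
theorem jz_loc {col : ι → Finset Γ} {Q : ι → MvPolynomial ι ℝ} {br : Finset ι} {lv : ι → ℕ}
    (hl : Lv Q br lv) (hQ : ∀ a ∈ br, MA col (col a) (Q a)) (t : Finset Γ) {h h' : ι → ℤ}
    (h0 : ∀ v, v ∉ br → col v ⊆ t → h v = h' v) :
    ∀ a, col a ⊆ t → jz Q br lv h a = jz Q br lv h' a := by
  intro a
  induction hn : lv a using Nat.strong_induction_on generalizing a with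
  | _ k ih =>
    intro ha
    by_cases hb : a ∈ br
    · rw [jz_br hl h hb, jz_br hl h' hb]
      congr 1
      refine ev_congr fun v hv => ?_
      simp only [cz]
      rw [ih (lv v) (hn ▸ hl a hb v hv) v rfl (((hQ a hb).sub v hv).trans ha)]
    · rw [jz_ent Q lv h hb, jz_ent Q lv h' hb, h0 a hb ha]

/-- integer combinations of jets in the class `c` -/
theorem jt_lin {κ : Type} {col : ι → Finset Γ} {Q : ι → MvPolynomial ι ℝ} {br : Finset ι}
    (hQ : ∀ a ∈ br, ML col (col a) (Q a)) (c : Γ) (K : Finset κ) (hK : K.Nonempty) (n : κ → ℤ)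
    (x : κ → ι → ℤ) (y : ι → ℤ) {ρ ρ' : ℝ} (hx : ∀ k ∈ K, ∀ v, c ∉ col v → x k v = y v)
    (hy : ∀ v, c ∈ col v → y v = ∑ k ∈ K, n k * x k v) (hJ : ∀ k ∈ K, Jt Q br ρ (x k))
    (h1 : ρ ≤ ρ') (h2 : (∑ k ∈ K, |(n k : ℝ)|) * ρ ≤ ρ') : Jt Q br ρ' y := by
  intro a ha
  by_cases hc : c ∈ col a
  · rw [lin col c K (fun k => (n k : ℝ)) (fun k => cz (x k)) (cz y)
      (fun k hk v hv => by simp [cz, hx k hk v hv]) (fun v hv => by simp [cz, hy v hv]) (hQ a ha) hc,
      hy a hc]
    push_cast
    rw [← sum_sub_distrib]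
    refine (abs_sum_le_sum_abs _ _).trans (le_trans ?_ h2)
    rw [sum_mul]
    refine sum_le_sum fun k hk => ?_
    rw [← mul_sub, abs_mul]
    exact mul_le_mul_of_nonneg_left (hJ k hk a ha) (abs_nonneg _)
  · obtain ⟨k, hk⟩ := hK
    rw [← hx k hk a hc, loc (hQ a ha).ma (y := cz (x k)) fun v hv => by
      simp only [cz]; rw [hx k hk v fun h => hc (hv h)]]
    exact (hJ k hk a ha).trans h1

/-- all vertices of a class cube lie in a narrow cell: the differences form a jet of the top
tower, and every form has the value of its top part at this jet -/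
theorem val {col : ι → Finset Γ} {P : ι → MvPolynomial ι ℝ} {br : Finset ι}
    (hP : ∀ a ∈ br, MA col (col a) (P a)) (hne : ∀ a ∈ br, (col a).Nonempty) (u : Finset Γ → ι → ℤ)
    (hu : ∀ J v, u J v = u (J ∩ col v) v) (s : ι → ℝ) {ρ : ℝ} (h0 : 0 ≤ ρ)
    (hc : ∀ J, ∀ a ∈ br, |eval (cz (u J)) (P a) - u J a - s a| ≤ ρ) :
    Jt (fun a => top col (col a) (P a)) br (2 ^ Fintype.card Γ * ρ)
      (fun v => dl (col v) fun J => u J v) ∧
    ∀ t F, MA col t F → dl t (fun J => eval (cz (u J)) F) =
      eval (cz fun v => dl (col v) fun J => u J v) (top col t F) := by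
  have key : ∀ t F, MA col t F → dl t (fun J => eval (cz (u J)) F) =
      eval (cz fun v => dl (col v) fun J => u J v) (top col t F) := by
    intro t F hF
    rw [cube col (fun J => cz (u J)) (fun J v => by simp only [cz]; rw [hu]) t F hF]
    congr 2
    funext v
    simp only [cz, dl_cast]
  refine ⟨fun a ha => ?_, key⟩
  rw [← key _ _ (hP a ha), dl_cast, ← dl_sub, ← sub_zero (dl _ _), ← dl_const (hne a ha) (s a),
    ← dl_sub]
  refine (dl_abs _ _ fun J _ => hc J a ha).trans (mul_le_mul_of_nonneg_right ?_ h0)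
  exact pow_le_pow_right₀ (by norm_num) (card_le_univ _)

/-! ### presentation of a tower -/

section pres

open Vale.Agent.P057L Vale.Agent.P057T.Gkh

theorem MA.C (col : ι → Finset Γ) (t : Finset Γ) (c : ℝ) : MA col t (C c) := by
  intro m hm
  have : m = 0 := by
    by_contra h
    rw [mem_support_iff, coeff_C, if_neg (Ne.symm h)] at hm
    exact hm rfl
  simp [this]

theorem MA.add {col : ι → Finset Γ} {t : Finset Γ} {F G : MvPolynomial ι ℝ} (h : MA col t F)
    (h' : MA col t G) : MA col t (F + G) := fun m hm =>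
  (mem_union.1 (support_add hm)).elim (h m) (h' m)

theorem MA.mono {col : ι → Finset Γ} {t t' : Finset Γ} {F : MvPolynomial ι ℝ} (h : MA col t F)
    (e : t ⊆ t') : MA col t' F := fun m hm => (h m hm).trans fun c => by
  simp only [ind]
  by_cases hc : c ∈ t
  · simp [hc, e hc]
  · simp [hc]

theorem MA.mul {col : ι → Finset Γ} {t t' : Finset Γ} {F G : MvPolynomial ι ℝ} (h : MA col t F)
    (h' : MA col t' G) (d : Disjoint t t') : MA col (t ∪ t') (F * G) := by
  intro m hm
  obtain ⟨a, ha, b, hb, rfl⟩ := mem_add.1 (support_mul F G hm)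
  rw [map_add]
  refine (add_le_add (h a ha) (h' b hb)).trans fun c => ?_
  simp only [ind, Pi.add_apply, mem_union]
  by_cases h1 : c ∈ t
  · simp [h1, disjoint_left.1 d h1]
  · simp [h1]

theorem MA.X (col : ι → Finset Γ) (v : ι) : MA col (col v) (X v) := by
  intro m hm
  rw [support_X, mem_singleton] at hm
  simp [hm, Finsupp.weight_single, tw]

variable {j q : ℕ}

/-- brackets of non empty type -/
abbrev Br (L : List (Cd j q)) : Type := {r : Fin L.length // (L.get r).1.Nonempty}

/-- entries and brackets -/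
abbrev Vr (L : List (Cd j q)) : Type := (Fin j × Fin q) ⊕ Br L

def vc (L : List (Cd j q)) : Vr L → Finset (Fin j) := Sum.elim (fun e => {e.1}) fun r => (L.get r.1).1

def vl (L : List (Cd j q)) : Vr L → ℕ := Sum.elim (fun _ => 0) fun r => L.length - r.1

def vb (L : List (Cd j q)) : Finset (Vr L) := univ.filter fun v => v.isRight

/-- the point of the tower above `W` -/
def vz (L : List (Cd j q)) (W : Pt j q) : Vr L → ℤ :=
  Sum.elim (fun e => W e.1 e.2) fun r => round ((L.get r.1).2 W)

theorem twr_drop {L : List (Cd j q)} (h : Twr L) : ∀ r : Fin L.length,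
    Frm (L.drop (r.1 + 1)) (L.get r).1 (L.get r).2 := by
  induction h with
  | nil => intro r; exact r.elim0
  | cons hL hF ih =>
    intro r
    refine Fin.cases ?_ (fun r => ?_) r
    · simpa using hF
    · simpa using ih r

theorem frm_get {L : List (Cd j q)} (h : Twr L) (r : Fin L.length) :
    Frm L (L.get r).1 (L.get r).2 :=
  (frm j q).2.2.1 _ _ _ _ (List.drop_subset _ _) (twr_drop h r)

theorem vz_loc {L : List (Cd j q)} (h : Twr L) (W W' : Pt j q) (v : Vr L)
    (e : ∀ i ∈ vc L v, W i = W' i) : vz L W v = vz L W' v := by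
  rcases v with v | r
  · simp only [vz, Sum.elim_inl]
    rw [e v.1 (by simp [vc])]
  · simp only [vz, Sum.elim_inr]
    rw [(frm j q).2.2.2.2.2.1 L _ _ W W' h (frm_get h r.1) e]

theorem frm_pol {L : List (Cd j q)} (h : Twr L) (k : ℕ) {t : Finset (Fin j)} {F : Pt j q → ℝ}
    (hF : Frm (L.drop k) t F) : ∃ P : MvPolynomial (Vr L) ℝ, MA (vc L) t P ∧
      (∀ v ∈ P.vars, vl L v ≤ L.length - k) ∧ ∀ W, F W = eval (cz (vz L W)) P := by
  induction hF with
  | cst t c => exact ⟨C c, MA.C _ _ _, by simp, by simp⟩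
  | add _ _ i1 i2 =>
    obtain ⟨P, a1, a2, a3⟩ := i1
    obtain ⟨P', b1, b2, b3⟩ := i2
    exact ⟨P + P', a1.add b1, fun v hv => (mem_union.1 (vars_add_subset _ _ hv)).elim (a2 v) (b2 v),
      fun W => by simp [a3, b3]⟩
  | @ent t F i l hi _ ih =>
    obtain ⟨P, a1, a2, a3⟩ := ih
    refine ⟨X (Sum.inl (i, l)) * P, ?_, fun v hv => ?_, fun W => by simp [a3, cz, vz]⟩
    · have := (MA.X (vc L) (Sum.inl (i, l))).mul a1 (by simp [vc, hi])
      simpa [vc] using this
    · refine (mem_union.1 (vars_mul _ _ hv)).elim (fun h => ?_) (a2 v)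
      rw [vars_X, mem_singleton] at h
      simp [h, vl]
  | @brk t F p hp hd _ ih =>
    obtain ⟨P, a1, a2, a3⟩ := ih
    obtain ⟨r, hr, e⟩ := List.mem_drop_iff_getElem.1 hp
    have hr' : k + r < L.length := by omega
    have e' : L.get ⟨k + r, hr'⟩ = p := by simpa using e
    by_cases hn : p.1.Nonempty
    · refine ⟨X (Sum.inr ⟨⟨k + r, hr'⟩, by rw [e']; exact hn⟩) * P, ?_, fun v hv => ?_,
        fun W => ?_⟩
      · have := (MA.X (vc L) (Sum.inr ⟨⟨k + r, hr'⟩, by rw [e']; exact hn⟩)).mul a1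
          (by simp only [vc, Sum.elim_inr]; rw [e']; exact hd)
        have e2 : vc L (Sum.inr ⟨⟨k + r, hr'⟩, by rw [e']; exact hn⟩) = p.1 := by
          simp only [vc, Sum.elim_inr]; rw [e']
        rwa [e2] at this
      · refine (mem_union.1 (vars_mul _ _ hv)).elim (fun h => ?_) (a2 v)
        rw [vars_X, mem_singleton] at h
        simp only [h, vl, Sum.elim_inr]
        omega
      · simp only [map_mul, eval_X, cz, vz, Sum.elim_inr, a3]
        rw [e']
    · have h0 : p.1 = ∅ := not_nonempty_iff_eq_empty.1 hn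
      refine ⟨C (round (p.2 0) : ℝ) * P, ?_, fun v hv => ?_, fun W => ?_⟩
      · exact (MA.C (vc L) p.1 _).mul a1 hd
      · refine (mem_union.1 (vars_mul _ _ hv)).elim (fun h => ?_) (a2 v)
        rw [vars_C] at h
        simp at h
      · have := frm_get h ⟨k + r, hr'⟩
        rw [e'] at this
        rw [map_mul, eval_C, ← a3, ← (frm j q).2.2.2.2.2.1 L _ _ W 0 h this (by simp [h0])]
  | mono e _ ih =>
    obtain ⟨P, a1, a2, a3⟩ := ih
    exact ⟨P, a1.mono e, a2, a3⟩

/-- polynomial presentation of a tower and its forms -/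
theorem pres {L : List (Cd j q)} (h : Twr L) : ∃ P : Vr L → MvPolynomial (Vr L) ℝ,
    (∀ a ∈ vb L, MA (vc L) (vc L a) (P a)) ∧ Lv P (vb L) (vl L) ∧ (∀ a, (vc L a).Nonempty) ∧
    (∀ W, Cel L W → Jt P (vb L) (1 / 100) (vz L W)) ∧
    (∀ W W' v, (∀ i ∈ vc L v, W i = W' i) → vz L W v = vz L W' v) ∧
    ∀ t F, Frm L t F → ∃ PF, MA (vc L) t PF ∧ ∀ W, F W = eval (cz (vz L W)) PF := by
  choose P a1 a2 a3 using fun r : Fin L.length => frm_pol h (r.1 + 1) (twr_drop h r)
  refine ⟨Sum.elim (fun _ => 0) fun r => P r.1, ?_, ?_, ?_, ?_, vz_loc h, fun t F hF => ?_⟩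
  · rintro (a | r) ha
    · simp [vb] at ha
    · exact a1 r.1
  · rintro (a | r) ha b hb
    · simp [vb] at ha
    · have := a2 r.1 b hb
      have := r.1.2
      simp only [vl, Sum.elim_inr] at *
      omega
  · rintro (a | r)
    · simp [vc]
    · exact r.2
  · rintro W hW (a | r) ha
    · simp [vb] at ha
    · simp only [Sum.elim_inr]
      rw [← a3]
      exact hW _ (List.get_mem L r.1)
  · obtain ⟨PF, b1, _, b3⟩ := frm_pol h 0 (by simpa using hF)
    exact ⟨PF, b1, b3⟩

theorem card_vb (L : List (Cd j q)) : (vb L).card ≤ L.length ∧ Fintype.card (Br L) ≤ L.length := by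
  have h2 : Fintype.card (Br L) ≤ L.length := (Fintype.card_subtype_le _).trans (by simp)
  refine ⟨le_trans ?_ h2, h2⟩
  have : vb L ⊆ univ.image Sum.inr := by
    rintro (a | r) ha
    · simp [vb] at ha
    · simp
  exact (card_le_card this).trans card_image_le

end pres

end

end Vale.Agent.P057T.Val
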