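import Vale.Agent.P057Z.Fr.Asm
import Vale.Agent.P057Z.Fr.List
import Vale.Agent.P057Z.Fr.Plu
import Vale.Agent.P057Z.Fr.Csl
import Vale.Agent.P057Z.Fr.Sep
import Vale.Agent.P057Z.Fr.Rnd
import Vale.Agent.P057Z.Fr.Box

/-! Metric Freiman lemma on any abelian group with nested sets. -/

set_option linter.all false

open Finset
open scoped BigOperators Classical

namespace Vale.Agent.P057T.Mfr

open Vale.Agent.P057Z Vale.Agent.P057Z.Fr

variable {G : Type} [AddCommGroup G]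

/-- four nested sets, each nearly invariant under the next one -/
structure Nest (B1 B2 B3 B4 C1 C2 C3 : Finset G) : Prop where
  n1 : B1.Nonempty
  n2 : B2.Nonempty
  n3 : B3.Nonempty
  n4 : B4.Nonempty
  a1 : ∀ a ∈ B1, ∀ b ∈ B2, a + b ∈ C1
  a2 : ∀ a ∈ B2, ∀ b ∈ B3, a - b ∈ C2
  a3 : ∀ a ∈ B3, ∀ b ∈ B4, a - b ∈ C3
  a4 : ∀ a ∈ B3, ∀ s : Fin 6 → G, (∀ i, s i ∈ B4) → a + ∑ i, s i ∈ C3
  c1 : C1.card ≤ 2 * B1.card
  c2 : C2.card ≤ 2 * B2.card
  c3 : C3.card ≤ 2 * B3.card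

/-- a translate -/
noncomputable def tr (x : G) (B : Finset G) : Finset G := B.map (addRightEmbedding x)

theorem mem_tr {x y : G} {B : Finset G} : y ∈ tr x B ↔ y - x ∈ B := by
  rw [tr, mem_map]
  exact ⟨fun ⟨z, hz, e⟩ => by simpa [← e] using hz, fun h => ⟨_, h, by simp⟩⟩

theorem card_tr (x : G) (B : Finset G) : (tr x B).card = B.card := card_map _

theorem loc {B B' C S : Finset G} {x : G} (n : B.Nonempty) (n' : B'.Nonempty)
    (h : ∀ a ∈ B, ∀ b ∈ B', a - b ∈ C) (c : C.card ≤ 2 * B.card) (hS : S ⊆ tr x B) :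
    ∃ x', (S.card : ℝ) * B'.card ≤ 2 * B.card * (S ∩ tr x' B').card := by
  have nC : (tr x C).Nonempty := by
    obtain ⟨a, ha⟩ := n
    obtain ⟨b, hb⟩ := n'
    exact ⟨a - b + x, mem_tr.2 (by simpa using h a ha b hb)⟩
  obtain ⟨x', -, hx⟩ := exists_max_image (tr x C) (fun x' => (S ∩ tr x' B').card) nC
  refine ⟨x', ?_⟩
  have := card_le_mul_card_image_of_maps_to (s := S ×ˢ B') (t := tr x C) (f := fun p => p.1 - p.2)
    (fun p hp => mem_tr.2 (by
      rw [sub_right_comm]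
      exact h _ (mem_tr.1 (hS (mem_product.1 hp).1)) _ (mem_product.1 hp).2))
    (S ∩ tr x' B').card fun y hy => le_trans (card_le_card_of_injOn (fun p => p.1)
      (fun p hp => by
        obtain ⟨p1, p2⟩ := mem_filter.1 (mem_coe.1 hp)
        exact mem_coe.2 (mem_inter.2 ⟨(mem_product.1 p1).1, mem_tr.2 (by
          rw [← p2, sub_sub_cancel]; exact (mem_product.1 p1).2)⟩))
      fun p hp q hq e => Prod.ext e (by
        have := (mem_filter.1 (mem_coe.1 hp)).2.trans (mem_filter.1 (mem_coe.1 hq)).2.symm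
        rw [show p.1 = q.1 from e] at this
        exact sub_right_injective this)) (hx y hy)
  rw [card_product, card_tr] at this
  exact_mod_cast this.trans (by nlinarith)

theorem core {Q : ℕ} [Fact Q.Prime] {m : ℕ} {B1 B2 B3 B4 C1 C2 C3 : Finset G}
    (h : Nest B1 B2 B3 B4 C1 C2 C3) (f g ζ : G → V Q m) (U : G → Prop) (y0 : G) (ρ L : ℝ)
    (hL1 : 1 ≤ L) (hρ : 0 < ρ) (hρ1 : 100000 * ((m : ℝ) + 1) ^ 2 * ρ ≤ 1)
    (hcount : (B1.card : ℝ) * B2.card ≤ Real.exp L * ((B1 ×ˢ tr y0 B2).filter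
      (fun p => U p.2 ∧ sn (f p.1 + g p.2 - ζ (p.1 + p.2)) ≤ ρ)).card) :
    ∃ (x : G) (S : Finset G), (∀ s ∈ S, U s) ∧ S ⊆ tr x B4 ∧ S ⊆ tr y0 B2 ∧
      (B4.card : ℝ) ≤ Real.exp (7000 * L) * S.card ∧
      ∀ z ∈ Rel g S 6, sn z ≤ 20000 * ((m : ℝ) + 1) ^ 2 * ρ := by
  set K := Real.exp L with hKdef
  have hK1 : 1 ≤ K := Real.one_le_exp (by linarith)
  have hK0 : 0 < K := by linarith
  obtain ⟨hr1, hr2⟩ := num_rad m ρ hρ hρ1
  have p1 : (0 : ℝ) < B1.card := by exact_mod_cast h.n1.card_pos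
  have p2 : (0 : ℝ) < B2.card := by exact_mod_cast h.n2.card_pos
  have p3 : (0 : ℝ) < B3.card := by exact_mod_cast h.n3.card_pos
  have p4 : (0 : ℝ) < B4.card := by exact_mod_cast h.n4.card_pos
  have c2 := card_tr y0 B2
  obtain ⟨A', hA', B', hB', cA, cB, hU, hfew⟩ := list G (V Q m) sn sz_sn B1 (tr y0 B2)
    f g ζ (fun a b => U b ∧ sn (f a + g b - ζ (a + b)) ≤ ρ) K ρ hK1 h.n1
    (card_pos.1 (c2 ▸ h.n2.card_pos)) (fun a b h => h.2) (by rw [c2]; exact hcount)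
  rw [c2] at cB
  obtain ⟨x3, hx3'⟩ := loc h.n2 h.n3 h.a2 h.c2 hB'
  set D2 := B' ∩ tr x3 B3 with hB2
  have cB2 : (B3.card : ℝ) ≤ 8 * K * D2.card :=
    (num_den p2 p3.le (by positivity) cB hx3').trans (le_of_eq (by ring))
  have pB2 : (0 : ℝ) < D2.card := num_pos p3 (Nat.cast_nonneg _) cB2
  have pA : (0 : ℝ) < A'.card := num_pos p1 (Nat.cast_nonneg _) cA
  have cX1 : ((tr y0 C1).card : ℝ) ≤ 2 * B1.card := by rw [card_tr]; exact_mod_cast h.c1
  have cX2 : ((tr (y0 - x3) C2).card : ℝ) ≤ 2 * B2.card := by rw [card_tr]; exact_mod_cast h.c2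
  have hX1m : ∀ a ∈ B1, ∀ b ∈ tr y0 B2, a + b ∈ tr y0 C1 := fun a ha b hb =>
    mem_tr.2 (by rw [add_sub_assoc]; exact h.a1 a ha _ (mem_tr.1 hb))
  have f0 : ∀ c, Few sn (12288 * K ^ 5) (6 * ρ) (Fib2 f g A' D2 c) := by
    intro c
    refine (hfew D2 inter_subset_left _ (tr (y0 - x3) C2) hX1m (fun b' hb' b hb => mem_tr.2 (by
      rw [show b' - b - (y0 - x3) = b' - y0 - (b - x3) by abel]
      exact h.a2 _ (mem_tr.1 hb') _ (mem_tr.1 (mem_inter.1 hb).2))) c).mono ?_ le_rfl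
      (fun _ h => h)
    rw [c2, div_le_iff₀ (by positivity)]
    calc 3072 * K ^ 5 * (tr y0 C1).card * (tr (y0 - x3) C2).card
        ≤ 3072 * K ^ 5 * (2 * (B1.card : ℝ)) * (2 * (B2.card : ℝ)) := by gcongr
      _ = _ := by ring
  have hm0 : (0 : ℝ) ≤ m := Nat.cast_nonneg m
  obtain ⟨W, W', nW, hW1, hW2, hW3⟩ := fat Q m (6 * ρ) (by positivity) hr1
  have f1 : ∀ c, Few sn ((294912 * K ^ 6) ^ 7) (2 * (2 * m * (6 * ρ))) (Fib g D2 (6 + 1) c) := by
    intro c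
    refine (plu G (V Q m) sn sz_sn A' D2 (tr y0 C1) W W' f g (12288 * K ^ 5) (6 * ρ)
      (2 * m * (6 * ρ)) 7 (by rw [← card_pos]; exact_mod_cast pA) nW (by positivity)
      (fun a ha b hb => hX1m a (hA' ha) b (hB' (mem_inter.1 hb).1)) hW1 hW2 hW3 f0 c).mono ?_
      le_rfl (fun _ h => h)
    refine pow_le_pow_left₀ (by positivity) ?_ 7
    rw [div_le_iff₀ pA]
    calc 2 * (12288 * K ^ 5) * (tr y0 C1).card ≤
          2 * (12288 * K ^ 5) * (2 * (6 * K * A'.card)) := by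
          have := cX1.trans (mul_le_mul_of_nonneg_left cA (by norm_num))
          gcongr
      _ = 294912 * K ^ 6 * A'.card := by ring
  obtain ⟨x4, hx4'⟩ := loc h.n3 h.n4 h.a3 h.c3 (inter_subset_right : D2 ⊆ _)
  set B5 := D2 ∩ tr x4 B4 with hB5
  have cB5 : (B4.card : ℝ) ≤ 16 * K * B5.card :=
    (num_den p3 p4.le (by positivity) cB2 hx4').trans (le_of_eq (by ring))
  have cX3 : ((tr (x3 + ∑ _i : Fin 6, x4) C3).card : ℝ) ≤ 2 * B3.card := by
    rw [card_tr]; exact_mod_cast h.c3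
  have f2 : Few sn (Real.exp (270 * L)) (96 * (m + 1) * ρ) (Rel g B5 6) := by
    refine (csl G (V Q m) sn sz_sn D2 B5 (tr (x3 + ∑ _i : Fin 6, x4) C3) g _ _ 6 inter_subset_left
      (by rw [← card_pos]; exact_mod_cast pB2) (by positivity) (fun b hb s hs => mem_tr.2 (by
        rw [add_sub_add_comm, ← sum_sub_distrib]
        exact h.a4 _ (mem_tr.1 (mem_inter.1 hb).2) _ fun i => mem_tr.1 (mem_inter.1 (hs i)).2))
      f1).mono ?_ hr2 (fun _ h => h)
    refine le_trans ?_ (num_M2 L hL1)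
    rw [div_le_iff₀ pB2]
    calc ((294912 * K ^ 6) ^ 7) ^ 2 * (tr (x3 + ∑ _i : Fin 6, x4) C3).card
        ≤ ((294912 * K ^ 6) ^ 7) ^ 2 * (2 * (8 * K * D2.card)) := by
          have := cX3.trans (mul_le_mul_of_nonneg_left cB2 (by norm_num))
          gcongr
      _ = ((294912 * K ^ 6) ^ 7) ^ 2 * (16 * K) * D2.card := by ring
  obtain ⟨t, ht1, ht2⟩ := num_t L hL1
  obtain ⟨T', hT'1, hT'2, hT'3⟩ := num_T m ρ hρ hρ1
  obtain ⟨S, hS, cS, hrel⟩ := rnd sep Q m G g B5 _ _ T' t hT'1 (by positivity) hT'2 ht1 f2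
  have hSB' : S ⊆ B' := fun s hs => (mem_inter.1 (mem_inter.1 (hS hs)).1).1
  refine ⟨x4, S, fun s hs => ?_, fun s hs => (mem_inter.1 (hS hs)).2, fun s hs => hB' (hSB' hs),
    ?_, fun z hz => (hrel z hz).trans hT'3⟩
  · obtain ⟨a, ha⟩ := hU s (hSB' hs)
    exact ha.1
  · have cS' : (B5.card : ℝ) ≤ 1200 ^ t * S.card := by exact_mod_cast cS
    calc (B4.card : ℝ) ≤ 16 * K * (1200 ^ t * S.card) := cB5.trans (by gcongr)
      _ = 16 * K * 1200 ^ t * S.card := by ring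
      _ ≤ Real.exp (7000 * L) * S.card := by gcongr

/-- distance to the nearest integer -/
noncomputable def dz (x : ℝ) : ℝ := |x - round x|

theorem dz_le (x : ℝ) (n : ℤ) : dz x ≤ |x - n| := round_le x n

theorem dz_add (x y : ℝ) : dz (x + y) ≤ dz x + dz y :=
  (dz_le _ (round x + round y)).trans (by
    rw [Int.cast_add, add_sub_add_comm]; exact abs_add_le _ _)

theorem dz_abs (x : ℝ) : dz x ≤ |x| := by simpa using dz_le x 0

theorem dz_near (x y : ℝ) : dz x ≤ dz y + |x - y| := by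
  simpa using (dz_add y (x - y)).trans (add_le_add le_rfl (dz_abs _))

theorem nm_dz {Q : ℕ} [Fact Q.Prime] (k : ℤ) : nm (k : ZMod Q) = dz (k / Q) := by
  have hQ := Qpos (Q := Q)
  refine le_antisymm ?_ ?_
  · have := nm_cast_le (Q := Q) (k - Q * round ((k : ℝ) / Q))
    simp only [Int.cast_sub, Int.cast_mul, Int.cast_natCast, ZMod.natCast_self, zero_mul,
      sub_zero] at this
    refine this.trans (le_of_eq ?_)
    rw [dz, ← abs_of_pos hQ, ← abs_div, abs_of_pos hQ]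
    congr 1
    field_simp
  · obtain ⟨c, hc⟩ := (ZMod.intCast_eq_intCast_iff_dvd_sub _ _ Q).1
      (ZMod.coe_valMinAbs (k : ZMod Q))
    refine (dz_le _ c).trans (le_of_eq ?_)
    have : (k : ℝ) - ((k : ZMod Q).valMinAbs : ℝ) = Q * c := by exact_mod_cast hc
    rw [nm, ← abs_of_pos hQ, ← abs_div, abs_of_pos hQ]
    congr 1
    field_simp
    linarith

theorem rd (Q : ℕ) [Fact Q.Prime] (x : ℝ) : |(round (Q * x) : ℝ) / Q - x| ≤ 1 / Q := by
  have hQ := Qpos (Q := Q)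
  rw [show (round (Q * x) : ℝ) / Q - x = -(Q * x - round (Q * x)) / Q by field_simp; ring, abs_div,
    abs_neg, abs_of_pos hQ]
  exact div_le_div_of_nonneg_right ((abs_sub_round _).trans (by norm_num)) hQ.le

/-- a dense relation gives a dense set on which all relations of six terms nearly hold -/
theorem mfr {m : ℕ} {B1 B2 B3 B4 C1 C2 C3 : Finset G} (h : Nest B1 B2 B3 B4 C1 C2 C3)
    (f g ζ : G → Fin m → ℝ) (U : G → Prop) (y0 : G) (ρ L : ℝ) (hL1 : 1 ≤ L) (hρ : 0 < ρ)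
    (hρ1 : 200000 * ((m : ℝ) + 1) ^ 2 * ρ ≤ 1)
    (hcount : (B1.card : ℝ) * B2.card ≤ Real.exp L * ((B1 ×ˢ tr y0 B2).filter
      (fun p => U p.2 ∧ ∀ i, dz (f p.1 i + g p.2 i - ζ (p.1 + p.2) i) ≤ ρ)).card) :
    ∃ (x : G) (S : Finset G), (∀ s ∈ S, U s) ∧ S ⊆ tr x B4 ∧ S ⊆ tr y0 B2 ∧
      (B4.card : ℝ) ≤ Real.exp (7000 * L) * S.card ∧
      ∀ s t : Fin 6 → G, (∀ k, s k ∈ S) → (∀ k, t k ∈ S) → ∑ k, s k = ∑ k, t k →
        ∀ i, dz (∑ k, g (s k) i - ∑ k, g (t k) i) ≤ 50000 * ((m : ℝ) + 1) ^ 2 * ρ := by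
  obtain ⟨Q, hQ1, hQ2⟩ := Nat.exists_infinite_primes ⌈12 / ρ⌉₊
  haveI : Fact Q.Prime := ⟨hQ2⟩
  have hQ := Qpos (Q := Q)
  have q : 12 * (1 / (Q : ℝ)) ≤ ρ := by
    have := (Nat.le_ceil _).trans (Nat.cast_le.2 hQ1 : (⌈12 / ρ⌉₊ : ℝ) ≤ Q)
    rw [div_le_iff₀ hρ] at this
    rw [mul_one_div, div_le_iff₀ hQ]
    linarith
  have q0 : 0 < 1 / (Q : ℝ) := by positivity
  let d : (G → Fin m → ℝ) → G → V Q m := fun F a i => (round (Q * F a i) : ℤ)
  obtain ⟨x, S, h1, h2, h3, h4, h5⟩ := core h (d f) (d g) (d ζ) U y0 (2 * ρ) L hL1 (by positivity)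
    (by linarith) (hcount.trans (mul_le_mul_of_nonneg_left (Nat.cast_le.2 (card_le_card
      fun p hp => by
        obtain ⟨a, b, c⟩ := mem_filter.1 hp
        refine mem_filter.2 ⟨a, b, (sn_le_iff (by positivity)).2 fun i => ?_⟩
        have e : (d f p.1 + d g p.2 - d ζ (p.1 + p.2)) i = ((round (Q * f p.1 i) +
          round (Q * g p.2 i) - round (Q * ζ (p.1 + p.2) i) : ℤ) : ZMod Q) := by simp [d]
        rw [e, nm_dz]
        refine (dz_near _ (f p.1 i + g p.2 i - ζ (p.1 + p.2) i)).trans ?_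
        have a1 := abs_le.1 (rd Q (f p.1 i))
        have a2 := abs_le.1 (rd Q (g p.2 i))
        have a3 := abs_le.1 (rd Q (ζ (p.1 + p.2) i))
        have := c i
        push_cast
        rw [sub_div, add_div]
        refine le_trans (add_le_add this (abs_le.2 ⟨?_, ?_⟩)) (two_mul ρ).ge <;> linarith))
      (Real.exp_pos _).le))
  refine ⟨x, S, h1, h2, h3, h4, fun s t hs ht e i => ?_⟩
  have a := (nm_le_sn _ i).trans (h5 _ ⟨s, t, hs, ht, e, rfl⟩)
  have e1 : (∑ k, d g (s k) - ∑ k, d g (t k)) i = ((∑ k, round (Q * g (s k) i) -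
    ∑ k, round (Q * g (t k) i) : ℤ) : ZMod Q) := by simp [d, Finset.sum_apply]
  rw [e1, nm_dz] at a
  have b : ∀ u : Fin 6 → G, |∑ k, (round (Q * g (u k) i) : ℝ) / Q - ∑ k, g (u k) i| ≤
      6 * (1 / Q) := fun u => by
    rw [← sum_sub_distrib]
    exact (abs_sum_le_sum_abs _ _).trans ((sum_le_card_nsmul _ _ _ fun k _ => rd Q _).trans
      (by simp))
  have b1 := abs_le.1 (b s)
  have b2 := abs_le.1 (b t)
  refine (dz_near _ _).trans (le_trans (add_le_add a (show _ ≤ ρ from abs_le.2 ⟨?_, ?_⟩)) ?_)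
  · push_cast; rw [sub_div, sum_div, sum_div]; linarith
  · push_cast; rw [sub_div, sum_div, sum_div]; linarith
  · nlinarith [mul_nonneg (by positivity : (0 : ℝ) ≤ m ^ 2 + 2 * m) hρ.le]

end Vale.Agent.P057T.Mfr
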