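import Vale.Agent.P057T.GauH52

/-!
Random characters for a torus `ℝ^ι / ℤ^ι` with the norm `|M x|`: a few short integer vectors
separate a finite list of far points from zero; passing to popular arcs turns finitely many
clusters of signed sums into one ball around zero.
-/

open Complex Matrix Finset
open scoped Real
open Vale.Agent.P267.H775 Vale.Agent.P057T.Poi

namespace Vale.Agent.P057T.Rnd

noncomputable section

set_option linter.unusedSectionVars false

variable {ι : Type*} [Fintype ι] [DecidableEq ι]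

/-- `k · x`. -/
def dk (k : ι → ℤ) (x : ι → ℝ) : ℝ := ∑ i, (k i : ℝ) * x i

/-- The real number `y` is at least `1/10` away from the integers. -/
def Far (y : ℝ) : Prop := ∀ z : ℤ, 1 / 10 ≤ |y - z|

theorem num (d : ℕ) : Real.exp (-(3 / 4 * π * (d + 4))) * 2 ^ d ≤ 1 / 20 := by
  have h2 : (2 : ℝ) ^ d ≤ Real.exp d := by
    have : (2 : ℝ) ≤ Real.exp 1 := by
      have := Real.add_one_le_exp (1 : ℝ)
      linarith
    calc (2 : ℝ) ^ d ≤ Real.exp 1 ^ d := pow_le_pow_left₀ (by norm_num) this d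
      _ = Real.exp d := by rw [← Real.exp_nat_mul, mul_one]
  have hpi := Real.pi_gt_three
  have hd : (0 : ℝ) ≤ d := Nat.cast_nonneg d
  have h3 : Real.exp (-(3 / 4 * π * (d + 4))) * Real.exp d ≤ Real.exp (-9) := by
    rw [← Real.exp_add, Real.exp_le_exp]
    nlinarith
  have h4 : Real.exp (-9) ≤ 1 / 20 := by
    have h5 : (20 : ℝ) ≤ Real.exp 9 := by
      have h6 := Real.add_one_le_exp (9 / 2 : ℝ)
      have h7 : Real.exp 9 = Real.exp (9 / 2) * Real.exp (9 / 2) := by
        rw [← Real.exp_add]; norm_num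
      nlinarith
    rw [Real.exp_neg, inv_eq_one_div]
    exact one_div_le_one_div_of_le (by norm_num) h5
  calc _ ≤ Real.exp (-(3 / 4 * π * (d + 4))) * Real.exp d :=
        mul_le_mul_of_nonneg_left h2 (Real.exp_pos _).le
    _ ≤ _ := h3.trans h4

theorem cos_ge {y : ℝ} (h : ¬ Far y) : 7 / 10 ≤ Real.cos (2 * π * y) := by
  unfold Far at h
  push Not at h
  obtain ⟨z, hz⟩ := h
  have e : Real.cos (2 * π * y) = Real.cos (2 * π * (y - z)) := by
    have : 2 * π * y = 2 * π * (y - z) + z * (2 * π) := by ring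
    rw [this, Real.cos_add_int_mul_two_pi]
  rw [e]
  have h1 := Real.one_sub_sq_div_two_le_cos (x := 2 * π * (y - z))
  have hpi := Real.pi_lt_d2
  have hp0 := Real.pi_pos
  have h2 : (y - z) ^ 2 ≤ 1 / 100 := by
    have := abs_lt.1 hz
    nlinarith
  have h3 : π ^ 2 ≤ 10 := by nlinarith
  have h4 : (2 * π * (y - z)) ^ 2 = 4 * (π ^ 2 * (y - z) ^ 2) := by ring
  have h5 : π ^ 2 * (y - z) ^ 2 ≤ 10 * (1 / 100) :=
    mul_le_mul h3 h2 (sq_nonneg _) (by norm_num)
  linarith

theorem sub {D : Matrix ι ι ℝ} (hD : D.det ≠ 0) (p : (ι → ℤ) → Prop) [DecidablePred p] :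
    Summable fun k : ι → ℤ => if p k then gq D (toR k) else 0 := by
  have hs : Summable fun k : ι → ℤ => gq D (toR k) := by
    simpa using summable_gq hD 0
  refine Summable.of_nonneg_of_le (fun k => ?_) (fun k => ?_) hs
  · split_ifs
    exacts [(gq_pos _ _).le, le_rfl]
  · split_ifs
    exacts [le_rfl, (gq_pos _ _).le]

theorem re_ec (k : ι → ℤ) (v : ι → ℝ) : (ec (toR k) v).re = Real.cos (2 * π * dk k v) := by
  unfold ec dk
  have : (2 * π * I * ((∑ i, toR k i * v i : ℝ) : ℂ)) =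
      ((2 * π * ∑ i, (k i : ℝ) * v i : ℝ) : ℂ) * I := by
    simp only [toR_apply]
    push_cast
    ring
  rw [this, exp_ofReal_mul_I_re]

theorem hre {B : Matrix ι ι ℝ} (hB : B.det ≠ 0) (v : ι → ℝ) :
    HasSum (fun k : ι → ℤ => gq (B⁻¹)ᵀ (toR k) * Real.cos (2 * π * dk k v))
      (|B.det| * th B v) := by
  have h := Complex.hasSum_re (poi0 hB v)
  rw [ofReal_re] at h
  have e : (fun k : ι → ℤ => ((gq (B⁻¹)ᵀ (toR k) : ℂ) * ec (toR k) v).re) =
      fun k : ι → ℤ => gq (B⁻¹)ᵀ (toR k) * Real.cos (2 * π * dk k v) := by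
    funext k
    rw [re_ofReal_mul, re_ec]
  rw [e] at h
  exact h

open Classical in
/-- A far point is caught by a quarter of the Gaussian mass of the short characters. -/
theorem mass {B : Matrix ι ι ℝ} (hB : B.det ≠ 0) (v : ι → ℝ)
    (hv : ∀ n : ι → ℤ, (Fintype.card ι : ℝ) + 4 ≤ qf B (v + toR n)) :
    th (B⁻¹)ᵀ 0 ≤ 4 * ∑' k : ι → ℤ,
      (if qf (B⁻¹)ᵀ (toR k) ≤ (Fintype.card ι : ℝ) + 4 ∧ Far (dk k v) then
        gq (B⁻¹)ᵀ (toR k) else 0) := by
  set D := (B⁻¹)ᵀ with hD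
  set K : ℝ := (Fintype.card ι : ℝ) + 4 with hK
  have hDd : D.det ≠ 0 := det_dual hB
  have hs : Summable fun k : ι → ℤ => gq D (toR k) := by
    simpa using summable_gq hDd 0
  have hZ : th D 0 = ∑' k : ι → ℤ, gq D (toR k) := th_zero D
  have hZ0 : 0 < th D 0 := th_pos hDd 0
  have hre : HasSum (fun k : ι → ℤ => gq D (toR k) * Real.cos (2 * π * dk k v))
      (|B.det| * th B v) := hre hB v
  have hb : |B.det| * th B v ≤ 1 / 20 * th D 0 := by
    have h1 := th_le_of_far hB v hv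
    have h2 := num (Fintype.card ι)
    have h3 := th_pos hB 0
    rw [hD, th_dual hB]
    have h4 : th B v ≤ 1 / 20 * th B 0 := h1.trans (mul_le_mul_of_nonneg_right h2 h3.le)
    have h5 := abs_nonneg B.det
    nlinarith
  have ht : ∑' k : ι → ℤ, (if K ≤ qf D (toR k) then gq D (toR k) else 0) ≤ 1 / 20 * th D 0 := by
    have h1 := tail_le hDd 0 K
    simp only [zero_add] at h1
    exact h1.trans (mul_le_mul_of_nonneg_right (num (Fintype.card ι)) hZ0.le)
  have s1 := sub hDd fun k => qf D (toR k) ≤ K ∧ Far (dk k v)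
  have s2 := sub hDd fun k => K ≤ qf D (toR k)
  have key : ∀ k : ι → ℤ, 7 / 10 * gq D (toR k) ≤
      gq D (toR k) * Real.cos (2 * π * dk k v) +
        17 / 10 * ((if qf D (toR k) ≤ K ∧ Far (dk k v) then gq D (toR k) else 0) +
          (if K ≤ qf D (toR k) then gq D (toR k) else 0)) := by
    intro k
    have g0 := gq_pos D (toR k)
    have c1 := Real.neg_one_le_cos (2 * π * dk k v)
    by_cases hf : Far (dk k v)
    · by_cases hq : qf D (toR k) ≤ K
      · rw [if_pos ⟨hq, hf⟩]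
        have : 0 ≤ (if K ≤ qf D (toR k) then gq D (toR k) else 0) := by
          split_ifs
          exacts [g0.le, le_rfl]
        nlinarith
      · rw [if_neg (fun h => hq h.1), if_pos (le_of_lt (not_le.1 hq))]
        nlinarith
    · have c2 := cos_ge hf
      rw [if_neg (fun h => hf h.2)]
      have : 0 ≤ (if K ≤ qf D (toR k) then gq D (toR k) else 0) := by
        split_ifs
        exacts [g0.le, le_rfl]
      nlinarith
  have fin := hasSum_le key (hs.hasSum.mul_left (7 / 10))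
    (hre.add ((s1.hasSum.add s2.hasSum).mul_left (17 / 10)))
  rw [← hZ] at fin
  linarith

open Classical in
theorem one {B : Matrix ι ι ℝ} (hB : B.det ≠ 0) {J : Type*} (s : Finset J) (v : J → ι → ℝ)
    (hv : ∀ j ∈ s, ∀ n : ι → ℤ, (Fintype.card ι : ℝ) + 4 ≤ qf B (v j + toR n)) :
    ∃ k : ι → ℤ, qf (B⁻¹)ᵀ (toR k) ≤ (Fintype.card ι : ℝ) + 4 ∧
      s.card ≤ 4 * (s.filter fun j => Far (dk k (v j))).card := by
  set D := (B⁻¹)ᵀ with hD
  set K : ℝ := (Fintype.card ι : ℝ) + 4 with hK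
  have hDd : D.det ≠ 0 := det_dual hB
  have hK0 : 0 ≤ K := by positivity
  rcases s.eq_empty_or_nonempty with rfl | hne
  · exact ⟨0, by rw [toR_zero, qf_zero]; exact hK0, by simp⟩
  by_contra hc
  push Not at hc
  have hs : Summable fun k : ι → ℤ => gq D (toR k) := by
    simpa using summable_gq hDd 0
  have hZ : th D 0 = ∑' k : ι → ℤ, gq D (toR k) := th_zero D
  have hZ0 : 0 < th D 0 := th_pos hDd 0
  have h1 : HasSum (fun k : ι → ℤ => ∑ j ∈ s,
      (if qf D (toR k) ≤ K ∧ Far (dk k (v j)) then gq D (toR k) else 0))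
      (∑ j ∈ s, ∑' k : ι → ℤ,
        (if qf D (toR k) ≤ K ∧ Far (dk k (v j)) then gq D (toR k) else 0)) :=
    hasSum_sum fun j _ => (sub hDd fun k => qf D (toR k) ≤ K ∧ Far (dk k (v j))).hasSum
  have h2 : ∀ k : ι → ℤ, ∑ j ∈ s,
      (if qf D (toR k) ≤ K ∧ Far (dk k (v j)) then gq D (toR k) else 0) ≤
        ((s.card : ℝ) - 1) / 4 * gq D (toR k) := by
    intro k
    have g0 := gq_pos D (toR k)
    have c1 : (1 : ℝ) ≤ s.card := by exact_mod_cast hne.card_pos
    by_cases hq : qf D (toR k) ≤ K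
    · simp only [hq, true_and]
      rw [← Finset.sum_filter, Finset.sum_const, nsmul_eq_mul]
      have h3 : 4 * (s.filter fun j => Far (dk k (v j))).card + 1 ≤ s.card := hc k hq
      have h4 : (4 : ℝ) * (s.filter fun j => Far (dk k (v j))).card + 1 ≤ s.card := by
        exact_mod_cast h3
      exact mul_le_mul_of_nonneg_right (by linarith) g0.le
    · simp only [hq, false_and, if_false, Finset.sum_const_zero]
      exact mul_nonneg (by linarith) g0.le
  have h3 := hasSum_le h2 h1 (hs.hasSum.mul_left _)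
  rw [← hZ] at h3
  have h4 : ∑ _j ∈ s, th D 0 ≤ ∑ j ∈ s, 4 * ∑' k : ι → ℤ,
      (if qf D (toR k) ≤ K ∧ Far (dk k (v j)) then gq D (toR k) else 0) :=
    Finset.sum_le_sum fun j hj => mass hB (v j) (hv j hj)
  rw [Finset.sum_const, nsmul_eq_mul, ← Finset.mul_sum] at h4
  nlinarith

open Classical in
/-- `t` short characters catch all far points of a list of fewer than `(4/3)^t` points. -/
theorem many {B : Matrix ι ι ℝ} (hB : B.det ≠ 0) {J : Type*} (v : J → ι → ℝ) (t : ℕ) :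
    ∀ s : Finset J, s.card * 3 ^ t < 4 ^ t →
      (∀ j ∈ s, ∀ n : ι → ℤ, (Fintype.card ι : ℝ) + 4 ≤ qf B (v j + toR n)) →
      ∃ k : Fin t → ι → ℤ, (∀ l, qf (B⁻¹)ᵀ (toR (k l)) ≤ (Fintype.card ι : ℝ) + 4) ∧
        ∀ j ∈ s, ∃ l, Far (dk (k l) (v j)) := by
  induction t with
  | zero =>
    intro s hs _
    have : s = ∅ := by
      rw [← Finset.card_eq_zero]
      simpa using hs
    subst this
    exact ⟨fun l => l.elim0, fun l => l.elim0, by simp⟩
  | succ t ih =>
    intro s hs hv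
    obtain ⟨k0, hk0, hc⟩ := one hB s v hv
    have hadd := Finset.card_filter_add_card_filter_not (s := s) (fun j => Far (dk k0 (v j)))
    obtain ⟨k, hk, hj⟩ := ih (s.filter fun j => ¬ Far (dk k0 (v j))) (by
      have h1 : 4 * (s.filter fun j => ¬ Far (dk k0 (v j))).card ≤ 3 * s.card := by omega
      rw [pow_succ, pow_succ] at hs
      nlinarith [Nat.zero_le (3 ^ t)]) (fun j hj => hv j (Finset.mem_filter.1 hj).1)
    refine ⟨Fin.cons k0 k, fun l => Fin.cases hk0 hk l, fun j hjs => ?_⟩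
    by_cases hf : Far (dk k0 (v j))
    · exact ⟨0, hf⟩
    · obtain ⟨l, hl⟩ := hj j (Finset.mem_filter.2 ⟨hjs, hf⟩)
      exact ⟨l.succ, hl⟩

theorem dk_add (k : ι → ℤ) (x y : ι → ℝ) : dk k (x + y) = dk k x + dk k y := by
  simp only [dk, Pi.add_apply, mul_add, Finset.sum_add_distrib]

theorem dk_sub (k : ι → ℤ) (x y : ι → ℝ) : dk k (x - y) = dk k x - dk k y := by
  simp only [dk, Pi.sub_apply, mul_sub, Finset.sum_sub_distrib]

theorem dk_toR (k n : ι → ℤ) : dk k (toR n) = ((∑ i, k i * n i : ℤ) : ℝ) := by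
  simp only [dk, toR_apply]
  push_cast
  rfl

theorem dk_sum {ρ : Type*} [Fintype ρ] (k : ι → ℤ) (σ : ρ → ℤ) (x : ρ → ι → ℝ) :
    dk k (∑ a, (σ a : ℝ) • x a) = ∑ a, (σ a : ℝ) * dk k (x a) := by
  simp only [dk, Finset.sum_apply, Pi.smul_apply, smul_eq_mul, Finset.mul_sum]
  rw [Finset.sum_comm]
  refine Finset.sum_congr rfl fun a _ => Finset.sum_congr rfl fun i _ => ?_
  ring

/-- Weighted pigeonhole. -/
theorem pig {α γ : Type*} [Fintype γ] [DecidableEq γ] [Nonempty γ] (E : Finset α) (μ : α → ℝ)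
    (c : α → γ) : ∃ g, ∑ x ∈ E, μ x ≤ Fintype.card γ * ∑ x ∈ E.filter fun x => c x = g, μ x := by
  by_contra h
  push Not at h
  have h1 : ∑ g : γ, ∑ x ∈ E.filter fun x => c x = g, μ x = ∑ x ∈ E, μ x :=
    Finset.sum_fiberwise E c μ
  have h2 : ∑ g : γ, (Fintype.card γ : ℝ) * ∑ x ∈ E.filter fun x => c x = g, μ x <
      ∑ _g : γ, ∑ x ∈ E, μ x :=
    Finset.sum_lt_sum_of_nonempty Finset.univ_nonempty fun g _ => h g
  rw [← Finset.mul_sum, h1, Finset.sum_const, nsmul_eq_mul, Finset.card_univ] at h2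
  exact lt_irrefl _ h2

/-- The arc of a real number modulo one. -/
def arc (r : ℕ) (y : ℝ) : Fin (r + 1) :=
  ⟨min ⌊((r : ℝ) + 1) * Int.fract y⌋₊ r, Nat.lt_succ_of_le (min_le_right _ _)⟩

theorem arc_spec (r : ℕ) (y : ℝ) :
    |Int.fract y - (arc r y : ℝ) / (r + 1)| ≤ 1 / (r + 1) := by
  have h0 : (0 : ℝ) < r + 1 := by positivity
  have f0 := Int.fract_nonneg y
  have f1 := Int.fract_lt_one y
  have hn : 0 ≤ ((r : ℝ) + 1) * Int.fract y := mul_nonneg h0.le f0
  have hl : ⌊((r : ℝ) + 1) * Int.fract y⌋₊ ≤ r := by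
    apply Nat.le_of_lt_succ
    rw [Nat.floor_lt hn]
    push_cast
    nlinarith
  have e : ((arc r y : ℕ) : ℝ) = (⌊((r : ℝ) + 1) * Int.fract y⌋₊ : ℝ) := by
    simp only [arc, min_eq_left hl]
  have a1 := Nat.floor_le hn
  have a2 := Nat.lt_floor_add_one (((r : ℝ) + 1) * Int.fract y)
  rw [e]
  have e2 : Int.fract y - (⌊((r : ℝ) + 1) * Int.fract y⌋₊ : ℝ) / (r + 1) =
      (((r : ℝ) + 1) * Int.fract y - (⌊((r : ℝ) + 1) * Int.fract y⌋₊ : ℝ)) / (r + 1) := by
    field_simp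
  rw [e2, abs_div, abs_of_pos h0]
  refine div_le_div_of_nonneg_right ?_ h0.le
  rw [abs_le]
  constructor <;> linarith

open Classical in
/-- **Clusters to one ball.** If all signed sums over related tuples of `E` lie within `e` of one
of fewer than `(4/3)^t` centres modulo the lattice, then on a subset of relative weight
`(50 r + 1)^(-t)` they all lie within `100 (d + 4) e` of the lattice. -/
theorem clus {M : Matrix ι ι ℝ} (hM : M.det ≠ 0) {α ρ J : Type*} [Fintype ρ] (E : Finset α)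
    (μ : α → ℝ) (A : α → ι → ℝ) (σ : ρ → ℤ) (r : ℕ) (hσ : ∑ a, σ a = 0)
    (hr : ∑ a, |σ a| ≤ r) (Rel : (ρ → α) → Prop) (s : Finset J) (v : J → ι → ℝ) (t : ℕ)
    (ht : s.card * 3 ^ t < 4 ^ t) {e : ℝ} (he : 0 < e)
    (hc : ∀ x : ρ → α, (∀ a, x a ∈ E) → Rel x → ∃ j ∈ s, ∃ n : ι → ℤ,
      qf M (∑ a, (σ a : ℝ) • A (x a) - v j + toR n) ≤ e ^ 2) :
    ∃ E' ⊆ E, ∑ x ∈ E, μ x ≤ (50 * r + 1) ^ t * ∑ x ∈ E', μ x ∧
      ∀ x : ρ → α, (∀ a, x a ∈ E') → Rel x → ∃ n : ι → ℤ,
        qf M (∑ a, (σ a : ℝ) • A (x a) + toR n) ≤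
          (100 * ((Fintype.card ι : ℝ) + 4) * e) ^ 2 := by
  set K : ℝ := (Fintype.card ι : ℝ) + 4 with hK
  have hK4 : 4 ≤ K := by
    have : (0 : ℝ) ≤ Fintype.card ι := Nat.cast_nonneg _
    linarith
  have hK0 : 0 < K := by linarith
  set w : ℝ := (50 * Real.sqrt K * e)⁻¹ with hw
  have hsq : 0 < Real.sqrt K := Real.sqrt_pos.2 hK0
  have hw0 : 0 < w := by positivity
  have hw2 : w ^ 2 * (2500 * K * e ^ 2) = 1 := by
    rw [hw, inv_pow, mul_pow, mul_pow, Real.sq_sqrt hK0.le]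
    field_simp
    norm_num
  have hB : (w • M).det ≠ 0 := det_smul_ne hw0.ne' hM
  set s1 := s.filter fun j => ∀ n : ι → ℤ, K ≤ qf (w • M) (v j + toR n) with hs1
  have hcard : s1.card * 3 ^ t < 4 ^ t :=
    lt_of_le_of_lt (Nat.mul_le_mul_right _ (Finset.card_filter_le _ _)) ht
  obtain ⟨k, hk, hj⟩ := many hB v t s1 hcard fun j hj => (Finset.mem_filter.1 hj).2
  obtain ⟨g, hg⟩ := pig E μ fun x => fun l : Fin t => arc (50 * r) (dk (k l) (A x))
  refine ⟨E.filter fun x => (fun l : Fin t => arc (50 * r) (dk (k l) (A x))) = g,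
    Finset.filter_subset _ _, ?_, fun x hx hR => ?_⟩
  · simp only [Fintype.card_pi, Fintype.card_fin, Finset.prod_const, Finset.card_univ] at hg
    push_cast at hg
    exact hg
  · obtain ⟨j, hjs, n, hn⟩ := hc x (fun a => (Finset.mem_filter.1 (hx a)).1) hR
    have hnf : ¬ ∀ n : ι → ℤ, K ≤ qf (w • M) (v j + toR n) := by
      intro hfar
      obtain ⟨l, hl⟩ := hj j (Finset.mem_filter.2 ⟨hjs, hfar⟩)
      set y := ∑ a, (σ a : ℝ) • A (x a) - v j + toR n with hy
      have b1 : dk (k l) y ^ 2 ≤ (1 / 50) ^ 2 := by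
        have h1 := dot_sq_le hB (toR (k l)) y
        have h2 : qf (w • M) y ≤ w ^ 2 * e ^ 2 := by
          rw [qf_smul]
          exact mul_le_mul_of_nonneg_left hn (sq_nonneg _)
        have h3 : qf ((w • M)⁻¹)ᵀ (toR (k l)) * qf (w • M) y ≤ K * (w ^ 2 * e ^ 2) :=
          mul_le_mul (hk l) h2 (qf_nonneg _ _) hK0.le
        have h4 : dk (k l) y = ∑ i, toR (k l) i * y i := rfl
        rw [h4]
        nlinarith
      have b2 : |dk (k l) y| ≤ 1 / 50 := abs_le_of_sq_le_sq b1 (by norm_num)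
      set c : ℝ := ((g l : ℕ) : ℝ) / (((50 * r : ℕ) : ℝ) + 1) with hcd
      have b3 : ∀ a, |Int.fract (dk (k l) (A (x a))) - c| ≤ 1 / (((50 * r : ℕ) : ℝ) + 1) := by
        intro a
        have h1 := arc_spec (50 * r) (dk (k l) (A (x a)))
        have h2 := congrFun (Finset.mem_filter.1 (hx a)).2 l
        rwa [h2] at h1
      have b4 : |∑ a, (σ a : ℝ) * (Int.fract (dk (k l) (A (x a))) - c)| ≤ 1 / 50 := by
        refine (Finset.abs_sum_le_sum_abs _ _).trans ?_
        have h1 : ∑ a, |(σ a : ℝ) * (Int.fract (dk (k l) (A (x a))) - c)| ≤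
            ∑ a, |(σ a : ℝ)| * (1 / (((50 * r : ℕ) : ℝ) + 1)) := by
          refine Finset.sum_le_sum fun a _ => ?_
          rw [abs_mul]
          exact mul_le_mul_of_nonneg_left (b3 a) (abs_nonneg _)
        rw [← Finset.sum_mul] at h1
        have h2 : ∑ a, |(σ a : ℝ)| ≤ r := by exact_mod_cast hr
        have h3 : (0 : ℝ) ≤ r := Nat.cast_nonneg r
        refine h1.trans ((mul_le_mul_of_nonneg_right h2 (by positivity)).trans ?_)
        push_cast
        rw [mul_one_div, div_le_div_iff₀ (by positivity) (by norm_num)]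
        linarith
      have b5 : ∑ a, (σ a : ℝ) * dk (k l) (A (x a)) =
          ((∑ a, σ a * ⌊dk (k l) (A (x a))⌋ : ℤ) : ℝ) +
            ∑ a, (σ a : ℝ) * (Int.fract (dk (k l) (A (x a))) - c) := by
        have h0 : ∑ a, (σ a : ℝ) * c = 0 := by
          rw [← Finset.sum_mul]
          have : ∑ a, (σ a : ℝ) = 0 := by exact_mod_cast hσ
          rw [this, zero_mul]
        simp only [mul_sub, Finset.sum_sub_distrib, h0, sub_zero]
        push_cast
        rw [← Finset.sum_add_distrib]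
        refine Finset.sum_congr rfl fun a _ => ?_
        rw [← mul_add, Int.floor_add_fract]
      have b6 : dk (k l) y = ∑ a, (σ a : ℝ) * dk (k l) (A (x a)) - dk (k l) (v j) +
          ((∑ i, k l i * n i : ℤ) : ℝ) := by
        rw [hy, dk_add, dk_sub, dk_sum, dk_toR]
      have b7 := hl (∑ a, σ a * ⌊dk (k l) (A (x a))⌋ + ∑ i, k l i * n i)
      rw [Int.cast_add] at b7
      have b8 := abs_le.1 b2
      have b9 := abs_le.1 b4
      have b10 : |dk (k l) (v j) - (((∑ a, σ a * ⌊dk (k l) (A (x a))⌋ : ℤ) : ℝ) +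
          ((∑ i, k l i * n i : ℤ) : ℝ))| ≤ 1 / 25 := by
        rw [abs_le]
        constructor <;> linarith [b8.1, b8.2, b9.1, b9.2]
      linarith
    push Not at hnf
    obtain ⟨m, hm⟩ := hnf
    refine ⟨n + m, ?_⟩
    have e1 : ∑ a, (σ a : ℝ) • A (x a) + toR (n + m) =
        (∑ a, (σ a : ℝ) • A (x a) - v j + toR n) + (v j + toR m) := by
      ext i
      simp only [Pi.add_apply, Pi.sub_apply, toR_apply]
      push_cast
      ring
    rw [e1]
    refine (qf_add_le M _ _).trans ?_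
    rw [qf_smul] at hm
    have h1 : qf M (v j + toR m) ≤ 2500 * K ^ 2 * e ^ 2 := by
      have h2 : 0 < 2500 * K * e ^ 2 := by positivity
      have h3 := mul_lt_mul_of_pos_right hm h2
      have h4 : w ^ 2 * qf M (v j + toR m) * (2500 * K * e ^ 2) = qf M (v j + toR m) := by
        rw [mul_right_comm, hw2, one_mul]
      rw [h4] at h3
      nlinarith
    have h5 : e ^ 2 ≤ K ^ 2 * e ^ 2 := by
      have : 1 ≤ K ^ 2 := by nlinarith
      nlinarith [sq_nonneg e]
    nlinarith [mul_nonneg (sq_nonneg K) (sq_nonneg e)]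

end

end Vale.Agent.P057T.Rnd
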