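import Mathlib

/-!
Covering of a sheared window by small boxes.
-/

namespace Vale.Agent.P057T.Grid

open Finset

noncomputable section

variable {ι : Type} [Fintype ι] [DecidableEq ι] {X : Type*}

open Classical in
/-- a triangular window is covered by few boxes of radius `ρ` -/
theorem grid (V : Finset ι) (rk : ι → ℕ) (φ : (ι → ℝ) → ι → ℝ) {L ρ B : ℝ} (r : ι → ℝ)
    (hρ : 0 < ρ) (hL : 0 ≤ L) (hr : ∀ v ∈ V, 0 ≤ r v) (hB0 : 0 ≤ B)
    (hdep : ∀ x x' : ι → ℝ, ∀ v ∈ V, (∀ v' ∈ V, rk v' < rk v → x v' = x' v') → φ x v = φ x' v)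
    (hlip : ∀ x x' : ι → ℝ, (∀ v' ∈ V, |x v' - x' v'| ≤ ρ) → ∀ v ∈ V, |φ x v - φ x' v| ≤ L * ρ)
    (A : Finset X) (u : X → ι → ℝ) (hA : ∀ a ∈ A, ∀ v ∈ V, |u a v - φ (u a) v| ≤ r v)
    (hB : ∀ c : ι → ℝ, (∀ v, v ∉ V → c v = 0) → (∃ a ∈ A, ∀ v ∈ V, |u a v - c v| ≤ ρ) →
      ((A.filter (fun a => ∀ v ∈ V, |u a v - c v| ≤ ρ)).card : ℝ) ≤ B * ρ ^ V.card) :
    (A.card : ℝ) ≤ B * ∏ v ∈ V, (r v + (L + 2) * ρ) := by
  let j : X → ι → ℤ := fun a v => if v ∈ V then round (u a v / (2 * ρ)) else 0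
  let c : (ι → ℤ) → ι → ℝ := fun k v => 2 * ρ * k v
  let t : ι → ℝ := fun v => (r v / ρ + L + 1) / 2
  have h2 : (0 : ℝ) < 2 * ρ := by linarith
  have hc : ∀ a, ∀ v ∈ V, |u a v - c (j a) v| ≤ ρ := by
    intro a v hv
    have h1 := abs_sub_round (u a v / (2 * ρ))
    have e : u a v - c (j a) v = 2 * ρ * (u a v / (2 * ρ) - round (u a v / (2 * ρ))) := by
      simp only [c, j, if_pos hv]
      field_simp
    rw [e, abs_mul, abs_of_pos h2]
    nlinarith
  have ht : ∀ v ∈ V, 0 ≤ t v := fun v hv => by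
    have := div_nonneg (hr v hv) hρ.le
    simp only [t]; linarith
  let k : (ι → ℤ) → ι → ℤ := fun q v =>
    if v ∈ V then q v - ⌈φ (c q) v / (2 * ρ) - t v⌉ else 0
  let R : ι → Finset ℤ := fun v => if v ∈ V then Icc 0 ⌊2 * t v⌋ else {0}
  have hk : ∀ q ∈ A.image j, k q ∈ Fintype.piFinset R := by
    intro q hq
    obtain ⟨a, ha, rfl⟩ := mem_image.1 hq
    rw [Fintype.mem_piFinset]
    intro v
    by_cases hv : v ∈ V
    · simp only [k, R, if_pos hv, mem_Icc]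
      have h1 := abs_le.1 (hc a v hv)
      have h3 := abs_le.1 (hA a ha v hv)
      have h4 := abs_le.1 (hlip _ _ (hc a) v hv)
      have e : c (j a) v = 2 * ρ * j a v := rfl
      have e2 : 2 * ρ * t v = r v + L * ρ + ρ := by
        simp only [t]; field_simp
      have lo : φ (c (j a)) v / (2 * ρ) - t v ≤ j a v := by
        rw [sub_le_iff_le_add, div_le_iff₀ h2]
        nlinarith
      have hi : (j a v : ℝ) - t v ≤ φ (c (j a)) v / (2 * ρ) := by
        rw [le_div_iff₀ h2]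
        nlinarith
      constructor
      · have := Int.ceil_le.2 lo
        omega
      · rw [Int.le_floor]
        push_cast
        have := Int.le_ceil (φ (c (j a)) v / (2 * ρ) - t v)
        linarith
    · simp only [k, R, if_neg hv, mem_singleton]
  have hinj : Set.InjOn k (A.image j : Finset (ι → ℤ)) := by
    intro q hq q' hq' e
    obtain ⟨a, _, rfl⟩ := mem_image.1 (mem_coe.1 hq)
    obtain ⟨a', _, rfl⟩ := mem_image.1 (mem_coe.1 hq')
    have key : ∀ n, ∀ v ∈ V, rk v = n → j a v = j a' v := by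
      intro n
      induction n using Nat.strong_induction_on with
      | _ n ih =>
        intro v hv hn
        have h1 : φ (c (j a)) v = φ (c (j a')) v := hdep _ _ v hv fun v' hv' hlt => by
          simp only [c]
          rw [ih (rk v') (hn ▸ hlt) v' hv' rfl]
        have h3 := congrFun e v
        simp only [k, if_pos hv, h1] at h3
        omega
    funext v
    by_cases hv : v ∈ V
    · exact key _ v hv rfl
    · simp only [j, if_neg hv]
  have hN : ((A.image j).card : ℝ) ≤ ∏ v ∈ V, (2 * t v + 1) := by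
    have h1 := card_le_card_of_injOn k (fun q hq => mem_coe.2 (hk q (mem_coe.1 hq))) hinj
    rw [Fintype.card_piFinset] at h1
    have h3 : (∏ v, ((R v).card : ℝ)) = ∏ v ∈ V, ((R v).card : ℝ) := by
      symm
      apply prod_subset (subset_univ _)
      intro v _ hv
      simp only [R, if_neg hv, card_singleton, Nat.cast_one]
    calc ((A.image j).card : ℝ) ≤ ∏ v, ((R v).card : ℝ) := by exact_mod_cast h1
      _ = ∏ v ∈ V, ((R v).card : ℝ) := h3
      _ ≤ _ := by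
        apply prod_le_prod (fun _ _ => Nat.cast_nonneg _)
        intro v hv
        simp only [R, if_pos hv, Int.card_Icc, sub_zero]
        have h0 : 0 ≤ ⌊2 * t v⌋ := Int.floor_nonneg.2 (by linarith [ht v hv])
        have h5 : (((⌊2 * t v⌋ + 1).toNat : ℕ) : ℝ) = ((⌊2 * t v⌋ + 1 : ℤ) : ℝ) := by
          rw [← Int.cast_natCast, Int.toNat_of_nonneg (by omega)]
        rw [h5]
        push_cast
        linarith [Int.floor_le (2 * t v)]
  have hs : (A.card : ℝ) ≤ (A.image j).card * (B * ρ ^ V.card) := by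
    rw [card_eq_sum_card_image j A]
    push_cast
    rw [← nsmul_eq_mul]
    apply sum_le_card_nsmul
    intro q hq
    obtain ⟨a, ha, rfl⟩ := mem_image.1 hq
    refine le_trans ?_ (hB (c (j a)) (fun v hv => by simp only [c, j, if_neg hv]; simp)
      ⟨a, ha, hc a⟩)
    apply Nat.cast_le.2
    apply card_le_card
    intro a' ha'
    rw [mem_filter] at ha' ⊢
    exact ⟨ha'.1, fun v hv => ha'.2 ▸ hc a' v hv⟩
  refine hs.trans ?_
  have e : ∏ v ∈ V, (r v + (L + 2) * ρ) = (∏ v ∈ V, (2 * t v + 1)) * ρ ^ V.card := by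
    rw [← prod_const, ← prod_mul_distrib]
    apply prod_congr rfl
    intro v _
    simp only [t]; field_simp; ring
  rw [e]
  have := mul_le_mul_of_nonneg_right hN (mul_nonneg hB0 (pow_nonneg hρ.le V.card))
  linarith

/-- enlarging all radii a little -/
theorem prod_up (V : Finset ι) (r : ι → ℝ) {e θ : ℝ} (he : 0 ≤ e) (hθ : 0 ≤ θ)
    (hr : ∀ v ∈ V, e ≤ θ * r v) (h0 : ∀ v ∈ V, 0 ≤ r v) :
    ∏ v ∈ V, (r v + e) ≤ Real.exp (V.card * θ) * ∏ v ∈ V, r v := by
  have e1 : Real.exp (V.card * θ) = ∏ _v ∈ V, Real.exp θ := by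
    rw [prod_const, ← Real.exp_nat_mul]
  rw [e1, ← prod_mul_distrib]
  apply prod_le_prod (fun v hv => by linarith [h0 v hv])
  intro v hv
  have := Real.add_one_le_exp θ
  nlinarith [hr v hv, h0 v hv]

/-- shrinking all radii a little -/
theorem prod_down (V : Finset ι) (r : ι → ℝ) {e θ : ℝ} (hθ : 0 ≤ θ) (hθ1 : θ ≤ 1)
    (hr : ∀ v ∈ V, e ≤ θ * r v) (h0 : ∀ v ∈ V, 0 ≤ r v) :
    (1 - V.card * θ) * ∏ v ∈ V, r v ≤ ∏ v ∈ V, (r v - e) := by
  have h1 : (1 - V.card * θ) ≤ (1 - θ) ^ V.card := by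
    have := one_add_mul_le_pow (a := -θ) (by linarith) V.card
    simpa [sub_eq_add_neg] using this
  have h2 : (1 - θ) ^ V.card * ∏ v ∈ V, r v ≤ ∏ v ∈ V, (r v - e) := by
    rw [← prod_const, ← prod_mul_distrib]
    apply prod_le_prod (fun v hv => mul_nonneg (by linarith) (h0 v hv))
    intro v hv
    nlinarith [hr v hv]
  exact le_trans (mul_le_mul_of_nonneg_right h1 (prod_nonneg h0)) h2

theorem exp_le_two {x : ℝ} (h : x ≤ 1 / 2) : Real.exp x ≤ 2 := by
  have h1 : Real.exp x ≤ Real.exp (1 / 2) := Real.exp_le_exp.2 h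
  have h2 : Real.exp (1 / 2) * Real.exp (1 / 2) = Real.exp 1 := by rw [← Real.exp_add]; norm_num
  have h3 := Real.exp_one_lt_d9
  nlinarith [Real.exp_pos (1 / 2 : ℝ)]

open Classical in
/-- the form with the factor two -/
theorem grid2 (V : Finset ι) (rk : ι → ℕ) (φ : (ι → ℝ) → ι → ℝ) {L ρ B : ℝ} (r : ι → ℝ)
    (hρ : 0 < ρ) (hL : 0 ≤ L) (hr : ∀ v ∈ V, 2 * (V.card + 1) * (L + 2) * ρ ≤ r v) (hB0 : 0 ≤ B)
    (hdep : ∀ x x' : ι → ℝ, ∀ v ∈ V, (∀ v' ∈ V, rk v' < rk v → x v' = x' v') → φ x v = φ x' v)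
    (hlip : ∀ x x' : ι → ℝ, (∀ v' ∈ V, |x v' - x' v'| ≤ ρ) → ∀ v ∈ V, |φ x v - φ x' v| ≤ L * ρ)
    (A : Finset X) (u : X → ι → ℝ) (hA : ∀ a ∈ A, ∀ v ∈ V, |u a v - φ (u a) v| ≤ r v)
    (hB : ∀ c : ι → ℝ, (∀ v, v ∉ V → c v = 0) → (∃ a ∈ A, ∀ v ∈ V, |u a v - c v| ≤ ρ) →
      ((A.filter (fun a => ∀ v ∈ V, |u a v - c v| ≤ ρ)).card : ℝ) ≤ B * ρ ^ V.card) :
    (A.card : ℝ) ≤ 2 * B * ∏ v ∈ V, r v := by
  have hV : (0 : ℝ) < V.card + 1 := by positivity
  have he : 0 ≤ (L + 2) * ρ := by positivity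
  have h0 : ∀ v ∈ V, 0 ≤ r v := fun v hv => le_trans (by positivity) (hr v hv)
  refine (grid V rk φ r hρ hL h0 hB0 hdep hlip A u hA hB).trans ?_
  have h1 := prod_up V r (θ := 1 / (2 * (V.card + 1))) he (by positivity) (fun v hv => by
    rw [one_div, ← div_eq_inv_mul, le_div_iff₀ (by positivity)]
    linarith [hr v hv]) h0
  have h2 : Real.exp (V.card * (1 / (2 * (V.card + 1)))) ≤ 2 := exp_le_two (by
    rw [mul_one_div, div_le_div_iff₀ (by positivity) (by norm_num)]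
    linarith)
  have h3 := prod_nonneg h0
  have h4 := mul_le_mul_of_nonneg_right h2 h3
  nlinarith

end

end Vale.Agent.P057T.Grid
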