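import Vale.Agent.P057T.Vsm

/-! Tensors near rational points: permutations of the slots, symmetrisation, cosets. -/

set_option linter.all false

open Finset
open scoped BigOperators

namespace Vale.Agent.P057T.H15

open Vale.Agent.P057L Vale.Agent.P057L.WA Vale.Agent.P057T.Vsm

variable {d m : ℕ}

/-- all coefficients times n are within e of an integer -/
def MA {ι : Type} (c : ι → ℝ) (n : ℕ) (e : ℝ) : Prop := ∀ a, nz (n * c a) ≤ e

/-- the tensor with permuted slots -/
def pm (σ : Equiv.Perm (Fin d)) (c : (Fin d → Fin m) → ℝ) : (Fin d → Fin m) → ℝ :=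
  fun a => c (a ∘ σ)

/-- the symmetrised tensor -/
noncomputable def sym (c : (Fin d → Fin m) → ℝ) : (Fin d → Fin m) → ℝ :=
  fun a => (∑ σ : Equiv.Perm (Fin d), c (a ∘ σ)) / d.factorial

theorem MA.add {ι : Type} {c c' : ι → ℝ} {n : ℕ} {e e' : ℝ} (h : MA c n e) (h' : MA c' n e') :
    MA (c + c') n (e + e') := fun a => by
  have := nz_add_le (n * c a) (n * c' a)
  have h1 := h a
  have h2 := h' a
  simp only [Pi.add_apply, mul_add]
  linarith

theorem MA.neg {ι : Type} {c : ι → ℝ} {n : ℕ} {e : ℝ} (h : MA c n e) : MA (-c) n e := fun a => by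
  simp only [Pi.neg_apply, mul_neg, nz_neg]
  exact h a

theorem MA.sub {ι : Type} {c c' : ι → ℝ} {n : ℕ} {e e' : ℝ} (h : MA c n e) (h' : MA c' n e') :
    MA (c - c') n (e + e') := by
  rw [sub_eq_add_neg]; exact h.add h'.neg

theorem MA.mono {ι : Type} {c : ι → ℝ} {n : ℕ} {e e' : ℝ} (h : MA c n e) (he : e ≤ e') :
    MA c n e' := fun a => (h a).trans he

theorem MA.mul {ι : Type} {c : ι → ℝ} {n : ℕ} {e : ℝ} (h : MA c n e) (k : ℕ) :
    MA c (k * n) (k * e) := fun a => by
  have h1 := nz_nat_mul_le k (n * c a)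
  have h2 : (k : ℝ) * nz (n * c a) ≤ k * e := mul_le_mul_of_nonneg_left (h a) (Nat.cast_nonneg k)
  have h3 : ((k * n : ℕ) : ℝ) * c a = k * (n * c a) := by push_cast; ring
  rw [h3]; linarith

theorem MA.zsmul {ι : Type} {c : ι → ℝ} {n : ℕ} {e : ℝ} (h : MA c n e) (k : ℤ) :
    MA (fun a => (k : ℝ) * c a) n (|(k : ℝ)| * e) := fun a => by
  have h1 := nz_int_mul_le k (n * c a)
  have h2 : |(k : ℝ)| * nz (n * c a) ≤ |(k : ℝ)| * e :=
    mul_le_mul_of_nonneg_left (h a) (abs_nonneg _)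
  have h3 : (n : ℝ) * ((k : ℝ) * c a) = k * (n * c a) := by ring
  show nz ((n : ℝ) * ((k : ℝ) * c a)) ≤ _
  rw [h3]; linarith

theorem MA.div {ι : Type} {c : ι → ℝ} {n : ℕ} {e : ℝ} (h : MA c n e) {k : ℕ} (hk : 1 ≤ k) :
    MA (fun a => c a / k) (k * n) e := fun a => by
  have hk' : (k : ℝ) ≠ 0 := by positivity
  have h3 : ((k * n : ℕ) : ℝ) * (c a / k) = n * c a := by push_cast; field_simp
  show nz (((k * n : ℕ) : ℝ) * (c a / k)) ≤ e
  rw [h3]; exact h a

theorem ma_zero {ι : Type} (n : ℕ) : MA (0 : ι → ℝ) n 0 := fun a => by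
  simp [nz]

theorem ma_sum {ι κ : Type} (s : Finset κ) (c : κ → ι → ℝ) (n : ℕ) (e : κ → ℝ)
    (h : ∀ k ∈ s, MA (c k) n (e k)) : MA (∑ k ∈ s, c k) n (∑ k ∈ s, e k) := fun a => by
  have h1 : (n : ℝ) * (∑ k ∈ s, c k) a = ∑ k ∈ s, n * c k a := by
    rw [Finset.sum_apply, Finset.mul_sum]
  rw [h1]
  exact (nz_sum_le _ _).trans (Finset.sum_le_sum fun k hk => h k hk a)

theorem MA.pm {c : (Fin d → Fin m) → ℝ} {n : ℕ} {e : ℝ} (h : MA c n e) (σ : Equiv.Perm (Fin d)) :
    MA (pm σ c) n e := fun a => h (a ∘ σ)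

theorem pm_mul (σ τ : Equiv.Perm (Fin d)) (c : (Fin d → Fin m) → ℝ) :
    pm (σ * τ) c = pm σ (pm τ c) := by
  funext a; rfl

theorem pm_one (c : (Fin d → Fin m) → ℝ) : pm 1 c = c := by
  funext a; rfl

theorem pm_sub (σ : Equiv.Perm (Fin d)) (c c' : (Fin d → Fin m) → ℝ) :
    pm σ (c - c') = pm σ c - pm σ c' := by
  funext a; rfl

theorem ml_pm (σ : Equiv.Perm (Fin d)) (c : (Fin d → Fin m) → ℝ) (x : Pt d m) :
    ml (pm σ c) x = ml c (fun i => x (σ i)) := by
  unfold ml
  refine Fintype.sum_equiv (Equiv.arrowCongr σ.symm (Equiv.refl (Fin m))) _ _ fun a => ?_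
  have h1 : (Equiv.arrowCongr σ.symm (Equiv.refl (Fin m))) a = a ∘ σ := by
    funext i; simp [Equiv.arrowCongr]
  rw [h1]
  have h2 : ∏ i, (x (σ i) ((a ∘ σ) i) : ℝ) = ∏ i, (x i (a i) : ℝ) :=
    Equiv.prod_comp σ (fun i => (x i (a i) : ℝ))
  rw [h2]; rfl

theorem ml_add (c c' : (Fin d → Fin m) → ℝ) (x : Pt d m) : ml (c + c') x = ml c x + ml c' x := by
  unfold ml; rw [← Finset.sum_add_distrib]
  exact Finset.sum_congr rfl fun a _ => by simp only [Pi.add_apply]; ring

theorem ml_sub (c c' : (Fin d → Fin m) → ℝ) (x : Pt d m) : ml (c - c') x = ml c x - ml c' x := by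
  unfold ml; rw [← Finset.sum_sub_distrib]
  exact Finset.sum_congr rfl fun a _ => by simp only [Pi.sub_apply]; ring

theorem ml_sym (c : (Fin d → Fin m) → ℝ) (x : Pt d m) :
    (d.factorial : ℝ) * ml (sym c) x = ∑ σ : Equiv.Perm (Fin d), ml c (fun i => x (σ i)) := by
  have hd : (d.factorial : ℝ) ≠ 0 := by positivity
  have h1 : ∀ σ : Equiv.Perm (Fin d), ml c (fun i => x (σ i)) =
      ∑ a : Fin d → Fin m, c (a ∘ σ) * ∏ i, (x i (a i) : ℝ) := fun σ => (ml_pm σ c x).symm
  simp only [h1]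
  rw [Finset.sum_comm]
  unfold ml sym
  rw [Finset.mul_sum]
  refine Finset.sum_congr rfl fun a _ => ?_
  rw [← Finset.sum_mul]
  field_simp

/-- one permutation -/
theorem grp1 (i0 : Fin d) (σ : Equiv.Perm (Fin d)) : ∃ K : ℕ, ∀ (m : ℕ)
    (c : (Fin d → Fin m) → ℝ) (n : ℕ) (e : ℝ), 0 ≤ e →
    (∀ i, MA (c - pm (Equiv.swap i0 i) c) n e) → MA (c - pm σ c) n (K * e) := by
  set P : Equiv.Perm (Fin d) → Prop := fun σ => ∃ K : ℕ, ∀ (m : ℕ)
    (c : (Fin d → Fin m) → ℝ) (n : ℕ) (e : ℝ), 0 ≤ e →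
    (∀ i, MA (c - pm (Equiv.swap i0 i) c) n e) → MA (c - pm σ c) n (K * e) with hP
  have hmul : ∀ σ τ, P σ → P τ → P (σ * τ) := by
    rintro σ τ ⟨K, hK⟩ ⟨K', hK'⟩
    refine ⟨K + K', fun m c n e he h => ?_⟩
    have h1 := hK m c n e he h
    have h2 := (hK' m c n e he h).pm σ
    have h3 : c - pm (σ * τ) c = (c - pm σ c) + pm σ (c - pm τ c) := by
      rw [pm_mul, pm_sub]; abel
    rw [h3]
    refine (h1.add h2).mono (le_of_eq ?_)
    push_cast; ring
  have hst : ∀ i, P (Equiv.swap i0 i) := fun i =>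
    ⟨1, fun m c n e he h => (h i).mono (by simp)⟩
  have hsw : ∀ x y, P (Equiv.swap x y) := by
    intro x y
    by_cases hx : x = i0
    · rw [hx]; exact hst y
    by_cases hy : y = i0
    · rw [hy, Equiv.swap_comm]; exact hst x
    by_cases hxy : x = y
    · rw [hxy, Equiv.swap_self]
      have := hst i0
      rwa [Equiv.swap_self] at this
    have h1 : Equiv.swap x y = Equiv.swap i0 x * Equiv.swap i0 y * Equiv.swap i0 x := by
      have := Equiv.swap_mul_swap_mul_swap (x := y) (y := i0) (z := x) hy (Ne.symm hxy)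
      rw [Equiv.swap_comm y i0] at this
      rw [this, Equiv.swap_comm]
    rw [h1]
    exact hmul _ _ (hmul _ _ (hst x) (hst y)) (hst x)
  have h1 : P 1 := by
    have := hst i0
    rwa [Equiv.swap_self] at this
  exact Equiv.Perm.swap_induction_on (motive := P) σ h1 fun f x y _ hf => hmul _ _ (hsw x y) hf

/-- the swaps with one slot control all permutations -/
theorem grp (d : ℕ) : ∃ K : ℕ, ∀ (i0 : Fin d) (m : ℕ) (c : (Fin d → Fin m) → ℝ) (n : ℕ) (e : ℝ),
    0 ≤ e → (∀ i, MA (c - pm (Equiv.swap i0 i) c) n e) → ∀ σ, MA (c - pm σ c) n (K * e) := by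
  choose K hK using fun p : Fin d × Equiv.Perm (Fin d) => grp1 p.1 p.2
  refine ⟨∑ p, K p, fun i0 m c n e he h σ => (hK (i0, σ) m c n e he h).mono ?_⟩
  refine mul_le_mul_of_nonneg_right ?_ he
  exact_mod_cast Finset.single_le_sum (f := K) (fun _ _ => Nat.zero_le _) (Finset.mem_univ _)

theorem sym_of {c : (Fin d → Fin m) → ℝ} {n : ℕ} {e : ℝ} (h : ∀ σ, MA (c - pm σ c) n e) :
    MA (c - sym c) (d.factorial * n) (d.factorial * e) := by
  have hd : (d.factorial : ℝ) ≠ 0 := by positivity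
  have h1 := ma_sum univ (fun σ : Equiv.Perm (Fin d) => c - pm σ c) n (fun _ => e)
    (fun σ _ => h σ)
  have h2 := h1.div (k := d.factorial) (Nat.factorial_pos d)
  have h3 : (fun a => (∑ σ : Equiv.Perm (Fin d), (c - pm σ c)) a / (d.factorial : ℝ)) =
      c - sym c := by
    funext a
    simp only [Finset.sum_apply, Pi.sub_apply, sym, pm, Finset.sum_sub_distrib, Finset.sum_const,
      Finset.card_univ, Fintype.card_perm, Fintype.card_fin, nsmul_eq_mul]
    field_simp
  rw [h3] at h2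
  simpa [Fintype.card_perm] using h2

theorem MA.sym {c : (Fin d → Fin m) → ℝ} {n : ℕ} {e : ℝ} (h : MA c n e) :
    MA (sym c) (d.factorial * n) (d.factorial * e) := by
  have h1 := ma_sum univ (fun σ : Equiv.Perm (Fin d) => H15.pm σ c) n (fun _ => e)
    (fun σ _ => h.pm σ)
  have h2 := h1.div (k := d.factorial) (Nat.factorial_pos d)
  have h3 : (fun a => (∑ σ : Equiv.Perm (Fin d), H15.pm σ c) a / (d.factorial : ℝ)) =
      H15.sym c := by
    funext a
    simp only [Finset.sum_apply, H15.sym, H15.pm]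
  rw [h3] at h2
  simpa [Fintype.card_perm] using h2

theorem sym_sub (c c' : (Fin d → Fin m) → ℝ) : sym (c - c') = sym c - sym c' := by
  funext a
  simp only [sym, Pi.sub_apply, Finset.sum_sub_distrib]
  ring

/-- a tensor that is symmetric up to major arcs and close to T is close to the symmetrised T -/
theorem match_sym (d : ℕ) : ∃ K : ℕ, ∀ (i0 : Fin d) (m : ℕ) (c T : (Fin d → Fin m) → ℝ) (n : ℕ)
    (e : ℝ), 0 ≤ e → (∀ i, MA (c - pm (Equiv.swap i0 i) c) n e) → MA (c - T) n e →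
    MA (c - sym T) (d.factorial * n) (K * e) := by
  obtain ⟨K, hK⟩ := grp d
  refine ⟨d.factorial * K + d.factorial, fun i0 m c T n e he h hT => ?_⟩
  have h1 := sym_of (hK i0 m c n e he h)
  have h2 := hT.sym
  have h3 : c - sym T = (c - sym c) + sym (c - T) := by rw [sym_sub]; abel
  rw [h3]
  refine (h1.add h2).mono (le_of_eq ?_)
  push_cast; ring

/-- values of a form with coefficients near rational points -/
theorem nz_ml {c : (Fin d → Fin m) → ℝ} {n : ℕ} {e : ℝ} (h : MA c n e) (x : Pt d m) :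
    nz (n * ml c x) ≤ e * ∏ i, ∑ l, |(x i l : ℝ)| := by
  have h1 : (n : ℝ) * ml c x =
      ∑ a : Fin d → Fin m, ((∏ i, x i (a i) : ℤ) : ℝ) * (n * c a) := by
    unfold ml; rw [Finset.mul_sum]
    exact Finset.sum_congr rfl fun a _ => by push_cast; ring
  rw [h1, Finset.prod_univ_sum, Fintype.piFinset_univ, Finset.mul_sum]
  refine (nz_sum_le _ _).trans (Finset.sum_le_sum fun a _ => ?_)
  refine (nz_int_mul_le _ _).trans ?_
  have h2 : |((∏ i, x i (a i) : ℤ) : ℝ)| = ∏ i, |(x i (a i) : ℝ)| := by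
    push_cast; exact Finset.abs_prod _ _
  rw [h2, mul_comm]
  exact mul_le_mul_of_nonneg_right (h a) (Finset.prod_nonneg fun _ _ => abs_nonneg _)

theorem ml_update_add (c : (Fin d → Fin m) → ℝ) (x : Pt d m) (i : Fin d) (b s : Vz m) (k : ℤ) :
    ml c (Function.update x i (b + k • s)) =
      ml c (Function.update x i b) + k * ml c (Function.update x i s) := by
  unfold ml
  rw [Finset.mul_sum, ← Finset.sum_add_distrib]
  refine Finset.sum_congr rfl fun a _ => ?_
  have h : ∀ v : Vz m, ∏ j, ((Function.update x i v j (a j) : ℤ) : ℝ) =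
      (v (a i) : ℝ) * ∏ j ∈ univ.erase i, (x j (a j) : ℝ) := fun v => by
    rw [← Finset.mul_prod_erase univ _ (Finset.mem_univ i), Function.update_self]
    congr 1
    exact Finset.prod_congr rfl fun j hj => by
      rw [Function.update_of_ne (Finset.ne_of_mem_erase hj)]
  rw [h, h, h]
  simp only [Pi.add_apply, Pi.smul_apply, smul_eq_mul]
  push_cast; ring

/-- on a coset of one class the form is close to a function of the other classes -/
theorem coset1 {c : (Fin d → Fin m) → ℝ} {n : ℕ} {e : ℝ} (h : MA c n e) (he : 0 ≤ e) (x : Pt d m)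
    (i : Fin d) (b s : Vz m) (L L' : ℝ) (hL : 0 ≤ L) (hx : ∀ j l, j ≠ i → |(x j l : ℝ)| ≤ L)
    (hs : ∀ l, |(s l : ℝ)| ≤ L') :
    nz (ml c (Function.update x i (b + (n : ℤ) • s)) - ml c (Function.update x i b)) ≤
      e * (m * L' * (m * L) ^ (d - 1)) := by
  rw [ml_update_add, add_sub_cancel_left]
  have h1 := nz_ml h (Function.update x i s)
  simp only [Int.cast_natCast]
  refine h1.trans (mul_le_mul_of_nonneg_left ?_ he)
  rw [← Finset.mul_prod_erase univ _ (Finset.mem_univ i), Function.update_self]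
  have h2 : ∑ l, |(s l : ℝ)| ≤ m * L' := by
    have := Finset.sum_le_sum (s := univ) fun l _ => hs l
    simpa using this
  have h3 : ∏ j ∈ univ.erase i, ∑ l, |((Function.update x i s j l : ℤ) : ℝ)| ≤ (m * L) ^ (d - 1) := by
    have h4 : (univ.erase i).card = d - 1 := by simp
    rw [← h4, ← Finset.prod_const]
    refine Finset.prod_le_prod (fun _ _ => Finset.sum_nonneg fun _ _ => abs_nonneg _) fun j hj => ?_
    rw [Function.update_of_ne (Finset.ne_of_mem_erase hj)]
    have := Finset.sum_le_sum (s := univ) fun l _ => hx j l (Finset.ne_of_mem_erase hj)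
    simpa using this
  exact mul_le_mul h2 h3 (Finset.prod_nonneg fun _ _ => Finset.sum_nonneg fun _ _ => abs_nonneg _)
    ((Finset.sum_nonneg fun _ _ => abs_nonneg _).trans h2)

end Vale.Agent.P057T.H15
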