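import Vale.Agent.P057T.Vsm

/-! Iterated differences, degree, and integration of block products. -/

set_option linter.all false

open Finset
open scoped BigOperators

namespace Vale.Agent.P057T.Int

open Vale.Agent.P057L Vale.Agent.P057T.Vsm

variable {V : Type} [AddCommGroup V] {ι : Type} [DecidableEq ι]

/-- the iterated difference of y at t in the directions w i, i in e -/
noncomputable def dl (e : Finset ι) (w : ι → V) (y : V → ℝ) (t : V) : ℝ :=
  ∑ s ∈ e.powerset, (-1 : ℝ) ^ (e.card + s.card) * y (t + ∑ i ∈ s, w i)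

theorem dl_empty (w : ι → V) (y : V → ℝ) (t : V) : dl ∅ w y t = y t := by simp [dl]

theorem dl_insert {e : Finset ι} {i : ι} (hi : i ∉ e) (w : ι → V) (y : V → ℝ) (t : V) :
    dl (insert i e) w y t = dl e w y (t + w i) - dl e w y t := by
  unfold dl
  rw [sum_powerset_insert hi, card_insert_of_notMem hi, sub_eq_neg_add, ← sum_neg_distrib]
  congr 1
  · refine sum_congr rfl fun s _ => ?_
    rw [show e.card + 1 + s.card = (e.card + s.card) + 1 by ring, pow_succ]
    ring
  · refine sum_congr rfl fun s hs => ?_
    have hs' : i ∉ s := fun h => hi (mem_powerset.1 hs h)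
    rw [card_insert_of_notMem hs', sum_insert hs',
      show e.card + 1 + (s.card + 1) = (e.card + s.card) + 2 by ring, pow_add, add_assoc]
    norm_num

theorem dl_sub (e : Finset ι) (w : ι → V) (y z : V → ℝ) (t : V) :
    dl e w (fun x => y x - z x) t = dl e w y t - dl e w z t := by
  simp only [dl, mul_sub, sum_sub_distrib]

theorem dl_add (e : Finset ι) (w : ι → V) (y z : V → ℝ) (t : V) :
    dl e w (fun x => y x + z x) t = dl e w y t + dl e w z t := by
  simp only [dl, mul_add, sum_add_distrib]

theorem dl_smul (e : Finset ι) (w : ι → V) (c : ℝ) (y : V → ℝ) (t : V) :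
    dl e w (fun x => c * y x) t = c * dl e w y t := by
  simp only [dl, mul_sum]
  exact sum_congr rfl fun _ _ => by ring

theorem dl_sum {α : Type} (A : Finset α) (e : Finset ι) (w : ι → V) (y : α → V → ℝ) (t : V) :
    dl e w (fun x => ∑ a ∈ A, y a x) t = ∑ a ∈ A, dl e w (y a) t := by
  simp only [dl, mul_sum]
  rw [sum_comm]

theorem dl_shift (e : Finset ι) (w : ι → V) (y : V → ℝ) (t h : V) :
    dl e w (fun x => y (x + h)) t = dl e w y (t + h) := by
  simp only [dl, add_right_comm t h]

theorem dl_insert' {e : Finset ι} {i : ι} (hi : i ∉ e) (w : ι → V) (y : V → ℝ) (t : V) :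
    dl (insert i e) w y t = dl e w (fun x => y (x + w i) - y x) t := by
  rw [dl_insert hi, dl_sub, dl_shift]

theorem dl_congr {e : Finset ι} {w w' : ι → V} (h : ∀ i ∈ e, w i = w' i) (y : V → ℝ) (t : V) :
    dl e w y t = dl e w' y t := by
  refine sum_congr rfl fun s hs => ?_
  rw [sum_congr rfl fun i hi => h i (mem_powerset.1 hs hi)]

theorem dl_image {κ : Type} [DecidableEq κ] (σ : κ → ι) (hσ : Function.Injective σ)
    (e : Finset κ) (w : ι → V) (y : V → ℝ) (t : V) :
    dl (e.image σ) w y t = dl e (fun i => w (σ i)) y t := by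
  induction e using Finset.induction_on generalizing t with
  | empty => simp [dl_empty]
  | insert i e hi ih =>
    have : σ i ∉ e.image σ := by
      intro h
      obtain ⟨j, hj, e⟩ := mem_image.1 h
      exact hi (hσ e ▸ hj)
    rw [image_insert, dl_insert this, dl_insert hi, ih, ih]

/-- Newton expansion on the vertices of a cube -/
theorem newton (S : Finset ι) (w : ι → V) (y : V → ℝ) (t : V) :
    y (t + ∑ i ∈ S, w i) = ∑ s ∈ S.powerset, dl s w y t := by
  induction S using Finset.induction_on generalizing t with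
  | empty => simp [dl_empty]
  | insert i S hi ih =>
    rw [sum_insert hi, ← add_assoc, ih, sum_powerset_insert hi, ← sum_add_distrib]
    refine sum_congr rfl fun s hs => ?_
    rw [dl_insert fun h => hi (mem_powerset.1 hs h)]
    ring

/-- all differences of order n vanish -/
def Van : ℕ → (V → ℝ) → Prop
  | 0, y => ∀ t, y t = 0
  | n + 1, y => ∀ h, Van n fun t => y (t + h) - y t

theorem van_zero (n : ℕ) : Van n (fun _ : V => (0 : ℝ)) := by
  induction n with
  | zero => exact fun _ => rfl
  | succ n ih => intro h; simpa using ih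

theorem van_succ {n : ℕ} {y : V → ℝ} (h : Van n y) : Van (n + 1) y := by
  induction n generalizing y with
  | zero => intro k t; simp [h _]
  | succ n ih => exact fun k => ih (h k)

theorem van_mono {n m : ℕ} {y : V → ℝ} (h : Van n y) (hm : n ≤ m) : Van m y := by
  induction hm with
  | refl => exact h
  | step _ ih => exact van_succ ih

theorem van_lin {n : ℕ} {y z : V → ℝ} (a b : ℝ) (hy : Van n y) (hz : Van n z) :
    Van n fun t => a * y t + b * z t := by
  induction n generalizing y z with
  | zero => intro t; simp [hy t, hz t]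
  | succ n ih =>
    intro h
    have := ih (hy h) (hz h)
    have e : (fun t => a * y (t + h) + b * z (t + h) - (a * y t + b * z t)) =
        fun t => a * (y (t + h) - y t) + b * (z (t + h) - z t) := funext fun t => by ring
    rw [e]
    exact this

theorem van_add {n : ℕ} {y z : V → ℝ} (hy : Van n y) (hz : Van n z) :
    Van n fun t => y t + z t := by simpa using van_lin 1 1 hy hz

theorem van_sub {n : ℕ} {y z : V → ℝ} (hy : Van n y) (hz : Van n z) :
    Van n fun t => y t - z t := by simpa [sub_eq_add_neg] using van_lin 1 (-1) hy hz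

theorem van_smul {n : ℕ} {y : V → ℝ} (a : ℝ) (hy : Van n y) : Van n fun t => a * y t := by
  simpa using van_lin a 0 hy hy

theorem van_sum {α : Type} (A : Finset α) {n : ℕ} {y : α → V → ℝ} (hy : ∀ a ∈ A, Van n (y a)) :
    Van n fun t => ∑ a ∈ A, y a t := by
  classical
  induction A using Finset.induction_on with
  | empty => simpa using van_zero n
  | insert a A ha ih =>
    simp only [sum_insert ha]
    exact van_add (hy a (mem_insert_self _ _)) (ih fun b hb => hy b (mem_insert_of_mem hb))

theorem van_shift {n : ℕ} {y : V → ℝ} (hy : Van n y) (k : V) : Van n fun t => y (t + k) := by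
  induction n generalizing y with
  | zero => exact fun t => hy _
  | succ n ih =>
    intro h
    have := ih (hy h)
    simpa only [add_right_comm _ h k] using this

theorem van_comp {W : Type} [AddCommGroup W] (f : W →+ V) (k : V) {n : ℕ} {y : V → ℝ}
    (hy : Van n y) : Van n fun t => y (k + f t) := by
  induction n generalizing y with
  | zero => exact fun t => hy _
  | succ n ih =>
    intro h
    have := ih (hy (f h))
    simpa only [map_add, add_assoc] using this

theorem van_const (c : ℝ) : Van 1 fun _ : V => c := fun _ _ => sub_self _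

theorem van_hom (f : V →+ ℝ) : Van 2 fun t => f t := by
  intro h k t
  simp

theorem van_mul_aux (N : ℕ) : ∀ (a b : ℕ) (y z : V → ℝ), a + b = N + 1 → Van a y → Van b z →
    Van N fun t => y t * z t := by
  induction N with
  | zero =>
    intro a b y z hab hy hz t
    rcases a with _ | a
    · simp [hy t]
    · have : b = 0 := by omega
      subst this
      simp [hz t]
  | succ N ih =>
    intro a b y z hab hy hz
    rcases a with _ | a
    · have : (fun t => y t * z t) = fun _ => 0 := funext fun t => by simp [hy t]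
      rw [this]
      exact van_zero _
    rcases b with _ | b
    · have : (fun t => y t * z t) = fun _ => 0 := funext fun t => by simp [hz t]
      rw [this]
      exact van_zero _
    intro h
    have h1 := ih a (b + 1) _ _ (by omega) (hy h) hz
    have h2 := ih (a + 1) b _ _ (by omega) (van_shift hy h) (hz h)
    have e : (fun t => y (t + h) * z (t + h) - y t * z t) =
        fun t => (y (t + h) - y t) * z t + y (t + h) * (z (t + h) - z t) := funext fun t => by ring
    rw [e]
    exact van_add h1 h2

/-- degrees add -/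
theorem van_mul {a b : ℕ} {y z : V → ℝ} (hy : Van (a + 1) y) (hz : Van (b + 1) z) :
    Van (a + b + 1) fun t => y t * z t :=
  van_mul_aux _ _ _ _ _ (by omega) hy hz

theorem van_prod {α : Type} (A : Finset α) (n : α → ℕ) {y : α → V → ℝ}
    (hy : ∀ a ∈ A, Van (n a + 1) (y a)) : Van (∑ a ∈ A, n a + 1) fun t => ∏ a ∈ A, y a t := by
  classical
  induction A using Finset.induction_on with
  | empty => simpa using van_const 1
  | insert a A ha ih =>
    simp only [sum_insert ha, prod_insert ha]
    exact van_mul (hy a (mem_insert_self _ _)) (ih fun b hb => hy b (mem_insert_of_mem hb))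

theorem van_pow {n : ℕ} {y : V → ℝ} (hy : Van (n + 1) y) (k : ℕ) :
    Van (k * n + 1) fun t => y t ^ k := by
  have := van_prod (range k) (fun _ => n) (y := fun _ => y) fun _ _ => hy
  simpa using this

/-- substitution of functions of weight wt into a polynomial of weighted degree at most n -/
theorem van_aeval {σ : Type} (wt : σ → ℕ) (y : σ → V → ℝ) (hy : ∀ j, Van (wt j + 1) (y j))
    (p : MvPolynomial σ ℝ) (n : ℕ) (hp : MvPolynomial.weightedTotalDegree wt p ≤ n) :
    Van (n + 1) fun t => MvPolynomial.eval (fun j => y j t) p := by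
  classical
  simp only [MvPolynomial.eval_eq]
  refine van_sum _ fun ν hν => van_smul _ ?_
  refine van_mono (van_prod ν.support (fun j => ν j * wt j) fun j _ => van_pow (hy j) (ν j)) ?_
  have h1 := (MvPolynomial.le_weightedTotalDegree wt hν).trans hp
  rw [Finsupp.weight_apply, Finsupp.sum] at h1
  simpa using h1

/-- a polynomial of degree at most n on the lattice -/
theorem van_eval {m : ℕ} (p : MvPolynomial (Fin m) ℝ) (n : ℕ) (hp : p.totalDegree ≤ n) :
    Van (n + 1) fun t : Vz m => MvPolynomial.eval (fun j => (t j : ℝ)) p := by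
  refine van_aeval (fun _ => 1) (fun j (t : Vz m) => (t j : ℝ)) (fun j => ?_) p n ?_
  · intro h k t
    simp
  · rw [← MvPolynomial.weightedTotalDegree_one] at hp
    exact hp

theorem dl_eq_zero {n : ℕ} {y : V → ℝ} (hy : Van n y) {e : Finset ι} (he : n ≤ e.card)
    (w : ι → V) (t : V) : dl e w y t = 0 := by
  induction e using Finset.induction_on generalizing n y with
  | empty =>
    have : n = 0 := by simpa using he
    subst this
    rw [dl_empty, hy t]
  | insert i e hi ih =>
    rw [dl_insert' hi]
    rw [card_insert_of_notMem hi] at he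
    exact ih (van_mono hy he (w i)) le_rfl

/-- top differences do not depend on the base point -/
theorem dl_base {n : ℕ} {y : V → ℝ} (hy : Van (n + 1) y) {e : Finset ι} (he : n ≤ e.card)
    (w : ι → V) (t t' : V) : dl e w y t = dl e w y t' := by
  have h := dl_eq_zero (hy (t - t')) he w t'
  rw [dl_sub, dl_shift, add_sub_cancel] at h
  linarith

/-- top differences are additive -/
theorem dl_update_add {n : ℕ} {y : V → ℝ} (hy : Van (n + 1) y) {e : Finset ι} (he : n ≤ e.card)
    {i : ι} (hi : i ∈ e) (w : ι → V) (u v : V) (t : V) :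
    dl e (Function.update w i (u + v)) y t =
      dl e (Function.update w i u) y t + dl e (Function.update w i v) y t := by
  have h1 : ∀ (x : V) (t : V), dl e (Function.update w i x) y t =
      dl (e.erase i) w y (t + x) - dl (e.erase i) w y t := by
    intro x t
    have hc : ∀ t, dl (e.erase i) (Function.update w i x) y t = dl (e.erase i) w y t :=
      fun t => dl_congr (fun j hj => Function.update_of_ne (ne_of_mem_erase hj) _ _) y t
    conv_lhs => rw [← insert_erase hi]
    rw [dl_insert (notMem_erase _ _), hc, hc, Function.update_self]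
  rw [dl_base hy he (Function.update w i v) t (t + u), h1, h1, h1, add_assoc]
  ring

/-- inclusion exclusion : the value at the far vertex is the top difference plus terms
missing a direction -/
theorem incl [Fintype ι] (F : V → ℝ) (b : V) :
    ∃ g : ι → (ι → V) → ℝ, (∀ i w x, g i (Function.update w i x) = g i w) ∧
      ∀ w, F (b + ∑ i, w i) = dl univ w F b + ∑ i, g i w := by
  classical
  rcases isEmpty_or_nonempty ι with h0 | h0
  · refine ⟨fun _ _ => 0, fun _ _ _ => rfl, fun w => ?_⟩
    simp [univ_eq_empty, dl_empty]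
  have hx : ∀ s : Finset ι, s ∈ (powerset (univ : Finset ι)).erase univ → ∃ i, i ∉ s := by
    intro s hs
    by_contra h
    push Not at h
    exact (mem_erase.1 hs).1 (eq_univ_of_forall h)
  choose! κ hκ using hx
  refine ⟨fun i w => ∑ s ∈ ((powerset (univ : Finset ι)).erase univ).filter fun s => κ s = i,
    dl s w F b, fun i w x => ?_, fun w => ?_⟩
  · refine sum_congr rfl fun s hs => ?_
    have hs' := mem_filter.1 hs
    have hi : i ∉ s := hs'.2 ▸ hκ s hs'.1
    refine dl_congr (w := Function.update w i x) (w' := w) (fun j hj => ?_) F b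
    exact Function.update_of_ne (fun e => hi (by rw [← e]; exact hj)) _ _
  · rw [sum_fiberwise_of_maps_to (fun s _ => mem_univ (κ s)), newton univ w F b,
      ← add_sum_erase _ _ (mem_powerset_self univ)]

theorem sign_sum [Fintype ι] (U : Finset ι) :
    ∑ S ∈ (univ : Finset ι).powerset, (-1 : ℝ) ^ ((univ : Finset ι).card + S.card) *
      (if U ⊆ S then 1 else 0) = if U = univ then 1 else 0 := by
  have h1 : ∑ S ∈ (univ : Finset ι).powerset, (-1 : ℝ) ^ ((univ : Finset ι).card + S.card) *
      (if U ⊆ S then 1 else 0) = ∑ T ∈ (Uᶜ).powerset, (-1 : ℝ) ^ T.card := by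
    simp only [mul_ite, mul_one, mul_zero]
    rw [← sum_filter]
    refine sum_nbij' (fun S => Sᶜ) (fun S => Sᶜ) ?_ ?_ ?_ ?_ ?_
    · intro S hS
      exact mem_powerset.2 (compl_subset_compl.2 (mem_filter.1 hS).2)
    · intro S hS
      refine mem_filter.2 ⟨mem_powerset.2 (subset_univ _), ?_⟩
      have := compl_subset_compl.2 (mem_powerset.1 hS)
      rwa [compl_compl] at this
    · intro S _
      exact compl_compl S
    · intro S _
      exact compl_compl S
    · intro S _
      have : (univ : Finset ι).card + S.card = Sᶜ.card + 2 * S.card := by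
        have := card_add_card_compl S
        rw [card_univ]
        omega
      rw [this, pow_add, pow_mul]
      norm_num
  have h2 : ∑ T ∈ (Uᶜ).powerset, (-1 : ℝ) ^ T.card = if Uᶜ = ∅ then 1 else 0 := by
    exact_mod_cast (sum_powerset_neg_one_pow_card (x := Uᶜ))
  rw [h1, h2]
  simp only [compl_eq_empty_iff]

/-- Leibniz rule without shifts -/
theorem leib [Fintype ι] {κ : Type} [Fintype κ] [DecidableEq κ] (w : ι → V) (y : κ → V → ℝ)
    (t : V) : dl univ w (fun x => ∏ a, y a x) t =
      ∑ s : κ → Finset ι, (if univ.biUnion s = univ then 1 else 0) * ∏ a, dl (s a) w (y a) t := by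
  have h1 : ∀ S : Finset ι, ∏ a, y a (t + ∑ i ∈ S, w i) =
      ∑ s : κ → Finset ι, (if univ.biUnion s ⊆ S then 1 else 0) * ∏ a, dl (s a) w (y a) t := by
    intro S
    simp only [newton S w]
    rw [prod_univ_sum]
    simp only [ite_mul, one_mul, zero_mul]
    rw [← sum_filter]
    refine sum_congr ?_ fun _ _ => rfl
    ext s
    simp [Fintype.mem_piFinset, biUnion_subset]
  conv_lhs => unfold dl
  simp only [h1, mul_sum]
  rw [sum_comm]
  refine sum_congr rfl fun s _ => ?_
  rw [← sign_sum, sum_mul]
  exact sum_congr rfl fun S _ => by ring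

/-- the block of a -/
def bk [Fintype ι] {κ : Type} [DecidableEq κ] (π : ι → κ) (a : κ) : Finset ι :=
  univ.filter fun i => π i = a

theorem sum_card_bk [Fintype ι] {κ : Type} [Fintype κ] [DecidableEq κ] (π : ι → κ) :
    ∑ a, (bk π a).card = Fintype.card ι := by
  rw [← card_univ]
  exact (card_eq_sum_card_fiberwise fun i _ => mem_coe.2 (mem_univ (π i))).symm

theorem count_perm [Fintype ι] {κ : Type} [Fintype κ] [DecidableEq κ] (π : ι → κ)
    (s : κ → Finset ι) (hu : univ.biUnion s = univ) (hc : ∀ a, (s a).card = (bk π a).card) :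
    (univ.filter fun σ : Equiv.Perm ι => (fun a => (bk π a).image σ) = s).card =
      ∏ a, ((bk π a).card).factorial := by
  classical
  have hx : ∀ i, ∃ a, i ∈ s a := fun i => by
    have : i ∈ univ.biUnion s := hu ▸ mem_univ i
    obtain ⟨a, _, h⟩ := mem_biUnion.1 this
    exact ⟨a, h⟩
  choose f hf using hx
  have hsub : ∀ a, bk f a ⊆ s a := fun a i hi => (mem_filter.1 hi).2 ▸ hf i
  have heq : ∀ a, bk f a = s a := by
    have h1 : ∑ a, (bk f a).card = ∑ a, (s a).card := by
      rw [sum_card_bk, sum_congr rfl fun a _ => hc a, sum_card_bk]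
    have h2 := (sum_eq_sum_iff_of_le fun a _ => card_le_card (hsub a)).1 h1
    exact fun a => eq_of_subset_of_card_le (hsub a) (h2 a (mem_univ a)).ge
  have hcard : ∀ a, Fintype.card {i // π i = a} = Fintype.card {i // f i = a} := by
    intro a
    rw [Fintype.card_subtype, Fintype.card_subtype]
    change (bk π a).card = (bk f a).card
    rw [heq, hc]
  set σ0 : Equiv.Perm ι := Equiv.ofFiberEquiv fun a => Fintype.equivOfCardEq (hcard a) with hσ0
  have h0 : ∀ i, f (σ0 i) = π i := fun i => Equiv.ofFiberEquiv_map _ i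
  have hiff : ∀ σ : Equiv.Perm ι, (fun a => (bk π a).image σ) = s ↔ ∀ i, f (σ i) = π i := by
    intro σ
    constructor
    · intro h i
      have : σ i ∈ bk f (π i) := by
        rw [heq, ← congrFun h (π i)]
        exact mem_image_of_mem _ (mem_filter.2 ⟨mem_univ _, rfl⟩)
      exact (mem_filter.1 this).2
    · intro h
      funext a
      rw [← heq]
      ext j
      simp only [bk, mem_image, mem_filter, mem_univ, true_and]
      constructor
      · rintro ⟨i, hi, rfl⟩
        rw [h, hi]
      · intro hj
        exact ⟨σ.symm j, by rw [← h, Equiv.apply_symm_apply, hj], Equiv.apply_symm_apply _ _⟩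
  have h3 := DomMulAct.stabilizer_card π
  rw [Fintype.card_subtype] at h3
  have h4 : ∏ a, (Fintype.card {i // π i = a}).factorial = ∏ a, ((bk π a).card).factorial :=
    prod_congr rfl fun a _ => by rw [Fintype.card_subtype]; rfl
  rw [← h4, ← h3]
  symm
  refine card_nbij' (fun g => σ0 * g) (fun σ => σ0⁻¹ * σ) ?_ ?_ ?_ ?_
  · intro g hg
    refine mem_coe.2 (mem_filter.2 ⟨mem_univ _, (hiff _).2 fun i => ?_⟩)
    rw [Equiv.Perm.mul_apply, h0]
    exact congrFun (mem_filter.1 (mem_coe.1 hg)).2 i
  · intro σ hσ
    refine mem_coe.2 (mem_filter.2 ⟨mem_univ _, funext fun i => ?_⟩)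
    have := (hiff σ).1 (mem_filter.1 (mem_coe.1 hσ)).2 i
    rw [← this]
    show π (σ0⁻¹ (σ i)) = _
    rw [← h0]
    simp
  · intro g _
    simp
  · intro g _
    simp

/-- INT : the top difference of a product is the symmetrised block product -/
theorem integ [Fintype ι] {κ : Type} [Fintype κ] [DecidableEq κ] (π : ι → κ) (y : κ → V → ℝ)
    (hy : ∀ a, Van ((bk π a).card + 1) (y a)) (w : ι → V) (t : V) :
    (∏ a, (((bk π a).card).factorial : ℝ)) * dl univ w (fun x => ∏ a, y a x) t =
      ∑ σ : Equiv.Perm ι, ∏ a, dl (bk π a) (fun i => w (σ i)) (y a) t := by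
  classical
  have h1 : ∀ σ : Equiv.Perm ι, ∏ a, dl (bk π a) (fun i => w (σ i)) (y a) t =
      ∏ a, dl ((fun a => (bk π a).image σ) a) w (y a) t := fun σ =>
    prod_congr rfl fun a _ => (dl_image σ σ.injective _ _ _ _).symm
  simp only [h1]
  rw [leib, mul_sum, ← sum_fiberwise_of_maps_to (g := fun σ : Equiv.Perm ι =>
    fun a => (bk π a).image σ) (t := univ) fun _ _ => mem_univ _]
  refine sum_congr rfl fun s _ => ?_
  have h5 : ∀ σ ∈ univ.filter fun σ : Equiv.Perm ι => (fun a => (bk π a).image σ) = s,
      ∏ a, dl ((bk π a).image σ) w (y a) t = ∏ a, dl (s a) w (y a) t := by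
    intro σ hσ
    rw [← (mem_filter.1 hσ).2]
  rw [sum_congr rfl h5, sum_const, nsmul_eq_mul]
  by_cases hu : univ.biUnion s = univ
  · by_cases hc : ∀ a, (s a).card = (bk π a).card
    · rw [count_perm π s hu hc, if_pos hu]
      push_cast
      ring
    · have hz : ∏ a, dl (s a) w (y a) t = 0 := by
        by_contra hne
        have hle : ∀ a, (s a).card ≤ (bk π a).card := by
          intro a
          by_contra h
          exact hne (prod_eq_zero (mem_univ a) (dl_eq_zero (hy a) (by omega) w t))
        have h2 : ∑ a, (bk π a).card ≤ ∑ a, (s a).card := by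
          rw [sum_card_bk, ← card_univ, ← hu]
          exact card_biUnion_le
        have h3 := (sum_eq_sum_iff_of_le fun a _ => hle a).1
          (le_antisymm (sum_le_sum fun a _ => hle a) h2)
        exact hc fun a => h3 a (mem_univ a)
      rw [hz]
      ring
  · have : (univ.filter fun σ : Equiv.Perm ι => (fun a => (bk π a).image σ) = s) = ∅ := by
      refine filter_eq_empty_iff.2 fun σ _ h => hu ?_
      refine eq_univ_of_forall fun j => mem_biUnion.2 ⟨π (σ.symm j), mem_univ _, ?_⟩
      rw [← congrFun h (π (σ.symm j))]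
      exact mem_image.2 ⟨σ.symm j, mem_filter.2 ⟨mem_univ _, rfl⟩, Equiv.apply_symm_apply _ _⟩
    rw [this, if_neg hu]
    simp

/-- additive in every class -/
def Ad (M : (ι → V) → ℝ) : Prop :=
  ∀ w i u v, M (Function.update w i (u + v)) =
    M (Function.update w i u) + M (Function.update w i v)

theorem ad_dl [Fintype ι] {y : V → ℝ} (hy : Van (Fintype.card ι + 1) y) (t : V) :
    Ad fun w : ι → V => dl univ w y t := fun w i u v =>
  dl_update_add hy (by rw [card_univ]) (mem_univ i) w u v t

theorem ad_prod [Fintype ι] {κ : Type} [Fintype κ] [DecidableEq κ] (π : ι → κ) (y : κ → V → ℝ)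
    (hy : ∀ a, Van ((bk π a).card + 1) (y a)) (t : V) :
    Ad fun w : ι → V => ∏ a, dl (bk π a) w (y a) t := by
  intro w i u v
  have h1 : ∀ x, ∏ a, dl (bk π a) (Function.update w i x) (y a) t =
      dl (bk π (π i)) (Function.update w i x) (y (π i)) t *
        ∏ a ∈ univ.erase (π i), dl (bk π a) w (y a) t := by
    intro x
    rw [← mul_prod_erase _ _ (mem_univ (π i))]
    congr 1
    refine prod_congr rfl fun a ha =>
      dl_congr (w := Function.update w i x) (w' := w) (fun j hj => ?_) _ _
    refine Function.update_of_ne ?_ _ _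
    rintro rfl
    exact (mem_erase.1 ha).1 (mem_filter.1 hj).2.symm
  simp only [h1]
  rw [dl_update_add (hy (π i)) le_rfl (mem_filter.2 ⟨mem_univ _, rfl⟩), add_mul]

theorem ad_sum {α : Type} (A : Finset α) (c : α → ℝ) (M : α → (ι → V) → ℝ)
    (h : ∀ a ∈ A, Ad (M a)) : Ad fun w => ∑ a ∈ A, c a * M a w := by
  intro w i u v
  rw [← sum_add_distrib]
  exact sum_congr rfl fun a ha => by rw [h a ha, mul_add]

/-- an additive form on the lattice is given by its coefficients -/
theorem ml_of_ad {d m : ℕ} (M : Pt d m → ℝ) (h : Ad M) (w : Pt d m) :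
    M w = ml (fun a => M fun i => Pi.single (a i) 1) w := by
  classical
  let f : MultilinearMap ℤ (fun _ : Fin d => Vz m) ℝ := MultilinearMap.mk' M (fun w i u v => h w i u v)
    (fun w i c u => by
      exact (AddMonoidHom.mk' (fun u => M (Function.update w i u)) (h w i)).map_zsmul c u)
  have h1 : w = fun i => ∑ l, w i l • (Pi.single l 1 : Vz m) := by
    funext i l
    simp [Pi.single_apply]
  have h2 : f (fun i => ∑ l, w i l • (Pi.single l 1 : Vz m)) =
      ∑ a : Fin d → Fin m, f fun i => w i (a i) • (Pi.single (a i) 1 : Vz m) :=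
    f.map_sum (fun i l => w i l • (Pi.single l 1 : Vz m))
  have h3 : M w = f (fun i => ∑ l, w i l • (Pi.single l 1 : Vz m)) := by
    rw [← h1]
    rfl
  rw [h3, h2, ml]
  refine sum_congr rfl fun a _ => ?_
  rw [f.map_smul_univ, zsmul_eq_mul, mul_comm]
  push_cast
  rfl

section Pack

variable [Fintype ι] {κ : Type} [Fintype κ] [DecidableEq κ] {α : Type}

/-- a sum of block products of differences -/
noncomputable def tf (A : Finset α) (c : α → ℝ) (π : α → ι → κ) (y : α → κ → V → ℝ) (t : V)
    (w : ι → V) : ℝ :=
  ∑ a ∈ A, c a * ∏ b, dl (bk (π a) b) w (y a b) t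

/-- its integral -/
noncomputable def pf (A : Finset α) (c : α → ℝ) (π : α → ι → κ) (y : α → κ → V → ℝ) (x : V) : ℝ :=
  ∑ a ∈ A, (c a * (∏ b, (((bk (π a) b).card).factorial : ℝ)) / (Fintype.card ι).factorial) *
    ∏ b, y a b x

variable (A : Finset α) (c : α → ℝ) (π : α → ι → κ) (y : α → κ → V → ℝ)

theorem van_pf (hy : ∀ a ∈ A, ∀ b, Van ((bk (π a) b).card + 1) (y a b)) :
    Van (Fintype.card ι + 1) (pf A c π y) := by
  refine van_sum A fun a ha => van_smul _ ?_
  rw [← sum_card_bk (π a)]
  exact van_prod univ _ fun b _ => hy a ha b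

theorem ad_tf (hy : ∀ a ∈ A, ∀ b, Van ((bk (π a) b).card + 1) (y a b)) (t : V) :
    Ad (tf A c π y t) :=
  ad_sum A c _ fun a ha => ad_prod (π a) (y a) (hy a ha) t

theorem tf_base (hy : ∀ a ∈ A, ∀ b, Van ((bk (π a) b).card + 1) (y a b)) (t t' : V) (w : ι → V) :
    tf A c π y t w = tf A c π y t' w :=
  sum_congr rfl fun a ha => by
    rw [prod_congr rfl fun b _ => dl_base (hy a ha b) le_rfl w t t']

theorem dl_pf (hy : ∀ a ∈ A, ∀ b, Van ((bk (π a) b).card + 1) (y a b)) (w : ι → V) (t t0 : V) :
    dl univ w (pf A c π y) t =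
      (∑ σ : Equiv.Perm ι, tf A c π y t0 fun i => w (σ i)) / (Fintype.card ι).factorial := by
  simp only [tf_base A c π y hy t0 t]
  unfold pf tf
  rw [dl_sum, sum_comm, sum_div]
  refine sum_congr rfl fun a ha => ?_
  rw [dl_smul, ← mul_sum, ← integ (π a) (y a) (hy a ha) w t]
  ring

/-- the symmetrised form is the value of the integral up to terms missing a class -/
theorem sym_eq (hy : ∀ a ∈ A, ∀ b, Van ((bk (π a) b).card + 1) (y a b)) (b t0 : V) :
    ∃ g : ι → (ι → V) → ℝ, (∀ i w x, g i (Function.update w i x) = g i w) ∧ ∀ w,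
      (∑ σ : Equiv.Perm ι, tf A c π y t0 fun i => w (σ i)) / (Fintype.card ι).factorial =
        pf A c π y (b + ∑ i, w i) + ∑ i, g i w := by
  obtain ⟨g, hg, h⟩ := incl (ι := ι) (pf A c π y) b
  refine ⟨fun i w => -g i w, fun i w x => by simp only [hg], fun w => ?_⟩
  rw [h w, dl_pf A c π y hy w b t0, sum_neg_distrib]
  ring

end Pack

end Vale.Agent.P057T.Int
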