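import Vale.Agent.P057T.GrpH15

/-! Differences of polynomials, diagonals of tensors, integration of a form to a polynomial. -/

set_option linter.all false

open Finset MvPolynomial
open scoped BigOperators

namespace Vale.Agent.P057T.H15

open Vale.Agent.P057L Vale.Agent.P057L.WA Vale.Agent.P057T.Vsm

variable {d m : ℕ}

/-- the alternating sum over all subsets -/
noncomputable def alt (d : ℕ) (F : Finset (Fin d) → ℝ) : ℝ :=
  ∑ S : Finset (Fin d), (-1 : ℝ) ^ (Sᶜ.card) * F S

/-- the d-fold difference of a polynomial -/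
noncomputable def dif (F : MvPolynomial (Fin m) ℝ) (x : Pt d m) (t0 : Vz m) : ℝ :=
  alt d fun S => eval (fun l => ((t0 + ∑ i ∈ S, x i) l : ℝ)) F

/-- the diagonal of a tensor -/
noncomputable def diag {ι : Type} [Fintype ι] [DecidableEq ι] (c : (ι → Fin m) → ℝ) :
    MvPolynomial (Fin m) ℝ := ∑ a : ι → Fin m, C (c a) * ∏ i, X (a i)

theorem alt_add (F G : Finset (Fin d) → ℝ) :
    alt d (fun S => F S + G S) = alt d F + alt d G := by
  unfold alt; rw [← Finset.sum_add_distrib]
  exact Finset.sum_congr rfl fun _ _ => by ring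

theorem alt_mul (r : ℝ) (F : Finset (Fin d) → ℝ) : alt d (fun S => r * F S) = r * alt d F := by
  unfold alt; rw [Finset.mul_sum]
  exact Finset.sum_congr rfl fun _ _ => by ring

theorem alt_sum {κ : Type} (s : Finset κ) (F : κ → Finset (Fin d) → ℝ) :
    alt d (fun S => ∑ k ∈ s, F k S) = ∑ k ∈ s, alt d (F k) := by
  unfold alt; rw [Finset.sum_comm]
  exact Finset.sum_congr rfl fun _ _ => by rw [Finset.mul_sum]

/-- inclusion and exclusion: the top term and the terms of proper subsets -/
theorem alt_eq (F : Finset (Fin d) → ℝ) :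
    alt d F = F univ + ∑ S ∈ univ.erase univ, (-1 : ℝ) ^ (Sᶜ.card) * F S := by
  unfold alt
  rw [← Finset.add_sum_erase univ _ (Finset.mem_univ (univ : Finset (Fin d)))]
  simp

theorem alt_ind (T : Finset (Fin d)) :
    alt d (fun S => if T ⊆ S then 1 else 0) = if T = univ then 1 else 0 := by
  unfold alt
  have h1 : ∑ S : Finset (Fin d), (-1 : ℝ) ^ (Sᶜ.card) * (if T ⊆ S then 1 else 0) =
      ∑ U : Finset (Fin d), (-1 : ℝ) ^ (U.card) * (if U ⊆ Tᶜ then 1 else 0) := by
    refine Fintype.sum_equiv ⟨compl, compl, compl_compl, compl_compl⟩ _ _ fun S => ?_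
    simp only [Equiv.coe_fn_mk, Finset.compl_subset_compl]
  rw [h1]
  have h2 : ∑ U : Finset (Fin d), (-1 : ℝ) ^ (U.card) * (if U ⊆ Tᶜ then 1 else 0) =
      ∑ U ∈ Tᶜ.powerset, (-1 : ℝ) ^ U.card := by
    simp only [mul_ite, mul_one, mul_zero]
    rw [← Finset.sum_filter]
    refine Finset.sum_congr ?_ fun _ _ => rfl
    ext U; simp
  rw [h2]
  have h3 := Finset.sum_powerset_neg_one_pow_card (x := Tᶜ)
  have h4 : ∑ U ∈ Tᶜ.powerset, (-1 : ℝ) ^ U.card = ((if Tᶜ = ∅ then 1 else 0 : ℤ) : ℝ) := by
    rw [← h3]; push_cast; rfl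
  rw [h4]
  by_cases hT : T = univ
  · simp [hT]
  · have : Tᶜ ≠ ∅ := fun h => hT (by simpa using h)
    simp [hT, this]

/-- the set of proper values -/
def rng {r : ℕ} (φ : Fin r → Option (Fin d)) : Finset (Fin d) := univ.filter fun j => ∃ i, φ i = some j

theorem alt_prod {r : ℕ} (B : Fin r → Option (Fin d) → ℝ) :
    alt d (fun S => ∏ i, (B i none + ∑ j ∈ S, B i (some j))) =
      ∑ φ : Fin r → Option (Fin d), if rng φ = univ then ∏ i, B i (φ i) else 0 := by
  have h1 : ∀ S : Finset (Fin d), ∏ i, (B i none + ∑ j ∈ S, B i (some j)) =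
      ∑ φ : Fin r → Option (Fin d), (∏ i, B i (φ i)) * (if rng φ ⊆ S then 1 else 0) := by
    intro S
    have h2 : ∀ i, B i none + ∑ j ∈ S, B i (some j) =
        ∑ o : Option (Fin d), B i o * (if ∀ j, o = some j → j ∈ S then 1 else 0) := by
      intro i
      rw [Fintype.sum_option]
      simp only [reduceCtorEq, false_imp_iff, implies_true, if_true, mul_one, Option.some.injEq,
        forall_eq', mul_ite, mul_zero]
      rw [← Finset.sum_filter]
      congr 2
      ext j; simp
    simp only [h2]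
    rw [Finset.prod_univ_sum, Fintype.piFinset_univ]
    refine Finset.sum_congr rfl fun φ _ => ?_
    rw [Finset.prod_mul_distrib]
    congr 1
    by_cases h : rng φ ⊆ S
    · rw [if_pos h]
      refine Finset.prod_eq_one fun i _ => if_pos fun j hj => h ?_
      simp only [rng, Finset.mem_filter, Finset.mem_univ, true_and]
      exact ⟨i, hj⟩
    · rw [if_neg h]
      obtain ⟨j, hj, hjS⟩ := Finset.not_subset.mp h
      simp only [rng, Finset.mem_filter, Finset.mem_univ, true_and] at hj
      obtain ⟨i, hi⟩ := hj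
      exact Finset.prod_eq_zero (Finset.mem_univ i) (if_neg fun h' => hjS (h' j hi))
  simp only [h1]
  rw [alt_sum]
  refine Finset.sum_congr rfl fun φ _ => ?_
  rw [alt_mul, alt_ind]
  split_ifs <;> simp

theorem rng_card {r : ℕ} (φ : Fin r → Option (Fin d)) :
    (rng φ).card ≤ (univ.filter fun i => φ i ≠ none).card := by
  have h1 : (rng φ).map Function.Embedding.some ⊆ (univ.filter fun i => φ i ≠ none).image φ := by
    intro o ho
    simp only [Finset.mem_map, rng, Finset.mem_filter, Finset.mem_univ, true_and] at ho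
    obtain ⟨j, ⟨i, hi⟩, rfl⟩ := ho
    refine Finset.mem_image.mpr ⟨i, ?_, hi⟩
    simp [hi]
  have h2 := Finset.card_le_card h1
  rw [Finset.card_map] at h2
  exact h2.trans Finset.card_image_le

theorem alt_prod_lt {r : ℕ} (hr : r < d) (B : Fin r → Option (Fin d) → ℝ) :
    alt d (fun S => ∏ i, (B i none + ∑ j ∈ S, B i (some j))) = 0 := by
  rw [alt_prod]
  refine Finset.sum_eq_zero fun φ _ => if_neg fun h => ?_
  have h1 := rng_card φ
  have h2 := Finset.card_filter_le (univ : Finset (Fin r)) (fun i => φ i ≠ none)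
  rw [h] at h1
  simp only [Finset.card_univ, Fintype.card_fin] at h1 h2
  omega

theorem alt_prod_eq (B : Fin d → Option (Fin d) → ℝ) :
    alt d (fun S => ∏ i, (B i none + ∑ j ∈ S, B i (some j))) =
      ∑ σ : Equiv.Perm (Fin d), ∏ i, B i (some (σ i)) := by
  rw [alt_prod, ← Finset.sum_filter]
  symm
  refine Finset.sum_bij (fun σ _ => fun i => some (σ i)) ?_ ?_ ?_ ?_
  · intro σ _
    simp only [Finset.mem_filter, Finset.mem_univ, true_and]
    ext j
    simp only [rng, Finset.mem_filter, Finset.mem_univ, true_and, iff_true]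
    exact ⟨σ.symm j, by simp⟩
  · intro σ _ τ _ h
    ext i
    have := congrFun h i
    simp only [Option.some.injEq] at this
    rw [this]
  · intro φ hφ
    simp only [Finset.mem_filter, Finset.mem_univ, true_and] at hφ
    have h1 := rng_card φ
    rw [hφ] at h1
    have h2 : (univ.filter fun i => φ i ≠ none) = univ :=
      Finset.eq_univ_of_card _ (le_antisymm (Finset.card_le_univ _) (by simpa using h1))
    have h3 : ∀ i, ∃ j, φ i = some j := fun i => by
      have : i ∈ univ.filter fun i => φ i ≠ none := by rw [h2]; exact Finset.mem_univ i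
      exact Option.ne_none_iff_exists'.mp (Finset.mem_filter.mp this).2
    choose ψ hψ using h3
    have h4 : Function.Surjective ψ := fun j => by
      have : j ∈ rng φ := by rw [hφ]; exact Finset.mem_univ j
      simp only [rng, Finset.mem_filter, Finset.mem_univ, true_and] at this
      obtain ⟨i, hi⟩ := this
      exact ⟨i, by rw [hψ i] at hi; exact Option.some.inj hi⟩
    refine ⟨Equiv.ofBijective ψ (Finite.surjective_iff_bijective.mp h4), Finset.mem_univ _, ?_⟩
    funext i
    simp [hψ i]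
  · intro σ _; rfl

theorem dif_add (F G : MvPolynomial (Fin m) ℝ) (x : Pt d m) (t0 : Vz m) :
    dif (F + G) x t0 = dif F x t0 + dif G x t0 := by
  unfold dif; simp only [map_add]; exact alt_add _ _

theorem dif_C_mul (r : ℝ) (F : MvPolynomial (Fin m) ℝ) (x : Pt d m) (t0 : Vz m) :
    dif (C r * F) x t0 = r * dif F x t0 := by
  unfold dif; simp only [map_mul, eval_C]; exact alt_mul _ _

theorem dif_sum {κ : Type} (s : Finset κ) (F : κ → MvPolynomial (Fin m) ℝ) (x : Pt d m)
    (t0 : Vz m) : dif (∑ k ∈ s, F k) x t0 = ∑ k ∈ s, dif (F k) x t0 := by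
  unfold dif; simp only [map_sum]; exact alt_sum _ _

/-- the values of the variables of a monomial -/
def bb {r : ℕ} (a : Fin r → Fin m) (x : Pt d m) (t0 : Vz m) (i : Fin r) (o : Option (Fin d)) : ℝ :=
  o.elim (t0 (a i) : ℝ) fun j => (x j (a i) : ℝ)

theorem dif_prod {r : ℕ} (a : Fin r → Fin m) (x : Pt d m) (t0 : Vz m) :
    dif (∏ i, X (a i) : MvPolynomial (Fin m) ℝ) x t0 =
      alt d (fun S => ∏ i, (bb a x t0 i none + ∑ j ∈ S, bb a x t0 i (some j))) := by
  unfold dif
  congr 1
  funext S
  simp only [map_prod, eval_X, Pi.add_apply, Finset.sum_apply, Option.elim, bb]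
  push_cast; rfl

/-- every monomial is a product of variables -/
theorem mon_eq (r : ℕ) : ∀ μ : Fin m →₀ ℕ, (μ.sum fun _ e => e) = r →
    ∃ a : Fin r → Fin m, (monomial μ 1 : MvPolynomial (Fin m) ℝ) = ∏ i, X (a i) := by
  induction r with
  | zero =>
    intro μ h
    have : μ = 0 := by
      ext l
      by_contra hl
      have h1 : μ l ≤ μ.sum fun _ e => e :=
        Finset.single_le_sum (f := fun l => μ l) (fun _ _ => Nat.zero_le _)
          (Finsupp.mem_support_iff.mpr hl)
      exact hl (by simp only [Finsupp.coe_zero, Pi.zero_apply]; omega)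
    exact ⟨Fin.elim0, by simp [this]⟩
  | succ r ih =>
    intro μ h
    have h0 : μ ≠ 0 := by rintro rfl; simp at h
    obtain ⟨l, hl⟩ := Finsupp.ne_iff.mp h0
    have hl' : 1 ≤ μ l := Nat.one_le_iff_ne_zero.mpr hl
    have h1 : μ = Finsupp.single l 1 + (μ - Finsupp.single l 1) := by
      rw [add_comm, tsub_add_cancel_of_le (Finsupp.single_le_iff.mpr hl')]
    have h2 : ((μ - Finsupp.single l 1).sum fun _ e => e) = r := by
      have h3 : (μ.sum fun _ e => e) = ((Finsupp.single l 1).sum fun _ e => e) +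
          ((μ - Finsupp.single l 1).sum fun _ e => e) := by
        conv_lhs => rw [h1]
        exact Finsupp.sum_add_index' (fun _ => rfl) (fun _ _ _ => rfl)
      rw [Finsupp.sum_single_index rfl] at h3
      omega
    obtain ⟨a, ha⟩ := ih _ h2
    refine ⟨Fin.cons l a, ?_⟩
    rw [Fin.prod_univ_succ]
    simp only [Fin.cons_zero, Fin.cons_succ]
    rw [← ha, h1, monomial_single_add, pow_one]
    simp

theorem mon_C (μ : Fin m →₀ ℕ) (r : ℝ) :
    (monomial μ r : MvPolynomial (Fin m) ℝ) = C r * monomial μ 1 := by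
  rw [C_mul_monomial, mul_one]

/-- differences kill polynomials of small degree -/
theorem dif_lt {F : MvPolynomial (Fin m) ℝ} (h : F.totalDegree < d) (x : Pt d m) (t0 : Vz m) :
    dif F x t0 = 0 := by
  conv_lhs => rw [F.as_sum]
  rw [dif_sum]
  refine Finset.sum_eq_zero fun μ hμ => ?_
  obtain ⟨a, ha⟩ := mon_eq _ μ rfl
  rw [mon_C, dif_C_mul, ha, dif_prod, alt_prod_lt ((le_totalDegree hμ).trans_lt h), mul_zero]

/-- the difference of a diagonal is the symmetrised form -/
theorem dif_diag (c : (Fin d → Fin m) → ℝ) (x : Pt d m) (t0 : Vz m) :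
    dif (diag c) x t0 = d.factorial * ml (sym c) x := by
  unfold diag
  rw [dif_sum, ml_sym]
  unfold ml
  rw [Finset.sum_comm]
  refine Finset.sum_congr rfl fun a _ => ?_
  rw [dif_C_mul, dif_prod, alt_prod_eq, Finset.mul_sum]
  rfl

/-- integration: a polynomial whose top part is the diagonal of c over d factorial -/
theorem dif_top {F : MvPolynomial (Fin m) ℝ} {c : (Fin d → Fin m) → ℝ}
    (h : (C (d.factorial : ℝ) * F - diag c).totalDegree < d) (x : Pt d m) (t0 : Vz m) :
    dif F x t0 = ml (sym c) x := by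
  have hd : (d.factorial : ℝ) ≠ 0 := by positivity
  have h1 := dif_lt h x t0
  have h2 : C (d.factorial : ℝ) * F = (C (d.factorial : ℝ) * F - diag c) + diag c := by ring
  have h3 := dif_C_mul (d.factorial : ℝ) F x t0
  rw [h2, dif_add, h1, dif_diag, zero_add] at h3
  exact (mul_left_cancel₀ hd h3).symm

/-! ### Jets and products -/

theorem diag_add {ι : Type} [Fintype ι] [DecidableEq ι] (c c' : (ι → Fin m) → ℝ) :
    diag (c + c') = diag c + diag c' := by
  unfold diag; rw [← Finset.sum_add_distrib]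
  exact Finset.sum_congr rfl fun a _ => by simp only [Pi.add_apply, map_add]; ring

theorem diag_sum {ι κ : Type} [Fintype ι] [DecidableEq ι] (s : Finset κ)
    (c : κ → (ι → Fin m) → ℝ) : diag (∑ k ∈ s, c k) = ∑ k ∈ s, diag (c k) := by
  unfold diag; rw [Finset.sum_comm]
  exact Finset.sum_congr rfl fun a _ => by
    rw [Finset.sum_apply, map_sum, Finset.sum_mul]

theorem diag_smul {ι : Type} [Fintype ι] [DecidableEq ι] (r : ℝ) (c : (ι → Fin m) → ℝ) :
    diag (fun a => r * c a) = C r * diag c := by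
  unfold diag; rw [Finset.mul_sum]
  exact Finset.sum_congr rfl fun a _ => by rw [map_mul]; ring

theorem diag_single {ι : Type} [Fintype ι] [DecidableEq ι] (a : ι → Fin m) (r : ℝ) :
    diag (Pi.single a r) = C r * ∏ i, X (a i) := by
  unfold diag
  rw [Finset.sum_eq_single a]
  · simp
  · intro b _ hb; simp [Pi.single_eq_of_ne hb]
  · simp

theorem diag_equiv {ι κ : Type} [Fintype ι] [DecidableEq ι] [Fintype κ] [DecidableEq κ]
    (e : ι ≃ κ) (c : (ι → Fin m) → ℝ) : diag (fun a : κ → Fin m => c (a ∘ e)) = diag c := by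
  unfold diag
  refine Fintype.sum_equiv (Equiv.arrowCongr e.symm (Equiv.refl (Fin m))) _ _ fun a => ?_
  have h1 : (Equiv.arrowCongr e.symm (Equiv.refl (Fin m))) a = a ∘ e := by
    funext i; simp [Equiv.arrowCongr]
  rw [h1]
  have h2 : ∏ i, (X ((a ∘ e) i) : MvPolynomial (Fin m) ℝ) = ∏ i, X (a i) :=
    Equiv.prod_comp e (fun i => (X (a i) : MvPolynomial (Fin m) ℝ))
  rw [h2]

theorem diag_sym (c : (Fin d → Fin m) → ℝ) : diag (sym c) = diag c := by
  have hd : (d.factorial : ℝ) ≠ 0 := by positivity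
  have h1 : sym c = fun a => (1 / d.factorial : ℝ) * (∑ σ : Equiv.Perm (Fin d), pm σ c) a := by
    funext a; simp only [sym, pm, Finset.sum_apply]; ring
  have h2 : ∀ σ : Equiv.Perm (Fin d), diag (pm σ c) = diag c := fun σ => diag_equiv σ c
  rw [h1, diag_smul, diag_sum]
  simp only [h2, Finset.sum_const, Finset.card_univ, Fintype.card_perm, Fintype.card_fin,
    nsmul_eq_mul]
  rw [← mul_assoc, ← map_natCast (C : ℝ →+* MvPolynomial (Fin m) ℝ), ← map_mul]
  simp [hd]

/-- the diagonal of a product of tensors on disjoint blocks -/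
theorem diag_prod {β : Type} [Fintype β] [DecidableEq β] (κ : β → Type) [∀ b, Fintype (κ b)]
    [∀ b, DecidableEq (κ b)] (Z : (b : β) → (κ b → Fin m) → ℝ) :
    diag (fun a : (Σ b, κ b) → Fin m => ∏ b, Z b fun k => a ⟨b, k⟩) = ∏ b, diag (Z b) := by
  unfold diag
  rw [Finset.prod_univ_sum, Fintype.piFinset_univ]
  refine Fintype.sum_equiv (Equiv.piCurry fun (b : β) (_ : κ b) => Fin m) _ _ fun a => ?_
  rw [Finset.prod_mul_distrib, map_prod, Fintype.prod_sigma]
  rfl

theorem deg_diag {ι : Type} [Fintype ι] [DecidableEq ι] (c : (ι → Fin m) → ℝ) :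
    (diag c).totalDegree ≤ Fintype.card ι := by
  unfold diag
  refine totalDegree_finsetSum_le fun a _ => (totalDegree_mul _ _).trans ?_
  rw [totalDegree_C, zero_add]
  refine (totalDegree_finset_prod _ _).trans ?_
  simp

/-- the top part of a polynomial is a diagonal -/
theorem ex_diag {F : MvPolynomial (Fin m) ℝ} (hd : 1 ≤ d) (h : F.totalDegree ≤ d) :
    ∃ c : (Fin d → Fin m) → ℝ, (F - diag c).totalDegree < d := by
  have h1 : ∀ μ ∈ F.support, ∃ c : (Fin d → Fin m) → ℝ,
      (monomial μ (coeff μ F) - diag c).totalDegree ≤ d - 1 := by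
    intro μ hμ
    by_cases hμd : (μ.sum fun _ e => e) = d
    · obtain ⟨a, ha⟩ := mon_eq d μ hμd
      refine ⟨Pi.single a (coeff μ F), ?_⟩
      rw [diag_single, mon_C, ha, sub_self, totalDegree_zero]
      exact Nat.zero_le _
    · refine ⟨0, ?_⟩
      have h2 : diag (0 : (Fin d → Fin m) → ℝ) = 0 := by simp [diag]
      rw [h2, sub_zero]
      have h3 := (le_totalDegree hμ).trans h
      refine (totalDegree_monomial_le _ _).trans ?_
      show (μ.sum fun _ e => e) ≤ d - 1
      omega
  choose! c hc using h1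
  refine ⟨∑ μ ∈ F.support, c μ, ?_⟩
  have h4 : F - diag (∑ μ ∈ F.support, c μ) =
      ∑ μ ∈ F.support, (monomial μ (coeff μ F) - diag (c μ)) := by
    rw [diag_sum, Finset.sum_sub_distrib, ← F.as_sum]
  rw [h4]
  exact (totalDegree_finsetSum_le hc).trans_lt (by omega)

/-- the top jet of a polynomial -/
noncomputable def jet (d : ℕ) (F : MvPolynomial (Fin m) ℝ) : (Fin d → Fin m) → ℝ :=
  fun a => dif F (fun i => Pi.single (a i) 1) 0

theorem ml_single (c : (Fin d → Fin m) → ℝ) (a : Fin d → Fin m) :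
    ml c (fun i => Pi.single (a i) 1) = c a := by
  unfold ml
  rw [Finset.sum_eq_single a]
  · simp
  · intro b _ hb
    obtain ⟨i, hi⟩ := Function.ne_iff.mp hb
    rw [Finset.prod_eq_zero (Finset.mem_univ i), mul_zero]
    simp [Pi.single_eq_of_ne hi]
  · simp

theorem jet_top {F : MvPolynomial (Fin m) ℝ} (hd : 1 ≤ d) (h : F.totalDegree ≤ d) :
    (C (d.factorial : ℝ) * F - diag (jet d F)).totalDegree < d := by
  obtain ⟨c, hc⟩ := ex_diag hd h
  have h1 : jet d F = fun a => (d.factorial : ℝ) * sym c a := by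
    funext a
    have h2 : F = (F - diag c) + diag c := by ring
    unfold jet
    rw [h2, dif_add, dif_lt hc, dif_diag, ml_single, zero_add]
  rw [h1, diag_smul, diag_sym, ← mul_sub]
  refine (totalDegree_mul _ _).trans_lt ?_
  rwa [totalDegree_C, zero_add]

/-- differences are given by the jet -/
theorem dif_jet {F : MvPolynomial (Fin m) ℝ} (hd : 1 ≤ d) (h : F.totalDegree ≤ d) (x : Pt d m)
    (t0 : Vz m) : dif F x t0 = ml (jet d F) x := by
  rw [dif_top (jet_top hd h)]
  congr 1
  funext a
  show sym (jet d F) a = dif F _ 0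
  rw [dif_top (jet_top hd h), ml_single]

/-- leading terms multiply -/
theorem lead_prod {β : Type} [DecidableEq β] (s : Finset β) (p q : β → MvPolynomial (Fin m) ℝ)
    (n : β → ℕ) (hq : ∀ b ∈ s, (q b).totalDegree ≤ n b)
    (hpq : ∀ b ∈ s, (p b - q b).totalDegree < n b) :
    (∏ b ∈ s, q b).totalDegree ≤ ∑ b ∈ s, n b ∧
      (∏ b ∈ s, p b - ∏ b ∈ s, q b).totalDegree ≤ ∑ b ∈ s, n b - 1 := by
  induction s using Finset.induction_on with
  | empty => simp
  | insert b s hb ih =>
    obtain ⟨h1, h2⟩ := ih (fun c hc => hq c (Finset.mem_insert_of_mem hc))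
      (fun c hc => hpq c (Finset.mem_insert_of_mem hc))
    have h3 := hq b (Finset.mem_insert_self _ _)
    have h4 := hpq b (Finset.mem_insert_self _ _)
    rw [Finset.prod_insert hb, Finset.prod_insert hb, Finset.sum_insert hb]
    refine ⟨(totalDegree_mul _ _).trans (by omega), ?_⟩
    have h5 : (p b).totalDegree ≤ n b := by
      have : p b = (p b - q b) + q b := by ring
      rw [this]
      exact (totalDegree_add _ _).trans (max_le h4.le h3)
    by_cases hs : s = ∅
    · subst hs
      simp only [Finset.prod_empty, mul_one, Finset.sum_empty, add_zero]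
      omega
    obtain ⟨c, hc⟩ := Finset.nonempty_iff_ne_empty.mpr hs
    have h6 : n c ≤ ∑ b ∈ s, n b :=
      Finset.single_le_sum (f := n) (fun _ _ => Nat.zero_le _) hc
    have h7 := hpq c (Finset.mem_insert_of_mem hc)
    have h8 : p b * ∏ b ∈ s, p b - q b * ∏ b ∈ s, q b =
        p b * (∏ b ∈ s, p b - ∏ b ∈ s, q b) + (p b - q b) * ∏ b ∈ s, q b := by ring
    rw [h8]
    refine (totalDegree_add _ _).trans (max_le ?_ ?_)
    · exact (totalDegree_mul _ _).trans (by omega)
    · exact (totalDegree_mul _ _).trans (by omega)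

/-- the tensor of one set partition, made from the jets of the coordinates -/
noncomputable def blk {β : Type} [Fintype β] (n : β → ℕ) (e : (Σ b, Fin (n b)) ≃ Fin d)
    (z : β → MvPolynomial (Fin m) ℝ) : (Fin d → Fin m) → ℝ :=
  fun a => ∏ b, jet (n b) (z b) fun k => a (e ⟨b, k⟩)

/-- integration of one monomial of a tower form -/
theorem int_blk {β : Type} [Fintype β] [DecidableEq β] (hd : 1 ≤ d) (n : β → ℕ)
    (e : (Σ b, Fin (n b)) ≃ Fin d) (z : β → MvPolynomial (Fin m) ℝ) (hn : ∀ b, 1 ≤ n b)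
    (hz : ∀ b, (z b).totalDegree ≤ n b) :
    (∏ b, (C ((n b).factorial : ℝ) * z b) - diag (blk n e z)).totalDegree < d := by
  have h1 : diag (blk n e z) = ∏ b, diag (jet (n b) (z b)) := by
    rw [← diag_prod (fun b => Fin (n b)) fun b => jet (n b) (z b)]
    exact diag_equiv e (fun a : (Σ b, Fin (n b)) → Fin m => ∏ b, jet (n b) (z b) fun k => a ⟨b, k⟩)
  have h2 : ∑ b, n b = d := by
    have := Fintype.card_congr e
    simpa using this
  have h3 := (lead_prod univ (fun b => C ((n b).factorial : ℝ) * z b)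
    (fun b => diag (jet (n b) (z b))) n
    (fun b _ => (deg_diag _).trans (by simp)) (fun b _ => jet_top (hn b) (hz b))).2
  rw [h1]
  rw [h2] at h3
  exact h3.trans_lt (by omega)

/-- integration of a tower form: a sum of monomials, one set partition for each -/
theorem int_form {κ : Type} [Fintype κ] (hd : 1 ≤ d) (β : κ → Type) [∀ k, Fintype (β k)]
    [∀ k, DecidableEq (β k)] (n : (k : κ) → β k → ℕ)
    (e : (k : κ) → (Σ b, Fin (n k b)) ≃ Fin d) (z : (k : κ) → β k → MvPolynomial (Fin m) ℝ)
    (w : κ → ℝ) (hn : ∀ k b, 1 ≤ n k b) (hz : ∀ k b, (z k b).totalDegree ≤ n k b) (x : Pt d m)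
    (t0 : Vz m) :
    dif (∑ k, C (w k / d.factorial) * ∏ b, (C ((n k b).factorial : ℝ) * z k b)) x t0 =
      ml (sym (∑ k, fun a => w k * blk (n k) (e k) (z k) a)) x := by
  have hd' : (d.factorial : ℝ) ≠ 0 := by positivity
  refine dif_top ?_ x t0
  have h1 : C (d.factorial : ℝ) *
      (∑ k, C (w k / d.factorial) * ∏ b, (C ((n k b).factorial : ℝ) * z k b)) -
      diag (∑ k, fun a => w k * blk (n k) (e k) (z k) a) =
      ∑ k, C (w k) * (∏ b, (C ((n k b).factorial : ℝ) * z k b) - diag (blk (n k) (e k) (z k))) := by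
    rw [diag_sum, Finset.mul_sum, ← Finset.sum_sub_distrib]
    refine Finset.sum_congr rfl fun k _ => ?_
    rw [diag_smul, ← mul_assoc, ← map_mul, mul_div_cancel₀ _ hd', mul_sub]
  rw [h1]
  refine (totalDegree_finsetSum_le (d := d - 1) fun k _ => (totalDegree_mul _ _).trans ?_).trans_lt
    (by omega)
  have := int_blk hd (n k) (e k) (z k) (hn k) (hz k)
  rw [totalDegree_C]
  omega

end Vale.Agent.P057T.H15
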