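import Vale.Agent.P057T.C4H8

/-!
The combinatorics of step (1*): three rounds of the 4-cycle lemma on the law of quadruples
`z + x, z + x1, z1 - x1, z1 - x`, then two parameters are fixed.
-/

namespace Vale.Agent.P057T.Kc

open Vale.Agent.P057T.Cut Vale.Agent.P057T.C4

noncomputable section

variable {Y Y' S V : Type*}

theorem Ex_equiv (e : Y' ≃ Y) {g : Y → ℝ} {g' : Y' → ℝ} (h : ∀ y, g' y = g (e y)) (K : Y → ℝ) :
    Ex g K = Ex g' fun y => K (e y) := by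
  unfold Ex
  rw [← e.tsum_eq]
  exact tsum_congr fun y => by rw [h]

theorem pw_eq {g : Y → ℝ} {g' : Y' → ℝ} (hg : Pr g) (hg' : Pr g') (K : Y → Y' → ℝ)
    (hK : ∀ y y', |K y y'| ≤ 1) :
    Ex g (fun y => Ex g' fun y' => K y y') = Ex (pw g g') fun p => K p.1 p.2 :=
  (Ex_pw hg.wt hg'.wt (K := fun p => K p.1 p.2) ⟨1, fun _ => hK _ _⟩).symm

theorem bd_Ex_ind {g : Y → ℝ} (hg : Pr g) (p : S → Y → Prop) :
    Bd fun s => Ex g fun y => ind (p s y) := ⟨1, fun _ => hg.abs_Ex_le fun _ => abs_ind _⟩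

theorem Ex2_mono {w : S → ℝ} {g : Y → ℝ} (hw : Pr w) (hg : Pr g) {p q : S → Y → Prop}
    (h : ∀ s y, p s y → q s y) :
    Ex w (fun s => Ex g fun y => ind (p s y)) ≤ Ex w fun s => Ex g fun y => ind (q s y) :=
  Ex_mono hw.wt (bd_Ex_ind hg p) (bd_Ex_ind hg q) fun s =>
    Ex_mono hg.wt (bd_ind _) (bd_ind _) fun y => ind_mono (h s y)

/-- One round. -/
theorem round {w : S → ℝ} {g : Y → ℝ} {g' : Y' → ℝ} (hw : Pr w) (hg : Pr g) (hg' : Pr g')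
    (E P : S → Y → Y' → Prop) (l : S → Y → Y' → V) {δ η : ℝ} (hδ : 0 ≤ δ)
    (hη : η ≤ (δ / 4) ^ 4)
    (hE : δ ≤ Ex w fun s => Ex (pw g g') fun p => ind (E s p.1 p.2))
    (hb : Ex w (fun s => Ex (pw (pw g g) (pw g' g')) fun p =>
      ind (Cyc (E s) p ∧ ¬ (P s p.1.1 p.2.1 ∧ l s p.1.1 p.2.1 = l s p.1.1 p.2.2))) ≤ η) :
    ∃ ka : S → Y → V, 15 * (δ / 4) ^ 4 ≤ Ex w fun s => Ex (pw g g') fun p =>
      ind (E s p.1 p.2 ∧ P s p.1 p.2 ∧ l s p.1 p.2 = ka s p.1) := by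
  have hgg := hg.pw hg'
  have h4 := (hg.pw hg).pw (hg'.pw hg')
  have hn : Ex w (fun s => Ex (pw g g') fun p => ind (E s p.1 p.2 ∧ ¬ P s p.1 p.2)) ≤ δ / 4 := by
    have b1 := bd_Ex_ind hgg fun s (p : Y × Y') => E s p.1 p.2 ∧ ¬ P s p.1 p.2
    have h1 := hw.pow4 b1
    have h2 : Ex w (fun s => (Ex (pw g g') fun p => ind (E s p.1 p.2 ∧ ¬ P s p.1 p.2)) ^ 4) ≤
        Ex w fun s => Ex (pw (pw g g) (pw g' g')) fun p =>
          ind (Cyc (E s) p ∧ ¬ (P s p.1.1 p.2.1 ∧ l s p.1.1 p.2.1 = l s p.1.1 p.2.2)) := by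
      refine Ex_mono hw.wt ⟨1, fun s => ?_⟩ (bd_Ex_ind h4 _) fun s => ?_
      · rw [abs_pow]
        exact pow_le_one₀ (abs_nonneg _) (hgg.abs_Ex_le fun _ => abs_ind _)
      · refine (cyc_ge hg hg' fun y y' => E s y y' ∧ ¬ P s y y').trans ?_
        refine Ex_mono h4.wt (bd_ind _) (bd_ind _) fun p => ind_mono ?_
        rintro ⟨⟨a1, a2⟩, a3, a4⟩
        exact ⟨⟨⟨a1.1, a2.1⟩, a3.1, a4.1⟩, fun hh => a1.2 hh.1⟩
    exact le_of_pow_le_pow_left₀ (n := 4) (by norm_num) (by linarith)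
      (h1.trans (h2.trans (hb.trans hη)))
  have hs : Ex w (fun s => Ex (pw g g') fun p => ind (E s p.1 p.2)) =
      Ex w (fun s => Ex (pw g g') fun p => ind (E s p.1 p.2 ∧ P s p.1 p.2)) +
      Ex w (fun s => Ex (pw g g') fun p => ind (E s p.1 p.2 ∧ ¬ P s p.1 p.2)) := by
    rw [← Ex_add hw.wt (bd_Ex_ind hgg _) (bd_Ex_ind hgg _)]
    congr 1
    funext s
    rw [← Ex_add hgg.wt (bd_ind _) (bd_ind _)]
    congr 1
    funext p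
    exact ind_split _ _
  obtain ⟨ka, hka⟩ := c4_fib hw (fun _ => hg) (fun _ => hg') (fun s y y' => E s y y' ∧ P s y y') l
    (δ := δ / 2) (η := η) (by linarith) (by linarith) (by
      refine le_trans (Ex2_mono hw h4 fun s p => ?_) hb
      rintro ⟨⟨⟨a1, a2⟩, a3, a4⟩, a5⟩
      exact ⟨⟨⟨a1.1, a2.1⟩, a3.1, a4.1⟩, fun hh => a5 hh.2⟩)
  refine ⟨ka, le_trans (by nlinarith) (hka.trans (Ex2_mono hw hgg fun s p => ?_))⟩
  rintro ⟨⟨a1, a2⟩, a3⟩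
  exact ⟨a1, a2, a3⟩

/-- A common neighbour. -/
theorem nbr {g : Y → ℝ} {g' : Y' → ℝ} (hg : Pr g) (hg' : Pr g') (E : Y → Y' → Prop) {δ : ℝ}
    (hδ : 0 ≤ δ) (hE : δ ≤ Ex (pw g g') fun p => ind (E p.1 p.2)) :
    ∃ y0, δ ^ 2 ≤ Ex (pw g g') fun p => ind (E p.1 p.2 ∧ E p.1 y0) := by
  have h1 := cs_step hg.wt hg'.wt (F := fun _ => 1) (fun _ => by simp)
    (K := fun p => ind (E p.1 p.2)) (bd_ind _)
  simp only [one_mul, hg.one] at h1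
  let e : Y' × (Y × Y') ≃ (Y' × Y') × Y :=
    ⟨fun p => ((p.2.2, p.1), p.2.1), fun p => (p.1.2, p.2, p.1.1), fun _ => rfl, fun _ => rfl⟩
  rw [Ex_equiv e (g' := pw g' (pw g g')) (fun y => by simp only [pw, e, Equiv.coe_fn_mk]; ring)]
    at h1
  have h2 := pw_eq hg' (hg.pw hg') (fun y0 p => ind (E p.1 p.2 ∧ E p.1 y0)) fun _ _ => abs_ind _
  obtain ⟨y0, _, hy⟩ := hg'.pop (bd_Ex_ind (hg.pw hg') fun y0 p => E p.1 p.2 ∧ E p.1 y0)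
  refine ⟨y0, le_trans ?_ hy⟩
  rw [h2]
  refine (pow_le_pow_left₀ hδ hE 2).trans (h1.trans (le_of_eq ?_))
  congr 1
  funext p
  rw [ind_and]
  rfl

section law

variable {Λ : Type*} [AddCommGroup Λ] (gw gw1 gn : Λ → ℝ)

/-- mass under the law of `(z, z1, x, x1)` -/
def Q (F : Λ → Λ → Λ → Λ → Prop) : ℝ :=
  Ex (pw gw gw1) fun s => Ex (pw gn gn) fun p => ind (F s.1 s.2 p.1 p.2)

/-- a shift by `x + x1` moves the wide weight by at most `θ` on average -/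
def Tv (θ : ℝ) : Prop := ∀ F : Λ → Λ → Λ → Prop,
  |Ex (pw gn gn) (fun p => Ex gw fun z => ind (F z p.1 p.2)) -
    Ex (pw gn gn) (fun p => Ex gw fun z => ind (F (z - p.1 - p.2) p.1 p.2))| ≤ θ

/-- bad 4-cycles in the pairing `[14|23]` -/
def BadA (E P : Λ → Λ → Λ → Λ → Prop) (l : Λ → Λ → Λ → Λ → V) : ℝ :=
  Ex (pw gw gw1) fun s => Ex (pw (pw gn gn) (pw gn gn)) fun p =>
    ind (Cyc (E s.1 s.2) p ∧
      ¬ (P s.1 s.2 p.1.1 p.2.1 ∧ l s.1 s.2 p.1.1 p.2.1 = l s.1 s.2 p.1.1 p.2.2))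

/-- bad 4-cycles in the pairing `[24|13]`; `s.1 = z + x + x1` -/
def BadB (E P : Λ → Λ → Λ → Λ → Prop) (l : Λ → Λ → Λ → Λ → V) : ℝ :=
  BadA gw gw1 gn (fun z z1 x x1 => E (z - x - x1) z1 x x1)
    (fun z z1 x x1 => P (z - x - x1) z1 x x1) (fun z z1 x x1 => l (z - x - x1) z1 x x1)

/-- bad 4-cycles in the pairing `[34|12]` -/
def BadC (E P : Λ → Λ → Λ → Λ → Prop) (l : Λ → Λ → Λ → Λ → V) : ℝ :=
  Ex (pw gn gn) fun s => Ex (pw (pw gw1 gw1) (pw gw gw)) fun p =>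
    ind (Cyc (fun z1 z => E z z1 s.1 s.2) p ∧
      ¬ (P p.2.1 p.1.1 s.1 s.2 ∧ l p.2.1 p.1.1 s.1 s.2 = l p.2.2 p.1.1 s.1 s.2))

variable {gw gw1 gn}

omit [AddCommGroup Λ] in
theorem Q_C (hw : Pr gw) (hw1 : Pr gw1) (hn : Pr gn) (F : Λ → Λ → Λ → Λ → Prop) :
    Q gw gw1 gn F = Ex (pw gn gn) fun s => Ex (pw gw1 gw) fun p => ind (F p.2 p.1 s.1 s.2) := by
  unfold Q
  rw [pw_eq (hw.pw hw1) (hn.pw hn) _ fun _ _ => abs_ind _,
    pw_eq (hn.pw hn) (hw1.pw hw) _ fun _ _ => abs_ind _]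
  let e : (Λ × Λ) × (Λ × Λ) ≃ (Λ × Λ) × (Λ × Λ) :=
    ⟨fun p => ((p.2.2, p.2.1), p.1), fun p => (p.2, (p.1.2, p.1.1)), fun _ => rfl, fun _ => rfl⟩
  exact Ex_equiv e (fun y => by simp only [pw, e, Equiv.coe_fn_mk]; ring) _

omit [AddCommGroup Λ] in
theorem Q_D (hw : Pr gw) (hw1 : Pr gw1) (hn : Pr gn) (F : Λ → Λ → Λ → Λ → Prop) :
    Q gw gw1 gn F = Ex (pw gw1 gn) fun s => Ex (pw gw gn) fun p => ind (F p.1 s.1 s.2 p.2) := by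
  unfold Q
  rw [pw_eq (hw.pw hw1) (hn.pw hn) _ fun _ _ => abs_ind _,
    pw_eq (hw1.pw hn) (hw.pw hn) _ fun _ _ => abs_ind _]
  let e : (Λ × Λ) × (Λ × Λ) ≃ (Λ × Λ) × (Λ × Λ) :=
    ⟨fun p => ((p.2.1, p.1.1), (p.1.2, p.2.2)), fun p => ((p.1.2, p.2.1), (p.1.1, p.2.2)),
      fun _ => rfl, fun _ => rfl⟩
  exact Ex_equiv e (fun y => by simp only [pw, e, Equiv.coe_fn_mk]; ring) _

omit [AddCommGroup Λ] in
theorem Q_E (hw : Pr gw) (hw1 : Pr gw1) (hn : Pr gn) (F : Λ → Λ → Λ → Λ → Prop) :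
    Q gw gw1 gn F = Ex gw1 fun z1 => Ex (pw gn gn) fun p => Ex gw fun z =>
      ind (F z z1 p.1 p.2) := by
  unfold Q
  have h1 : (fun z1 => Ex (pw gn gn) fun p => Ex gw fun z => ind (F z z1 p.1 p.2)) =
      fun z1 => Ex (pw (pw gn gn) gw) fun p => ind (F p.2 z1 p.1.1 p.1.2) :=
    funext fun z1 => pw_eq (hn.pw hn) hw _ fun _ _ => abs_ind _
  rw [h1, pw_eq (hw.pw hw1) (hn.pw hn) _ fun _ _ => abs_ind _,
    pw_eq hw1 ((hn.pw hn).pw hw) _ fun _ _ => abs_ind _]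
  let e : Λ × ((Λ × Λ) × Λ) ≃ (Λ × Λ) × (Λ × Λ) :=
    ⟨fun p => ((p.2.2, p.1), p.2.1), fun p => (p.1.2, (p.2, p.1.1)), fun _ => rfl, fun _ => rfl⟩
  exact Ex_equiv e (fun y => by simp only [pw, e, Equiv.coe_fn_mk]; ring) _

theorem Q_tv (hw : Pr gw) (hw1 : Pr gw1) (hn : Pr gn) {θ : ℝ} (hθ : Tv gw gn θ)
    (F : Λ → Λ → Λ → Λ → Prop) :
    |Q gw gw1 gn F - Q gw gw1 gn fun z z1 x x1 => F (z - x - x1) z1 x x1| ≤ θ := by
  have b : ∀ G : Λ → Λ → Λ → Λ → Prop,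
      Bd fun z1 => Ex (pw gn gn) fun p => Ex gw fun z => ind (G z z1 p.1 p.2) := fun G =>
    ⟨1, fun _ => (hn.pw hn).abs_Ex_le fun _ => hw.abs_Ex_le fun _ => abs_ind _⟩
  rw [Q_E hw hw1 hn, Q_E hw hw1 hn, ← Ex_sub hw1.wt (b F)
    (b fun z z1 x x1 => F (z - x - x1) z1 x x1)]
  exact hw1.abs_Ex_le fun z1 => hθ fun z x x1 => F z z1 x x1

/-- `Tv` from the total variation of the shifts -/
theorem tv_of (hw : Pr gw) (hn : Pr gn) {θ : ℝ}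
    (h : Ex (pw gn gn) (fun p => ∑' z, |gw (z + (p.1 + p.2)) - gw z|) ≤ θ) : Tv gw gn θ := by
  intro F
  have hsh : ∀ a : Λ, Summable fun z => gw (z + a) := fun a =>
    (Equiv.addRight a).summable_iff.2 hw.wt.sm
  have hsm : ∀ a : Λ, Summable fun z => |gw (z + a) - gw z| := fun a =>
    ((hsh a).sub hw.wt.sm).abs
  have h2 : ∀ a : Λ, |∑' z, (|gw (z + a) - gw z|)| ≤ 2 := by
    intro a
    rw [abs_of_nonneg (tsum_nonneg fun _ => abs_nonneg _)]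
    have e1 : ∑' z, gw (z + a) = 1 := ((Equiv.addRight a).tsum_eq gw).trans hw.one
    calc _ ≤ ∑' z, (gw (z + a) + gw z) := (hsm a).tsum_le_tsum (fun z => by
            have := hw.wt.nn (z + a)
            have := hw.wt.nn z
            rw [abs_le]; constructor <;> linarith) ((hsh a).add hw.wt.sm)
      _ = 2 := by rw [(hsh a).tsum_add hw.wt.sm, e1, hw.one]; norm_num
  have key : ∀ p : Λ × Λ, |Ex gw (fun z => ind (F z p.1 p.2)) -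
      Ex gw (fun z => ind (F (z - p.1 - p.2) p.1 p.2))| ≤
      ∑' z, |gw (z + (p.1 + p.2)) - gw z| := by
    intro p
    have hwt : Wt fun z => gw (z + (p.1 + p.2)) := ⟨fun _ => hw.wt.nn _, hsh _⟩
    have e1 : Ex gw (fun z => ind (F (z - p.1 - p.2) p.1 p.2)) =
        Ex (fun z => gw (z + (p.1 + p.2))) fun z => ind (F z p.1 p.2) := by
      rw [Ex_equiv (Equiv.addRight (p.1 + p.2)) (g' := fun z => gw (z + (p.1 + p.2)))
        (fun _ => rfl)]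
      congr 1
      funext z
      have : (Equiv.addRight (p.1 + p.2)) z - p.1 - p.2 = z := by
        simp only [Equiv.coe_addRight]; abel
      rw [this]
    rw [e1, abs_sub_comm]
    unfold Ex
    have s1 := hwt.mul (bd_ind fun z => F z p.1 p.2)
    have s2 := hw.wt.mul (bd_ind fun z => F z p.1 p.2)
    rw [← s1.tsum_sub s2, ← Real.norm_eq_abs]
    refine tsum_of_norm_bounded (hsm _).hasSum fun z => ?_
    rw [← sub_mul, Real.norm_eq_abs, abs_mul]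
    exact mul_le_of_le_one_right (abs_nonneg _) (abs_ind _)
  have b1 := bd_Ex_ind hw fun (p : Λ × Λ) z => F z p.1 p.2
  have b2 := bd_Ex_ind hw fun (p : Λ × Λ) z => F (z - p.1 - p.2) p.1 p.2
  have b3 : Bd fun p : Λ × Λ => ∑' z, |gw (z + (p.1 + p.2)) - gw z| := ⟨2, fun _ => h2 _⟩
  rw [abs_le]
  constructor
  · have := Ex_mono (hn.pw hn).wt (b2.sub b1) b3 fun p => by
      have := (abs_le.1 (key p)).1
      linarith
    rw [Ex_sub (hn.pw hn).wt b2 b1] at this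
    linarith
  · have := Ex_mono (hn.pw hn).wt (b1.sub b2) b3 fun p => (abs_le.1 (key p)).2
    rw [Ex_sub (hn.pw hn).wt b1 b2] at this
    linarith

theorem num {δ : ℝ} (h0 : 0 ≤ δ) (h1 : δ ≤ 1) :
    (δ / 4) ^ 84 ≤ (((δ / 4) ^ 4 / 4) ^ 4 / 4) ^ 4 ∧
    (((δ / 4) ^ 4 / 4) ^ 4 / 4) ^ 4 ≤ ((δ / 4) ^ 4 / 4) ^ 4 ∧
    ((δ / 4) ^ 4 / 4) ^ 4 ≤ (δ / 4) ^ 4 := by
  have k : ∀ a : ℝ, 0 ≤ a → a ≤ 1 → (a / 4) ^ 4 ≤ a := fun a ha ha1 =>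
    (pow_le_of_le_one (by linarith) (by linarith) (by norm_num)).trans (by linarith)
  have a1 := k δ h0 h1
  have p1 : 0 ≤ (δ / 4) ^ 4 := by positivity
  have a2 := k _ p1 (a1.trans h1)
  have p2 : 0 ≤ ((δ / 4) ^ 4 / 4) ^ 4 := by positivity
  refine ⟨?_, k _ p2 (a2.trans (a1.trans h1)), a2⟩
  have h4 : 0 ≤ δ / 4 := by linarith
  have h5 : δ / 4 ≤ 1 / 4 := by linarith
  generalize δ / 4 = a at h4 h5
  have e : ((a ^ 4 / 4) ^ 4 / 4) ^ 4 = a ^ 64 * (1 / 4) ^ 20 := by ring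
  have e2 : a ^ 84 = a ^ 64 * a ^ 20 := by rw [← pow_add]
  rw [e, e2]
  exact mul_le_mul_of_nonneg_left (pow_le_pow_left₀ h4 h5 _) (pow_nonneg h4 _)

/-- **KILL, combinatorial part.** -/
theorem kc (hw : Pr gw) (hw1 : Pr gw1) (hn : Pr gn) {LA LB LC K : Type*}
    (E SA SB SC : Λ → Λ → Λ → Λ → Prop) (lA : Λ → Λ → Λ → Λ → LA) (lB : Λ → Λ → Λ → Λ → LB)
    (lC : Λ → Λ → Λ → Λ → LC) (fA : LA → K) (fC : LC → K)
    (hk : ∀ z z1 x x1, SA z z1 x x1 → SB z z1 x x1 → SC z z1 x x1 →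
      fA (lA z z1 x x1) = fC (lC z z1 x x1))
    {δ η : ℝ} (hδ : 0 ≤ δ) (hη : η ≤ (δ / 4) ^ 84) (hE : δ ≤ Q gw gw1 gn E) (hθ : Tv gw gn η)
    (hA : BadA gw gw1 gn E SA lA ≤ η) (hB : BadB gw gw1 gn E SB lB ≤ η)
    (hC : BadC gw gw1 gn E SC lC ≤ η) :
    ∃ (z1 x : Λ) (F : Λ → LA) (G : Λ → LB) (H : Λ → LC) (k : K),
      (δ / 4) ^ 168 ≤ Ex (pw gw gn) fun p => ind (E p.1 z1 x p.2 ∧
        (SA p.1 z1 x p.2 ∧ SB p.1 z1 x p.2 ∧ SC p.1 z1 x p.2) ∧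
        lA p.1 z1 x p.2 = F p.1 ∧ lB p.1 z1 x p.2 = G (p.1 + p.2) ∧ lC p.1 z1 x p.2 = H p.2 ∧
        fC (H p.2) = k) := by
  have hww := hw.pw hw1
  have hnn := hn.pw hn
  have hδ1 : δ ≤ 1 := hE.trans ((le_abs_self _).trans
    (hww.abs_Ex_le fun _ => hnn.abs_Ex_le fun _ => abs_ind _))
  obtain ⟨n1, n2, n3⟩ := num hδ hδ1
  have p1 : 0 ≤ (δ / 4) ^ 4 := by positivity
  have p2 : 0 ≤ ((δ / 4) ^ 4 / 4) ^ 4 := by positivity
  have p3 : 0 ≤ (((δ / 4) ^ 4 / 4) ^ 4 / 4) ^ 4 := by positivity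
  obtain ⟨ka, hka⟩ := round hww hn hn (fun s => E s.1 s.2) (fun s => SA s.1 s.2)
    (fun s => lA s.1 s.2) hδ (by linarith) hE hA
  let E1 : Λ → Λ → Λ → Λ → Prop := fun z z1 x x1 =>
    E z z1 x x1 ∧ SA z z1 x x1 ∧ lA z z1 x x1 = ka (z, z1) x
  have q1 : 15 * (δ / 4) ^ 4 ≤ Q gw gw1 gn E1 := hka
  have t1 := (abs_le.1 (Q_tv hw hw1 hn hθ E1)).2
  obtain ⟨kb, hkb⟩ := round hww hn hn (fun s x x1 => E1 (s.1 - x - x1) s.2 x x1)
    (fun s x x1 => SB (s.1 - x - x1) s.2 x x1) (fun s x x1 => lB (s.1 - x - x1) s.2 x x1)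
    (δ := (δ / 4) ^ 4) (η := η) p1 (by linarith)
    (show _ ≤ Q gw gw1 gn fun z z1 x x1 => E1 (z - x - x1) z1 x x1 by linarith) (by
      refine le_trans (Ex2_mono hww (hnn.pw hnn) fun s p => ?_) hB
      rintro ⟨⟨⟨a1, a2⟩, a3, a4⟩, a5⟩
      exact ⟨⟨⟨a1.1, a2.1⟩, a3.1, a4.1⟩, a5⟩)
  let E2 : Λ → Λ → Λ → Λ → Prop := fun z z1 x x1 =>
    E1 z z1 x x1 ∧ SB z z1 x x1 ∧ lB z z1 x x1 = kb (z + x + x1, z1) x
  have q2 : 15 * ((δ / 4) ^ 4 / 4) ^ 4 ≤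
      Q gw gw1 gn fun z z1 x x1 => E2 (z - x - x1) z1 x x1 := by
    refine hkb.trans (Ex2_mono hww hnn fun s p => ?_)
    rintro ⟨a1, a2, a3⟩
    refine ⟨a1, a2, a3.trans ?_⟩
    have : s.1 - p.1 - p.2 + p.1 + p.2 = s.1 := by abel
    rw [this]
  have t2 := (abs_le.1 (Q_tv hw hw1 hn hθ E2)).1
  have q3 : ((δ / 4) ^ 4 / 4) ^ 4 ≤ Q gw gw1 gn E2 := by linarith
  rw [Q_C hw hw1 hn] at q3
  obtain ⟨kc, hkc⟩ := round hnn hw1 hw (fun s z1 z => E2 z z1 s.1 s.2)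
    (fun s z1 z => SC z z1 s.1 s.2) (fun s z1 z => lC z z1 s.1 s.2)
    (δ := ((δ / 4) ^ 4 / 4) ^ 4) (η := η) p2 (by linarith) q3 (by
      refine le_trans (Ex2_mono hnn ((hw1.pw hw1).pw (hw.pw hw)) fun s p => ?_) hC
      rintro ⟨⟨⟨a1, a2⟩, a3, a4⟩, a5⟩
      exact ⟨⟨⟨a1.1.1, a2.1.1⟩, a3.1.1, a4.1.1⟩, a5⟩)
  let E3 : Λ → Λ → Λ → Λ → Prop := fun z z1 x x1 =>
    E2 z z1 x x1 ∧ SC z z1 x x1 ∧ lC z z1 x x1 = kc (x, x1) z1
  have q4 : 15 * (((δ / 4) ^ 4 / 4) ^ 4 / 4) ^ 4 ≤ Q gw gw1 gn E3 := by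
    rw [Q_C hw hw1 hn]; exact hkc
  rw [Q_D hw hw1 hn] at q4
  obtain ⟨⟨z1, x⟩, _, hs⟩ := (hw1.pw hn).pop
    (bd_Ex_ind (hw.pw hn) fun (s : Λ × Λ) (p : Λ × Λ) => E3 p.1 s.1 s.2 p.2)
  obtain ⟨y0, hy0⟩ := nbr hw hn (fun z x1 => E3 z z1 x x1) (δ := (δ / 4) ^ 84) (by positivity)
    (by linarith)
  refine ⟨z1, x, fun z => ka (z, z1) x, fun u => kb (u + x, z1) x, fun x1 => kc (x, x1) z1,
    fC (kc (x, y0) z1), ?_⟩
  have e : (δ / 4) ^ 168 = ((δ / 4) ^ 84) ^ 2 := by rw [← pow_mul]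
  rw [e]
  refine hy0.trans (Ex_mono (hw.pw hn).wt (bd_ind _) (bd_ind _) fun p => ind_mono ?_)
  rintro ⟨⟨⟨⟨a1, a2, a3⟩, a4, a5⟩, a6, a7⟩, ⟨⟨_, b2, b3⟩, b4, _⟩, b6, b7⟩
  refine ⟨a1, ⟨a2, a4, a6⟩, a3, a5.trans ?_, a7, ?_⟩
  · rw [add_right_comm]
  · show fC (kc (x, p.2) z1) = fC (kc (x, y0) z1)
    rw [← a7, ← hk _ _ _ _ a2 a4 a6, a3, ← b3, hk _ _ _ _ b2 b4 b6, b7]

theorem markov {w h : S → ℝ} (hw : Pr w) (hb : Bd h) (h0 : ∀ s, 0 ≤ h s) {t η : ℝ} (ht : 0 < t)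
    (hη : Ex w h ≤ η) : Ex w (fun s => ind (t < h s)) ≤ η / t := by
  rw [le_div_iff₀ ht, mul_comm, ← Ex_mul_left]
  refine le_trans (Ex_mono hw.wt ((Bd.const t).mul (bd_ind _)) hb fun s => ?_) hη
  by_cases hs : t < h s
  · rw [ind_pos hs, mul_one]; exact hs.le
  · rw [ind_neg hs, mul_zero]; exact h0 s

theorem markov' {w h : S → ℝ} (hw : Pr w) (hb : ∀ s, |h s| ≤ 1) {δ : ℝ} (h0 : 0 ≤ δ)
    (hδ : δ ≤ Ex w h) : δ / 2 ≤ Ex w (fun s => ind (δ / 2 ≤ h s)) := by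
  have := Ex_mono hw.wt ⟨1, hb⟩ ((Bd.const (δ / 2)).add (bd_ind fun s => δ / 2 ≤ h s)) fun s => by
    by_cases hs : δ / 2 ≤ h s
    · rw [ind_pos hs]; linarith [(abs_le.1 (hb s)).2]
    · rw [ind_neg hs]; linarith [not_le.1 hs]
  rw [Ex_add hw.wt (Bd.const _) (bd_ind _), hw.Ex_const] at this
  linarith

/-- **KILL, combinatorial part, averaged over a base.** -/
theorem kc_fib {w : S → ℝ} (hW : Pr w) {gw gw1 gn : S → Λ → ℝ} (hw : ∀ s, Pr (gw s))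
    (hw1 : ∀ s, Pr (gw1 s)) (hn : ∀ s, Pr (gn s)) {LA LB LC K : Type*}
    (E SA SB SC : S → Λ → Λ → Λ → Λ → Prop) (lA : S → Λ → Λ → Λ → Λ → LA)
    (lB : S → Λ → Λ → Λ → Λ → LB) (lC : S → Λ → Λ → Λ → Λ → LC) (fA : LA → K) (fC : LC → K)
    (hk : ∀ s z z1 x x1, SA s z z1 x x1 → SB s z z1 x x1 → SC s z z1 x x1 →
      fA (lA s z z1 x x1) = fC (lC s z z1 x x1))
    {δ η : ℝ} (hδ : 0 < δ) (hη : η ≤ (δ / 8) ^ 85)
    (hE : δ ≤ Ex w fun s => Q (gw s) (gw1 s) (gn s) (E s))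
    (hθ : ∀ s, (∃ z z1 x x1, E s z z1 x x1) → Tv (gw s) (gn s) ((δ / 8) ^ 84))
    (hA : Ex w (fun s => BadA (gw s) (gw1 s) (gn s) (E s) (SA s) (lA s)) ≤ η)
    (hB : Ex w (fun s => BadB (gw s) (gw1 s) (gn s) (E s) (SB s) (lB s)) ≤ η)
    (hC : Ex w (fun s => BadC (gw s) (gw1 s) (gn s) (E s) (SC s) (lC s)) ≤ η) :
    ∃ G : S → Prop, δ / 8 ≤ Ex w (fun s => ind (G s)) ∧ ∀ s, G s →
      ∃ (z1 x : Λ) (F : Λ → LA) (G : Λ → LB) (H : Λ → LC) (k : K),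
      (δ / 8) ^ 168 ≤ Ex (pw (gw s) (gn s)) fun p => ind (E s p.1 z1 x p.2 ∧
        (SA s p.1 z1 x p.2 ∧ SB s p.1 z1 x p.2 ∧ SC s p.1 z1 x p.2) ∧
        lA s p.1 z1 x p.2 = F p.1 ∧ lB s p.1 z1 x p.2 = G (p.1 + p.2) ∧
        lC s p.1 z1 x p.2 = H p.2 ∧ fC (H p.2) = k) := by
  set t := (δ / 8) ^ 84 with ht
  have t0 : 0 < t := by positivity
  have hηt : η / t ≤ δ / 8 := by
    rw [div_le_iff₀ t0, ht, ← pow_succ']
    exact hη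
  have nn : ∀ {A B : Type _} {g : A → ℝ} {g' : B → ℝ} (_ : Pr g) (_ : Pr g') (p : A → B → Prop),
      0 ≤ Ex g (fun a => Ex g' fun b => ind (p a b)) ∧
        |Ex g (fun a => Ex g' fun b => ind (p a b))| ≤ 1 := fun hg hg' p =>
    ⟨Ex_nonneg hg.wt fun _ => Ex_nonneg hg'.wt fun _ => ind_nn _,
      hg.abs_Ex_le fun _ => hg'.abs_Ex_le fun _ => abs_ind _⟩
  have a4 := fun s => ((hn s).pw (hn s)).pw ((hn s).pw (hn s))
  have c4 := fun s => ((hw1 s).pw (hw1 s)).pw ((hw s).pw (hw s))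
  have ww := fun s => (hw s).pw (hw1 s)
  have n2 := fun s => (hn s).pw (hn s)
  have mA := markov hW ⟨1, fun s => (nn (ww s) (a4 s) _).2⟩ (fun s => (nn (ww s) (a4 s) _).1) t0 hA
  have mB := markov hW ⟨1, fun s => (nn (ww s) (a4 s) _).2⟩ (fun s => (nn (ww s) (a4 s) _).1) t0 hB
  have mC := markov hW ⟨1, fun s => (nn (n2 s) (c4 s) _).2⟩ (fun s => (nn (n2 s) (c4 s) _).1) t0 hC
  have mE := markov' hW (fun s => hW.abs_Ex_le (h := fun _ => Q (gw s) (gw1 s) (gn s) (E s))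
    (fun _ => (ww s).abs_Ex_le fun _ => (n2 s).abs_Ex_le fun _ => abs_ind _) |>.trans_eq' (by
      rw [hW.Ex_const])) hδ.le hE
  let pE := fun s => δ / 2 ≤ Q (gw s) (gw1 s) (gn s) (E s)
  let pA := fun s => t < BadA (gw s) (gw1 s) (gn s) (E s) (SA s) (lA s)
  let pB := fun s => t < BadB (gw s) (gw1 s) (gn s) (E s) (SB s) (lB s)
  let pC := fun s => t < BadC (gw s) (gw1 s) (gn s) (E s) (SC s) (lC s)
  refine ⟨fun s => pE s ∧ ¬ pA s ∧ ¬ pB s ∧ ¬ pC s, ?_, fun s hs => ?_⟩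
  · have b1 := bd_ind fun s => pE s ∧ ¬ pA s ∧ ¬ pB s ∧ ¬ pC s
    have := Ex_mono hW.wt (bd_ind pE) (((b1.add (bd_ind pA)).add (bd_ind pB)).add (bd_ind pC))
      fun s => by
        have i0 := ind_nn (pE s ∧ ¬ pA s ∧ ¬ pB s ∧ ¬ pC s)
        have i1 := ind_nn (pA s)
        have i2 := ind_nn (pB s)
        have i3 := ind_nn (pC s)
        have i4 := ind_le (pE s)
        by_cases h1 : pA s
        · rw [ind_pos h1]; linarith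
        by_cases h2 : pB s
        · rw [ind_pos h2]; linarith
        by_cases h3 : pC s
        · rw [ind_pos h3]; linarith
        have : ind (pE s) ≤ ind (pE s ∧ ¬ pA s ∧ ¬ pB s ∧ ¬ pC s) :=
          ind_mono fun h => ⟨h, h1, h2, h3⟩
        linarith
    rw [Ex_add hW.wt ((b1.add (bd_ind pA)).add (bd_ind pB)) (bd_ind pC),
      Ex_add hW.wt (b1.add (bd_ind pA)) (bd_ind pB), Ex_add hW.wt b1 (bd_ind pA)] at this
    have mA' : Ex w (fun s => ind (pA s)) ≤ η / t := mA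
    have mB' : Ex w (fun s => ind (pB s)) ≤ η / t := mB
    have mC' : Ex w (fun s => ind (pC s)) ≤ η / t := mC
    have mE' : δ / 2 ≤ Ex w (fun s => ind (pE s)) := mE
    linarith
  · obtain ⟨h1, h2, h3, h4⟩ := hs
    have hne : ∃ z z1 x x1, E s z z1 x x1 := by
      by_contra hc
      push Not at hc
      have : Q (gw s) (gw1 s) (gn s) (E s) = 0 := by
        unfold Q
        simp only [fun z z1 x x1 => ind_neg (hc z z1 x x1), (n2 s).Ex_const, (ww s).Ex_const]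
      have h1' : δ / 2 ≤ Q (gw s) (gw1 s) (gn s) (E s) := h1
      linarith
    have e : δ / 2 / 4 = δ / 8 := by ring
    have := kc (hw s) (hw1 s) (hn s) (E s) (SA s) (SB s) (SC s) (lA s) (lB s) (lC s) fA fC (hk s)
      (δ := δ / 2) (η := t) (by linarith) (by rw [e]) h1 (hθ s hne) (not_lt.1 h2) (not_lt.1 h3)
      (not_lt.1 h4)
    rwa [e] at this

end law

end

end Vale.Agent.P057T.Kc
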