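import Vale.Agent.P057T.KcH31

/-!
The combinatorics of step (1*) for the law `b, b + h0, b + h1, b + h0 + h1` with three widths.
-/

namespace Vale.Agent.P057T.Kc

open Vale.Agent.P057T.Cut Vale.Agent.P057T.C4

noncomputable section

variable {Λ : Type*} [AddCommGroup Λ] {V : Type*}

/-- total variation of a shift -/
def tv (g : Λ → ℝ) (a : Λ) : ℝ := ∑' u, |g (u + a) - g u|

theorem shift_le {g : Λ → ℝ} (hg : Pr g) (a : Λ) {K : Λ → ℝ} (hK : ∀ u, |K u| ≤ 1) :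
    |Ex g K - Ex g (fun u => K (u - a))| ≤ tv g a := by
  have hsh : Summable fun z => g (z + a) := (Equiv.addRight a).summable_iff.2 hg.wt.sm
  have hsm : Summable fun z => |g (z + a) - g z| := (hsh.sub hg.wt.sm).abs
  have hwt : Wt fun z => g (z + a) := ⟨fun _ => hg.wt.nn _, hsh⟩
  have e1 : Ex g (fun z => K (z - a)) = Ex (fun z => g (z + a)) K := by
    rw [Ex_equiv (Equiv.addRight a) (g' := fun z => g (z + a)) (fun _ => rfl)]
    congr 1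
    funext z
    simp
  rw [e1, abs_sub_comm]
  unfold Ex
  rw [← (hwt.mul ⟨1, hK⟩).tsum_sub (hg.wt.mul ⟨1, hK⟩), ← Real.norm_eq_abs]
  refine tsum_of_norm_bounded hsm.hasSum fun z => ?_
  rw [← sub_mul, Real.norm_eq_abs, abs_mul]
  exact mul_le_of_le_one_right (abs_nonneg _) (hK z)

theorem Ex_close {Y : Type*} {g h k : Y → ℝ} (hg : Pr g) (hh : ∀ y, |h y| ≤ 1)
    (hk : ∀ y, |k y| ≤ 1) {η : ℝ} (hη : 0 ≤ η) (H : ∀ y, g y ≠ 0 → |h y - k y| ≤ η) :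
    |Ex g h - Ex g k| ≤ η := by
  classical
  have e : Ex g h - Ex g k = Ex g fun y => if g y = 0 then 0 else h y - k y := by
    rw [← Ex_sub hg.wt ⟨1, hh⟩ ⟨1, hk⟩]
    unfold Ex
    refine tsum_congr fun y => ?_
    by_cases h0 : g y = 0 <;> simp [h0]
  rw [e]
  refine hg.abs_Ex_le fun y => ?_
  split_ifs with h0
  · simpa using hη
  · exact H y h0

variable (g3 g2 g1 : Λ → ℝ)

/-- mass under the law of `(b, h0, h1)` -/
def Qx (F : Λ → Λ → Λ → Prop) : ℝ :=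
  Ex g1 fun s => Ex (pw g3 g2) fun p => ind (F p.1 p.2 s)

/-- bad 4-cycles of a presentation `e s P P'` of the law -/
def Bad (w g g' : Λ → ℝ) (e : Λ → Λ → Λ → Λ × Λ × Λ) (E P : Λ × Λ × Λ → Prop)
    (l : Λ × Λ × Λ → V) : ℝ :=
  Ex w fun s => Ex (pw (pw g g) (pw g' g')) fun p =>
    ind (Cyc (fun y y' => E (e s y y')) p ∧
      ¬ (P (e s p.1.1 p.2.1) ∧ l (e s p.1.1 p.2.1) = l (e s p.1.1 p.2.2)))

/-- pairing `[03|12]`: `s ~ g1`, `b ~ g3`, `u ~ g2`; slot 1 is `b0 + u`, slot 0 + slot 3 is fixed -/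
def eA (b0 d0 : Λ) (s b u : Λ) : Λ × Λ × Λ := (b, b0 + u - b, s + (b0 - b) + (d0 - u))
/-- pairing `[13|02]`: `s = h1 ~ g1`, `u ~ g2`, `b ~ g3`; slot 1 is `b0 + u` -/
def eB (b0 : Λ) (s u b : Λ) : Λ × Λ × Λ := (b, b0 + u - b, s)
/-- pairing `[23|01]`: `s = h0 ~ g2`, `u ~ g1`, `b ~ g3`; slot 2 is `b0 + u` -/
def eC (b0 : Λ) (s u b : Λ) : Λ × Λ × Λ := (b, s, b0 + u - b)

variable {g3 g2 g1}

omit [AddCommGroup Λ] in
theorem perm3 {g g' g'' : Λ → ℝ} (h : Pr g) (h' : Pr g') (h'' : Pr g'') (F : Λ → Λ → Λ → Prop) :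
    (Ex g fun a => Ex (pw g' g'') fun p => ind (F a p.1 p.2)) =
      (Ex (pw g g') fun p => Ex g'' fun c => ind (F p.1 p.2 c)) ∧
    (Ex g fun a => Ex (pw g' g'') fun p => ind (F a p.1 p.2)) =
      (Ex (pw g' g'') fun p => Ex g fun a => ind (F a p.1 p.2)) ∧
    (Ex g fun a => Ex (pw g' g'') fun p => ind (F a p.1 p.2)) =
      (Ex (pw g g'') fun p => Ex g' fun b => ind (F p.1 b p.2)) := by
  rw [pw_eq h (h'.pw h'') _ fun _ _ => abs_ind _, pw_eq (h.pw h') h'' _ fun _ _ => abs_ind _,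
    pw_eq (h'.pw h'') h _ fun _ _ => abs_ind _, pw_eq (h.pw h'') h' _ fun _ _ => abs_ind _]
  refine ⟨?_, ?_, ?_⟩
  · exact Ex_equiv (Equiv.prodAssoc Λ Λ Λ) (fun y => by simp only [pw, Equiv.prodAssoc_apply]; ring) _
  · exact Ex_equiv (Equiv.prodComm _ _) (fun y => by
      simp only [pw, Equiv.prodComm_apply, Prod.fst_swap, Prod.snd_swap]; ring) _
  · let e : (Λ × Λ) × Λ ≃ Λ × (Λ × Λ) :=
      ⟨fun p => (p.1.1, p.2, p.1.2), fun p => ((p.1, p.2.2), p.2.1), fun _ => rfl, fun _ => rfl⟩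
    exact Ex_equiv e (fun y => by simp only [pw, e, Equiv.coe_fn_mk]; ring) _

/-- shift of `h1` -/
theorem sh1 (h3 : Pr g3) (h2 : Pr g2) (h1 : Pr g1) {η : ℝ} (hη : 0 ≤ η) (a : Λ → Λ → Λ)
    (ha : ∀ b d, g3 b ≠ 0 → g2 d ≠ 0 → tv g1 (a b d) ≤ η) (F : Λ → Λ → Λ → Prop) :
    |Qx g3 g2 g1 F - Qx g3 g2 g1 fun b d s => F b d (s - a b d)| ≤ η := by
  unfold Qx
  rw [(perm3 h1 h3 h2 fun s b d => F b d s).2.1,
    (perm3 h1 h3 h2 fun s b d => F b d (s - a b d)).2.1]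
  refine Ex_close (h3.pw h2) (fun _ => h1.abs_Ex_le fun _ => abs_ind _)
    (fun _ => h1.abs_Ex_le fun _ => abs_ind _) hη fun p hp => ?_
  exact (shift_le h1 _ fun _ => abs_ind _).trans
    (ha _ _ (left_ne_zero_of_mul hp) (right_ne_zero_of_mul hp))

/-- shift of `h0` -/
theorem sh2 (h3 : Pr g3) (h2 : Pr g2) (h1 : Pr g1) {η : ℝ} (hη : 0 ≤ η) (a : Λ → Λ)
    (ha : ∀ b, g3 b ≠ 0 → tv g2 (a b) ≤ η) (F : Λ → Λ → Λ → Prop) :
    |Qx g3 g2 g1 F - Qx g3 g2 g1 fun b d s => F b (d - a b) s| ≤ η := by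
  unfold Qx
  rw [(perm3 h1 h3 h2 fun s b d => F b d s).1, (perm3 h1 h3 h2 fun s b d => F b (d - a b) s).1]
  refine Ex_close (h1.pw h3) (fun _ => h2.abs_Ex_le fun _ => abs_ind _)
    (fun _ => h2.abs_Ex_le fun _ => abs_ind _) hη fun p hp => ?_
  exact (shift_le h2 _ fun _ => abs_ind _).trans (ha _ (right_ne_zero_of_mul hp))

omit [AddCommGroup Λ] in
theorem Qx_mono (h3 : Pr g3) (h2 : Pr g2) (h1 : Pr g1) {F F' : Λ → Λ → Λ → Prop}
    (h : ∀ b d s, F b d s → F' b d s) : Qx g3 g2 g1 F ≤ Qx g3 g2 g1 F' :=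
  Ex2_mono h1 (h3.pw h2) fun _ _ => h _ _ _

/-- **KILL, combinatorial part, for the law with three widths.** -/
theorem kq (h3 : Pr g3) (h2 : Pr g2) (h1 : Pr g1) (b0 d0 : Λ) {LA LB LC K : Type*}
    (E SA SB SC : Λ × Λ × Λ → Prop) (lA : Λ × Λ × Λ → LA) (lB : Λ × Λ × Λ → LB)
    (lC : Λ × Λ × Λ → LC) (fA : LA → K) (fC : LC → K)
    (hk : ∀ q, SA q → SB q → SC q → fA (lA q) = fC (lC q))
    {δ η : ℝ} (hδ : 0 ≤ δ) (h0 : 0 ≤ η) (hη : η ≤ (δ / 8) ^ 84)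
    (hE : δ ≤ Qx g3 g2 g1 fun b d s => E (b, d, s))
    (t2 : ∀ b, g3 b ≠ 0 → tv g2 (b - b0) ≤ η) (t1 : ∀ b, g3 b ≠ 0 → tv g1 (b - b0) ≤ η)
    (t1' : ∀ b d, g3 b ≠ 0 → g2 d ≠ 0 → tv g1 (b - b0 + (d - d0)) ≤ η)
    (hA : Bad g1 g3 g2 (eA b0 d0) E SA lA ≤ η) (hB : Bad g1 g2 g3 (eB b0) E SB lB ≤ η)
    (hC : Bad g2 g1 g3 (eC b0) E SC lC ≤ η) :
    ∃ (y3 : Λ) (F : Λ → LA) (G : Λ → LB) (H : Λ → LC) (k : K),
      (δ / 8) ^ 168 ≤ Ex (pw g3 g2) fun p => ind (E (p.1, p.2, y3 - p.1 - p.2) ∧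
        (SA (p.1, p.2, y3 - p.1 - p.2) ∧ SB (p.1, p.2, y3 - p.1 - p.2) ∧
          SC (p.1, p.2, y3 - p.1 - p.2)) ∧
        lA (p.1, p.2, y3 - p.1 - p.2) = F p.1 ∧ lB (p.1, p.2, y3 - p.1 - p.2) = G (p.1 + p.2) ∧
        lC (p.1, p.2, y3 - p.1 - p.2) = H p.2 ∧ fC (H p.2) = k) := by
  have hδ1 : δ ≤ 1 := hE.trans ((le_abs_self _).trans
    (h1.abs_Ex_le fun _ => (h3.pw h2).abs_Ex_le fun _ => abs_ind _))
  obtain ⟨n1, n2, n3⟩ := num (δ := δ / 2) (by linarith) (by linarith)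
  have e8 : δ / 2 / 4 = δ / 8 := by ring
  rw [e8] at n1 n2 n3
  have n4 : (δ / 8) ^ 4 ≤ δ / 8 := pow_le_of_le_one (by linarith) (by linarith) (by norm_num)
  have p1 : 0 ≤ (δ / 8) ^ 4 := by positivity
  have p2 : 0 ≤ ((δ / 8) ^ 4 / 4) ^ 4 := by positivity
  have p3 : 0 ≤ (((δ / 8) ^ 4 / 4) ^ 4 / 4) ^ 4 := by positivity
  -- the four presentations
  have pB : ∀ X : Λ × Λ × Λ → Prop, |(Qx g3 g2 g1 fun b d s => X (b, d, s)) -
      Ex g1 fun s => Ex (pw g2 g3) fun p => ind (X (eB b0 s p.1 p.2))| ≤ η := by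
    intro X
    have := sh2 h3 h2 h1 h0 (fun b => b - b0) t2 fun b d s => X (b, d, s)
    have e : (Qx g3 g2 g1 fun b d s => X (b, d - (b - b0), s)) =
        Ex g1 fun s => Ex (pw g2 g3) fun p => ind (X (eB b0 s p.1 p.2)) := by
      unfold Qx
      congr 1
      funext s
      rw [Ex_swap]
      congr 1
      funext p
      have : p.1 - (p.2 - b0) = b0 + p.1 - p.2 := by abel
      simp only [eB, this]
    rwa [e] at this
  have pC : ∀ X : Λ × Λ × Λ → Prop, |(Qx g3 g2 g1 fun b d s => X (b, d, s)) -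
      Ex g2 fun s => Ex (pw g1 g3) fun p => ind (X (eC b0 s p.1 p.2))| ≤ η := by
    intro X
    have := sh1 h3 h2 h1 h0 (fun b _ => b - b0) (fun b _ hb _ => t1 b hb) fun b d s => X (b, d, s)
    have e : (Qx g3 g2 g1 fun b d s => X (b, d, s - (b - b0))) =
        Ex g2 fun s => Ex (pw g1 g3) fun p => ind (X (eC b0 s p.1 p.2)) := by
      unfold Qx
      rw [(perm3 h1 h3 h2 fun s b d => X (b, d, s - (b - b0))).1,
        (perm3 h2 h1 h3 fun s u b => X (eC b0 s u b)).2.1]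
      congr 1
      funext p
      congr 1
      funext d
      have : p.1 - (p.2 - b0) = b0 + p.1 - p.2 := by abel
      simp only [eC, this]
    rwa [e] at this
  have pD : ∀ X : Λ × Λ × Λ → Prop, |(Qx g3 g2 g1 fun b d s => X (b, d, s)) -
      Qx g3 g2 g1 fun b d s => X (b, d, s - (b - b0 + (d - d0)))| ≤ η := fun X =>
    sh1 h3 h2 h1 h0 (fun b d => b - b0 + (d - d0)) t1' fun b d s => X (b, d, s)
  have pA : ∀ X : Λ × Λ × Λ → Prop, |(Qx g3 g2 g1 fun b d s => X (b, d, s)) -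
      Ex g1 fun s => Ex (pw g3 g2) fun p => ind (X (eA b0 d0 s p.1 p.2))| ≤ 2 * η := by
    intro X
    have a1 := sh2 h3 h2 h1 h0 (fun b => b - b0) t2 fun b d s => X (b, d, s)
    have a2 := sh1 h3 h2 h1 h0 (fun b d => b - b0 + (d - d0)) t1'
      fun b d s => X (b, d - (b - b0), s)
    have e : (Qx g3 g2 g1 fun b d s => X (b, d - (b - b0), s - (b - b0 + (d - d0)))) =
        Ex g1 fun s => Ex (pw g3 g2) fun p => ind (X (eA b0 d0 s p.1 p.2)) := by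
      unfold Qx
      congr 1
      funext s
      congr 1
      funext p
      have e1 : p.2 - (p.1 - b0) = b0 + p.2 - p.1 := by abel
      have e2 : s - (p.1 - b0 + (p.2 - d0)) = s + (b0 - p.1) + (d0 - p.2) := by abel
      simp only [eA, e1, e2]
    rw [e] at a2
    have := abs_sub_le (Qx g3 g2 g1 fun b d s => X (b, d, s))
      (Qx g3 g2 g1 fun b d s => X (b, d - (b - b0), s))
      (Ex g1 fun s => Ex (pw g3 g2) fun p => ind (X (eA b0 d0 s p.1 p.2)))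
    linarith
  -- round A
  obtain ⟨ka, hka⟩ := round h1 h3 h2 (fun s y y' => E (eA b0 d0 s y y'))
    (fun s y y' => SA (eA b0 d0 s y y')) (fun s y y' => lA (eA b0 d0 s y y')) (δ := δ / 2) (η := η)
    (by linarith) (by rw [e8]; linarith) (by linarith [(abs_le.1 (pA E)).2]) hA
  rw [e8] at hka
  let E1 : Λ × Λ × Λ → Prop := fun q => E q ∧ SA q ∧
    lA q = ka (q.1 + q.1 + q.2.1 + q.2.2 - b0 - b0 - d0) q.1
  have q1 : 15 * (δ / 8) ^ 4 ≤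
      Ex g1 fun s => Ex (pw g3 g2) fun p => ind (E1 (eA b0 d0 s p.1 p.2)) := by
    refine hka.trans (Ex2_mono h1 (h3.pw h2) fun s p => ?_)
    rintro ⟨a1, a2, a3⟩
    refine ⟨a1, a2, a3.trans ?_⟩
    have : p.1 + p.1 + (b0 + p.2 - p.1) + (s + (b0 - p.1) + (d0 - p.2)) - b0 - b0 - d0 = s := by
      abel
    simp only [eA, this]
  -- round B
  obtain ⟨kb, hkb⟩ := round h1 h2 h3 (fun s y y' => E1 (eB b0 s y y'))
    (fun s y y' => SB (eB b0 s y y')) (fun s y y' => lB (eB b0 s y y')) (δ := (δ / 8) ^ 4) (η := η)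
    p1 (by linarith) (by linarith [(abs_le.1 (pA E1)).1, (abs_le.1 (pB E1)).2]) (by
      refine le_trans (Ex2_mono h1 ((h2.pw h2).pw (h3.pw h3)) fun s p => ?_) hB
      rintro ⟨⟨⟨a1, a2⟩, a3, a4⟩, a5⟩
      exact ⟨⟨⟨a1.1, a2.1⟩, a3.1, a4.1⟩, a5⟩)
  let E2 : Λ × Λ × Λ → Prop := fun q => E1 q ∧ SB q ∧ lB q = kb q.2.2 (q.1 + q.2.1 - b0)
  have q2 : 15 * ((δ / 8) ^ 4 / 4) ^ 4 ≤
      Ex g1 fun s => Ex (pw g2 g3) fun p => ind (E2 (eB b0 s p.1 p.2)) := by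
    refine hkb.trans (Ex2_mono h1 (h2.pw h3) fun s p => ?_)
    rintro ⟨a1, a2, a3⟩
    refine ⟨a1, a2, a3.trans ?_⟩
    have : p.2 + (b0 + p.1 - p.2) - b0 = p.1 := by abel
    simp only [eB, this]
  -- round C
  obtain ⟨kc, hkc⟩ := round h2 h1 h3 (fun s y y' => E2 (eC b0 s y y'))
    (fun s y y' => SC (eC b0 s y y')) (fun s y y' => lC (eC b0 s y y'))
    (δ := ((δ / 8) ^ 4 / 4) ^ 4) (η := η)
    p2 (by linarith) (by linarith [(abs_le.1 (pB E2)).1, (abs_le.1 (pC E2)).2]) (by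
      refine le_trans (Ex2_mono h2 ((h1.pw h1).pw (h3.pw h3)) fun s p => ?_) hC
      rintro ⟨⟨⟨a1, a2⟩, a3, a4⟩, a5⟩
      exact ⟨⟨⟨a1.1.1, a2.1.1⟩, a3.1.1, a4.1.1⟩, a5⟩)
  let E3 : Λ × Λ × Λ → Prop := fun q => E2 q ∧ SC q ∧ lC q = kc q.2.1 (q.1 + q.2.2 - b0)
  have q3 : 15 * (((δ / 8) ^ 4 / 4) ^ 4 / 4) ^ 4 ≤
      Ex g2 fun s => Ex (pw g1 g3) fun p => ind (E3 (eC b0 s p.1 p.2)) := by
    refine hkc.trans (Ex2_mono h2 (h1.pw h3) fun s p => ?_)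
    rintro ⟨a1, a2, a3⟩
    refine ⟨a1, a2, a3.trans ?_⟩
    have : p.2 + (b0 + p.1 - p.2) - b0 = p.1 := by abel
    simp only [eC, this]
  have q4 : (δ / 8) ^ 84 ≤ Qx g3 g2 g1 fun b d s => E3 (b, d, s - (b - b0 + (d - d0))) := by
    linarith [(abs_le.1 (pC E3)).1, (abs_le.1 (pD E3)).2]
  obtain ⟨s, _, hs⟩ := h1.pop (bd_Ex_ind (h3.pw h2)
    fun (s : Λ) (p : Λ × Λ) => E3 (p.1, p.2, s - (p.1 - b0 + (p.2 - d0))))
  obtain ⟨y0, hy0⟩ := nbr h3 h2 (fun b d => E3 (b, d, s + b0 + d0 - b - d)) (δ := (δ / 8) ^ 84)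
    (by positivity) (by
      refine (q4.trans hs).trans (le_of_eq ?_)
      congr 1
      funext p
      have : s - (p.1 - b0 + (p.2 - d0)) = s + b0 + d0 - p.1 - p.2 := by abel
      rw [this])
  refine ⟨s + b0 + d0, fun b => ka (b + s - b0) b, fun u => kb (s + b0 + d0 - u) (u - b0),
    fun d => kc d (s + d0 - d), fC (kc y0 (s + d0 - y0)), ?_⟩
  have e : (δ / 8) ^ 168 = ((δ / 8) ^ 84) ^ 2 := by rw [← pow_mul]
  rw [e]
  refine hy0.trans (Ex_mono (h3.pw h2).wt (bd_ind _) (bd_ind _) fun p => ind_mono ?_)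
  have ea : ∀ b d : Λ, b + b + d + (s + b0 + d0 - b - d) - b0 - b0 - d0 = b + s - b0 :=
    fun b d => by abel
  have eb : ∀ b d : Λ, s + b0 + d0 - b - d = s + b0 + d0 - (b + d) := fun b d => by abel
  have ec : ∀ b d : Λ, b + (s + b0 + d0 - b - d) - b0 = s + d0 - d := fun b d => by abel
  rintro ⟨⟨⟨⟨a1, a2, a3⟩, a4, a5⟩, a6, a7⟩, ⟨⟨_, b2, b3⟩, b4, _⟩, b6, b7⟩
  simp only [ea, ec] at a3 a7 b3 b7
  refine ⟨a1, ⟨a2, a4, a6⟩, a3, a5.trans ?_, a7, ?_⟩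
  · show kb (s + b0 + d0 - p.1 - p.2) (p.1 + p.2 - b0) = kb (s + b0 + d0 - (p.1 + p.2)) _
    rw [eb]
  · show fC (kc p.2 (s + d0 - p.2)) = fC (kc y0 (s + d0 - y0))
    rw [← a7, ← hk _ a2 a4 a6, a3, ← b3, hk _ b2 b4 b6, b7]

end

end Vale.Agent.P057T.Kc
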