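import Vale.Agent.P057T.CutH64

/-! Second moments for a kernel, and generic integer points. -/

open Finset MvPolynomial

namespace Vale.Agent.P057T.Kil

open Vale.Agent.P057T.Cut

noncomputable section

section mom

variable {Y α : Type*}

/-- a bounded `N` with first moment about `Nb` and second moment about `Nb ^ 2` is about `Nb` -/
theorem mom1 {g N F : Y → ℝ} {M Nb d B : ℝ} (hg : Wt g) (hN : Bd N) (hM : 0 ≤ M) (hNb : 0 ≤ Nb)
    (hd : 0 ≤ d) (hd1 : d ≤ 1) (h0 : ∑' y, g y ≤ (1 + d) * M) (h1 : (1 - d) * (Nb * M) ≤ Ex g N)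
    (h2 : Ex g (fun y => N y * N y) ≤ (1 + d) * (Nb ^ 2 * M)) (hB : 0 ≤ B) (hF : ∀ y, |F y| ≤ B) :
    Ex g (fun y => |N y - Nb|) ≤ 3 * √d * (Nb * M) ∧
    |Ex g (fun y => N y * F y) - Nb * Ex g F| ≤ 3 * √d * B * (Nb * M) := by
  have hb : Bd fun y => N y - Nb := hN.sub (Bd.const _)
  have ha : Bd fun y => |N y - Nb| := by
    obtain ⟨C, hC⟩ := hb
    exact ⟨C, fun y => by rw [abs_abs]; exact hC y⟩
  have hv : Ex g (fun y => |N y - Nb| * |N y - Nb|) ≤ 4 * d * (Nb ^ 2 * M) := by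
    have e : (fun y => |N y - Nb| * |N y - Nb|) =
        fun y => (N y * N y + (-(2 * Nb)) * N y) + Nb ^ 2 := by
      funext y; rw [abs_mul_abs_self]; ring
    rw [e, Ex_add hg ((hN.mul hN).add ((Bd.const _).mul hN)) (Bd.const _),
      Ex_add hg (hN.mul hN) ((Bd.const _).mul hN), Ex_mul_left, Ex_const]
    have h3 := mul_le_mul_of_nonneg_left h1 hNb
    have h4 := mul_le_mul_of_nonneg_right h0 (sq_nonneg Nb)
    nlinarith
  have hcs := Ex_cs hg ha
  have hA : Ex g (fun y => |N y - Nb|) ≤ 3 * √d * (Nb * M) := by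
    refine le_of_abs_le (abs_le_of_sq_le_sq ?_ (by positivity))
    have h5 : (∑' y, g y) * Ex g (fun y => |N y - Nb| * |N y - Nb|) ≤
        (2 * M) * (4 * d * (Nb ^ 2 * M)) :=
      mul_le_mul (by nlinarith) hv (Ex_nonneg hg fun y => by positivity) (by positivity)
    have h6 : (3 * √d * (Nb * M)) ^ 2 = 9 * d * (Nb * M) ^ 2 := by
      rw [mul_pow, mul_pow, Real.sq_sqrt hd]; ring
    rw [h6]
    have h7 : 0 ≤ d * (Nb * M) ^ 2 := by positivity
    nlinarith
  refine ⟨hA, ?_⟩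
  have hFb : Bd F := ⟨B, hF⟩
  have e : Ex g (fun y => N y * F y) - Nb * Ex g F = Ex g (fun y => (N y - Nb) * F y) := by
    rw [← Ex_mul_left, ← Ex_sub hg (hN.mul hFb) ((Bd.const _).mul hFb)]
    congr 1; funext y; ring
  have hle : ∀ y, |(N y - Nb) * F y| ≤ B * |N y - Nb| := fun y => by
    rw [abs_mul, mul_comm]; exact mul_le_mul_of_nonneg_right (hF y) (abs_nonneg _)
  have u1 := Ex_mono hg (hb.mul hFb) ((Bd.const B).mul ha) fun y => (le_abs_self _).trans (hle y)
  have u2 := Ex_mono hg ((Bd.const (-B)).mul ha) (hb.mul hFb) fun y => by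
    have := (abs_le.1 (hle y)).1
    linarith
  rw [Ex_mul_left] at u1 u2
  have u3 := mul_le_mul_of_nonneg_left hA hB
  rw [e, abs_le]
  constructor <;> linarith

/-- second moment for a kernel indexed by a finite set -/
theorem mom2 {g F : Y → ℝ} (s : Finset α) {k : α → Y → ℝ} {M Nb d B : ℝ} (hg : Wt g)
    (hk : ∀ a ∈ s, Bd (k a)) (hM : 0 ≤ M) (hNb : 0 ≤ Nb) (hd : 0 ≤ d) (hd1 : d ≤ 1)
    (h0 : ∑' y, g y ≤ (1 + d) * M) (h1 : (1 - d) * (Nb * M) ≤ ∑ a ∈ s, Ex g (k a))
    (h2 : ∑ a ∈ s, ∑ a' ∈ s, Ex g (fun y => k a y * k a' y) ≤ (1 + d) * (Nb ^ 2 * M))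
    (hB : 0 ≤ B) (hF : ∀ y, |F y| ≤ B) :
    |∑ a ∈ s, Ex g (fun y => k a y * F y) - Nb * Ex g F| ≤ 3 * √d * B * (Nb * M) := by
  have hS : Bd fun y => ∑ a ∈ s, k a y := by
    classical
    clear h1 h2
    induction s using Finset.induction_on with
    | empty => simpa using Bd.const 0
    | insert a s ha ih =>
      simp only [Finset.sum_insert ha]
      exact (hk a (mem_insert_self _ _)).add (ih fun i hi => hk i (mem_insert_of_mem hi))
  have hFb : Bd F := ⟨B, hF⟩
  have := (mom1 (N := fun y => ∑ a ∈ s, k a y) hg hS hM hNb hd hd1 h0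
    (by rwa [Ex_sum s hg hk]) ?_ hB hF).2
  · rwa [show (fun y => (∑ a ∈ s, k a y) * F y) = fun y => ∑ a ∈ s, k a y * F y from
      funext fun y => sum_mul _ _ _, Ex_sum s hg fun a ha => (hk a ha).mul hFb] at this
  · rw [show (fun y => (∑ a ∈ s, k a y) * ∑ a ∈ s, k a y) =
      fun y => ∑ a ∈ s, k a y * ∑ a' ∈ s, k a' y from funext fun y => sum_mul _ _ _,
      Ex_sum s hg fun a ha => (hk a ha).mul hS]
    refine le_trans (le_of_eq (sum_congr rfl fun a ha => ?_)) h2
    rw [← Ex_sum s hg fun a' ha' => (hk a ha).mul (hk a' ha')]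
    congr 1; funext y; rw [mul_sum]

/-- moments from good indices and good pairs: `μ` is the mean of one kernel, bad indices and pairs
have share at most `ε` and cost at most `Λ` -/
theorem mom3 {g F : Y → ℝ} (s : Finset α) {k : α → Y → ℝ} {M μ δ ε Λ B : ℝ}
    (good : α → Prop) [DecidablePred good] (good2 : α × α → Prop) [DecidablePred good2]
    (hg : Wt g) (hk : ∀ a ∈ s, Bd (k a)) (hk0 : ∀ a ∈ s, ∀ y, 0 ≤ k a y) (hM : 0 ≤ M) (hμ : 0 ≤ μ)
    (hδ : 0 ≤ δ) (hε : 0 ≤ ε) (hΛ : 1 ≤ Λ) (hd1 : δ + ε * Λ ≤ 1)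
    (h0 : ∑' y, g y ≤ (1 + δ) * M)
    (h1 : ∀ a ∈ s, good a → (1 - δ) * (μ * M) ≤ Ex g (k a))
    (c1 : ((s.filter fun a => ¬ good a).card : ℝ) ≤ ε * s.card)
    (h2 : ∀ a ∈ s, ∀ a' ∈ s, good2 (a, a') →
      Ex g (fun y => k a y * k a' y) ≤ (1 + δ) * (μ ^ 2 * M))
    (h3 : ∀ a ∈ s, ∀ a' ∈ s, Ex g (fun y => k a y * k a' y) ≤ Λ * (μ ^ 2 * M))
    (c2 : (((s ×ˢ s).filter fun p => ¬ good2 p).card : ℝ) ≤ ε * (s.card : ℝ) ^ 2)
    (hB : 0 ≤ B) (hF : ∀ y, |F y| ≤ B) :
    |∑ a ∈ s, Ex g (fun y => k a y * F y) - s.card * μ * Ex g F| ≤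
      3 * √(δ + ε * Λ) * B * (s.card * μ * M) := by
  have hεΛ : ε ≤ ε * Λ := le_mul_of_one_le_right hε hΛ
  have hμM : 0 ≤ μ * M := mul_nonneg hμ hM
  have hn : (0 : ℝ) ≤ s.card := Nat.cast_nonneg _
  refine mom2 s hg hk hM (by positivity) (by linarith) hd1 (by nlinarith) ?_ ?_ hB hF
  · have e1 : ((s.filter good).card : ℝ) + (s.filter fun a => ¬ good a).card = s.card := by
      exact_mod_cast card_filter_add_card_filter_not good
    have e2 : ((s.filter good).card : ℝ) * ((1 - δ) * (μ * M)) ≤ ∑ a ∈ s.filter good, Ex g (k a) := by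
      rw [← nsmul_eq_mul]
      exact card_nsmul_le_sum _ _ _ fun a ha => h1 a (mem_filter.1 ha).1 (mem_filter.1 ha).2
    have e3 : ∑ a ∈ s.filter good, Ex g (k a) ≤ ∑ a ∈ s, Ex g (k a) :=
      sum_le_sum_of_subset_of_nonneg (filter_subset _ _) fun a ha _ => Ex_nonneg hg (hk0 a ha)
    have e4 : (1 - ε) * s.card ≤ ((s.filter good).card : ℝ) := by linarith
    have e5 : 0 ≤ (1 - δ) * (μ * M) := mul_nonneg (by linarith) hμM
    have e6 := mul_le_mul_of_nonneg_right e4 e5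
    have e7 : (1 - (δ + ε * Λ)) ≤ (1 - ε) * (1 - δ) := by nlinarith [mul_nonneg hδ hε]
    have e8 := mul_le_mul_of_nonneg_right e7 (mul_nonneg hn hμM)
    nlinarith
  · rw [← sum_product' (f := fun a a' => Ex g fun y => k a y * k a' y),
      ← sum_filter_add_sum_filter_not (s ×ˢ s) good2]
    have hq : 0 ≤ μ ^ 2 * M := by positivity
    have e1 : ∑ p ∈ (s ×ˢ s).filter good2, Ex g (fun y => k p.1 y * k p.2 y) ≤
        ((s ×ˢ s).filter good2).card * ((1 + δ) * (μ ^ 2 * M)) := by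
      rw [← nsmul_eq_mul]
      exact sum_le_card_nsmul _ _ _ fun p hp => h2 p.1 (mem_product.1 (mem_filter.1 hp).1).1 p.2
        (mem_product.1 (mem_filter.1 hp).1).2 (mem_filter.1 hp).2
    have e2 : ∑ p ∈ (s ×ˢ s).filter (fun p => ¬ good2 p), Ex g (fun y => k p.1 y * k p.2 y) ≤
        ((s ×ˢ s).filter fun p => ¬ good2 p).card * (Λ * (μ ^ 2 * M)) := by
      rw [← nsmul_eq_mul]
      exact sum_le_card_nsmul _ _ _ fun p hp => h3 p.1 (mem_product.1 (mem_filter.1 hp).1).1 p.2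
        (mem_product.1 (mem_filter.1 hp).1).2
    have e3 : (((s ×ˢ s).filter good2).card : ℝ) ≤ (s.card : ℝ) ^ 2 := by
      have := card_filter_le (s ×ˢ s) good2
      rw [card_product] at this
      rw [sq]; exact_mod_cast this
    have e4 := mul_le_mul_of_nonneg_right e3 (mul_nonneg (by linarith : 0 ≤ 1 + δ) hq)
    have e5 := mul_le_mul_of_nonneg_right c2 (mul_nonneg (by linarith : 0 ≤ Λ) hq)
    nlinarith

end mom

section gen

variable {V : Type} [Fintype V] [DecidableEq V]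

/-- Schwartz-Zippel on any finite type of variables -/
theorem sz {p : MvPolynomial V ℤ} (hp : p ≠ 0) {s : ℕ} (hs : p.totalDegree ≤ s) (S : V → Finset ℤ)
    {T : ℝ} (hT : 0 < T) (hS : ∀ v, T ≤ (S v).card) :
    (((Fintype.piFinset S).filter fun x => eval x p = 0).card : ℝ) ≤
      s / T * ∏ v, ((S v).card : ℝ) := by
  classical
  set e := Fintype.equivFin V
  have hp' : rename e p ≠ 0 := fun h => hp (rename_injective _ e.injective (by simpa using h))
  have h := schwartz_zippel_sup_sum hp' (fun i => S (e.symm i))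
  have hc : ((Fintype.piFinset S).filter fun x => eval x p = 0).card =
      ((Fintype.piFinset fun i => S (e.symm i)).filter fun x => eval x (rename e p) = 0).card := by
    refine card_bij (fun x _ => fun i => x (e.symm i)) ?_ ?_ ?_
    · intro x hx
      rw [mem_filter, Fintype.mem_piFinset] at hx ⊢
      refine ⟨fun i => hx.1 _, ?_⟩
      rw [eval_rename]
      convert hx.2 using 3
      funext v; simp
    · intro x _ y _ h
      funext v
      simpa using congr_fun h (e v)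
    · intro x hx
      rw [mem_filter, Fintype.mem_piFinset] at hx
      refine ⟨fun v => x (e v), ?_, by funext i; simp⟩
      rw [mem_filter, Fintype.mem_piFinset]
      refine ⟨fun v => by simpa using hx.1 (e v), ?_⟩
      have := hx.2
      rwa [eval_rename] at this
  have hpos : ∀ v, (0 : ℝ) < (S v).card := fun v => hT.trans_le (hS v)
  have hprod : ∏ i, ((S (e.symm i)).card : ℝ) = ∏ v, ((S v).card : ℝ) :=
    Equiv.prod_comp e.symm fun v => ((S v).card : ℝ)
  have hsup : (((rename e p).support.sup fun m => ∑ i, (m i / (S (e.symm i)).card : ℚ≥0) : ℚ≥0) : ℝ) ≤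
      s / T := by
    obtain ⟨m, hm, hm'⟩ := exists_mem_eq_sup _ (support_nonempty.2 hp')
      (fun m : Fin (Fintype.card V) →₀ ℕ => ∑ i, (m i / (S (e.symm i)).card : ℚ≥0))
    rw [hm']
    have h1 : m.sum (fun _ n => n) ≤ s :=
      (le_totalDegree hm).trans ((totalDegree_rename_le _ _).trans hs)
    rw [Finsupp.sum_fintype _ _ (fun _ => rfl)] at h1
    push_cast
    calc ∑ i, ((m i : ℝ) / (S (e.symm i)).card) ≤ ∑ i, (m i : ℝ) / T :=
          sum_le_sum fun i _ => div_le_div_of_nonneg_left (Nat.cast_nonneg _) hT (hS _)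
      _ = (∑ i, (m i : ℝ)) / T := (sum_div _ _ _).symm
      _ ≤ s / T := div_le_div_of_nonneg_right (by exact_mod_cast h1) hT.le
  have h' := (NNRat.cast_le (K := ℝ)).2 h
  push_cast at h'
  rw [hprod, div_le_iff₀ (prod_pos fun v _ => hpos v)] at h'
  rw [hc]
  exact h'.trans (mul_le_mul_of_nonneg_right hsup (prod_nonneg fun v _ => (hpos v).le))

/-- `x` is a root of a non zero integer polynomial with support in `D` and height at most `H` -/
def Sp (D : Finset (V →₀ ℕ)) (H : ℕ) (x : V → ℤ) : Prop :=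
  ∃ k : MvPolynomial V ℤ, k ≠ 0 ∧ k.support ⊆ D ∧ (∀ ν, |coeff ν k| ≤ H) ∧ eval x k = 0

open Classical in
/-- few points are special -/
theorem gen (D : Finset (V →₀ ℕ)) {s : ℕ} (hD : ∀ ν ∈ D, ν.degree ≤ s) (H : ℕ) (S : V → Finset ℤ)
    {T : ℝ} (hT : 0 < T) (hS : ∀ v, T ≤ (S v).card) :
    (((Fintype.piFinset S).filter fun x => Sp D H x).card : ℝ) ≤
      (2 * H + 1) ^ D.card * (s / T) * ∏ v, ((S v).card : ℝ) := by
  let K : Finset (D → ℤ) := Fintype.piFinset fun _ => Icc (-(H : ℤ)) H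
  let P : (D → ℤ) → MvPolynomial V ℤ := fun c => ∑ ν : D, monomial ν.1 (c ν)
  have hP : ∀ c, (P c).totalDegree ≤ s := fun c => by
    refine totalDegree_finsetSum_le fun ν _ => (totalDegree_monomial_le _ _).trans ?_
    exact hD ν.1 ν.2
  have hsub : ((Fintype.piFinset S).filter fun x => Sp D H x) ⊆
      (K.filter fun c => P c ≠ 0).biUnion fun c =>
        (Fintype.piFinset S).filter fun x => eval x (P c) = 0 := by
    intro x hx
    obtain ⟨hx, k, hk, hkD, hkH, hke⟩ := mem_filter.1 hx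
    have hkP : P (fun ν => coeff ν.1 k) = k := by
      simp only [P]
      rw [sum_coe_sort D fun ν => monomial ν (coeff ν k)]
      conv_rhs => rw [k.as_sum]
      refine (sum_subset hkD fun ν _ hν => ?_).symm
      rw [notMem_support_iff.1 hν, monomial_zero]
    refine mem_biUnion.2 ⟨fun ν => coeff ν.1 k, mem_filter.2 ⟨?_, by rwa [hkP]⟩,
      mem_filter.2 ⟨hx, by rwa [hkP]⟩⟩
    exact Fintype.mem_piFinset.2 fun ν => mem_Icc.2 (abs_le.1 (hkH ν.1))
  clear_value P
  have hK : (K.card : ℝ) = (2 * H + 1) ^ D.card := by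
    have h1 : K.card = ∏ _ν : D, (Icc (-(H : ℤ)) H).card := Fintype.card_piFinset _
    have h2 : ((H : ℤ) + 1 - -(H : ℤ)).toNat = 2 * H + 1 := by omega
    rw [h1, Int.card_Icc, h2, prod_const, card_univ, Fintype.card_coe]
    push_cast; rfl
  clear_value K
  have hq : 0 ≤ s / T * ∏ v, ((S v).card : ℝ) :=
    mul_nonneg (div_nonneg (Nat.cast_nonneg _) hT.le) (prod_nonneg fun v _ => Nat.cast_nonneg _)
  have h1 := (Nat.cast_le (α := ℝ)).2 ((card_le_card hsub).trans card_biUnion_le)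
  rw [Nat.cast_sum] at h1
  have h2 := sum_le_card_nsmul (K.filter fun c => P c ≠ 0)
    (fun c => (((Fintype.piFinset S).filter fun x => eval x (P c) = 0).card : ℝ)) _
    fun c hc => sz (mem_filter.1 hc).2 (hP c) S hT hS
  rw [nsmul_eq_mul] at h2
  have h3 : ((K.filter fun c => P c ≠ 0).card : ℝ) ≤ K.card := Nat.cast_le.2 (card_filter_le _ _)
  have h4 := mul_le_mul_of_nonneg_right h3 hq
  rw [hK] at h4
  exact (h1.trans (h2.trans h4)).trans (le_of_eq (mul_assoc _ _ _).symm)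

end gen

end

end Vale.Agent.P057T.Kil
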