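import Vale.Agent.P057L.Km1

/-! The almost periodicity step on boxes of the lattice. -/

set_option linter.all false

open Finset
open scoped BigOperators

namespace Vale.Agent.P057T

open Vale.Agent.P057Z Vale.Agent.P057L

namespace Kmv

variable {Q : ℕ} [Fact Q.Prime] {m : ℕ}

/-- the representatives of least absolute value -/
def dn (x : V Q m) : Vz m := fun i => (x i).valMinAbs

theorem cs_add (s t : Vz m) : cs Q s + cs Q t = cs Q (s + t) := by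
  funext i; simp [cs]

theorem cs_sub (s t : Vz m) : cs Q s - cs Q t = cs Q (s - t) := by
  funext i; simp [cs]

theorem dn_cs (s : Vz m) (h : ∀ i, -(Q : ℤ) < s i * 2 ∧ s i * 2 ≤ Q) : dn (cs Q s) = s :=
  funext fun i => (ZMod.valMinAbs_spec _ _).2 ⟨rfl, (h i).1, (h i).2⟩

theorem mem_bz {N : ℕ} {x : Vz m} : x ∈ bz m N ↔ ∀ i, 0 ≤ x i ∧ x i < N := by
  simp [bz, rg, Fintype.mem_piFinset]

theorem card_bz (N : ℕ) : (bz m N).card = N ^ m := by
  simp [bz, rg, Fintype.card_piFinset]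

theorem bz_ne {N : ℕ} (h : 1 ≤ N) : (bz m N).Nonempty :=
  ⟨0, mem_bz.2 fun i => ⟨le_rfl, by simpa using (by exact_mod_cast h : (0 : ℤ) < N)⟩⟩

theorem bxm {T : ℕ} (hT : 2 * T ≤ Q) (F : V Q m → ℝ) :
    𝔼 x ∈ bx Q m T, F x = 𝔼 s ∈ bz m T, F (cs Q s) := by
  classical
  have h1 : bx Q m T = (bz m T).image (cs Q) := by
    ext x
    rw [Ke.mem_bx', mem_image]
    constructor
    · rintro ⟨t, ht, rfl⟩
      refine ⟨fun i => t i, mem_bz.2 fun i => ⟨by positivity, by exact_mod_cast ht i⟩,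
        funext fun i => ?_⟩
      simp [cs]
    · rintro ⟨s, hs, rfl⟩
      have hs' := mem_bz.1 hs
      refine ⟨fun i => (s i).toNat, fun i => ?_, funext fun i => ?_⟩
      · have := hs' i
        show (s i).toNat < T
        omega
      · have h0 := Int.toNat_of_nonneg (hs' i).1
        simp only [cs]
        rw [← h0]
        simp
  rw [h1, expect_image]
  intro a ha b hb h
  have a1 := mem_bz.1 (mem_coe.1 ha)
  have b1 := mem_bz.1 (mem_coe.1 hb)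
  rw [← dn_cs (Q := Q) a (fun i => by have := a1 i; omega), h,
    dn_cs b (fun i => by have := b1 i; omega)]

open Classical in
theorem trap (A B : ℕ) (hB : 1 ≤ B) (h : Vz m → ℝ) :
    𝔼 a ∈ bz m (A + B), 𝔼 b ∈ bz m B,
      (if ∀ i, (B : ℤ) ≤ (a + b) i ∧ (a + b) i < B + A then h (a + b - fun _ => (B : ℤ)) else 0) =
      ((A : ℝ) / (A + B)) ^ m * 𝔼 x ∈ bz m A, h x := by
  rw [expect_comm]
  have h1 : ∀ b ∈ bz m B, 𝔼 a ∈ bz m (A + B),
      (if ∀ i, (B : ℤ) ≤ (a + b) i ∧ (a + b) i < B + A then h (a + b - fun _ => (B : ℤ)) else 0) =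
      ((A : ℝ) / (A + B)) ^ m * 𝔼 x ∈ bz m A, h x := by
    intro b hb
    have b1 := mem_bz.1 hb
    have h2 : ∑ a ∈ bz m (A + B), (if ∀ i, (B : ℤ) ≤ (a + b) i ∧ (a + b) i < B + A then
        h (a + b - fun _ => (B : ℤ)) else 0) = ∑ x ∈ bz m A, h x := by
      rw [← sum_filter]
      refine sum_nbij' (fun a => a + b - fun _ => (B : ℤ)) (fun x => x + (fun _ => (B : ℤ)) - b)
        ?_ ?_ ?_ ?_ fun _ _ => rfl
      · intro a ha
        have h3 := (mem_filter.1 ha).2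
        refine mem_bz.2 fun i => ?_
        have := h3 i
        simp only [Pi.add_apply, Pi.sub_apply] at this ⊢
        omega
      · intro x hx
        have h3 := mem_bz.1 hx
        refine mem_filter.2 ⟨mem_bz.2 fun i => ?_, fun i => ?_⟩
        · have := h3 i
          have := b1 i
          simp only [Pi.add_apply, Pi.sub_apply]
          push_cast
          omega
        · have := h3 i
          simp only [Pi.add_apply, Pi.sub_apply]
          omega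
      · intro a _; abel
      · intro a _; abel
    have h3 := card_mul_expect (bz m A) h
    rw [card_bz] at h3
    rw [expect_eq_sum_div_card, h2, card_bz, div_pow, div_mul_eq_mul_div, ← h3]
    push_cast
    rfl
  rw [expect_congr rfl h1, expect_const (bz_ne hB)]

theorem lap0 (ρ : ℝ) (u : Fin 0 → ZMod Q) : lap ρ u = 1 := by simp [lap, l1]

theorem mas0 (L : V Q m →ₗ[ZMod Q] (Fin 0 → ZMod Q)) (c : Fin 0 → ZMod Q) (ρ : ℝ) {T : ℕ}
    (hT : 1 ≤ T) : mas L c ρ T = 1 := by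
  simp only [mas, lap0]
  exact expect_const (Ke.bx_nonempty hT) _

theorem bet0 (L : V Q m →ₗ[ZMod Q] (Fin 0 → ZMod Q)) (c : Fin 0 → ZMod Q) (ρ : ℝ) {T : ℕ}
    (hT : 1 ≤ T) (x : V Q m) : bet L c ρ T x = 1 := by
  rw [bet, lap0, mas0 L c ρ hT, div_one]

theorem mix1 {Tlo Thi : ℕ} {δ : ℝ} (hδ : 0 ≤ δ) : Mix (fun _ : V Q m => (1 : ℝ)) Tlo Thi δ := by
  intro T1 T2 _ _ _ _ c s _ u v _ _
  simpa using hδ

theorem ratio (a b Λ : ℝ) (m : ℕ) (ha : 0 ≤ a) (hb : 0 < b) (h1 : b * Λ ≤ a + b)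
    (h2 : 2 * (m : ℝ) ≤ Λ) (h3 : 1 ≤ Λ) : 1 / 2 ≤ (a / (a + b)) ^ m := by
  have h0 : 0 < a + b := by linarith
  have h4 : a / (a + b) = 1 + -(b / (a + b)) := by field_simp; ring
  have h5 : b / (a + b) ≤ 1 := by rw [div_le_one h0]; linarith
  have h6 := one_add_mul_le_pow (show (-2 : ℝ) ≤ -(b / (a + b)) by linarith) m
  have h7 : (m : ℝ) * (b / (a + b)) ≤ 1 / 2 := by
    rw [← mul_div_assoc, div_le_iff₀ h0]
    nlinarith
  rw [h4]
  linarith

end Kmv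

open Classical Kmv in
theorem kmv : ∀ ε : ℝ, 0 < ε → ε ≤ 1 / 100 → ∃ C : ℕ, ∀ (Y : ℝ) (m N : ℕ), (C : ℝ) ≤ Y →
    (m : ℝ) ≤ Y → Y ^ C ≤ Real.log N →
    ∃ (T3 T Q r : ℕ) (_ : Fact Q.Prime) (ρ : ℝ), 1 ≤ T3 ∧ T3 * Real.exp Y ≤ N ∧ 1 ≤ T ∧ T ≤ N ∧
      N ≤ T * Real.exp (Y ^ C) ∧ 2 * N ≤ Q ∧ Q ≤ 16 * N ∧ (r : ℝ) ≤ Y ^ C ∧
      Real.exp (-Y ^ C) ≤ ρ ∧ ρ ≤ 1 ∧
      ∀ (g u v : Vz m → ℝ) (θ : ℝ), (∀ x, 0 ≤ g x ∧ g x ≤ Real.exp Y) → (∀ x, 0 ≤ u x ∧ u x ≤ 1) →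
        (∀ x, 0 ≤ v x ∧ v x ≤ 1) → Real.exp (-Y) ≤ θ → Real.exp (-Y) ≤ 𝔼 x ∈ bz m T3, u x →
        Real.exp (-Y) ≤ 𝔼 y ∈ bz m N, v y →
        θ * (𝔼 x ∈ bz m T3, u x) * (𝔼 y ∈ bz m N, v y) ≤
          𝔼 x ∈ bz m T3, 𝔼 y ∈ bz m N, u x * v y * g (x + y) →
        ∃ ξ : Fin r → Fin m → ZMod Q, Real.exp (-Y ^ C) * (N : ℝ) ^ m ≤
          ((Fintype.piFinset fun _ : Fin m => Icc (-(2 * N : ℤ)) (2 * N)).filter fun z =>
            ∃ γ : Fin r → ZMod Q, Real.exp (-Y ^ C) ≤ 𝔼 s ∈ bz m T,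
              lap ρ (fun i => ξ i ⬝ᵥ cs Q s + γ i) * (g (z + s) - (1 - ε) * θ)).card := by
  intro ε hε hε1
  obtain ⟨c, C, hc, hcC, hK⟩ := Km.km ε hε hε1
  refine ⟨(C + 1).factorial + 6 * 2 ^ C + C + 1, fun Y m N hY hm hN => ?_⟩
  obtain ⟨y1, y2, y3, y4, y5⟩ := Km1.num C (hc.trans hcC) Y hY
  generalize Y ^ ((C + 1).factorial + 6 * 2 ^ C + C + 1) = W at hN y5 ⊢
  set X := 2 * Y with hX
  have x1 : 1 ≤ X ^ C := by linarith
  have x2 : X ^ c ≤ X ^ C := pow_le_pow_right₀ (by linarith) hcC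
  have x3 : 0 ≤ X ^ c := by positivity
  have hΛ : 2 ≤ Real.exp (X ^ C) := by linarith [Real.add_one_le_exp (X ^ C)]
  have hΛ3 : (2 * Real.exp (X ^ C)) ^ 3 ≤ Real.exp W := by
    calc (2 * Real.exp (X ^ C)) ^ 3 ≤ (Real.exp (X ^ C) * Real.exp (X ^ C)) ^ 3 := by gcongr
      _ = Real.exp (6 * X ^ C) := by
        rw [← Real.exp_add, ← Real.exp_nat_mul]; congr 1; push_cast; ring
      _ ≤ _ := Real.exp_le_exp.2 y5
  have hN0 : (0 : ℝ) < N := by
    rcases Nat.eq_zero_or_pos N with rfl | h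
    · rw [Nat.cast_zero, Real.log_zero] at hN
      linarith
    · exact_mod_cast h
  have hN1 : 1 ≤ N := by exact_mod_cast hN0
  obtain ⟨T3, T4, T, t1, t2, t3, t4, t5, t6, t7, t8⟩ := Km1.scales N _ hΛ
    (hΛ3.trans ((Real.le_log_iff_exp_le hN0).1 hN))
  obtain ⟨Q, hQ, q1, q2⟩ := Nat.exists_prime_lt_and_le_two_mul (4 * N) (by omega)
  haveI : Fact Q.Prime := ⟨hQ⟩
  refine ⟨T3, T, Q, ⌊X ^ c⌋₊, inferInstance, Real.exp (-X ^ c), by omega, ?_, t1, by omega,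
    t5.trans (mul_le_mul_of_nonneg_left hΛ3 (Nat.cast_nonneg _)), by omega, by omega,
    (Nat.floor_le x3).trans (by linarith), Real.exp_le_exp.2 (by linarith),
    Real.exp_le_one_iff.2 (by linarith), fun g u v θ hg hu hv hθ h1 h2 h3 => ?_⟩
  · refine le_trans (mul_le_mul ?_ (Real.exp_le_exp.2 (by linarith)) (Real.exp_nonneg _)
      (Nat.cast_nonneg _)) t4
    exact_mod_cast Nat.le_add_right _ _
  let w : Vz m → ℝ := fun s =>
    if ∀ i, (T4 : ℤ) ≤ s i ∧ s i < T4 + T3 then u (s - fun _ => (T4 : ℤ)) else 0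
  have hw : ∀ s, 0 ≤ w s ∧ w s ≤ 1 := fun s => by
    simp only [w]
    split_ifs
    · exact hu _
    · exact ⟨le_rfl, zero_le_one⟩
  have eX : 1 ≤ Real.exp X := Real.one_le_exp (by linarith)
  have eY : Real.exp (-X) ≤ Real.exp (-Y) := Real.exp_le_exp.2 (by linarith)
  have e1 : Real.exp (-X) ≤ 1 := Real.exp_le_one_iff.2 (by linarith)
  have b3 : ∀ x, bet (0 : V Q m →ₗ[ZMod Q] (Fin 0 → ZMod Q)) 0 (X ^ C) (T3 + T4) x = 1 :=
    bet0 _ _ _ (by omega)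
  have b4 : ∀ x, bet (0 : V Q m →ₗ[ZMod Q] (Fin 0 → ZMod Q)) 0 1 T4 x = 1 := bet0 _ _ _ (by omega)
  have b2 : ∀ x, bet (0 : V Q m →ₗ[ZMod Q] (Fin 0 → ZMod Q)) 0 (X ^ C) N x = 1 := bet0 _ _ _ hN1
  have r0 : (0 : ℝ) < T4 := by exact_mod_cast (by omega : 0 < T4)
  have r1 : (1 : ℝ) / 2 ≤ ((T3 : ℝ) / (T3 + T4)) ^ m :=
    ratio _ _ (Real.exp (X ^ C)) m (Nat.cast_nonneg _) r0 (by exact_mod_cast t3)
      (by linarith [Real.add_one_le_exp (X ^ C)]) (by linarith)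
  have m1 : 𝔼 a1 ∈ bx Q m (T3 + T4), 𝔼 a2 ∈ bx Q m T4, w (dn (a1 + a2)) =
      ((T3 : ℝ) / (T3 + T4)) ^ m * 𝔼 x ∈ bz m T3, u x := by
    rw [← trap T3 T4 (by omega), bxm (by omega)]
    refine expect_congr rfl fun a ha => ?_
    rw [bxm (by omega)]
    refine expect_congr rfl fun b hb => ?_
    have a1 := mem_bz.1 ha
    have b1 := mem_bz.1 hb
    rw [cs_add, dn_cs _ (fun i => by
      have := a1 i; have := b1 i; simp only [Pi.add_apply]; omega)]
  have m2 : 𝔼 t ∈ bx Q m N, v (dn t) = 𝔼 y ∈ bz m N, v y := by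
    rw [bxm (by omega)]
    refine expect_congr rfl fun b hb => ?_
    have b1 := mem_bz.1 hb
    rw [dn_cs _ (fun i => by have := b1 i; omega)]
  have m3 : 𝔼 a1 ∈ bx Q m (T3 + T4), 𝔼 a2 ∈ bx Q m T4, 𝔼 t ∈ bx Q m N,
      w (dn (a1 + a2)) * v (dn t) * g (dn (a1 + a2 + t) - fun _ => (T4 : ℤ)) =
      ((T3 : ℝ) / (T3 + T4)) ^ m * 𝔼 x ∈ bz m T3, 𝔼 y ∈ bz m N, u x * v y * g (x + y) := by
    rw [← trap T3 T4 (by omega), bxm (by omega)]
    refine expect_congr rfl fun a ha => ?_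
    rw [bxm (by omega)]
    refine expect_congr rfl fun b hb => ?_
    have a1 := mem_bz.1 ha
    have b1 := mem_bz.1 hb
    rw [cs_add, dn_cs _ (fun i => by
      have := a1 i; have := b1 i; simp only [Pi.add_apply]; omega), bxm (by omega)]
    simp only [w]
    split_ifs
    · refine expect_congr rfl fun y hy => ?_
      have y0 := mem_bz.1 hy
      rw [cs_add, dn_cs _ (fun i => by have := y0 i; omega), dn_cs _ (fun i => by
        have := a1 i; have := b1 i; have := y0 i; simp only [Pi.add_apply]; omega),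
        show a + b + y - (fun _ => (T4 : ℤ)) = a + b - (fun _ => (T4 : ℤ)) + y by abel]
    · simp
  obtain ⟨ξ, hξ⟩ := hK X X X Q m (Fin 0) 0 0 0 0 (X ^ C) (X ^ C) 1 θ N (T3 + T4) T4 T
    (fun _ => 1) (fun _ => 1) (fun _ => 1) (fun x => w (dn x))
    (fun x => v (dn x)) (fun x => g (dn x - fun _ => (T4 : ℤ))) ⟨y2, le_rfl, le_rfl, y3⟩
    (by linarith) (by simp; linarith) e1 le_rfl (mul_one _).le (mul_one _).le t1 t2 t3
    t4 q1.le (by rw [mas0 _ _ _ hN1]; exact e1) (by rw [mas0 _ _ _ (by omega)]; exact e1)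
    (by rw [mas0 _ _ _ (by omega)]; exact e1) (fun _ => ⟨zero_le_one, eX⟩)
    (fun _ => ⟨zero_le_one, eX⟩) (fun _ => ⟨zero_le_one, eX⟩) (mix1 (Real.exp_nonneg _))
    (mix1 (Real.exp_nonneg _)) (mix1 (Real.exp_nonneg _))
    (fun x => ⟨(hw _).1, (hw _).2.trans (by rw [mul_one]; exact eX)⟩)
    (fun x => ⟨(hv _).1, (hv _).2.trans (by rw [mul_one]; exact eX)⟩)
    (fun x => ⟨(hg _).1, (hg _).2.trans (Real.exp_le_exp.2 (by linarith))⟩) (eY.trans hθ)
    (by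
      simp only [b3, b4, one_mul]
      rw [m1]
      have a1 : Real.exp (-X) = Real.exp (-Y) * Real.exp (-Y) := by
        rw [← Real.exp_add]; congr 1; rw [hX]; ring
      have a2 : Real.exp (-Y) ≤ 1 / 2 := by
        rw [Real.exp_neg, one_div]
        exact inv_anti₀ (by norm_num) (by linarith [Real.add_one_le_exp Y])
      rw [a1]
      exact mul_le_mul (a2.trans r1) h1 (Real.exp_nonneg _) (by linarith))
    (by simp only [b2, one_mul]; rw [m2]; exact eY.trans h2)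
    (by
      simp only [b2, b3, b4, one_mul, mul_one]
      rw [m1, m2, m3]
      have a1 := mul_le_mul_of_nonneg_left h3
        (show (0 : ℝ) ≤ ((T3 : ℝ) / (T3 + T4)) ^ m by linarith)
      linarith [a1])
  refine ⟨fun i => ξ i, ?_⟩
  rw [expect_comm] at hξ
  rw [bxm (by omega)] at hξ
  obtain ⟨s, hs, hξ⟩ := exists_le_of_le_expect (bz_ne t1) hξ
  have hNm : (0 : ℝ) < ((N ^ m : ℕ) : ℝ) := by positivity
  rw [bxm (by omega), expect_eq_sum_div_card, card_bz, le_div_iff₀ hNm, sum_boole] at hξ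
  have s1 := mem_bz.1 hs
  push_cast at hξ
  refine le_trans (mul_le_mul_of_nonneg_right (Real.exp_le_exp.2 (by linarith)) (by positivity))
    (hξ.trans ?_)
  refine Nat.cast_le.2 (card_le_card_of_injOn (fun z => z - s - fun _ => (T4 : ℤ)) (fun z hz => ?_)
    fun a _ b _ h => by simpa using h)
  obtain ⟨z1, z2⟩ := mem_filter.1 (mem_coe.1 hz)
  have z3 := mem_bz.1 z1
  refine mem_coe.2 (mem_filter.2 ⟨Fintype.mem_piFinset.2 fun i => mem_Icc.2 ?_,
    fun i => -(ξ i ⬝ᵥ cs Q s), ?_⟩)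
  · have := z3 i
    have := s1 i
    simp only [Pi.sub_apply]
    omega
  refine (Real.exp_le_exp.2 (by linarith)).trans (z2.trans (le_of_eq ?_))
  rw [bxm (by omega)]
  refine expect_congr rfl fun t ht => ?_
  have t0 := mem_bz.1 ht
  rw [lap0, mul_one, mul_one, cs_add, cs_sub (z + t) s, dn_cs _ (fun i => by
      have := z3 i; have := s1 i; have := t0 i; simp only [Pi.add_apply, Pi.sub_apply]; omega),
    show z + t - s - (fun _ => (T4 : ℤ)) = z - s - (fun _ => (T4 : ℤ)) + t by abel]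
  congr 2
  funext i
  rw [dotProduct_sub, sub_eq_add_neg]

end Vale.Agent.P057T
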