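import Vale.Agent.P057L.Defs

/-! Moebius identities, periodic averages and shares of pairs for the lifting step. -/

set_option linter.all false

open Finset
open scoped BigOperators

namespace Vale.Agent.P057T.LiftC

open Vale.Agent.P057L

noncomputable section

/-- the Moebius transform -/
def mt (B : ℕ → ℝ) (n : ℕ) : ℝ :=
  ∑ d ∈ n.divisors, (ArithmeticFunction.moebius (n / d) : ℝ) * B d

theorem mt_eq (B : ℕ → ℝ) (n : ℕ) : mt B n =
    ∑ x ∈ n.divisorsAntidiagonal, (ArithmeticFunction.moebius x.1 : ℝ) * B x.2 := by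
  unfold mt
  rw [Nat.sum_divisorsAntidiagonal' (fun a b => (ArithmeticFunction.moebius a : ℝ) * B b)]

theorem sum_mt (B : ℕ → ℝ) (n : ℕ) (hn : 0 < n) : ∑ e ∈ n.divisors, mt B e = B n := by
  have := (ArithmeticFunction.sum_eq_iff_sum_mul_moebius_eq (f := mt B) (g := B)).2
    (fun n _ => (mt_eq B n).symm)
  exact this n hn

theorem mt_gcd (B : ℕ → ℝ) (g n : ℕ) (hn : 0 < n) :
    mt (fun d => B (Nat.gcd d g)) n = if n ∣ g then mt B n else 0 := by
  have h := (ArithmeticFunction.sum_eq_iff_sum_mul_moebius_eq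
    (f := fun e => if e ∣ g then mt B e else 0) (g := fun d => B (Nat.gcd d g))).1 (by
      intro d hd
      rw [← sum_filter, ← sum_mt B (Nat.gcd d g) (Nat.gcd_pos_of_pos_left g hd)]
      refine sum_congr ?_ (fun _ _ => rfl)
      ext e
      simp only [mem_filter, Nat.mem_divisors, Nat.dvd_gcd_iff]
      constructor
      · rintro ⟨⟨h1, _⟩, h2⟩
        exact ⟨⟨h1, h2⟩, (Nat.gcd_pos_of_pos_left g hd).ne'⟩
      · rintro ⟨⟨h1, h2⟩, _⟩
        exact ⟨⟨h1, hd.ne'⟩, h2⟩) n hn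
  rw [mt_eq, h]

theorem moeb0 (B : ℕ → ℝ) (g n : ℕ) (hn : 0 < n) (h : ¬ n ∣ g) :
    mt (fun d => B (Nat.gcd d g)) n = 0 := by
  rw [mt_gcd B g n hn, if_neg h]

theorem moebsum (B : ℕ → ℝ) (g Q : ℕ) (hg : 0 < g) (hQ : g ≤ Q) :
    ∑ n ∈ Icc 1 Q, mt (fun d => B (Nat.gcd d g)) n = B g := by
  rw [← sum_mt B g hg]
  rw [sum_congr rfl (fun n hn => mt_gcd B g n (by have := (mem_Icc.1 hn).1; omega)), ← sum_filter]
  refine sum_congr ?_ (fun _ _ => rfl)
  ext e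
  simp only [mem_filter, mem_Icc, Nat.mem_divisors]
  constructor
  · rintro ⟨_, h⟩
    exact ⟨h, hg.ne'⟩
  · rintro ⟨h, _⟩
    exact ⟨⟨Nat.pos_of_dvd_of_pos h hg, (Nat.le_of_dvd hg h).trans hQ⟩, h⟩

theorem abs_mt_le (B : ℕ → ℝ) (M : ℝ) (n : ℕ) (h : ∀ d, |B d| ≤ M) : |mt B n| ≤ n * M := by
  have hM : 0 ≤ M := (abs_nonneg _).trans (h 0)
  unfold mt
  refine (abs_sum_le_sum_abs _ _).trans ?_
  calc ∑ d ∈ n.divisors, |(ArithmeticFunction.moebius (n / d) : ℝ) * B d|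
      ≤ ∑ d ∈ n.divisors, M := by
        refine sum_le_sum fun d _ => ?_
        rw [abs_mul]
        have h1 : |(ArithmeticFunction.moebius (n / d) : ℝ)| ≤ 1 := by
          have := ArithmeticFunction.abs_moebius_le_one (n := n / d)
          exact_mod_cast this
        calc _ ≤ 1 * M := mul_le_mul h1 (h d) (abs_nonneg _) zero_le_one
          _ = M := one_mul M
    _ = n.divisors.card * M := by rw [sum_const, nsmul_eq_mul]
    _ ≤ n * M := by
        refine mul_le_mul_of_nonneg_right ?_ hM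
        exact_mod_cast Nat.card_divisors_le_self n

theorem mt_one (B : ℕ → ℝ) : mt B 1 = B 1 := by simp [mt]

/-- the residue box -/
def bx (ι : Type) [Fintype ι] [DecidableEq ι] (N : ℕ) : Finset (ι → ℤ) :=
  Fintype.piFinset fun _ => rg N

variable {ι : Type} [Fintype ι] [DecidableEq ι]

theorem mem_bx {N : ℕ} {x : ι → ℤ} : x ∈ bx ι N ↔ ∀ i, 0 ≤ x i ∧ x i < N := by
  simp [bx, rg, Fintype.mem_piFinset]

theorem card_bx (N : ℕ) : (bx ι N).card = N ^ Fintype.card ι := by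
  simp [bx, rg, Fintype.card_piFinset]

theorem bx_ne (N : ℕ) (hN : 1 ≤ N) : (bx ι N).Nonempty :=
  ⟨0, mem_bx.2 fun _ => ⟨le_rfl, by simp; omega⟩⟩

/-- periodic functions -/
def Per (N : ℕ) (f : (ι → ℤ) → ℝ) : Prop := ∀ x v, f (x + (N : ℤ) • v) = f x

theorem per_mod {N : ℕ} {f : (ι → ℤ) → ℝ} (hf : Per N f) (x : ι → ℤ) :
    f (fun i => x i % N) = f x := by
  have : x = (fun i => x i % N) + (N : ℤ) • (fun i => x i / N) := by
    funext i
    simp only [Pi.add_apply, Pi.smul_apply, smul_eq_mul]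
    rw [Int.emod_add_mul_ediv]
  conv_rhs => rw [this, hf]

theorem sum_shift {N : ℕ} (hN : 1 ≤ N) {f : (ι → ℤ) → ℝ} (hf : Per N f) (s : ι → ℤ) :
    ∑ x ∈ bx ι N, f (x + s) = ∑ x ∈ bx ι N, f x := by
  have hN0 : (0 : ℤ) < N := by exact_mod_cast hN
  refine sum_nbij' (fun x i => (x i + s i) % N) (fun x i => (x i - s i) % N) ?_ ?_ ?_ ?_ ?_
  · intro x _
    exact mem_bx.2 fun i => ⟨Int.emod_nonneg _ hN0.ne', Int.emod_lt_of_pos _ hN0⟩
  · intro x _
    exact mem_bx.2 fun i => ⟨Int.emod_nonneg _ hN0.ne', Int.emod_lt_of_pos _ hN0⟩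
  · intro x hx
    funext i
    obtain ⟨h1, h2⟩ := mem_bx.1 hx i
    simp only
    rw [Int.emod_sub_emod, add_sub_cancel_right, Int.emod_eq_of_lt h1 h2]
  · intro x hx
    funext i
    obtain ⟨h1, h2⟩ := mem_bx.1 hx i
    simp only
    rw [Int.emod_add_emod, sub_add_cancel, Int.emod_eq_of_lt h1 h2]
  · intro x _
    exact (per_mod hf (x + s)).symm

theorem exp_shift {N : ℕ} (hN : 1 ≤ N) {f : (ι → ℤ) → ℝ} (hf : Per N f) (s : ι → ℤ) :
    𝔼 x ∈ bx ι N, f (x + s) = 𝔼 x ∈ bx ι N, f x := by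
  rw [expect_eq_sum_div_card, expect_eq_sum_div_card, sum_shift hN hf s]

/-- a system of class averages -/
structure Sys (Φ : ℕ → (ι → ℤ) → ℝ) : Prop where
  per : ∀ h, Per h (Φ h)
  con : ∀ h e, 1 ≤ h → 1 ≤ e → ∀ y, 𝔼 v ∈ bx ι e, Φ (h * e) (y + (h : ℤ) • v) = Φ h y

theorem avg_mul {Φ : ℕ → (ι → ℤ) → ℝ} (hΦ : Sys Φ) (n n1 d : ℕ) (hn : 1 ≤ n) (hn1 : 1 ≤ n1)
    (hd : d ∣ n1) (δ : ℤ) (y : ι → ℤ) :
    𝔼 v ∈ bx ι n1, Φ (n * d) (y + (n : ℤ) • δ • v) = Φ (n * Nat.gcd d δ.natAbs) y := by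
  have hd0 : 0 < d := Nat.pos_of_dvd_of_pos hd hn1
  set g := Nat.gcd d δ.natAbs with hg
  have hg0 : 0 < g := Nat.gcd_pos_of_pos_left _ hd0
  obtain ⟨e, he⟩ : g ∣ d := Nat.gcd_dvd_left _ _
  have he0 : 1 ≤ e := by
    rcases Nat.eq_zero_or_pos e with h | h
    · rw [h] at he; omega
    · exact h
  obtain ⟨c, hc⟩ : (g : ℤ) ∣ δ := by
    have : g ∣ δ.natAbs := Nat.gcd_dvd_right _ _
    exact Int.natCast_dvd.2 this
  obtain ⟨a, b, hab⟩ : ∃ a b : ℤ, (g : ℤ) = δ * a + d * b := by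
    have h1 : (g : ℤ) = Int.gcd (d : ℤ) δ := by
      rw [hg]; simp [Int.gcd]
    refine ⟨Int.gcdB d δ, Int.gcdA d δ, ?_⟩
    rw [h1, Int.gcd_eq_gcd_ab]; ring
  obtain ⟨k, hk⟩ := hd
  have hper : Per n1 (fun v : ι → ℤ => Φ (n * d) (y + (n : ℤ) • δ • v)) := by
    intro x v
    have : y + (n : ℤ) • δ • (x + (n1 : ℤ) • v) =
        (y + (n : ℤ) • δ • x) + ((n * d : ℕ) : ℤ) • ((δ * k) • v) := by
      funext i
      simp only [Pi.add_apply, Pi.smul_apply, smul_eq_mul, hk]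
      push_cast; ring
    simp only
    rw [this, hΦ.per]
  have hA : ∀ u : ι → ℤ, 𝔼 v ∈ bx ι n1, Φ (n * d) (y + (n : ℤ) • δ • v) =
      𝔼 v ∈ bx ι n1, Φ (n * g * e) ((y + (n : ℤ) • δ • v) + ((n * g : ℕ) : ℤ) • u) := by
    intro u
    rw [← exp_shift hn1 hper (a • u)]
    refine expect_congr rfl fun v _ => ?_
    have h2 : n * g * e = n * d := by rw [he]; ring
    rw [h2]
    have : (y + (n : ℤ) • δ • v) + ((n * g : ℕ) : ℤ) • u =
        (y + (n : ℤ) • δ • (v + a • u)) + ((n * d : ℕ) : ℤ) • (b • u) := by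
      funext i
      simp only [Pi.add_apply, Pi.smul_apply, smul_eq_mul]
      push_cast
      rw [hab]; ring
    rw [this, hΦ.per]
  have hng : 1 ≤ n * g := Nat.mul_pos hn hg0
  calc 𝔼 v ∈ bx ι n1, Φ (n * d) (y + (n : ℤ) • δ • v)
      = 𝔼 u ∈ bx ι e, 𝔼 v ∈ bx ι n1, Φ (n * d) (y + (n : ℤ) • δ • v) :=
        (expect_const (bx_ne e he0) _).symm
    _ = 𝔼 u ∈ bx ι e, 𝔼 v ∈ bx ι n1,
          Φ (n * g * e) ((y + (n : ℤ) • δ • v) + ((n * g : ℕ) : ℤ) • u) :=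
        expect_congr rfl fun u _ => hA u
    _ = 𝔼 v ∈ bx ι n1, 𝔼 u ∈ bx ι e,
          Φ (n * g * e) ((y + (n : ℤ) • δ • v) + ((n * g : ℕ) : ℤ) • u) := expect_comm _ _ _
    _ = 𝔼 v ∈ bx ι n1, Φ (n * g) y := by
        refine expect_congr rfl fun v _ => ?_
        rw [hΦ.con (n * g) e hng he0]
        have : y + (n : ℤ) • δ • v = y + ((n * g : ℕ) : ℤ) • (c • v) := by
          funext i
          simp only [Pi.add_apply, Pi.smul_apply, smul_eq_mul, hc]
          push_cast; ring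
        rw [this, hΦ.per]
    _ = Φ (n * g) y := expect_const (bx_ne n1 hn1) _

theorem avg_mt {Φ : ℕ → (ι → ℤ) → ℝ} (hΦ : Sys Φ) (n n1 : ℕ) (hn : 1 ≤ n) (hn1 : 1 ≤ n1)
    (δ : ℤ) (hδ : ¬ (n1 : ℤ) ∣ δ) (y : ι → ℤ) :
    𝔼 v ∈ bx ι n1, mt (fun d => Φ (n * d) (y + (n : ℤ) • δ • v)) n1 = 0 := by
  have h0 := moeb0 (fun d => Φ (n * d) y) δ.natAbs n1 hn1 (fun h => hδ (Int.natCast_dvd.2 h))
  rw [← h0]
  unfold mt
  rw [expect_sum_comm]
  refine sum_congr rfl fun d hd => ?_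
  rw [← mul_expect, avg_mul hΦ n n1 d hn hn1 (Nat.dvd_of_mem_divisors hd)]

/-- points of an interval in one class -/
theorem card_cls (T n : ℕ) (hn : 1 ≤ n) (a : ℤ) :
    (((rg T).filter fun x => (n : ℤ) ∣ x - a).card : ℝ) ≤ T / n + 1 := by
  have hn0 : (0 : ℤ) < n := by exact_mod_cast hn
  have hinj : ((rg T).filter fun x => (n : ℤ) ∣ x - a).card ≤ (range (T / n + 1)).card := by
    refine card_le_card_of_injOn (fun x => (x / n).toNat) ?_ ?_
    · intro x hx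
      have hx' := (mem_filter.1 hx).1
      simp only [rg, mem_Ico] at hx'
      simp only [coe_range, Set.mem_Iio]
      have h1 : x / n ≤ (T : ℤ) / n := Int.ediv_le_ediv hn0 hx'.2.le
      have h2 : 0 ≤ x / n := Int.ediv_nonneg hx'.1 hn0.le
      have h3 : ((T / n : ℕ) : ℤ) = (T : ℤ) / n := by push_cast; rfl
      omega
    · intro x hx y hy hxy
      have hx' := mem_filter.1 hx
      have hy' := mem_filter.1 hy
      simp only [rg, mem_Ico] at hx' hy'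
      have h2 : 0 ≤ x / n := Int.ediv_nonneg hx'.1.1 hn0.le
      have h3 : 0 ≤ y / n := Int.ediv_nonneg hy'.1.1 hn0.le
      have h4 : x / n = y / n := by simp only at hxy; omega
      have h5 : x % n = y % n := by
        have : (n : ℤ) ∣ y - x := by
          have := dvd_sub hy'.2 hx'.2
          simpa using this
        exact (Int.modEq_iff_dvd.2 this)
      rw [← Int.emod_add_mul_ediv x n, ← Int.emod_add_mul_ediv y n, h4, h5]
  rw [card_range] at hinj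
  have : ((T / n : ℕ) : ℝ) ≤ T / n := Nat.cast_div_le
  calc _ ≤ ((T / n + 1 : ℕ) : ℝ) := by exact_mod_cast hinj
    _ ≤ T / n + 1 := by push_cast; linarith

open Classical in
theorem card_clsv (m T n : ℕ) (hn : 1 ≤ n) (t : Vz m) :
    (((bz m T).filter fun x => ∀ l, (n : ℤ) ∣ x l - t l).card : ℝ) ≤ (T / n + 1) ^ m := by
  have : ((bz m T).filter fun x => ∀ l, (n : ℤ) ∣ x l - t l) =
      Fintype.piFinset fun l => (rg T).filter fun x => (n : ℤ) ∣ x - t l := by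
    ext x
    simp only [bz, mem_filter, Fintype.mem_piFinset]
    exact ⟨fun h l => ⟨h.1 l, h.2 l⟩, fun h => ⟨fun l => (h l).1, fun l => (h l).2⟩⟩
  rw [this, Fintype.card_piFinset]
  push_cast
  calc ∏ l, (((rg T).filter fun x => (n : ℤ) ∣ x - t l).card : ℝ)
      ≤ ∏ _l : Fin m, ((T : ℝ) / n + 1) :=
        prod_le_prod (fun _ _ => Nat.cast_nonneg _) fun l _ => card_cls T n hn (t l)
    _ = _ := by simp

theorem card_bz (m T : ℕ) : (bz m T).card = T ^ m := by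
  simp [bz, rg, Fintype.card_piFinset]

open Classical in
/-- the share of the points congruent to t -/
theorem share (m T n : ℕ) (hn : 1 ≤ n) (hT : 1 ≤ T) (hm : n * m ≤ T) (t : Vz m) :
    𝔼 x ∈ bz m T, (if ∀ l, (n : ℤ) ∣ x l - t l then (1 : ℝ) else 0) ≤ 3 / (n : ℝ) ^ m := by
  have hn' : (0 : ℝ) < n := by exact_mod_cast hn
  have hT' : (0 : ℝ) < T := by exact_mod_cast hT
  rw [expect_eq_sum_div_card, sum_boole, card_bz]
  push_cast
  rw [div_le_div_iff₀ (by positivity) (by positivity)]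
  have h1 := card_clsv m T n hn t
  have h2 : ((T : ℝ) / n + 1) ^ m * (n : ℝ) ^ m = (T : ℝ) ^ m * (1 + n / T) ^ m := by
    rw [← mul_pow, ← mul_pow]; congr 1; field_simp
  have h3 : (1 + (n : ℝ) / T) ^ m ≤ 3 := by
    calc (1 + (n : ℝ) / T) ^ m ≤ Real.exp (n / T) ^ m :=
          pow_le_pow_left₀ (by positivity) (by linarith [Real.add_one_le_exp ((n : ℝ) / T)]) m
      _ = Real.exp (m * (n / T)) := by rw [Real.exp_nat_mul]
      _ ≤ Real.exp 1 := by
          refine Real.exp_le_exp.2 ?_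
          rw [← mul_div_assoc, div_le_one hT']
          have : ((n * m : ℕ) : ℝ) ≤ T := by exact_mod_cast hm
          push_cast at this; linarith
      _ ≤ 3 := by have := Real.exp_one_lt_d9; linarith
  calc _ ≤ ((T : ℝ) / n + 1) ^ m * (n : ℝ) ^ m :=
        mul_le_mul_of_nonneg_right h1 (by positivity)
    _ = (T : ℝ) ^ m * (1 + n / T) ^ m := h2
    _ ≤ (T : ℝ) ^ m * 3 := mul_le_mul_of_nonneg_left h3 (by positivity)
    _ = 3 * (T : ℝ) ^ m := by ring

end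

end Vale.Agent.P057T.LiftC
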