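import Mathlib

/-! Finite core of the lifting lemma: residue classes, Moebius components, maximal boost. -/

namespace P057T.LiftC

open Finset

/-- congruence of integer vectors -/
def Cg {κ : Type*} (n : ℕ) (w c : κ → ℤ) : Prop := ∀ k, (n : ℤ) ∣ w k - c k

/-- periodic functions -/
def Per {κ : Type*} (N : ℕ) (Φ : (κ → ℤ) → ℝ) : Prop := ∀ w c, Cg N w c → Φ w = Φ c

/-- residues -/
noncomputable def bx (κ : Type*) [Fintype κ] [DecidableEq κ] (N : ℕ) : Finset (κ → ℤ) :=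
  Fintype.piFinset (fun _ : κ => Finset.Ico (0 : ℤ) N)

/-- reduction -/
def md {κ : Type*} (N : ℕ) (w : κ → ℤ) : κ → ℤ := fun k => w k % (N : ℤ)

section basic
variable {κ : Type*}

lemma cg_iff {n : ℕ} {w c : κ → ℤ} : Cg n w c ↔ ∃ x : κ → ℤ, w = c + (n : ℤ) • x := by
  constructor
  · intro h
    choose x hx using h
    refine ⟨x, funext fun k => ?_⟩
    have := hx k
    simp only [Pi.add_apply, Pi.smul_apply, smul_eq_mul]
    linarith
  · rintro ⟨x, rfl⟩ k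
    exact ⟨x k, by simp⟩

lemma Cg.refl (n : ℕ) (w : κ → ℤ) : Cg n w w := fun k => by simp

lemma Cg.symm {n : ℕ} {w c : κ → ℤ} (h : Cg n w c) : Cg n c w := fun k => by
  have := (h k).neg_right
  simpa using this

lemma Cg.trans {n : ℕ} {w c e : κ → ℤ} (h : Cg n w c) (h' : Cg n c e) : Cg n w e := fun k => by
  have := (h k).add (h' k)
  simpa using this

lemma Cg.mono {n n' : ℕ} {w c : κ → ℤ} (h : Cg n w c) (hn : n' ∣ n) : Cg n' w c :=
  fun k => (Int.natCast_dvd_natCast.2 hn).trans (h k)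

lemma cg_one (w c : κ → ℤ) : Cg 1 w c := fun k => by simp

lemma md_cg (N : ℕ) (w : κ → ℤ) : Cg N (md N w) w := fun k =>
  ⟨-(w k / N), by simp only [md]; rw [Int.emod_def]; ring⟩

variable [Fintype κ] [DecidableEq κ]

lemma mem_bx {N : ℕ} {z : κ → ℤ} : z ∈ bx κ N ↔ ∀ k, 0 ≤ z k ∧ z k < N := by
  simp [bx, Fintype.mem_piFinset]

lemma md_mem {N : ℕ} (hN : 0 < N) (w : κ → ℤ) : md N w ∈ bx κ N := by
  rw [mem_bx]
  intro k
  have h : (0 : ℤ) < N := by exact_mod_cast hN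
  exact ⟨Int.emod_nonneg _ h.ne', Int.emod_lt_of_pos _ h⟩

lemma eq_of_cg {N : ℕ} {z z' : κ → ℤ} (hz : z ∈ bx κ N) (hz' : z' ∈ bx κ N) (h : Cg N z z') :
    z = z' := by
  rw [mem_bx] at hz hz'
  funext k
  have h1 := hz k
  have h2 := hz' k
  have h3 : z k - z' k = 0 := Int.eq_zero_of_abs_lt_dvd (h k) (by rw [abs_lt]; constructor <;> linarith)
  linarith

lemma card_bx (N : ℕ) : (bx κ N).card = N ^ Fintype.card κ := by
  simp [bx, Fintype.card_piFinset]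

lemma sum_shift {N : ℕ} (hN : 0 < N) {Φ : (κ → ℤ) → ℝ} (h : Per N Φ) (δ : κ → ℤ) :
    ∑ z ∈ bx κ N, Φ (z + δ) = ∑ z ∈ bx κ N, Φ z := by
  refine Finset.sum_bij' (fun z _ => md N (z + δ)) (fun z _ => md N (z - δ))
    (fun z _ => md_mem hN _) (fun z _ => md_mem hN _) ?_ ?_ ?_
  · intro z hz
    refine eq_of_cg (md_mem hN _) hz ((md_cg N _).trans fun k => ?_)
    have := md_cg N (z + δ) k
    simp only [Pi.add_apply, Pi.sub_apply] at this ⊢
    have e : md N (z + δ) k - δ k - z k = md N (z + δ) k - (z k + δ k) := by ring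
    rw [e]; exact this
  · intro z hz
    refine eq_of_cg (md_mem hN _) hz ((md_cg N _).trans fun k => ?_)
    have := md_cg N (z - δ) k
    simp only [Pi.add_apply, Pi.sub_apply] at this ⊢
    have e : md N (z - δ) k + δ k - z k = md N (z - δ) k - (z k - δ k) := by ring
    rw [e]; exact this
  · intro z _
    exact (h _ _ (md_cg N _)).symm

end basic

/-- Moebius sums of functions of `gcd d g` vanish unless `n1 ∣ g` -/
lemma mob_van (ψ : ℕ → ℝ) {n1 g : ℕ} (h0 : 0 < n1) (h : ¬ n1 ∣ g) :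
    ∑ x ∈ n1.divisorsAntidiagonal, (ArithmeticFunction.moebius x.1 : ℝ) * ψ (Nat.gcd x.2 g) = 0 := by
  classical
  set χ : ℕ → ℝ := fun e => ∑ x ∈ e.divisorsAntidiagonal,
    (ArithmeticFunction.moebius x.1 : ℝ) * ψ x.2 with hχ
  have h1 : ∀ n > 0, ∑ i ∈ n.divisors, χ i = ψ n :=
    (ArithmeticFunction.sum_eq_iff_sum_mul_moebius_eq (f := χ) (g := ψ)).2 (fun n _ => rfl)
  have h2 : ∀ d > 0, ∑ i ∈ d.divisors, (if i ∣ g then χ i else 0) = ψ (Nat.gcd d g) := by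
    intro d hd
    rw [← h1 _ (Nat.gcd_pos_of_pos_left g hd), ← Finset.sum_filter]
    refine Finset.sum_congr ?_ (fun _ _ => rfl)
    ext i
    simp only [Finset.mem_filter, Nat.mem_divisors, Nat.dvd_gcd_iff]
    have : Nat.gcd d g ≠ 0 := (Nat.gcd_pos_of_pos_left g hd).ne'
    constructor
    · rintro ⟨⟨a, _⟩, b⟩; exact ⟨⟨a, b⟩, this⟩
    · rintro ⟨⟨a, b⟩, _⟩; exact ⟨⟨a, hd.ne'⟩, b⟩
  have h3 := (ArithmeticFunction.sum_eq_iff_sum_mul_moebius_eq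
    (f := fun i => if i ∣ g then χ i else 0) (g := fun d => ψ (Nat.gcd d g))).1 h2 n1 h0
  simpa [h] using h3

/-- the Moebius component of exact relative modulus `n1` -/
noncomputable def Fm {ι τ : Type*} (P : ℕ → τ → (ι → ℤ) → ℝ) (n n1 : ℕ) (t : τ) (y : ι → ℤ) : ℝ :=
  ∑ x ∈ n1.divisorsAntidiagonal, (ArithmeticFunction.moebius x.1 : ℝ) * P (n * x.2) t y

/-- consistency of class means -/
def Cons {ι τ : Type*} [Fintype ι] [DecidableEq ι] (P : ℕ → τ → (ι → ℤ) → ℝ) : Prop :=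
  ∀ (n d g N : ℕ) (t : τ) (y : ι → ℤ), 0 < n → 0 < N → d ∣ N →
    ∑ z ∈ bx ι N, P (n * d) t (y + ((n : ℤ) * g) • z)
      = (N : ℝ) ^ Fintype.card ι * P (n * Nat.gcd d g) t y

open Classical in
/-- mass of the family in a class -/
noncomputable def cm {Ω κ : Type*} (data : Ω → κ → ℤ) (p : Ω → ℝ) (Fam : Finset Ω) (n : ℕ)
    (c : κ → ℤ) : ℝ := ∑ β ∈ Fam, if Cg n (data β) c then p β else 0

section comp
variable {ι τ κ : Type*}

lemma Fm_one (P : ℕ → τ → (ι → ℤ) → ℝ) (n : ℕ) (t : τ) (y : ι → ℤ) : Fm P n 1 t y = P n t y := by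
  simp [Fm]

lemma abs_Fm_le (P : ℕ → τ → (ι → ℤ) → ℝ) {n n1 : ℕ} {B : ℝ} (t : τ) (y : ι → ℤ) (hB : 0 ≤ B)
    (hb : ∀ d, d ∣ n1 → |P (n * d) t y| ≤ B) : |Fm P n n1 t y| ≤ B * n1 := by
  have hc : (n1.divisorsAntidiagonal.card : ℝ) ≤ n1 := by
    rw [← Nat.map_div_right_divisors, Finset.card_map]
    exact_mod_cast Nat.card_divisors_le_self n1
  calc |Fm P n n1 t y| ≤ ∑ x ∈ n1.divisorsAntidiagonal,
        |(ArithmeticFunction.moebius x.1 : ℝ) * P (n * x.2) t y| := Finset.abs_sum_le_sum_abs _ _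
    _ ≤ ∑ _x ∈ n1.divisorsAntidiagonal, B := by
        refine Finset.sum_le_sum fun x hx => ?_
        rw [abs_mul]
        have h1 : |(ArithmeticFunction.moebius x.1 : ℝ)| ≤ 1 := by
          have := ArithmeticFunction.abs_moebius_le_one (n := x.1)
          exact_mod_cast this
        have h2 := hb x.2 (Nat.snd_mem_divisors_of_mem_antidiagonal hx |> Nat.dvd_of_mem_divisors)
        calc _ ≤ 1 * B := mul_le_mul h1 h2 (abs_nonneg _) zero_le_one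
          _ = B := one_mul B
    _ = n1.divisorsAntidiagonal.card * B := by rw [Finset.sum_const, nsmul_eq_mul]
    _ ≤ B * n1 := by rw [mul_comm]; exact mul_le_mul_of_nonneg_left hc hB

lemma Fm_per {P : ℕ → τ → (ι → ℤ) → ℝ} (per : ∀ h t, Per h (P h t)) (n n1 : ℕ) (t : τ) :
    Per (n * n1) (Fm P n n1 t) := by
  intro w c h
  refine Finset.sum_congr rfl fun x hx => ?_
  rw [per _ t w c (h.mono (Nat.mul_dvd_mul_left n
    (Nat.snd_mem_divisors_of_mem_antidiagonal hx |> Nat.dvd_of_mem_divisors)))]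

lemma ev_cg (e : (κ → ℤ) →+ (ι → ℤ)) {N : ℕ} {w c : κ → ℤ} (h : Cg N w c) : Cg N (e w) (e c) := by
  obtain ⟨x, rfl⟩ := cg_iff.1 h
  exact cg_iff.2 ⟨e x, by rw [map_add, map_zsmul]⟩

lemma cg_smul {n n1 : ℕ} (c : κ → ℤ) {z z' : κ → ℤ} (h : Cg n1 z z') :
    Cg (n * n1) (c + (n : ℤ) • z) (c + (n : ℤ) • z') := by
  intro k
  obtain ⟨x, hx⟩ := h k
  refine ⟨x, ?_⟩
  simp only [Pi.add_apply, Pi.smul_apply, smul_eq_mul]
  push_cast
  have : (n : ℤ) * z k - n * z' k = n * (z k - z' k) := by ring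
  linear_combination this + (n : ℤ) * hx

variable [Fintype ι] [DecidableEq ι] [Fintype κ] [DecidableEq κ]

lemma Fm_avg {P : ℕ → τ → (ι → ℤ) → ℝ} (cons : Cons P) {n n1 g : ℕ} (hn : 0 < n) (h0 : 0 < n1)
    (h : ¬ n1 ∣ g) (t : τ) (y : ι → ℤ) :
    ∑ z ∈ bx ι n1, Fm P n n1 t (y + ((n : ℤ) * g) • z) = 0 := by
  unfold Fm
  rw [Finset.sum_comm]
  have : ∀ x ∈ n1.divisorsAntidiagonal, ∑ z ∈ bx ι n1, (ArithmeticFunction.moebius x.1 : ℝ) *
      P (n * x.2) t (y + ((n : ℤ) * g) • z) = (n1 : ℝ) ^ Fintype.card ι *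
      ((ArithmeticFunction.moebius x.1 : ℝ) * P (n * Nat.gcd x.2 g) t y) := by
    intro x hx
    rw [← Finset.mul_sum, cons n x.2 g n1 t y hn h0
      (Nat.snd_mem_divisors_of_mem_antidiagonal hx |> Nat.dvd_of_mem_divisors)]
    ring
  rw [Finset.sum_congr rfl this, ← Finset.mul_sum,
    mob_van (fun d => P (n * d) t y) h0 h, mul_zero]

lemma van {P : ℕ → τ → (ι → ℤ) → ℝ} (per : ∀ h t, Per h (P h t)) (cons : Cons P)
    (e e' : (κ → ℤ) →+ (ι → ℤ)) {n n1 g : ℕ} (hn : 0 < n) (h0 : 0 < n1) (h : ¬ n1 ∣ g)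
    (sh : ∀ y : ι → ℤ, ∃ δ, e δ = 0 ∧ e' δ = (g : ℤ) • y) (t t' : τ) (c : κ → ℤ) :
    ∑ z ∈ bx κ n1, Fm P n n1 t (e (c + (n : ℤ) • z)) * Fm P n n1 t' (e' (c + (n : ℤ) • z)) = 0 := by
  set Ψ : (κ → ℤ) → ℝ := fun z =>
    Fm P n n1 t (e (c + (n : ℤ) • z)) * Fm P n n1 t' (e' (c + (n : ℤ) • z)) with hΨ
  have hper : Per n1 Ψ := by
    intro z z' hz
    simp only [hΨ]
    rw [Fm_per per n n1 t _ _ (ev_cg e (cg_smul c hz)),
      Fm_per per n n1 t' _ _ (ev_cg e' (cg_smul c hz))]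
  choose δ hδ0 hδ1 using sh
  have h1 : ∀ y ∈ bx ι n1, ∑ z ∈ bx κ n1, Ψ z = ∑ z ∈ bx κ n1,
      Fm P n n1 t (e (c + (n : ℤ) • z)) *
        Fm P n n1 t' (e' (c + (n : ℤ) • z) + ((n : ℤ) * g) • y) := by
    intro y _
    rw [← sum_shift h0 hper (δ y)]
    refine Finset.sum_congr rfl fun z _ => ?_
    simp only [hΨ]
    have a1 : e (c + (n : ℤ) • (z + δ y)) = e (c + (n : ℤ) • z) := by
      rw [smul_add, ← add_assoc, map_add, map_zsmul, hδ0, smul_zero, add_zero]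
    have a2 : e' (c + (n : ℤ) • (z + δ y)) = e' (c + (n : ℤ) • z) + ((n : ℤ) * g) • y := by
      rw [smul_add, ← add_assoc, map_add, map_zsmul, hδ1, smul_smul]
    rw [a1, a2]
  have h2 : ∑ _y ∈ bx ι n1, ∑ z ∈ bx κ n1, Ψ z = 0 := by
    rw [Finset.sum_congr rfl h1, Finset.sum_comm]
    refine Finset.sum_eq_zero fun z _ => ?_
    rw [← Finset.mul_sum, Fm_avg cons hn h0 h, mul_zero]
  rw [Finset.sum_const, card_bx, nsmul_eq_mul] at h2
  have h3 : ((n1 ^ Fintype.card ι : ℕ) : ℝ) ≠ 0 := by positivity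
  exact (mul_eq_zero.1 h2).resolve_left h3

/-- first moment of a Moebius component over a class -/
lemma first {P : ℕ → τ → (ι → ℤ) → ℝ} (per : ∀ h t, Per h (P h t)) (cons : Cons P)
    (T : Finset τ) (ev : τ → (κ → ℤ) →+ (ι → ℤ)) (gg : τ → τ → ℕ)
    {n n1 m r : ℕ} {B : ℝ} (hn : 0 < n) (h0 : 0 < n1) (hB : 0 ≤ B) (hm : 4 * r ≤ m)
    (bnd : ∀ d, d ∣ n1 → ∀ t y, |P (n * d) t y| ≤ B)
    (sh : ∀ t ∈ T, ∀ t' ∈ T, ∀ y : ι → ℤ, ∃ δ, ev t δ = 0 ∧ ev t' δ = (gg t t' : ℤ) • y)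
    (share : (((T ×ˢ T).filter (fun x => n1 ∣ gg x.1 x.2)).card : ℝ) * (n1 : ℝ) ^ m
      ≤ 2 * (T.card : ℝ) ^ 2) (c : κ → ℤ) :
    ∑ z ∈ bx κ n1, |∑ t ∈ T, Fm P n n1 t (ev t (c + (n : ℤ) • z))|
      ≤ (n1 : ℝ) ^ Fintype.card κ * (2 * B * n1 / (n1 : ℝ) ^ (2 * r) * T.card) := by
  set K : ℝ := (n1 : ℝ) ^ Fintype.card κ with hK
  have hn1 : (1 : ℝ) ≤ n1 := by exact_mod_cast h0
  have hKp : 0 < K := by positivity
  set F : τ → (κ → ℤ) → ℝ := fun t z => Fm P n n1 t (ev t (c + (n : ℤ) • z)) with hF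
  have hFb : ∀ t z, |F t z| ≤ B * n1 := fun t z =>
    abs_Fm_le P t _ hB (fun d hd => bnd d hd t _)
  have hcard : ((bx κ n1).card : ℝ) = K := by rw [card_bx]; push_cast; rfl
  have h2 : ∑ z ∈ bx κ n1, (∑ t ∈ T, F t z) ^ 2
      ≤ (((T ×ˢ T).filter (fun x => n1 ∣ gg x.1 x.2)).card : ℝ) * (K * (B * n1) ^ 2) := by
    have e1 : ∑ z ∈ bx κ n1, (∑ t ∈ T, F t z) ^ 2
        = ∑ x ∈ T ×ˢ T, ∑ z ∈ bx κ n1, F x.1 z * F x.2 z := by
      rw [Finset.sum_comm]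
      refine Finset.sum_congr rfl fun z _ => ?_
      rw [sq, Finset.sum_mul_sum, Finset.sum_product]
    rw [e1, ← Finset.sum_filter_add_sum_filter_not (T ×ˢ T) (fun x => n1 ∣ gg x.1 x.2)]
    have e2 : ∑ x ∈ (T ×ˢ T).filter (fun x => ¬ n1 ∣ gg x.1 x.2),
        ∑ z ∈ bx κ n1, F x.1 z * F x.2 z = 0 := by
      refine Finset.sum_eq_zero fun x hx => ?_
      rw [Finset.mem_filter, Finset.mem_product] at hx
      exact van per cons (ev x.1) (ev x.2) hn h0 hx.2 (sh _ hx.1.1 _ hx.1.2) x.1 x.2 c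
    rw [e2, add_zero, ← nsmul_eq_mul]
    refine Finset.sum_le_card_nsmul _ _ _ fun x _ => ?_
    rw [← hcard, ← nsmul_eq_mul]
    refine Finset.sum_le_card_nsmul _ _ _ fun z _ => ?_
    calc F x.1 z * F x.2 z ≤ |F x.1 z * F x.2 z| := le_abs_self _
      _ = |F x.1 z| * |F x.2 z| := abs_mul _ _
      _ ≤ (B * n1) * (B * n1) := mul_le_mul (hFb _ _) (hFb _ _) (abs_nonneg _) (by positivity)
      _ = (B * n1) ^ 2 := by ring
  have h3 : (∑ z ∈ bx κ n1, |∑ t ∈ T, F t z|) ^ 2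
      ≤ K * ∑ z ∈ bx κ n1, (∑ t ∈ T, F t z) ^ 2 := by
    have := sq_sum_le_card_mul_sum_sq (s := bx κ n1) (f := fun z => |∑ t ∈ T, F t z|)
    rw [hcard] at this
    simpa only [sq_abs] using this
  have hpow : (n1 : ℝ) ^ (4 * r) ≤ (n1 : ℝ) ^ m := pow_le_pow_right₀ hn1 hm
  have h4 : (((T ×ˢ T).filter (fun x => n1 ∣ gg x.1 x.2)).card : ℝ)
      ≤ 4 * (T.card : ℝ) ^ 2 / (n1 : ℝ) ^ (4 * r) := by
    rw [le_div_iff₀ (by positivity)]
    have := mul_le_mul_of_nonneg_left hpow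
      (Nat.cast_nonneg (α := ℝ) ((T ×ˢ T).filter (fun x => n1 ∣ gg x.1 x.2)).card)
    nlinarith [sq_nonneg (T.card : ℝ)]
  refine abs_le_of_sq_le_sq' ?_ (by positivity) |>.2
  calc (∑ z ∈ bx κ n1, |∑ t ∈ T, F t z|) ^ 2
      ≤ K * ((4 * (T.card : ℝ) ^ 2 / (n1 : ℝ) ^ (4 * r)) * (K * (B * n1) ^ 2)) := by
        refine h3.trans (mul_le_mul_of_nonneg_left (h2.trans ?_) hKp.le)
        exact mul_le_mul_of_nonneg_right h4 (by positivity)
    _ = (K * (2 * B * n1 / (n1 : ℝ) ^ (2 * r) * T.card)) ^ 2 := by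
        have : (n1 : ℝ) ^ (4 * r) = ((n1 : ℝ) ^ (2 * r)) ^ 2 := by rw [← pow_mul]; ring_nf
        rw [this]
        field_simp
        ring

end comp

section main
variable {Ω ι τ κ : Type*}

lemma cm_congr (data : Ω → κ → ℤ) (p : Ω → ℝ) (Fam : Finset Ω) {n : ℕ} {c c' : κ → ℤ}
    (h : Cg n c c') : cm data p Fam n c = cm data p Fam n c' := by
  unfold cm
  refine Finset.sum_congr rfl fun β _ => ?_
  by_cases h1 : Cg n (data β) c
  · rw [if_pos h1, if_pos (h1.trans h)]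
  · rw [if_neg h1, if_neg (fun h2 => h1 (h2.trans h.symm))]

lemma cm_one (data : Ω → κ → ℤ) (p : Ω → ℝ) (Fam : Finset Ω) (c : κ → ℤ) :
    cm data p Fam 1 c = ∑ β ∈ Fam, p β := by
  unfold cm
  exact Finset.sum_congr rfl fun β _ => if_pos (cg_one _ _)

lemma cm_nonneg (data : Ω → κ → ℤ) {p : Ω → ℝ} (hp : ∀ β, 0 ≤ p β) (Fam : Finset Ω) (n : ℕ)
    (c : κ → ℤ) : 0 ≤ cm data p Fam n c := by
  unfold cm
  refine Finset.sum_nonneg fun β _ => ?_
  split_ifs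
  · exact hp β
  · exact le_rfl

lemma tail_sum {r Q : ℕ} (hr : 3 ≤ r) :
    ∑ n1 ∈ Finset.Icc 2 Q, (n1 : ℝ) / (n1 : ℝ) ^ r ≤ 8 / 2 ^ r := by
  obtain ⟨s, rfl⟩ := Nat.exists_eq_add_of_le hr
  have h1 : ∀ Q : ℕ, ∑ n1 ∈ Finset.Icc 2 (Q + 1), (1 : ℝ) / (n1 : ℝ) ^ 2
      ≤ 1 - 1 / ((Q : ℝ) + 1) := by
    intro Q
    induction Q with
    | zero => simp
    | succ Q ih =>
      rw [Finset.sum_Icc_succ_top (by omega)]
      have hQ : (0 : ℝ) ≤ Q := Nat.cast_nonneg Q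
      have : (1 : ℝ) / (((Q + 1 + 1 : ℕ) : ℝ)) ^ 2 ≤ 1 / ((Q : ℝ) + 1) - 1 / ((Q : ℝ) + 1 + 1) := by
        push_cast
        rw [div_sub_div _ _ (by positivity) (by positivity), div_le_div_iff₀ (by positivity)
          (by positivity)]
        nlinarith
      push_cast at this ⊢
      linarith
  have h2 : ∑ n1 ∈ Finset.Icc 2 Q, (1 : ℝ) / (n1 : ℝ) ^ 2 ≤ 1 := by
    rcases Q with _ | Q
    · simp
    · have := h1 Q
      have h3 : (0 : ℝ) ≤ 1 / ((Q : ℝ) + 1) := by positivity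
      linarith
  have h3 : ∀ n1 ∈ Finset.Icc 2 Q, (n1 : ℝ) / (n1 : ℝ) ^ (3 + s)
      ≤ (1 / 2 ^ s) * (1 / (n1 : ℝ) ^ 2) := by
    intro n1 hn1
    rw [Finset.mem_Icc] at hn1
    have h2' : (2 : ℝ) ≤ n1 := by exact_mod_cast hn1.1
    have hp : (2 : ℝ) ^ s ≤ (n1 : ℝ) ^ s := pow_le_pow_left₀ (by norm_num) h2' s
    have e : (n1 : ℝ) / (n1 : ℝ) ^ (3 + s) = (1 / (n1 : ℝ) ^ s) * (1 / (n1 : ℝ) ^ 2) := by
      rw [pow_add]; field_simp
    rw [e]
    exact mul_le_mul_of_nonneg_right (one_div_le_one_div_of_le (by positivity) hp) (by positivity)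
  refine (Finset.sum_le_sum h3).trans ?_
  rw [← Finset.mul_sum]
  have e : (8 : ℝ) / 2 ^ (3 + s) = (1 / 2 ^ s) * 1 := by rw [pow_add]; field_simp; norm_num
  rw [e]
  exact mul_le_mul_of_nonneg_left h2 (by positivity)

variable [Fintype ι] [DecidableEq ι] [Fintype κ] [DecidableEq κ]

open Classical in
/-- splitting a class mod `n` into classes mod `n * n1` -/
lemma split (data : Ω → κ → ℤ) {p : Ω → ℝ} (hp : ∀ β, 0 ≤ p β) (Fam : Finset Ω) {n n1 : ℕ}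
    (h0 : 0 < n1) (c : κ → ℤ) {Φ : (κ → ℤ) → ℝ} (hΦ : Per (n * n1) Φ) {M : ℝ}
    (hM : ∀ c', cm data p Fam (n * n1) c' ≤ M) :
    ∑ β ∈ Fam, (if Cg n (data β) c then p β else 0) * Φ (data β)
      ≤ M * ∑ z ∈ bx κ n1, |Φ (c + (n : ℤ) • z)| := by
  have h1 : ∀ β ∈ Fam, (if Cg n (data β) c then p β else 0) * Φ (data β)
      ≤ ∑ z ∈ bx κ n1, (if Cg (n * n1) (data β) (c + (n : ℤ) • z) then p β else 0)
        * |Φ (c + (n : ℤ) • z)| := by
    intro β _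
    have hnn : ∀ z ∈ bx κ n1, 0 ≤ (if Cg (n * n1) (data β) (c + (n : ℤ) • z) then p β else 0)
        * |Φ (c + (n : ℤ) • z)| := by
      intro z _
      refine mul_nonneg ?_ (abs_nonneg _)
      split_ifs
      · exact hp β
      · exact le_rfl
    by_cases h : Cg n (data β) c
    · obtain ⟨x, hx⟩ := cg_iff.1 h
      have hc : Cg (n * n1) (data β) (c + (n : ℤ) • md n1 x) := by
        rw [hx]; exact cg_smul c (md_cg n1 x).symm
      refine le_trans ?_ (Finset.single_le_sum hnn (md_mem h0 x))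
      rw [if_pos h, if_pos hc, hΦ _ _ hc]
      exact mul_le_mul_of_nonneg_left (le_abs_self _) (hp β)
    · rw [if_neg h, zero_mul]
      exact Finset.sum_nonneg hnn
  refine (Finset.sum_le_sum h1).trans ?_
  rw [Finset.sum_comm, Finset.mul_sum]
  refine Finset.sum_le_sum fun z _ => ?_
  rw [← Finset.sum_mul]
  exact mul_le_mul_of_nonneg_right (hM _) (abs_nonneg _)

/-- **Finite core of the lifting lemma.** -/
theorem core (data : Ω → κ → ℤ) (p : Ω → ℝ) (Fam : Finset Ω) (T : Finset τ) (hT : T.Nonempty)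
    (ev : τ → (κ → ℤ) →+ (ι → ℤ)) (gg : τ → τ → ℕ) (P : ℕ → τ → (ι → ℤ) → ℝ)
    (ns Q0 m r : ℕ) (B θ kap : ℝ) (hp : ∀ β, 0 ≤ p β) (hθ : 0 < θ) (hB : 0 ≤ B)
    (mass : θ ≤ ∑ β ∈ Fam, p β) (hns : 1 ≤ ns) (hQ : 1 ≤ Q0) (big : 2 < θ * (ns : ℝ) ^ r)
    (hr : 3 ≤ r) (hm : 4 * r ≤ m)
    (cls : ∀ n, 1 ≤ n → n ≤ ns * Q0 → ∀ c,
      cm data p Fam n c ≤ 2 / (n : ℝ) ^ Fintype.card κ)
    (per : ∀ h t, Per h (P h t)) (cons : Cons P)
    (bnd : ∀ h, 1 ≤ h → h ≤ ns * Q0 → ∀ t y, |P h t y| ≤ B)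
    (sh : ∀ t ∈ T, ∀ t' ∈ T, ∀ y : ι → ℤ, ∃ δ, ev t δ = 0 ∧ ev t' δ = (gg t t' : ℤ) • y)
    (share : ∀ n1, 2 ≤ n1 → n1 ≤ Q0 →
      (((T ×ˢ T).filter (fun x => n1 ∣ gg x.1 x.2)).card : ℝ) * (n1 : ℝ) ^ m
        ≤ 2 * (T.card : ℝ) ^ 2)
    (mem : ∀ β ∈ Fam, ∀ n, 1 ≤ n → n ≤ ns →
      kap * T.card ≤ ∑ t ∈ T, ∑ n1 ∈ Finset.Icc 1 Q0, Fm P n n1 t (ev t (data β))) :
    ∃ n, 1 ≤ n ∧ n ≤ ns ∧ ∃ t ∈ T, ∃ y, kap - 16 * B / 2 ^ r ≤ P n t y := by
  classical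
  have hF : Fam.Nonempty := by
    by_contra h
    rw [Finset.not_nonempty_iff_eq_empty] at h
    rw [h, Finset.sum_empty] at mass
    linarith
  obtain ⟨β0, hβ0⟩ := hF
  set K := Fintype.card κ with hK
  set val : ℕ × Ω → ℝ := fun x => (x.1 : ℝ) ^ K * cm data p Fam x.1 (data x.2) / (x.1 : ℝ) ^ r
    with hval
  have h1m : 1 ≤ ns * Q0 := Nat.mul_pos hns hQ
  have hmem0 : ((1 : ℕ), β0) ∈ Finset.Icc 1 (ns * Q0) ×ˢ Fam := by
    simp [hβ0, h1m]
  obtain ⟨⟨n, β1⟩, hx, hmax⟩ :=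
    Finset.exists_max_image (Finset.Icc 1 (ns * Q0) ×ˢ Fam) val ⟨_, hmem0⟩
  rw [Finset.mem_product, Finset.mem_Icc] at hx
  obtain ⟨⟨hn1, hn2⟩, _⟩ := hx
  simp only at hn1 hn2
  set c := data β1 with hc
  set φ := cm data p Fam n c with hφ
  have hnR : (1 : ℝ) ≤ n := by exact_mod_cast hn1
  have hv0 : θ ≤ (n : ℝ) ^ K * φ / (n : ℝ) ^ r := by
    have := hmax _ hmem0
    simp only [hval, Nat.cast_one, one_pow, one_mul, div_one, cm_one] at this
    exact mass.trans this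
  have hφ2 : (n : ℝ) ^ K * φ ≤ 2 := by
    have := cls n hn1 hn2 c
    rw [le_div_iff₀ (by positivity)] at this
    linarith
  have hφpos : 0 < φ := by
    by_contra h
    have h' : φ = 0 := le_antisymm (not_lt.1 h) (cm_nonneg data hp Fam n c)
    rw [h'] at hv0
    simp at hv0
    linarith
  have hnns : n ≤ ns := by
    by_contra h
    have h' : (ns : ℝ) ≤ n := by exact_mod_cast (not_le.1 h).le
    have h2 : (ns : ℝ) ^ r ≤ (n : ℝ) ^ r := pow_le_pow_left₀ (by positivity) h' r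
    rw [le_div_iff₀ (by positivity)] at hv0
    nlinarith
  -- spread
  have spread : ∀ n1, 1 ≤ n1 → n1 ≤ Q0 → ∀ c',
      cm data p Fam (n * n1) c' ≤ φ * (n1 : ℝ) ^ r / (n1 : ℝ) ^ K := by
    intro n1 ha hb c'
    have hn1R : (1 : ℝ) ≤ n1 := by exact_mod_cast ha
    by_cases hex : ∃ β ∈ Fam, Cg (n * n1) (data β) c'
    · obtain ⟨β, hβ, hcg⟩ := hex
      have hmem : (n * n1, β) ∈ Finset.Icc 1 (ns * Q0) ×ˢ Fam := by
        rw [Finset.mem_product, Finset.mem_Icc]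
        exact ⟨⟨Nat.mul_pos hn1 ha, Nat.mul_le_mul hnns hb⟩, hβ⟩
      have := hmax _ hmem
      simp only [hval] at this
      rw [cm_congr data p Fam hcg] at this
      push_cast at this
      rw [mul_pow, mul_pow, div_le_div_iff₀ (by positivity) (by positivity)] at this
      rw [le_div_iff₀ (by positivity)]
      have hpos : (0 : ℝ) < (n : ℝ) ^ K * (n : ℝ) ^ r := by positivity
      refine le_of_mul_le_mul_left ?_ hpos
      calc _ = (n : ℝ) ^ K * (n1 : ℝ) ^ K * cm data p Fam (n * n1) c' * (n : ℝ) ^ r := by ring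
        _ ≤ (n : ℝ) ^ K * cm data p Fam n (data β1) * ((n : ℝ) ^ r * (n1 : ℝ) ^ r) := this
        _ = _ := by rw [hφ, hc]; ring
    · have : cm data p Fam (n * n1) c' = 0 := by
        unfold cm
        exact Finset.sum_eq_zero fun β hβ => if_neg (fun h => hex ⟨β, hβ, h⟩)
      rw [this]; positivity
  have hTc : (0 : ℝ) < T.card := by exact_mod_cast hT.card_pos
  set w : Ω → ℝ := fun β => if Cg n (data β) c then p β else 0 with hw
  have hw0 : ∀ β, 0 ≤ w β := by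
    intro β
    simp only [hw]
    split_ifs
    · exact hp β
    · exact le_rfl
  have hwφ : ∑ β ∈ Fam, w β = φ := rfl
  have comp : ∀ n1 ∈ Finset.Icc 2 Q0, ∑ β ∈ Fam, w β * ∑ t ∈ T, Fm P n n1 t (ev t (data β))
      ≤ φ * (2 * B * T.card) * ((n1 : ℝ) / (n1 : ℝ) ^ r) := by
    intro n1 hn1'
    rw [Finset.mem_Icc] at hn1'
    have h0 : 0 < n1 := by omega
    have hn1R : (0 : ℝ) < n1 := by exact_mod_cast h0
    have hΦ : Per (n * n1) (fun v : κ → ℤ => ∑ t ∈ T, Fm P n n1 t (ev t v)) := by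
      intro v v' hv
      exact Finset.sum_congr rfl fun t _ => Fm_per per n n1 t _ _ (ev_cg (ev t) hv)
    have a1 := split data hp Fam h0 c hΦ (spread n1 h0 hn1'.2)
    have a2 := first per cons T ev gg (n := n) (n1 := n1) (m := m) (r := r) hn1 h0 hB hm
      (fun d hd t y => bnd _ (Nat.mul_pos hn1 (Nat.pos_of_dvd_of_pos hd h0))
        (Nat.mul_le_mul hnns ((Nat.le_of_dvd h0 hd).trans hn1'.2)) t y) sh
      (share n1 hn1'.1 hn1'.2) c
    refine a1.trans ((mul_le_mul_of_nonneg_left a2 (by positivity)).trans (le_of_eq ?_))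
    rw [← hK, two_mul r, pow_add]
    field_simp
  have tot : kap * T.card * φ ≤ ∑ β ∈ Fam, w β * ∑ t ∈ T, P n t (ev t (data β))
      + φ * (2 * B * T.card) * (8 / 2 ^ r) := by
    have hI : Finset.Icc 1 Q0 = insert 1 (Finset.Icc 2 Q0) := by
      ext x; simp only [Finset.mem_Icc, Finset.mem_insert]; omega
    have b1 : kap * T.card * φ ≤ ∑ β ∈ Fam, w β *
        ∑ t ∈ T, ∑ n1 ∈ Finset.Icc 1 Q0, Fm P n n1 t (ev t (data β)) := by
      rw [← hwφ, Finset.mul_sum]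
      refine Finset.sum_le_sum fun β hβ => ?_
      rw [mul_comm]
      exact mul_le_mul_of_nonneg_left (mem β hβ n hn1 hnns) (hw0 β)
    have b2 : ∑ β ∈ Fam, w β * ∑ t ∈ T, ∑ n1 ∈ Finset.Icc 1 Q0, Fm P n n1 t (ev t (data β))
        = ∑ β ∈ Fam, w β * ∑ t ∈ T, P n t (ev t (data β))
          + ∑ n1 ∈ Finset.Icc 2 Q0, ∑ β ∈ Fam, w β * ∑ t ∈ T, Fm P n n1 t (ev t (data β)) := by
      rw [Finset.sum_comm (s := Finset.Icc 2 Q0), ← Finset.sum_add_distrib]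
      refine Finset.sum_congr rfl fun β _ => ?_
      rw [← Finset.mul_sum, ← mul_add, Finset.sum_comm (s := T), hI,
        Finset.sum_insert (by simp)]
      simp only [Fm_one]
    have b3 : ∑ n1 ∈ Finset.Icc 2 Q0, ∑ β ∈ Fam, w β * ∑ t ∈ T, Fm P n n1 t (ev t (data β))
        ≤ φ * (2 * B * T.card) * (8 / 2 ^ r) := by
      refine (Finset.sum_le_sum comp).trans ?_
      rw [← Finset.mul_sum]
      exact mul_le_mul_of_nonneg_left (tail_sum hr) (by positivity)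
    linarith
  by_contra hcon
  push Not at hcon
  have hlt : ∀ β, ∑ t ∈ T, P n t (ev t (data β)) < (kap - 16 * B / 2 ^ r) * T.card := by
    intro β
    have := Finset.sum_lt_sum_of_nonempty hT
      (f := fun t => P n t (ev t (data β))) (g := fun _ => kap - 16 * B / 2 ^ r)
      (fun t ht => hcon n hn1 hnns t ht _)
    rw [Finset.sum_const, nsmul_eq_mul, mul_comm] at this
    exact this
  have hex : ∃ β ∈ Fam, 0 < w β := by
    by_contra h
    push Not at h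
    have : ∑ β ∈ Fam, w β ≤ 0 := Finset.sum_nonpos h
    linarith
  obtain ⟨β2, hβ2, hw2⟩ := hex
  have hs : ∑ β ∈ Fam, w β * ∑ t ∈ T, P n t (ev t (data β))
      < ∑ β ∈ Fam, w β * ((kap - 16 * B / 2 ^ r) * T.card) :=
    Finset.sum_lt_sum (fun β _ => mul_le_mul_of_nonneg_left (hlt β).le (hw0 β))
      ⟨β2, hβ2, mul_lt_mul_of_pos_left (hlt β2) hw2⟩
  rw [← Finset.sum_mul, hwφ] at hs
  have e : φ * ((kap - 16 * B / 2 ^ r) * T.card) + φ * (2 * B * T.card) * (8 / 2 ^ r)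
      = kap * T.card * φ := by ring
  linarith

end main

end P057T.LiftC
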