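import Vale.Agent.P057T.Int

/-! Matching of two families of multilinear forms. -/

set_option linter.all false

open Finset
open scoped BigOperators

namespace Vale.Agent.P057T.Match

open Vale.Agent.P057L Vale.Agent.P057L.WA Vale.Agent.P057T.Vsm

/-- weighted Markov inequality -/
theorem markov {B : Type} (Bs : Finset B) (p s : B → ℝ) (W Q : ℝ) (hW : 0 < W) (hQ : 0 ≤ Q)
    (hp : ∀ β ∈ Bs, 0 ≤ p β) (hs : ∀ β ∈ Bs, s β ≤ W)
    (h : (∑ β ∈ Bs, p β) * W ≤ Q * ∑ β ∈ Bs, p β * s β) :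
    ∃ F : Finset B, F ⊆ Bs ∧ ∑ β ∈ Bs, p β ≤ 2 * Q * ∑ β ∈ F, p β ∧ ∀ β ∈ F, W ≤ 2 * Q * s β := by
  classical
  refine ⟨Bs.filter fun β => W ≤ 2 * Q * s β, filter_subset _ _, ?_, fun β hβ => (mem_filter.1 hβ).2⟩
  have h1 : ∑ β ∈ Bs, Q * (p β * s β) ≤
      ∑ β ∈ Bs, (Q * W * (if W ≤ 2 * Q * s β then p β else 0) + W / 2 * p β) := by
    refine sum_le_sum fun β hβ => ?_
    have a := hp β hβ
    by_cases c : W ≤ 2 * Q * s β
    · have := mul_le_mul_of_nonneg_left (hs β hβ) (mul_nonneg hQ a)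
      have b : 0 ≤ W / 2 * p β := by positivity
      rw [if_pos c]
      nlinarith
    · have := mul_le_mul_of_nonneg_left (not_le.1 c).le a
      rw [if_neg c]
      nlinarith
  rw [← mul_sum, sum_add_distrib, ← mul_sum, ← mul_sum, ← sum_filter] at h1
  have h2 : W * ∑ β ∈ Bs, p β ≤ W * (2 * Q * ∑ β ∈ Bs.filter fun β => W ≤ 2 * Q * s β, p β) := by
    nlinarith
  exact le_of_mul_le_mul_left h2 hW

/-- weighted popular value -/
theorem popw {B : Type} (F : Finset B) (p : B → ℝ) (n : B → ℕ) (M : ℝ) (hM : 1 ≤ M)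
    (hp : ∀ β ∈ F, 0 ≤ p β) (hn : ∀ β ∈ F, 1 ≤ n β ∧ (n β : ℝ) ≤ M) :
    ∃ k : ℕ, 1 ≤ k ∧ (k : ℝ) ≤ M ∧ ∃ U : Finset B, U ⊆ F ∧ ∑ β ∈ F, p β ≤ M * ∑ β ∈ U, p β ∧
      ∀ β ∈ U, n β = k := by
  classical
  have hf : 1 ≤ ⌊M⌋₊ := Nat.le_floor (by simpa using hM)
  have hne : (Icc 1 ⌊M⌋₊).Nonempty := ⟨1, mem_Icc.2 ⟨le_rfl, hf⟩⟩
  have h1 : ∑ k ∈ Icc 1 ⌊M⌋₊, ∑ β ∈ F.filter fun β => n β = k, p β = ∑ β ∈ F, p β :=
    sum_fiberwise_of_maps_to (fun β hβ => mem_Icc.2 ⟨(hn β hβ).1, Nat.le_floor (hn β hβ).2⟩) _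
  have h2 : ∑ k ∈ Icc 1 ⌊M⌋₊, ∑ β ∈ F, p β ≤
      ∑ k ∈ Icc 1 ⌊M⌋₊, (⌊M⌋₊ : ℝ) * ∑ β ∈ F.filter fun β => n β = k, p β := by
    rw [← mul_sum, h1, sum_const, Nat.card_Icc]
    simp
  obtain ⟨k, hk, h3⟩ := exists_le_of_sum_le hne h2
  have hk' := mem_Icc.1 hk
  have hfl : (⌊M⌋₊ : ℝ) ≤ M := Nat.floor_le (by linarith)
  refine ⟨k, hk'.1, le_trans (by exact_mod_cast hk'.2) hfl, F.filter fun β => n β = k,
    filter_subset _ _, h3.trans (mul_le_mul_of_nonneg_right hfl ?_),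
    fun β hβ => (mem_filter.1 hβ).2⟩
  exact sum_nonneg fun β hβ => hp β (mem_filter.1 hβ).1

theorem ml_sub {d m : ℕ} (c c' : (Fin d → Fin m) → ℝ) (x : Pt d m) :
    ml (fun a => c a - c' a) x = ml c x - ml c' x := by
  simp only [ml, sub_mul, sum_sub_distrib]

theorem ml_add {d m : ℕ} (c c' : (Fin d → Fin m) → ℝ) (x : Pt d m) :
    ml (fun a => c a + c' a) x = ml c x + ml c' x := by
  simp only [ml, add_mul, sum_add_distrib]

theorem ml_smul {d m : ℕ} (u : ℝ) (c : (Fin d → Fin m) → ℝ) (x : Pt d m) :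
    ml (fun a => u * c a) x = u * ml c x := by
  simp only [ml, mul_sum, mul_assoc]

/-- permuting the classes permutes the coefficients -/
theorem ml_perm {d m : ℕ} (c : (Fin d → Fin m) → ℝ) (σ : Equiv.Perm (Fin d)) (x : Pt d m) :
    ml c (fun i => x (σ i)) = ml (fun a => c fun i => a (σ i)) x := by
  unfold ml
  symm
  refine Fintype.sum_equiv (Equiv.arrowCongr σ.symm (Equiv.refl _)) _ _ fun a => ?_
  have e : (Equiv.arrowCongr σ.symm (Equiv.refl (Fin m))) a = fun i => a (σ i) := by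
    funext i
    simp
  rw [e]
  congr 1
  exact (Equiv.prod_comp σ fun i => ((x i (a i) : ℤ) : ℝ)).symm

/-- MATCH : forms that are small on a dense set of pairs are major arc on a dense family -/
theorem mat (d : ℕ) : ∃ C : ℕ, ∀ (B ρ : Type) [Fintype ρ] (Bs : Finset B) (p : B → ℝ) (m L : ℕ)
    (c : B → ρ → (Fin d → Fin m) → ℝ) (g : B → ρ → Fin d → Pt d m → ℝ)
    (S : B → Finset (Pt d m)) (ε Q : ℝ), 1 ≤ Q → 0 ≤ ε → (∀ β ∈ Bs, 0 ≤ p β) →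
    (∀ β r i x t, g β r i (Function.update x i t) = g β r i x) → (∀ β ∈ Bs, S β ⊆ bp d m L) →
    (∑ β ∈ Bs, p β) * ((L : ℝ) ^ m) ^ d ≤ Q * ∑ β ∈ Bs, p β * (S β).card →
    (∀ β ∈ Bs, ∀ x ∈ S β, ∀ r, nz (ml (c β r) x + ∑ i, g β r i x) ≤ ε) →
    (2 * Q) ^ C * ε ≤ 1 → (2 * Q) ^ C ≤ L →
    ∃ n : ℕ, 1 ≤ n ∧ (n : ℝ) ≤ ((2 * Q) ^ C) ^ (Fintype.card ρ * m ^ d) ∧
      ∃ F : Finset B, F ⊆ Bs ∧
        ∑ β ∈ Bs, p β ≤ 2 * Q * ((2 * Q) ^ C) ^ (Fintype.card ρ * m ^ d) * ∑ β ∈ F, p β ∧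
        ∀ β ∈ F, ∀ r a, nz (n * c β r a) * (L : ℝ) ^ d ≤
          ((2 * Q) ^ C) ^ (Fintype.card ρ * m ^ d) * ((2 * Q) ^ C * ε) := by
  classical
  obtain ⟨C, hC⟩ := vsm1 d
  refine ⟨C, fun B ρ _ Bs p m L c g S ε Q hQ hε hp hg hS hc hgood h1 h2 => ?_⟩
  have hQ1 : 1 ≤ (2 * Q) ^ C := one_le_pow₀ (by linarith)
  have hL : (0 : ℝ) < L := by linarith
  obtain ⟨F, hF, hF1, hF2⟩ := markov Bs p (fun β => (S β).card) (((L : ℝ) ^ m) ^ d) Q
    (by positivity) (by linarith) hp (fun β hβ => by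
      have := card_le_card (hS β hβ)
      rw [card_bp] at this
      exact_mod_cast this) hc
  have key : ∀ β ∈ F, ∃ n : ℕ, 1 ≤ n ∧ (n : ℝ) ≤ ((2 * Q) ^ C) ^ (Fintype.card ρ * m ^ d) ∧
      ∀ r a, nz (n * c β r a) * (L : ℝ) ^ d ≤
        ((2 * Q) ^ C) ^ (Fintype.card ρ * m ^ d) * ((2 * Q) ^ C * ε) := by
    intro β hβ
    obtain ⟨n, n1, n2, n3⟩ := common (fun q : ρ × (Fin d → Fin m) => c β q.1 q.2) ((2 * Q) ^ C)
      ((L : ℝ) ^ d) ((2 * Q) ^ C * ε) hQ1 (by positivity) (by positivity) fun q =>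
        hC m L (c β q.1) ε (2 * Q) (g β q.1) (S β) (by linarith) hε (hg β q.1) (hS β (hF hβ))
          (hF2 β hβ) (fun x hx => hgood β (hF hβ) x hx q.1) h1 h2 q.2
    have e : Fintype.card (ρ × (Fin d → Fin m)) = Fintype.card ρ * m ^ d := by simp
    rw [e] at n2 n3
    exact ⟨n, n1, n2, fun r a => n3 (r, a)⟩
  choose! n hn using key
  obtain ⟨k, k1, k2, U, hU, hU1, hU2⟩ := popw F p n _ (one_le_pow₀ hQ1)
    (fun β hβ => hp β (hF hβ)) fun β hβ => ⟨(hn β hβ).1, (hn β hβ).2.1⟩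
  refine ⟨k, k1, k2, U, subset_trans hU hF, ?_, fun β hβ r a => ?_⟩
  · rw [mul_assoc (2 * Q)]
    exact hF1.trans (mul_le_mul_of_nonneg_left hU1 (by linarith))
  · rw [← hU2 β hβ]
    exact (hn β (hU hβ)).2.2 r a

/-- the difference with the symmetrised second form is major arc -/
theorem symm_ma {d m : ℕ} (τ T : (Fin d → Fin m) → ℝ) (n n1 : ℕ) (W E E1 : ℝ) (hW : 0 ≤ W)
    (h : ∀ a, nz (n * (τ a - T a)) * W ≤ E)
    (h1 : ∀ (σ : Equiv.Perm (Fin d)) a, nz (n1 * (τ a - τ fun i => a (σ i))) * W ≤ E1)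
    (a : Fin d → Fin m) :
    nz (((d.factorial * n * n1 : ℕ) : ℝ) *
      (τ a - (∑ σ : Equiv.Perm (Fin d), T fun i => a (σ i)) / d.factorial)) * W ≤
      d.factorial * (n * E1 + n1 * E) := by
  have hd : (d.factorial : ℝ) ≠ 0 := by exact_mod_cast d.factorial_ne_zero
  have hc : (Fintype.card (Equiv.Perm (Fin d)) : ℝ) = d.factorial := by
    rw [Fintype.card_perm, Fintype.card_fin]
  have e : ((d.factorial * n * n1 : ℕ) : ℝ) *
      (τ a - (∑ σ : Equiv.Perm (Fin d), T fun i => a (σ i)) / d.factorial) =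
      ∑ σ : Equiv.Perm (Fin d), ((n : ℝ) * (n1 * (τ a - τ fun i => a (σ i))) +
        n1 * (n * ((τ fun i => a (σ i)) - T fun i => a (σ i)))) := by
    have : ∀ σ : Equiv.Perm (Fin d), ((n : ℝ) * (n1 * (τ a - τ fun i => a (σ i))) +
        n1 * (n * ((τ fun i => a (σ i)) - T fun i => a (σ i)))) =
        n * n1 * τ a - n * n1 * T fun i => a (σ i) := fun σ => by ring
    simp only [this]
    rw [sum_sub_distrib, sum_const, card_univ, nsmul_eq_mul, hc, ← mul_sum]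
    push_cast
    field_simp
  rw [e, ← hc, ← nsmul_eq_mul, ← card_univ, ← sum_const]
  refine (mul_le_mul_of_nonneg_right (nz_sum_le _ _) hW).trans ?_
  rw [sum_mul]
  refine sum_le_sum fun σ _ => ?_
  have a1 := mul_le_mul_of_nonneg_right (nz_nat_mul_le n (n1 * (τ a - τ fun i => a (σ i)))) hW
  have a2 := mul_le_mul_of_nonneg_right
    (nz_nat_mul_le n1 (n * ((τ fun i => a (σ i)) - T fun i => a (σ i)))) hW
  have a3 := mul_le_mul_of_nonneg_left (h1 σ a) (Nat.cast_nonneg (α := ℝ) n)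
  have a4 := mul_le_mul_of_nonneg_left (h fun i => a (σ i)) (Nat.cast_nonneg (α := ℝ) n1)
  have a5 := mul_le_mul_of_nonneg_right (nz_add_le ((n : ℝ) * (n1 * (τ a - τ fun i => a (σ i))))
    (n1 * (n * ((τ fun i => a (σ i)) - T fun i => a (σ i))))) hW
  nlinarith

end Vale.Agent.P057T.Match
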