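import Vale.Agent.P057T.MfrH53

/-! Metric Freiman lemma with a weighted target. -/

set_option linter.all false

open Finset
open scoped BigOperators Classical

namespace Vale.Agent.P057T.Mfr

open Vale.Agent.P057Z Vale.Agent.P057Z.Fr

variable {G : Type} [AddCommGroup G]

section

variable {Q : ℕ} [Fact Q.Prime] {m : ℕ}

/-- the weighted size -/
noncomputable def sw (w : Fin m → ℕ) (θ : V Q m) : ℝ := ‖fun i => (w i : ℝ) * nm (θ i)‖

theorem sw_le_iff {w : Fin m → ℕ} {θ : V Q m} {r : ℝ} (hr : 0 ≤ r) :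
    sw w θ ≤ r ↔ ∀ i, w i * nm (θ i) ≤ r := by
  unfold sw
  rw [pi_norm_le_iff_of_nonneg hr]
  refine forall_congr' fun i => ?_
  rw [Real.norm_eq_abs, abs_of_nonneg (mul_nonneg (Nat.cast_nonneg _) (nm_nonneg _))]

theorem le_sw (w : Fin m → ℕ) (θ : V Q m) (i : Fin m) : w i * nm (θ i) ≤ sw w θ :=
  (sw_le_iff (norm_nonneg _)).1 le_rfl i

theorem sz_sw (w : Fin m → ℕ) : Sz (sw w : V Q m → ℝ) := by
  refine ⟨fun x y => ?_, fun x => ?_, le_antisymm ?_ (norm_nonneg _)⟩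
  · refine (sw_le_iff (add_nonneg (norm_nonneg _) (norm_nonneg _))).2 fun i => ?_
    refine (mul_le_mul_of_nonneg_left (nm_add _ _) (Nat.cast_nonneg _)).trans ?_
    rw [mul_add]
    exact add_le_add (le_sw w x i) (le_sw w y i)
  · simp only [sw, Pi.neg_apply, nm_neg]
  · exact (sw_le_iff le_rfl).2 fun i => by simp [nm_zero]

theorem fatw (w : Fin m → ℕ) (hw : ∀ i, 1 ≤ w i) (r0 : ℝ) (h0 : 0 ≤ r0) (h1 : 4 * m * r0 < 1) :
    ∃ U U' : Finset (V Q m), U.Nonempty ∧ (∀ u ∈ U, sw w u ≤ 2 * m * r0) ∧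
      (∀ u ∈ U, ∀ y, sw w y ≤ r0 → u + y ∈ U') ∧ U'.card ≤ 2 * U.card := by
  have hQ : (0 : ℝ) < Q := Qpos
  have hw' : ∀ i, (1 : ℝ) ≤ w i := fun i => by exact_mod_cast hw i
  let R : Fin m → ℕ := fun i => ⌊r0 * Q / w i⌋₊
  have hR : ∀ i, (w i : ℝ) * R i ≤ r0 * Q := fun i => by
    rw [← le_div_iff₀' (by linarith [hw' i])]
    exact Nat.floor_le (by positivity)
  let b : ℕ → Finset (V Q m) := fun c => Fintype.piFinset fun i =>
    (Icc (-(c * R i : ℕ) : ℤ) (c * R i : ℕ)).image (Int.cast : ℤ → ZMod Q)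
  have hb : ∀ c u, u ∈ b c ↔ ∀ i, ∃ k : ℤ, |k| ≤ (c * R i : ℕ) ∧ (k : ZMod Q) = u i := fun c u => by
    simp only [b, Fintype.mem_piFinset, mem_image, mem_Icc, abs_le]
  have cI : ∀ a : ℕ, (Icc (-(a : ℤ)) a).card = 2 * a + 1 := fun a => by
    rw [Int.card_Icc]; omega
  refine ⟨b (2 * m), b (2 * m + 1), ⟨0, (hb _ _).2 fun i => ⟨0, by positivity, by simp⟩⟩,
    fun u hu => (sw_le_iff (by positivity)).2 fun i => ?_, fun u hu y hy => (hb _ _).2 fun i => ?_,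
    ?_⟩
  · obtain ⟨k, a, e⟩ := (hb _ _).1 hu i
    have a' : |(k : ℝ)| ≤ 2 * m * R i := by exact_mod_cast a
    rw [← e]
    refine (mul_le_mul_of_nonneg_left (nm_cast_le k) (Nat.cast_nonneg _)).trans ?_
    rw [← mul_div_assoc, div_le_iff₀ hQ]
    calc (w i : ℝ) * |(k : ℝ)| ≤ w i * (2 * m * R i) := by gcongr
      _ = 2 * m * (w i * R i) := by ring
      _ ≤ 2 * m * (r0 * Q) := mul_le_mul_of_nonneg_left (hR i) (by positivity)
      _ = _ := by ring
  · obtain ⟨k, a, e⟩ := (hb _ _).1 hu i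
    have h5 := (le_sw w y i).trans hy
    rw [nm, ← mul_div_assoc, div_le_iff₀ hQ, ← le_div_iff₀' (by linarith [hw' i]), ← Int.cast_abs,
      Int.abs_eq_natAbs, Int.cast_natCast] at h5
    have h6 : |(y i).valMinAbs| ≤ (R i : ℤ) := by
      rw [Int.abs_eq_natAbs]
      exact_mod_cast Nat.le_floor h5
    refine ⟨k + (y i).valMinAbs, (abs_add_le _ _).trans ?_, by simp [e]⟩
    push_cast at a ⊢
    linarith
  · have c1 : (b (2 * m)).card = ∏ i, (2 * (2 * m * R i) + 1) := by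
      rw [Fintype.card_piFinset]
      refine prod_congr rfl fun i _ => (card_image_of_injOn fun x hx y hy e => ?_).trans (cI _)
      have h3 : ((2 * (2 * m * R i) : ℕ) : ℝ) < Q := by
        have := hR i
        have := mul_le_mul_of_nonneg_right (hw' i) (Nat.cast_nonneg (α := ℝ) (R i))
        push_cast
        nlinarith [Nat.cast_nonneg (α := ℝ) m]
      have h4 := Nat.cast_lt.1 h3
      have x1 := mem_Icc.1 (mem_coe.1 hx)
      have y1 := mem_Icc.1 (mem_coe.1 hy)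
      have := Int.eq_zero_of_abs_lt_dvd ((ZMod.intCast_eq_intCast_iff_dvd_sub _ _ Q).1 e)
        (abs_lt.2 ⟨by omega, by omega⟩)
      omega
    have c2 : (b (2 * m + 1)).card ≤ ∏ i, (2 * ((2 * m + 1) * R i) + 1) := by
      rw [Fintype.card_piFinset]
      exact prod_le_prod' fun i _ => card_image_le.trans (cI _).le
    have c3 : ∏ i : Fin m, (2 * m * (2 * ((2 * m + 1) * R i) + 1)) ≤
        ∏ i : Fin m, ((2 * m + 1) * (2 * (2 * m * R i) + 1)) :=
      prod_le_prod' fun i _ => by nlinarith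
    simp only [prod_mul_distrib, prod_const, card_univ, Fintype.card_fin] at c3
    have c4 := Box.pow_le (n := m) (T1 := 2 * m) (T2 := 1) (by omega)
    have c5 : 0 < (2 * m) ^ m := by
      rcases Nat.eq_zero_or_pos m with h | h
      · simp [h]
      · positivity
    rw [← mul_pow] at c3
    rw [c1]
    refine c2.trans (Nat.le_of_mul_le_mul_left (c3.trans ?_) c5)
    exact (Nat.mul_le_mul_right _ c4).trans (le_of_eq (by ring))

theorem cubew {T : Fin m → ℕ} (hT : ∀ i, 8 ≤ T i) {l : V Q m} {i : Fin m}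
    (hi : 1 / (T i : ℝ) < nm (l i)) :
    ∑ _s : (∀ i, Fin (T i)), 1 ≤ 3 * ∑ s : (∀ i, Fin (T i)),
      if 1 / 10 ≤ nm (∑ i, ((s i : ℕ) : ZMod Q) * l i) then 1 else 0 := by
  set g : (∀ i, Fin (T i)) → ℕ := fun s =>
    if 1 / 10 ≤ nm (∑ i, ((s i : ℕ) : ZMod Q) * l i) then 1 else 0
  have h1 : Function.Involutive fun p : (∀ i, Fin (T i)) × Fin (T i) =>
      (Function.update p.1 i p.2, p.1 i) := fun p => by simp
  have h2 : ∑ p : (∀ i, Fin (T i)) × Fin (T i), g (Function.update p.1 i p.2) =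
      ∑ p : _ × Fin (T i), g p.1 := Fintype.sum_equiv h1.toPerm _ _ fun _ => rfl
  rw [Fintype.sum_prod_type, Fintype.sum_prod_type] at h2
  simp only [sum_const, card_univ, Fintype.card_fin, smul_eq_mul, ← mul_sum] at h2
  refine Nat.le_of_mul_le_mul_left ?_ (show 0 < T i by have := hT i; omega)
  rw [mul_left_comm, ← h2, mul_sum, mul_sum]
  refine sum_le_sum fun s _ => ?_
  refine (mul_one _).le.trans
    ((SepH.line (hT i) hi (∑ j ∈ univ.erase i, (s j : ℕ) * l j)).trans_eq ?_)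
  refine congrArg _ (sum_congr rfl fun x _ => ?_)
  have h3 : ∑ j, ((Function.update s i x j : ℕ) : ZMod Q) * l j =
      (x : ℕ) * l i + ∑ j ∈ univ.erase i, ((s j : ℕ) : ZMod Q) * l j := by
    rw [← add_sum_erase _ _ (mem_univ i), Function.update_self]
    exact congrArg _ (sum_congr rfl fun j hj => by rw [Function.update_of_ne (ne_of_mem_erase hj)])
  simp only [g, h3]

theorem sepw {T : Fin m → ℕ} (hT : ∀ i, 8 ≤ T i) (t : ℕ) : ∀ L : Finset (V Q m),
    (L.card : ℝ) * (2 / 3) ^ t < 1 → (∀ l ∈ L, ∃ i, 1 / (T i : ℝ) < nm (l i)) →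
    ∃ s : Fin t → Fin m → ℕ, (∀ j i, s j i < T i) ∧
      ∀ l ∈ L, ∃ j, 1 / 10 ≤ nm (∑ i, (s j i : ZMod Q) * l i) := by
  induction t with
  | zero =>
    intro L h _
    obtain rfl : L = ∅ := by simpa using h
    exact ⟨Fin.elim0, fun j => j.elim0, by simp⟩
  | succ t ih =>
    intro L h hL
    obtain ⟨s, hs⟩ : ∃ s : (∀ i, Fin (T i)),
        #L ≤ 3 * #{l ∈ L | 1 / 10 ≤ nm (∑ i, ((s i : ℕ) : ZMod Q) * l i)} := by
      have : Nonempty (∀ i, Fin (T i)) := ⟨fun i => ⟨0, by have := hT i; omega⟩⟩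
      refine (exists_le_of_sum_le univ_nonempty ?_).imp fun s h => h.2
      simp only [card_filter, ← mul_sum]
      rw [sum_comm, mul_sum]
      refine le_trans (le_of_eq ?_) (sum_le_sum fun l hl => cubew hT (hL l hl).choose_spec)
      simp [mul_comm]
    have h1 := card_filter_add_card_filter_not (s := L)
      fun l => 1 / 10 ≤ nm (∑ i, ((s i : ℕ) : ZMod Q) * l i)
    obtain ⟨r, h2, h3⟩ := ih {l ∈ L | ¬ 1 / 10 ≤ nm (∑ i, ((s i : ℕ) : ZMod Q) * l i)} (by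
      refine lt_of_le_of_lt ?_ h
      rw [pow_succ', ← mul_assoc]
      refine mul_le_mul_of_nonneg_right ?_ (by positivity)
      have : 3 * #{l ∈ L | ¬ 1 / 10 ≤ nm (∑ i, ((s i : ℕ) : ZMod Q) * l i)} ≤ 2 * #L := by omega
      have := (Nat.cast_le (α := ℝ)).2 this
      push_cast at this
      linarith) fun l hl => hL l (mem_filter.1 hl).1
    refine ⟨Fin.cons (fun i => s i) r, Fin.cases (fun i => (s i).2) h2, fun l hl => ?_⟩
    by_cases k : 1 / 10 ≤ nm (∑ i, ((s i : ℕ) : ZMod Q) * l i)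
    · exact ⟨0, k⟩
    · obtain ⟨j, hj⟩ := h3 l (mem_filter.2 ⟨hl, k⟩)
      exact ⟨j.succ, hj⟩

theorem rndw (w : Fin m → ℕ) (hw : ∀ i, 1 ≤ w i) (g : G → V Q m) (B : Finset G) (M r : ℝ)
    (T' t : ℕ) (hT : 8 ≤ T') (hr : 0 ≤ r) (hm : (m : ℝ) * T' * r ≤ 1 / 100)
    (hM : M * (2 / 3) ^ t < 1) (hF : Few (sw w) M r (Rel g B 6)) :
    ∃ S ⊆ B, B.card ≤ 1200 ^ t * S.card ∧ ∀ z ∈ Rel g S 6, sw w z ≤ 1 / (T' : ℝ) + r := by
  have hQ : 0 < Q := (Fact.out : Q.Prime).pos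
  obtain ⟨L, -, hL, hL'⟩ := hF.cover (sz_sw w) hr
  obtain ⟨s, hs, hs'⟩ := sepw (T := fun i => T' * w i) (fun i => by nlinarith [hw i]) t
    (L.filter fun l => 1 / (T' : ℝ) < sw w l) (lt_of_le_of_lt (mul_le_mul_of_nonneg_right
      ((Nat.cast_le.2 (card_filter_le _ _)).trans hL) (by positivity)) hM) fun l hl => by
      by_contra! h
      refine (mem_filter.1 hl).2.not_ge ((sw_le_iff (by positivity)).2 fun i => ?_)
      have := h i
      have p : (0 : ℝ) < w i := by exact_mod_cast hw i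
      rwa [Nat.cast_mul, ← div_div, le_div_iff₀' p] at this
  have chi_le : ∀ j (y : V Q m), nm (RndH.chi (s j) y) ≤ m * T' * sw w y := fun j y => by
    refine (nm_sum univ fun i => (s j i : ZMod Q) * y i).trans
      ((sum_le_card_nsmul _ _ (T' * sw w y) fun i _ => ?_).trans_eq ?_)
    · have h1 := nm_int_mul (Q := Q) (s j i) (y i)
      simp only [Int.cast_natCast, Nat.abs_cast] at h1
      have h2 : (s j i : ℝ) ≤ T' * w i := by exact_mod_cast (hs j i).le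
      refine h1.trans ((mul_le_mul_of_nonneg_right h2 (nm_nonneg _)).trans ?_)
      rw [mul_assoc]
      exact mul_le_mul_of_nonneg_left (le_sw w y i) (Nat.cast_nonneg _)
    · simp [mul_assoc]
  set φ : G → Fin t → ℕ := fun b j => 1200 * (RndH.chi (s j) (g b)).val / Q with hφ
  obtain ⟨c, -, hc⟩ := exists_max_image (Fintype.piFinset fun _ : Fin t => range 1200)
    (fun c => (B.filter fun b => φ b = c).card) ⟨fun _ => 0, by simp⟩
  refine ⟨B.filter fun b => φ b = c, filter_subset _ _, ?_, ?_⟩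
  · have := card_le_mul_card_image_of_maps_to (f := φ) (s := B) (fun b _ =>
      Fintype.mem_piFinset.2 fun j => mem_range.2 (by
        rw [Nat.div_lt_iff_lt_mul hQ]
        exact Nat.mul_lt_mul_of_pos_left (ZMod.val_lt _) (by norm_num))) _ hc
    simpa [mul_comm] using this
  · rintro z ⟨u, v, hu, hv, huv, hz⟩
    obtain ⟨l, hl, h1⟩ := hL' z
      ⟨u, v, fun i => (mem_filter.1 (hu i)).1, fun i => (mem_filter.1 (hv i)).1, huv, hz⟩
    have h2 : sw w l ≤ 1 / (T' : ℝ) := by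
      by_contra h2
      obtain ⟨j, hj⟩ := hs' l (mem_filter.2 ⟨hl, not_le.1 h2⟩)
      have h3 : nm (RndH.chi (s j) z) ≤ 1 / 200 := by
        rw [hz, ← sum_sub_distrib, map_sum]
        refine (nm_sum _ _).trans ((sum_le_card_nsmul _ _ (1 / 1200) fun i _ => ?_).trans_eq ?_)
        · rw [map_sub]
          exact RndH.cell (congrFun ((mem_filter.1 (hu i)).2.trans (mem_filter.1 (hv i)).2.symm) j)
        · simp
          norm_num
      have h4 := (chi_le j (z - l)).trans (mul_le_mul_of_nonneg_left h1 (by positivity))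
      have h5 := nm_sub (RndH.chi (s j) z) (RndH.chi (s j) (z - l))
      rw [← map_sub, sub_sub_cancel] at h5
      have h6 : 1 / 10 ≤ nm (RndH.chi (s j) l) := hj
      linarith
    have h3 := (sz_sw w).add l (z - l)
    rw [add_sub_cancel] at h3
    linarith

theorem corew (w : Fin m → ℕ) (hw : ∀ i, 1 ≤ w i) {B1 B2 B3 B4 C1 C2 C3 : Finset G}
    (h : Nest B1 B2 B3 B4 C1 C2 C3) (f g ζ : G → V Q m) (U : G → Prop) (y0 : G) (ρ L : ℝ)
    (hL1 : 1 ≤ L) (hρ : 0 < ρ) (hρ1 : 100000 * ((m : ℝ) + 1) ^ 2 * ρ ≤ 1)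
    (hcount : (B1.card : ℝ) * B2.card ≤ Real.exp L * ((B1 ×ˢ tr y0 B2).filter
      (fun p => U p.2 ∧ (sw w) (f p.1 + g p.2 - ζ (p.1 + p.2)) ≤ ρ)).card) :
    ∃ (x : G) (S : Finset G), (∀ s ∈ S, U s) ∧ S ⊆ tr x B4 ∧ S ⊆ tr y0 B2 ∧
      (B4.card : ℝ) ≤ Real.exp (7000 * L) * S.card ∧
      ∀ z ∈ Rel g S 6, (sw w) z ≤ 20000 * ((m : ℝ) + 1) ^ 2 * ρ := by
  set K := Real.exp L with hKdef
  have hK1 : 1 ≤ K := Real.one_le_exp (by linarith)
  have hK0 : 0 < K := by linarith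
  obtain ⟨hr1, hr2⟩ := num_rad m ρ hρ hρ1
  have p1 : (0 : ℝ) < B1.card := by exact_mod_cast h.n1.card_pos
  have p2 : (0 : ℝ) < B2.card := by exact_mod_cast h.n2.card_pos
  have p3 : (0 : ℝ) < B3.card := by exact_mod_cast h.n3.card_pos
  have p4 : (0 : ℝ) < B4.card := by exact_mod_cast h.n4.card_pos
  have c2 := card_tr y0 B2
  obtain ⟨A', hA', B', hB', cA, cB, hU, hfew⟩ := list G (V Q m) (sw w) (sz_sw w) B1 (tr y0 B2)
    f g ζ (fun a b => U b ∧ (sw w) (f a + g b - ζ (a + b)) ≤ ρ) K ρ hK1 h.n1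
    (card_pos.1 (c2 ▸ h.n2.card_pos)) (fun a b h => h.2) (by rw [c2]; exact hcount)
  rw [c2] at cB
  obtain ⟨x3, hx3'⟩ := loc h.n2 h.n3 h.a2 h.c2 hB'
  set D2 := B' ∩ tr x3 B3 with hB2
  have cB2 : (B3.card : ℝ) ≤ 8 * K * D2.card :=
    (num_den p2 p3.le (by positivity) cB hx3').trans (le_of_eq (by ring))
  have pB2 : (0 : ℝ) < D2.card := num_pos p3 (Nat.cast_nonneg _) cB2
  have pA : (0 : ℝ) < A'.card := num_pos p1 (Nat.cast_nonneg _) cA
  have cX1 : ((tr y0 C1).card : ℝ) ≤ 2 * B1.card := by rw [card_tr]; exact_mod_cast h.c1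
  have cX2 : ((tr (y0 - x3) C2).card : ℝ) ≤ 2 * B2.card := by rw [card_tr]; exact_mod_cast h.c2
  have hX1m : ∀ a ∈ B1, ∀ b ∈ tr y0 B2, a + b ∈ tr y0 C1 := fun a ha b hb =>
    mem_tr.2 (by rw [add_sub_assoc]; exact h.a1 a ha _ (mem_tr.1 hb))
  have f0 : ∀ c, Few (sw w) (12288 * K ^ 5) (6 * ρ) (Fib2 f g A' D2 c) := by
    intro c
    refine (hfew D2 inter_subset_left _ (tr (y0 - x3) C2) hX1m (fun b' hb' b hb => mem_tr.2 (by
      rw [show b' - b - (y0 - x3) = b' - y0 - (b - x3) by abel]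
      exact h.a2 _ (mem_tr.1 hb') _ (mem_tr.1 (mem_inter.1 hb).2))) c).mono ?_ le_rfl
      (fun _ h => h)
    rw [c2, div_le_iff₀ (by positivity)]
    calc 3072 * K ^ 5 * (tr y0 C1).card * (tr (y0 - x3) C2).card
        ≤ 3072 * K ^ 5 * (2 * (B1.card : ℝ)) * (2 * (B2.card : ℝ)) := by gcongr
      _ = _ := by ring
  have hm0 : (0 : ℝ) ≤ m := Nat.cast_nonneg m
  obtain ⟨W, W', nW, hW1, hW2, hW3⟩ := fatw (Q := Q) w hw (6 * ρ) (by positivity) hr1
  have f1 : ∀ c, Few (sw w) ((294912 * K ^ 6) ^ 7) (2 * (2 * m * (6 * ρ))) (Fib g D2 (6 + 1) c) := by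
    intro c
    refine (plu G (V Q m) (sw w) (sz_sw w) A' D2 (tr y0 C1) W W' f g (12288 * K ^ 5) (6 * ρ)
      (2 * m * (6 * ρ)) 7 (by rw [← card_pos]; exact_mod_cast pA) nW (by positivity)
      (fun a ha b hb => hX1m a (hA' ha) b (hB' (mem_inter.1 hb).1)) hW1 hW2 hW3 f0 c).mono ?_
      le_rfl (fun _ h => h)
    refine pow_le_pow_left₀ (by positivity) ?_ 7
    rw [div_le_iff₀ pA]
    calc 2 * (12288 * K ^ 5) * (tr y0 C1).card ≤
          2 * (12288 * K ^ 5) * (2 * (6 * K * A'.card)) := by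
          have := cX1.trans (mul_le_mul_of_nonneg_left cA (by norm_num))
          gcongr
      _ = 294912 * K ^ 6 * A'.card := by ring
  obtain ⟨x4, hx4'⟩ := loc h.n3 h.n4 h.a3 h.c3 (inter_subset_right : D2 ⊆ _)
  set B5 := D2 ∩ tr x4 B4 with hB5
  have cB5 : (B4.card : ℝ) ≤ 16 * K * B5.card :=
    (num_den p3 p4.le (by positivity) cB2 hx4').trans (le_of_eq (by ring))
  have cX3 : ((tr (x3 + ∑ _i : Fin 6, x4) C3).card : ℝ) ≤ 2 * B3.card := by
    rw [card_tr]; exact_mod_cast h.c3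
  have f2 : Few (sw w) (Real.exp (270 * L)) (96 * (m + 1) * ρ) (Rel g B5 6) := by
    refine (csl G (V Q m) (sw w) (sz_sw w) D2 B5 (tr (x3 + ∑ _i : Fin 6, x4) C3) g _ _ 6 inter_subset_left
      (by rw [← card_pos]; exact_mod_cast pB2) (by positivity) (fun b hb s hs => mem_tr.2 (by
        rw [add_sub_add_comm, ← sum_sub_distrib]
        exact h.a4 _ (mem_tr.1 (mem_inter.1 hb).2) _ fun i => mem_tr.1 (mem_inter.1 (hs i)).2))
      f1).mono ?_ hr2 (fun _ h => h)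
    refine le_trans ?_ (num_M2 L hL1)
    rw [div_le_iff₀ pB2]
    calc ((294912 * K ^ 6) ^ 7) ^ 2 * (tr (x3 + ∑ _i : Fin 6, x4) C3).card
        ≤ ((294912 * K ^ 6) ^ 7) ^ 2 * (2 * (8 * K * D2.card)) := by
          have := cX3.trans (mul_le_mul_of_nonneg_left cB2 (by norm_num))
          gcongr
      _ = ((294912 * K ^ 6) ^ 7) ^ 2 * (16 * K) * D2.card := by ring
  obtain ⟨t, ht1, ht2⟩ := num_t L hL1
  obtain ⟨T', hT'1, hT'2, hT'3⟩ := num_T m ρ hρ hρ1
  obtain ⟨S, hS, cS, hrel⟩ := rndw w hw g B5 _ _ T' t hT'1 (by positivity) hT'2 ht1 f2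
  have hSB' : S ⊆ B' := fun s hs => (mem_inter.1 (mem_inter.1 (hS hs)).1).1
  refine ⟨x4, S, fun s hs => ?_, fun s hs => (mem_inter.1 (hS hs)).2, fun s hs => hB' (hSB' hs),
    ?_, fun z hz => (hrel z hz).trans hT'3⟩
  · obtain ⟨a, ha⟩ := hU s (hSB' hs)
    exact ha.1
  · have cS' : (B5.card : ℝ) ≤ 1200 ^ t * S.card := by exact_mod_cast cS
    calc (B4.card : ℝ) ≤ 16 * K * (1200 ^ t * S.card) := cB5.trans (by gcongr)
      _ = 16 * K * 1200 ^ t * S.card := by ring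
      _ ≤ Real.exp (7000 * L) * S.card := by gcongr

end

theorem dz_nonneg (x : ℝ) : 0 ≤ dz x := abs_nonneg _

/-- the weighted form: circles of lengths w i -/
theorem mfw {m : ℕ} (w : Fin m → ℝ) (hw : ∀ i, 1 ≤ w i) {B1 B2 B3 B4 C1 C2 C3 : Finset G}
    (h : Nest B1 B2 B3 B4 C1 C2 C3)
    (f g ζ : G → Fin m → ℝ) (U : G → Prop) (y0 : G) (ρ L : ℝ) (hL1 : 1 ≤ L) (hρ : 0 < ρ)
    (hρ1 : 300000 * ((m : ℝ) + 1) ^ 2 * ρ ≤ 1)
    (hcount : (B1.card : ℝ) * B2.card ≤ Real.exp L * ((B1 ×ˢ tr y0 B2).filter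
      (fun p => U p.2 ∧ ∀ i, w i * dz (f p.1 i + g p.2 i - ζ (p.1 + p.2) i) ≤ ρ)).card) :
    ∃ (x : G) (S : Finset G), (∀ s ∈ S, U s) ∧ S ⊆ tr x B4 ∧ S ⊆ tr y0 B2 ∧
      (B4.card : ℝ) ≤ Real.exp (7000 * L) * S.card ∧
      ∀ s t : Fin 6 → G, (∀ k, s k ∈ S) → (∀ k, t k ∈ S) → ∑ k, s k = ∑ k, t k →
        ∀ i, w i * dz (∑ k, g (s k) i - ∑ k, g (t k) i) ≤ 70000 * ((m : ℝ) + 1) ^ 2 * ρ := by
  let w' : Fin m → ℕ := fun i => ⌈w i⌉₊
  have w1 : ∀ i, w i ≤ w' i := fun i => Nat.le_ceil _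
  have w2 : ∀ i, (w' i : ℝ) ≤ 2 * w i := fun i => by
    have := Nat.ceil_lt_add_one (a := w i) (by linarith [hw i])
    linarith [hw i]
  obtain ⟨Q, hQ1, hQ2⟩ := Nat.exists_infinite_primes ⌈12 * (∑ i, (w' i : ℝ)) / ρ⌉₊
  haveI : Fact Q.Prime := ⟨hQ2⟩
  have hQ := Qpos (Q := Q)
  have q : ∀ i, (w' i : ℝ) * (12 * (1 / (Q : ℝ))) ≤ ρ := fun i => by
    have := (Nat.le_ceil _).trans (Nat.cast_le.2 hQ1 : (⌈12 * (∑ i, (w' i : ℝ)) / ρ⌉₊ : ℝ) ≤ Q)
    have b := single_le_sum (f := fun i => (w' i : ℝ)) (fun i _ => Nat.cast_nonneg _) (mem_univ i)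
    rw [div_le_iff₀ hρ] at this
    rw [mul_one_div, ← mul_div_assoc, div_le_iff₀ hQ]
    linarith
  have q0 : 0 < 1 / (Q : ℝ) := by positivity
  have key : ∀ i (x y : ℝ), |x - y| ≤ 12 * (1 / Q) → w' i * dz x ≤ w' i * dz y + ρ :=
    fun i x y e => by
      refine (mul_le_mul_of_nonneg_left ((dz_near x y).trans (add_le_add le_rfl e))
        (Nat.cast_nonneg _)).trans ?_
      rw [mul_add]
      exact add_le_add le_rfl (q i)
  let d : (G → Fin m → ℝ) → G → V Q m := fun F a i => (round (Q * F a i) : ℤ)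
  obtain ⟨x, S, h1, h2, h3, h4, h5⟩ := corew w' (fun i => by exact_mod_cast (hw i).trans (w1 i))
    h (d f) (d g) (d ζ) U y0 (3 * ρ) L hL1 (by positivity)
    (by linarith) (hcount.trans (mul_le_mul_of_nonneg_left (Nat.cast_le.2 (card_le_card
      fun p hp => by
        obtain ⟨a, b, c⟩ := mem_filter.1 hp
        refine mem_filter.2 ⟨a, b, (sw_le_iff (by positivity)).2 fun i => ?_⟩
        have e : (d f p.1 + d g p.2 - d ζ (p.1 + p.2)) i = ((round (Q * f p.1 i) +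
          round (Q * g p.2 i) - round (Q * ζ (p.1 + p.2) i) : ℤ) : ZMod Q) := by simp [d]
        rw [e, nm_dz]
        have a1 := abs_le.1 (rd Q (f p.1 i))
        have a2 := abs_le.1 (rd Q (g p.2 i))
        have a3 := abs_le.1 (rd Q (ζ (p.1 + p.2) i))
        have := mul_le_mul_of_nonneg_right (w2 i)
          (dz_nonneg (f p.1 i + g p.2 i - ζ (p.1 + p.2) i))
        refine (key i _ (f p.1 i + g p.2 i - ζ (p.1 + p.2) i) ?_).trans (by linarith [c i])
        push_cast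
        rw [sub_div, add_div]
        exact abs_le.2 ⟨by linarith, by linarith⟩))
      (Real.exp_pos _).le))
  refine ⟨x, S, h1, h2, h3, h4, fun s t hs ht e i => ?_⟩
  have a := (le_sw _ _ i).trans (h5 _ ⟨s, t, hs, ht, e, rfl⟩)
  have e1 : (∑ k, d g (s k) - ∑ k, d g (t k)) i = ((∑ k, round (Q * g (s k) i) -
    ∑ k, round (Q * g (t k) i) : ℤ) : ZMod Q) := by simp [d, Finset.sum_apply]
  rw [e1, nm_dz] at a
  have b : ∀ u : Fin 6 → G, |∑ k, (round (Q * g (u k) i) : ℝ) / Q - ∑ k, g (u k) i| ≤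
      6 * (1 / Q) := fun u => by
    rw [← sum_sub_distrib]
    exact (abs_sum_le_sum_abs _ _).trans ((sum_le_card_nsmul _ _ _ fun k _ => rd Q _).trans
      (by simp))
  have b1 := abs_le.1 (b s)
  have b2 := abs_le.1 (b t)
  refine (mul_le_mul_of_nonneg_right (w1 i) (dz_nonneg _)).trans
    ((key i _ _ (abs_le.2 ⟨?_, ?_⟩)).trans ((add_le_add a le_rfl).trans ?_))
  · push_cast; rw [sub_div, sum_div, sum_div]; linarith
  · push_cast; rw [sub_div, sum_div, sum_div]; linarith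
  · nlinarith [mul_nonneg (by positivity : (0 : ℝ) ≤ m ^ 2 + 2 * m) hρ.le]

/-- a chart of V adapted to the subgroup I and the size N -/
structure Cha {V : Type} [AddCommGroup V] (N : V → ℝ) (I : AddSubgroup V) {m : ℕ}
    (c : V →+ Fin m → ℝ) (p : Fin m → Prop) (w : Fin m → ℝ) (E : ℝ) : Prop where
  pos : ∀ i, 0 < w i
  int : ∀ y ∈ I, ∀ i, ∃ k : ℤ, c y i = k ∧ (¬ p i → k = 0)
  sur : ∀ k : Fin m → ℤ, (∀ i, ¬ p i → k i = 0) → ∃ y ∈ I, ∀ i, c y i = k i
  lo : ∀ x i, w i * |c x i| ≤ E * N x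
  up : ∀ x r, 0 ≤ r → (∀ i, w i * |c x i| ≤ r) → N x ≤ E * r

/-- the form with a target V modulo I -/
theorem mfI {V : Type} [AddCommGroup V] {N : V → ℝ} {I : AddSubgroup V} {m : ℕ}
    {c : V →+ Fin m → ℝ} {p : Fin m → Prop} {w : Fin m → ℝ} {E : ℝ} (hc : Cha N I c p w E)
    {B1 B2 B3 B4 C1 C2 C3 : Finset G} (h : Nest B1 B2 B3 B4 C1 C2 C3)
    (f g ζ : G → V) (U : G → Prop) (y0 : G) (ε L : ℝ) (hL1 : 1 ≤ L) (hε : 0 < ε) (hE : 0 < E)
    (hw : ∀ i, p i → 300000 * ((m : ℝ) + 1) ^ 2 * (E * ε) ≤ w i)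
    (hcount : (B1.card : ℝ) * B2.card ≤ Real.exp L * ((B1 ×ˢ tr y0 B2).filter
      (fun q => U q.2 ∧ ∃ y ∈ I, N (f q.1 + g q.2 - ζ (q.1 + q.2) - y) ≤ ε)).card) :
    ∃ (x : G) (S : Finset G), (∀ s ∈ S, U s) ∧ S ⊆ tr x B4 ∧ S ⊆ tr y0 B2 ∧
      (B4.card : ℝ) ≤ Real.exp (7000 * L) * S.card ∧
      ∀ s t : Fin 6 → G, (∀ k, s k ∈ S) → (∀ k, t k ∈ S) → ∑ k, s k = ∑ k, t k →
        ∃ y ∈ I, N (∑ k, g (s k) - ∑ k, g (t k) - y) ≤ 70000 * ((m : ℝ) + 1) ^ 2 * E ^ 2 * ε := by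
  set κ := 300000 * ((m : ℝ) + 1) ^ 2 * (E * ε) with hκ
  have κ0 : 0 < κ := by positivity
  let M : Fin m → ℝ := fun i => ∑ a ∈ tr y0 B2, |c (g a) i|
  have M0 : ∀ i, 0 ≤ M i := fun i => sum_nonneg fun _ _ => abs_nonneg _
  let l : Fin m → ℝ := fun i => if p i then 1 else 25 * M i + κ / w i + 1
  have wp := hc.pos
  have l1 : ∀ i, 1 ≤ l i := fun i => by
    have := M0 i
    have := div_pos κ0 (wp i)
    simp only [l]
    split_ifs <;> linarith
  have l0 : ∀ i, 0 < l i := fun i => by linarith [l1 i]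
  obtain ⟨x, S, h1, h2, h3, h4, h5⟩ := mfw (fun i => w i * l i / κ) (fun i => by
      rw [le_div_iff₀ κ0, one_mul]
      by_cases a : p i
      · simpa [l, a] using hw i a
      · have := mul_nonneg (wp i).le (M0 i)
        have e := mul_div_cancel₀ κ (wp i).ne'
        have := wp i
        simp only [l, a, if_false]
        nlinarith)
    h (fun a i => c (f a) i / l i) (fun a i => c (g a) i / l i) (fun a i => c (ζ a) i / l i) U y0
    (E * ε / κ) L hL1 (by positivity) (by rw [← mul_div_assoc, div_self κ0.ne'])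
    (hcount.trans (mul_le_mul_of_nonneg_left (Nat.cast_le.2 (card_le_card fun q hq => by
        obtain ⟨a, b, y, hy, e⟩ := mem_filter.1 hq
        refine mem_filter.2 ⟨a, b, fun i => ?_⟩
        obtain ⟨k, k1, k2⟩ := hc.int y hy i
        have e1 := (hc.lo _ i).trans (mul_le_mul_of_nonneg_left e hE.le)
        simp only [map_sub, map_add, Pi.sub_apply, Pi.add_apply, k1] at e1
        rw [div_mul_eq_mul_div]
        refine div_le_div_of_nonneg_right (le_trans ?_ e1) κ0.le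
        rw [mul_assoc]
        refine mul_le_mul_of_nonneg_left ((mul_le_mul_of_nonneg_left (dz_le _ k) (l0 i).le).trans
          (le_of_eq ?_)) (wp i).le
        rw [← abs_of_pos (l0 i), ← abs_mul, abs_of_pos (l0 i)]
        have := (l0 i).ne'
        by_cases a : p i
        · simp [l, a]
        · rw [k2 a]
          congr 1
          field_simp
          simp)) (Real.exp_pos _).le))
  refine ⟨x, S, h1, h2, h3, h4, fun s t hs ht e => ?_⟩
  set z := ∑ k, g (s k) - ∑ k, g (t k) with hz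
  have cz : ∀ i, c z i = ∑ k, c (g (s k)) i - ∑ k, c (g (t k)) i := fun i => by
    simp [hz, Finset.sum_apply]
  obtain ⟨y, hy, ey⟩ := hc.sur (fun i => if p i then round (c z i) else 0) fun i a => if_neg a
  refine ⟨y, hy, (hc.up _ (70000 * ((m : ℝ) + 1) ^ 2 * (E * ε)) (by positivity) fun i => ?_).trans
    (le_of_eq (by ring))⟩
  have a := h5 s t hs ht e i
  rw [← sum_div, ← sum_div, ← sub_div, ← cz, div_mul_eq_mul_div, ← mul_div_assoc,
    div_le_div_iff_of_pos_right κ0] at a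
  refine le_trans (le_of_eq ?_) a
  rw [map_sub, Pi.sub_apply, ey, mul_assoc]
  congr 1
  by_cases b : p i
  · simp [l, b, dz]
  · have b1 : ∀ u : Fin 6 → G, (∀ k, u k ∈ S) → |∑ k, c (g (u k)) i| ≤ 6 * M i := fun u hu =>
      (abs_sum_le_sum_abs _ _).trans ((sum_le_card_nsmul _ _ (M i) fun k _ =>
        single_le_sum (f := fun a => |c (g a) i|) (fun _ _ => abs_nonneg _) (h3 (hu k))).trans
          (by simp))
    have b2 := abs_le.1 (b1 s hs)
    have b3 := abs_le.1 (b1 t ht)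
    have b4 : 25 * M i + 1 ≤ l i := by
      have := div_pos κ0 (wp i)
      simp only [l, b, if_false]
      linarith
    have b5 : round (c z i / l i) = 0 := by
      have := M0 i
      rw [round_eq_zero_iff, Set.mem_Ico, le_div_iff₀ (l0 i), div_lt_iff₀ (l0 i), cz]
      constructor <;> linarith
    rw [dz, b5, if_neg b, Int.cast_zero, sub_zero, sub_zero, abs_div, abs_of_pos (l0 i),
      mul_div_cancel₀ _ (l0 i).ne']

end Vale.Agent.P057T.Mfr
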