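import Vale.Agent.P057T.Gau2H52

/-!
Marginals of a point set under a wide Gaussian weight from the marginals of narrow product windows.
-/

open MeasureTheory Matrix
open scoped Real
open Vale.Agent.P267.H775 Vale.Agent.P057T.Poi

namespace Vale.Agent.P057T.Mg

noncomputable section

set_option linter.unusedSectionVars false

theorem integ_tsum {α ι : Type*} [MeasureSpace α] [Countable ι] {F : ι → α → ℝ}
    (h0 : ∀ i a, 0 ≤ F i a) (hi : ∀ i, Integrable (F i)) (hs : Summable fun i => ∫ a, F i a)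
    (hp : ∀ a, Summable fun i => F i a) :
    Integrable (fun a => ∑' i, F i a) ∧ ∑' i, ∫ a, F i a = ∫ a, ∑' i, F i a := by
  have hn : Summable fun i => ∫ a, ‖F i a‖ := by
    refine hs.congr fun i => ?_
    congr 1
    funext a
    rw [Real.norm_of_nonneg (h0 i a)]
  refine ⟨⟨(AEMeasurable.tsum fun i => (hi i).aemeasurable).aestronglyMeasurable, ?_⟩,
    integral_tsum_of_summable_integral_norm hi hn⟩
  rw [hasFiniteIntegral_iff_ofReal (Filter.Eventually.of_forall fun a => tsum_nonneg fun i => h0 i a)]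
  simp only [ENNReal.ofReal_tsum_of_nonneg (fun i => h0 i _) (hp _)]
  rw [lintegral_tsum fun i => (hi i).aemeasurable.ennreal_ofReal]
  have e : ∀ i, ∫⁻ a, ENNReal.ofReal (F i a) = ENNReal.ofReal (∫ a, F i a) := fun i =>
    (ofReal_integral_eq_lintegral_ofReal (hi i) (Filter.Eventually.of_forall (h0 i))).symm
  simp only [e]
  rw [← ENNReal.ofReal_tsum_of_nonneg (fun i => integral_nonneg (h0 i)) hs]
  exact ENNReal.ofReal_lt_top

variable {N : Type*} [Fintype N] [DecidableEq N]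

theorem qf_le_add (B : Matrix N N ℝ) {γ : ℝ} (hγ : 0 < γ) (x y : N → ℝ) :
    γ * qf B (x + y) ≤ (1 + γ) * (γ * qf B x + qf B y) := by
  unfold qf
  simp only [Finset.mul_sum, ← Finset.sum_add_distrib]
  refine Finset.sum_le_sum fun i _ => ?_
  rw [mulVec_add, Pi.add_apply]
  nlinarith [sq_nonneg (γ * (B *ᵥ x) i - (B *ᵥ y) i)]

theorem integral_sc {s : ℝ} (hs : 0 < s) (x : N → ℝ) :
    ∫ c, gq (s • (1 : Matrix N N ℝ)) (x - c) = (s ^ Fintype.card N)⁻¹ := by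
  rw [integral_sub_left_eq_self (fun c => gq (s • (1 : Matrix N N ℝ)) c) volume x,
    integral_gq (det_smul_ne hs.ne' (by simp)), det_smul, det_one, mul_one, abs_of_pos (by positivity)]

theorem integrable_sc {s : ℝ} (hs : 0 < s) (x : N → ℝ) :
    Integrable fun c => gq (s • (1 : Matrix N N ℝ)) (x - c) :=
  (integrable_gq (det_smul_ne hs.ne' (by simp))).comp_sub_left x

theorem integrable_cv (B : Matrix N N ℝ) {s : ℝ} (hs : 0 < s) (x : N → ℝ) :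
    Integrable fun c => gq B c * gq (s • (1 : Matrix N N ℝ)) (x - c) := by
  have cB := continuous_gq B
  exact (integrable_sc hs x).bdd_mul (c := 1) (by fun_prop)
    (Filter.Eventually.of_forall fun x => by
      rw [Real.norm_eq_abs, abs_of_pos (gq_pos _ _)]; exact gq_le_one _ _)

theorem gq_mul_le {A B C D : Matrix N N ℝ} {x y z w : N → ℝ}
    (h : qf C z + qf D w ≤ qf A x + qf B y) : gq A x * gq B y ≤ gq C z * gq D w := by
  unfold gq
  rw [← Real.exp_add, ← Real.exp_add, Real.exp_le_exp]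
  nlinarith [Real.pi_pos]

/-- upper bound of the convolution -/
theorem cv_le {B D : Matrix N N ℝ} {σ γ : ℝ} (hσ : 0 < σ) (hγ : 0 < γ) (hγ1 : γ ≤ 1 / 2)
    (h1 : ∀ x, (1 + γ) * qf D x ≤ qf B x)
    (h2 : ∀ x, qf B x ≤ γ ^ 2 * qf (σ • (1 : Matrix N N ℝ)) x) (x : N → ℝ) :
    ∫ c, gq B c * gq (σ • (1 : Matrix N N ℝ)) (x - c) ≤
      gq D x * (((1 - γ) * σ) ^ Fintype.card N)⁻¹ := by
  have hp : 0 < (1 - γ) * σ := mul_pos (by linarith) hσ
  rw [← integral_sc hp x, ← integral_const_mul]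
  refine integral_mono (integrable_cv B hσ x) ((integrable_sc hp x).const_mul _) fun c => ?_
  refine gq_mul_le ?_
  have a1 := qf_le_add D hγ c (x - c)
  rw [add_sub_cancel] at a1
  have a2 := h1 c
  have a3 := h1 (x - c)
  have a4 := h2 (x - c)
  rw [mul_smul, qf_smul (1 - γ)]
  have a5 := qf_nonneg (σ • (1 : Matrix N N ℝ)) (x - c)
  set q := qf (σ • (1 : Matrix N N ℝ)) (x - c)
  have a6 : γ * qf D x ≤ γ * (qf B c + γ * q) := by nlinarith
  have a7 := le_of_mul_le_mul_left a6 hγ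
  nlinarith [mul_nonneg a5 hγ.le, mul_nonneg (mul_nonneg a5 hγ.le) (sub_nonneg.2 hγ1)]

/-- lower bound of the convolution -/
theorem le_cv {B D : Matrix N N ℝ} {σ γ : ℝ} (hσ : 0 < σ) (hγ : 0 < γ)
    (h1 : ∀ x, (1 + γ) * qf D x ≤ qf B x)
    (h2 : ∀ x, qf B x ≤ γ ^ 2 * qf (σ • (1 : Matrix N N ℝ)) x) (x : N → ℝ) :
    gq B x * (((1 + γ) * σ) ^ Fintype.card N)⁻¹ ≤
      ∫ c, gq D c * gq (σ • (1 : Matrix N N ℝ)) (x - c) := by
  have hp : 0 < (1 + γ) * σ := mul_pos (by linarith) hσ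
  rw [← integral_sc hp x, ← integral_const_mul]
  refine integral_mono ((integrable_sc hp x).const_mul _) (integrable_cv D hσ x) fun c => ?_
  refine gq_mul_le ?_
  have a1 := qf_le_add D hγ x (-(x - c))
  rw [qf_neg, show x + -(x - c) = c by abel] at a1
  have a2 := h1 x
  have a3 := h1 (x - c)
  have a4 := h2 (x - c)
  rw [mul_smul, qf_smul (1 + γ)]
  have a5 := qf_nonneg (σ • (1 : Matrix N N ℝ)) (x - c)
  set q := qf (σ • (1 : Matrix N N ℝ)) (x - c)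
  have a6 : γ * qf D c ≤ γ * (qf B x + γ * q) := by nlinarith
  have a7 := le_of_mul_le_mul_left a6 hγ
  nlinarith [mul_nonneg a5 hγ.le, mul_nonneg (mul_nonneg a5 hγ.le) hγ.le]

variable {C R : Type*} [Fintype C] [DecidableEq C] [Fintype R] [DecidableEq R]

theorem elim_add (u u' : C → ℝ) (v v' : R → ℝ) :
    Sum.elim u v + Sum.elim u' v' = Sum.elim (u + u') (v + v') := by
  funext i; rcases i with i | i <;> rfl

theorem bf_eq (B : Matrix N N ℝ) (x y : N → ℝ) : bf B x y = ∑ i, ((Bᵀ * B) *ᵥ x) i * y i := by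
  change (B *ᵥ x) ⬝ᵥ (B *ᵥ y) = ((Bᵀ * B) *ᵥ x) ⬝ᵥ y
  rw [dotProduct_mulVec, ← mulVec_mulVec, mulVec_transpose]

/-- the minimiser on a fibre -/
theorem exists_min {B : Matrix (C ⊕ R) (C ⊕ R) ℝ} (hB : B.det ≠ 0) (u : C → ℝ) :
    ∃ v0 : R → ℝ, ∀ v, qf B (Sum.elim u (v0 + v)) = qf B (Sum.elim u v0) + qf B (Sum.elim 0 v) := by
  let f : (R → ℝ) →ₗ[ℝ] (R → ℝ) :=
    { toFun := fun v r => ((Bᵀ * B) *ᵥ Sum.elim 0 v) (Sum.inr r)
      map_add' := fun v w => by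
        funext r
        rw [Pi.add_apply, ← Pi.add_apply _ _ (Sum.inr r), ← mulVec_add, elim_add, add_zero]
      map_smul' := fun c v => by
        funext r
        have : (Sum.elim (0 : C → ℝ) (c • v) : C ⊕ R → ℝ) = c • Sum.elim (0 : C → ℝ) v := by
          funext i; rcases i with i | i <;> simp
        rw [this, mulVec_smul]; rfl }
  have hf : Function.Injective f := by
    rw [injective_iff_map_eq_zero]
    intro v hv
    have h : qf B (Sum.elim 0 v) = 0 := by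
      rw [← bf_self, bf_eq, Fintype.sum_sum_type]
      have : ∀ r, ((Bᵀ * B) *ᵥ Sum.elim 0 v) (Sum.inr r) = 0 := fun r => congrFun hv r
      simp [this]
    funext r
    exact congrFun (qf_eq_zero hB h) (Sum.inr r)
  obtain ⟨v0, h⟩ := LinearMap.injective_iff_surjective.1 hf
    fun r => -((Bᵀ * B) *ᵥ Sum.elim u 0) (Sum.inr r)
  refine ⟨v0, fun v => ?_⟩
  have e : (Sum.elim u (v0 + v) : C ⊕ R → ℝ) = Sum.elim u v0 + Sum.elim (0 : C → ℝ) v := by
    rw [elim_add, add_zero]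
  have e2 : (Sum.elim u v0 : C ⊕ R → ℝ) = Sum.elim u (0 : R → ℝ) + Sum.elim (0 : C → ℝ) v0 := by
    rw [elim_add, add_zero, zero_add]
  have z : bf B (Sum.elim u v0) (Sum.elim 0 v) = 0 := by
    rw [bf_eq, Fintype.sum_sum_type, e2, mulVec_add]
    have : ∀ r, ((Bᵀ * B) *ᵥ Sum.elim 0 v0) (Sum.inr r) =
      -((Bᵀ * B) *ᵥ Sum.elim u 0) (Sum.inr r) := fun r => congrFun h r
    simp [this]
  rw [e, qf_add, z]; ring

theorem fub {f : (C ⊕ R → ℝ) → ℝ} (hf : Integrable f) :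
    (∫ x, f x = ∫ u : C → ℝ, ∫ v : R → ℝ, f (Sum.elim u v)) ∧
      Integrable fun u : C → ℝ => ∫ v : R → ℝ, f (Sum.elim u v) := by
  have mp := volume_measurePreserving_sumPiEquivProdPi_symm (fun _ : C ⊕ R => ℝ)
  have e : ∀ p : (C → ℝ) × (R → ℝ),
      (MeasurableEquiv.sumPiEquivProdPi (fun _ : C ⊕ R => ℝ)).symm p = Sum.elim p.1 p.2 := fun p => by
    funext i; rcases i with i | i <;> rfl
  have i1 : Integrable (fun p : (C → ℝ) × (R → ℝ) => f (Sum.elim p.1 p.2)) := by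
    have := (mp.integrable_comp_emb (MeasurableEquiv.measurableEmbedding _)).2 hf
    simpa only [Function.comp_def, e] using this
  refine ⟨?_, i1.integral_prod_left⟩
  rw [← mp.integral_comp' f]
  simp only [e]
  exact integral_prod _ i1

/-- the marginal of a Gaussian -/
theorem marg {B : Matrix (C ⊕ R) (C ⊕ R) ℝ} (hB : B.det ≠ 0) {D D2 : Matrix C C ℝ}
    (hD2 : D2.det ≠ 0) (ha : ∀ u v, qf D u ≤ qf B (Sum.elim u v))
    (hb : ∀ u, ∃ v, qf B (Sum.elim u v) ≤ qf D2 u) (u : C → ℝ) :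
    ∫ v : R → ℝ, gq B (Sum.elim u v) ≤ |D2.det| * |B.det|⁻¹ * gq D u := by
  set K := ∫ v : R → ℝ, gq B (Sum.elim (0 : C → ℝ) v) with hK
  have hK0 : 0 ≤ K := integral_nonneg fun v => (gq_pos _ _).le
  have key : ∀ u, ∃ v0 : R → ℝ, ∫ v : R → ℝ, gq B (Sum.elim u v) = gq B (Sum.elim u v0) * K ∧
      ∀ v, qf B (Sum.elim u v0) ≤ qf B (Sum.elim u v) := fun u => by
    obtain ⟨v0, h⟩ := exists_min hB u
    refine ⟨v0, ?_, fun v => ?_⟩
    · rw [← integral_add_left_eq_self (fun v => gq B (Sum.elim u v)) v0, hK, ← integral_const_mul]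
      congr 1
      funext v
      unfold gq
      rw [h, ← Real.exp_add]
      ring_nf
    · have := h (v - v0)
      rw [add_sub_cancel] at this
      linarith [qf_nonneg B (Sum.elim (0 : C → ℝ) (v - v0))]
  have mono : ∀ {a b : ℝ}, a ≤ b → Real.exp (-π * b) ≤ Real.exp (-π * a) := fun h =>
    Real.exp_le_exp.2 (by nlinarith [Real.pi_pos])
  obtain ⟨f1, f2⟩ := fub (integrable_gq hB)
  have h1 : |D2.det|⁻¹ * K ≤ |B.det|⁻¹ := by
    rw [← integral_gq hB, f1, ← integral_gq hD2, ← integral_mul_const]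
    refine integral_mono ((integrable_gq hD2).mul_const _) f2 fun u => ?_
    obtain ⟨v0, e, hm⟩ := key u
    obtain ⟨v, hv⟩ := hb u
    simp only [e]
    exact mul_le_mul_of_nonneg_right (mono ((hm v).trans hv)) hK0
  have hp : 0 < |D2.det| := abs_pos.2 hD2
  have h2 : K ≤ |D2.det| * |B.det|⁻¹ := by
    have := mul_le_mul_of_nonneg_left h1 hp.le
    rwa [← mul_assoc, mul_inv_cancel₀ hp.ne', one_mul] at this
  obtain ⟨v0, e, -⟩ := key u
  rw [e, mul_comm]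
  exact mul_le_mul h2 (mono (ha u v0)) (gq_pos _ _).le (by positivity)

theorem qf_elim (σ : ℝ) (u : C → ℝ) :
    qf (σ • (1 : Matrix (C ⊕ R) (C ⊕ R) ℝ)) (Sum.elim u 0) = qf (σ • (1 : Matrix C C ℝ)) u := by
  rw [qf_smul, qf_smul, qf_one, qf_one, Fintype.sum_sum_type]
  simp

theorem pw_bd {γ : ℝ} (hγ : 0 < γ) {n k : ℕ} (h : γ * n ≤ 1 / 8) (h1 : γ ≤ 1 / 2) (hk : k ≤ n) :
    7 / 8 ≤ (1 - γ) ^ k ∧ (1 + γ) ^ k ≤ 8 / 7 := by
  have hk' : (k : ℝ) ≤ n := by exact_mod_cast hk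
  have a : 1 + (k : ℝ) * (-γ) ≤ (1 + -γ) ^ k := one_add_mul_le_pow (by linarith) k
  have b : 7 / 8 ≤ (1 - γ) ^ k := by
    rw [sub_eq_add_neg]; nlinarith
  have c : (1 + γ) ^ k * (1 - γ) ^ k ≤ 1 := by
    rw [← mul_pow]; exact pow_le_one₀ (by nlinarith) (by nlinarith)
  have d : 0 < (1 + γ) ^ k := by positivity
  exact ⟨b, by nlinarith⟩

variable {Z Bx : Type*} [Countable Z] [Countable Bx]

/-- the total mass from below -/
theorem low {B : Matrix N N ℝ} (hB : B.det ≠ 0) {σ γ κ : ℝ} (hσ : 0 < σ) (hγ : 0 < γ)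
    (hγ1 : γ ≤ 1 / 2) (hγ2 : γ * Fintype.card N ≤ 1 / 8) (hκ : 0 ≤ κ)
    (hs : ∀ x, (1 + γ) ^ 2 * qf B x ≤ γ ^ 2 * qf (σ • (1 : Matrix N N ℝ)) x) {P : Z → N → ℝ}
    (s1 : ∀ c, Summable fun z => gq (σ • (1 : Matrix N N ℝ)) (P z - c))
    (s2 : Summable fun z => gq B (P z))
    (hL : ∀ c, κ * (σ ^ Fintype.card N)⁻¹ ≤ 2 * ∑' z, gq (σ • (1 : Matrix N N ℝ)) (P z - c)) :
    κ * |B.det|⁻¹ ≤ 128 / 49 * ∑' z, gq B (P z) := by
  have hg : 0 < 1 + γ := by linarith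
  obtain ⟨p1, p2⟩ := pw_bd hγ hγ2 hγ1 le_rfl
  have hB2 : ((1 + γ) • B).det ≠ 0 := det_smul_ne hg.ne' hB
  have b : ∀ z, ∫ c, gq ((1 + γ) • B) c * gq (σ • (1 : Matrix N N ℝ)) (P z - c) ≤
      gq B (P z) * (((1 - γ) * σ) ^ Fintype.card N)⁻¹ := fun z =>
    cv_le hσ hγ hγ1 (fun x => by rw [qf_smul]; nlinarith [qf_nonneg B x, mul_nonneg hγ.le (qf_nonneg B x), mul_nonneg hγ.le (mul_nonneg hγ.le (qf_nonneg B x))])
      (fun x => by rw [qf_smul]; exact hs x) (P z)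
  have n0 : ∀ z c, 0 ≤ gq ((1 + γ) • B) c * gq (σ • (1 : Matrix N N ℝ)) (P z - c) := fun z c =>
    (mul_pos (gq_pos _ _) (gq_pos _ _)).le
  have sI := Summable.of_nonneg_of_le (fun z => integral_nonneg (n0 z)) b (s2.mul_right _)
  obtain ⟨i1, i2⟩ := integ_tsum n0 (fun z => integrable_cv _ hσ (P z)) sI
    fun c => (s1 c).mul_left _
  have c1 := sI.tsum_le_tsum b (s2.mul_right _)
  rw [i2, tsum_mul_right] at c1
  have c2 : ∫ c, gq ((1 + γ) • B) c * (κ * (σ ^ Fintype.card N)⁻¹ / 2) ≤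
      ∫ c, ∑' z, gq ((1 + γ) • B) c * gq (σ • (1 : Matrix N N ℝ)) (P z - c) := by
    refine integral_mono ((integrable_gq hB2).mul_const _) i1 fun c => ?_
    simp only [tsum_mul_left]
    exact mul_le_mul_of_nonneg_left (by linarith [hL c]) (gq_pos _ _).le
  rw [integral_mul_const, integral_gq hB2, det_smul, abs_mul, abs_of_pos (pow_pos hg _)] at c2
  have c3 := c2.trans c1
  rw [mul_pow] at c3
  have hM : 0 ≤ ∑' z, gq B (P z) := tsum_nonneg fun z => (gq_pos _ _).le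
  set M := ∑' z, gq B (P z)
  set a := (1 + γ) ^ Fintype.card N
  set b' := (1 - γ) ^ Fintype.card N
  have ha : 0 < a := pow_pos hg _
  have hb : 0 < b' := by linarith
  have ht : 0 < σ ^ Fintype.card N := pow_pos hσ _
  set t := σ ^ Fintype.card N
  have hd : 0 < |B.det| := abs_pos.2 hB
  have c4 : κ * |B.det|⁻¹ * b' ≤ 2 * a * M := by
    have := mul_le_mul_of_nonneg_left c3 (by positivity : 0 ≤ 2 * a * b' * t)
    calc _ = 2 * a * b' * t * ((a * |B.det|)⁻¹ * (κ * t⁻¹ / 2)) := by field_simp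
      _ ≤ _ := this
      _ = _ := by field_simp
  have : 0 ≤ κ * |B.det|⁻¹ := by positivity
  nlinarith

theorem one_box {B : Matrix (C ⊕ R) (C ⊕ R) ℝ} (hB : B.det ≠ 0) {D D2 : Matrix C C ℝ}
    (hD2 : D2.det ≠ 0) {σ γ : ℝ} (hσ : 0 < σ) (hγ : 0 < γ) (hγ1 : γ ≤ 1 / 2)
    (ha : ∀ u v, (1 + γ) ^ 2 * qf D u ≤ qf B (Sum.elim u v))
    (hb : ∀ u, ∃ v, qf B (Sum.elim u v) ≤ qf D2 u)
    (hs : ∀ x, qf B x ≤ γ ^ 2 * qf (σ • (1 : Matrix (C ⊕ R) (C ⊕ R) ℝ)) x) (x : C → ℝ) :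
    Integrable (fun c : C ⊕ R → ℝ =>
      gq B c * gq (σ • (1 : Matrix C C ℝ)) (x - fun i => c (Sum.inl i))) ∧
    ∫ c : C ⊕ R → ℝ, gq B c * gq (σ • (1 : Matrix C C ℝ)) (x - fun i => c (Sum.inl i)) ≤
      |D2.det| * |B.det|⁻¹ * (gq D x * (((1 - γ) * σ) ^ Fintype.card C)⁻¹) := by
  have cC := continuous_gq (σ • (1 : Matrix C C ℝ))
  have i0 : Integrable (fun c : C ⊕ R → ℝ =>
      gq B c * gq (σ • (1 : Matrix C C ℝ)) (x - fun i => c (Sum.inl i))) :=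
    (integrable_gq hB).mul_bdd (c := 1) (Continuous.aestronglyMeasurable (by fun_prop))
      (Filter.Eventually.of_forall fun x => by
        rw [Real.norm_eq_abs, abs_of_pos (gq_pos _ _)]; exact gq_le_one _ _)
  refine ⟨i0, ?_⟩
  obtain ⟨f1, f2⟩ := fub i0
  rw [f1]
  have h1 := cv_le (B := (1 + γ) • D) (D := D) hσ hγ hγ1
    (fun u => by rw [qf_smul]; nlinarith [qf_nonneg D u, mul_nonneg hγ.le (qf_nonneg D u), mul_nonneg hγ.le (mul_nonneg hγ.le (qf_nonneg D u))])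
    (fun u => by rw [qf_smul, ← qf_elim (R := R)]; exact (ha u 0).trans (hs _)) x
  refine le_trans ?_ (mul_le_mul_of_nonneg_left h1 (by positivity))
  rw [← integral_const_mul]
  refine integral_mono f2 ((integrable_cv _ hσ x).const_mul _) fun u => ?_
  have := marg hB (D := (1 + γ) • D) hD2 (fun u v => by rw [qf_smul]; exact ha u v) hb u
  change ∫ v : R → ℝ, gq B (Sum.elim u v) * gq (σ • (1 : Matrix C C ℝ)) (x - u) ≤ _
  rw [integral_mul_const, ← mul_assoc]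
  exact mul_le_mul_of_nonneg_right this (gq_pos _ _).le

theorem upp {B : Matrix (C ⊕ R) (C ⊕ R) ℝ} (hB : B.det ≠ 0) {D D2 : Matrix C C ℝ}
    (hD2 : D2.det ≠ 0) {σ γ κ ε : ℝ} (hσ : 0 < σ) (hγ : 0 < γ) (hγ1 : γ ≤ 1 / 2)
    (hγ2 : γ * Fintype.card (C ⊕ R) ≤ 1 / 8) (hκ : 0 ≤ κ) (hε : 0 ≤ ε)
    (ha : ∀ u v, (1 + γ) ^ 4 * qf D u ≤ qf B (Sum.elim u v))
    (hb : ∀ u, ∃ v, qf B (Sum.elim u v) ≤ qf D2 u)
    (hs : ∀ x, qf B x ≤ γ ^ 2 * qf (σ • (1 : Matrix (C ⊕ R) (C ⊕ R) ℝ)) x)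
    {P : Z → C ⊕ R → ℝ} {U : Bx → C → ℝ} {H : Z → ℝ} {H' : Bx → ℝ} (h0 : ∀ z, 0 ≤ H z)
    (h1 : ∀ z, H z ≤ 1) (h0' : ∀ b, 0 ≤ H' b) (h1' : ∀ b, H' b ≤ 1)
    (s1 : ∀ c, Summable fun z => gq (σ • (1 : Matrix (C ⊕ R) (C ⊕ R) ℝ)) (P z - c))
    (s3 : ∀ c, Summable fun b => gq (σ • (1 : Matrix C C ℝ)) (U b - c))
    (s4 : Summable fun b => gq D (U b))
    (hF : ∀ c : C ⊕ R → ℝ, ∑' z, gq (σ • (1 : Matrix (C ⊕ R) (C ⊕ R) ℝ)) (P z - c) * H z ≤
      κ * (σ ^ Fintype.card R)⁻¹ *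
        ∑' b, gq (σ • (1 : Matrix C C ℝ)) (U b - fun i => c (Sum.inl i)) * H' b +
      ε * κ * (σ ^ Fintype.card (C ⊕ R))⁻¹) :
    ∑' z, gq B (P z) * H z ≤
      512 / 343 * (κ * |B.det|⁻¹) * (|D2.det| * ∑' b, gq D (U b) * H' b + ε) := by
  have hg : 0 < 1 + γ := by linarith
  obtain ⟨p1, p2⟩ := pw_bd hγ hγ2 hγ1 le_rfl
  obtain ⟨p3, -⟩ := pw_bd (k := Fintype.card C) hγ hγ2 hγ1 (by simp)
  set B1 := (1 + γ)⁻¹ • B with hB1
  have hB2 : B1.det ≠ 0 := det_smul_ne (inv_pos.2 hg).ne' hB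
  have q1 : ∀ x, (1 + γ) ^ 2 * qf B1 x = qf B x := fun x => by rw [hB1, qf_smul]; field_simp
  have q2 : ∀ x, (1 + γ) * qf B1 x ≤ qf B x := fun x => by
    rw [← q1]; nlinarith [mul_nonneg hγ.le (qf_nonneg B1 x), mul_nonneg hγ.le (mul_nonneg hγ.le (qf_nonneg B1 x))]
  have q3 : ∀ x, qf B1 x ≤ qf B x := fun x => by
    nlinarith [q2 x, mul_nonneg hγ.le (qf_nonneg B1 x)]
  have ob := one_box hB2 (D := D) hD2 hσ hγ hγ1 (fun u v => by
      refine le_of_mul_le_mul_left ?_ (pow_pos hg 2)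
      rw [q1]; linarith [ha u v])
    (fun u => (hb u).imp fun v h => (q3 _).trans h) fun x => (q3 x).trans (hs x)
  set K := |D2.det| * |B1.det|⁻¹ * (((1 - γ) * σ) ^ Fintype.card C)⁻¹ with hK
  have s5 : Summable fun b => gq D (U b) * H' b :=
    Summable.of_nonneg_of_le (fun b => mul_nonneg (gq_pos _ _).le (h0' b))
      (fun b => mul_le_of_le_one_right (gq_pos _ _).le (h1' b)) s4
  have b : ∀ b, ∫ c : C ⊕ R → ℝ, gq B1 c *
      gq (σ • (1 : Matrix C C ℝ)) (U b - fun i => c (Sum.inl i)) * H' b ≤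
      K * (gq D (U b) * H' b) := fun b => by
    rw [integral_mul_const]
    exact (mul_le_mul_of_nonneg_right (ob (U b)).2 (h0' b)).trans_eq (by rw [hK]; ring)
  have n0 : ∀ b (c : C ⊕ R → ℝ), 0 ≤ gq B1 c *
      gq (σ • (1 : Matrix C C ℝ)) (U b - fun i => c (Sum.inl i)) * H' b := fun b c =>
    mul_nonneg (mul_pos (gq_pos _ _) (gq_pos _ _)).le (h0' b)
  have sI := Summable.of_nonneg_of_le (fun b => integral_nonneg (n0 b)) b (s5.mul_left _)
  obtain ⟨i1, i2⟩ := integ_tsum n0 (fun b => (ob (U b)).1.mul_const _) sI fun c =>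
    Summable.of_nonneg_of_le (fun b => n0 b c) (fun b =>
      mul_le_of_le_one_right (mul_pos (gq_pos _ _) (gq_pos _ _)).le (h1' b)) ((s3 _).mul_left _)
  have c1 := sI.tsum_le_tsum b (s5.mul_left _)
  rw [i2, tsum_mul_left] at c1
  have hS : 0 ≤ ∑' b, gq D (U b) * H' b :=
    tsum_nonneg fun b => mul_nonneg (gq_pos _ _).le (h0' b)
  set S := ∑' b, gq D (U b) * H' b
  have hd : 0 < |B.det| := abs_pos.2 hB
  have hd1 : |B1.det|⁻¹ = (1 + γ) ^ Fintype.card (C ⊕ R) * |B.det|⁻¹ := by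
    rw [hB1, det_smul, abs_mul, abs_of_pos (pow_pos (inv_pos.2 hg) _), mul_inv, inv_pow, inv_inv]
  refine Real.tsum_le_of_sum_le (fun z => mul_nonneg (gq_pos _ _).le (h0 z)) fun s => ?_
  have c2 : (∑ z ∈ s, gq B (P z) * H z) * (((1 + γ) * σ) ^ Fintype.card (C ⊕ R))⁻¹ ≤
      κ * (σ ^ Fintype.card R)⁻¹ * (K * S) +
        |B1.det|⁻¹ * (ε * κ * (σ ^ Fintype.card (C ⊕ R))⁻¹) := by
    calc _ ≤ ∑ z ∈ s, ∫ c, gq B1 c * gq (σ • (1 : Matrix (C ⊕ R) (C ⊕ R) ℝ)) (P z - c) * H z := by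
          rw [Finset.sum_mul]
          refine Finset.sum_le_sum fun z _ => ?_
          rw [integral_mul_const, mul_right_comm]
          exact mul_le_mul_of_nonneg_right (le_cv hσ hγ q2 hs (P z)) (h0 z)
      _ ≤ ∫ c : C ⊕ R → ℝ, (κ * (σ ^ Fintype.card R)⁻¹ * ∑' b, gq B1 c *
            gq (σ • (1 : Matrix C C ℝ)) (U b - fun i => c (Sum.inl i)) * H' b +
            gq B1 c * (ε * κ * (σ ^ Fintype.card (C ⊕ R))⁻¹)) := by
          rw [← integral_finsetSum _ fun z _ => (integrable_cv B1 hσ (P z)).mul_const _]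
          refine integral_mono
            (integrable_finsetSum _ fun z _ => (integrable_cv B1 hσ (P z)).mul_const _)
            ((i1.const_mul _).add ((integrable_gq hB2).mul_const _)) fun c => ?_
          simp only [mul_assoc (gq B1 c), ← Finset.mul_sum, tsum_mul_left]
          have t1 : Summable fun z => gq (σ • (1 : Matrix (C ⊕ R) (C ⊕ R) ℝ)) (P z - c) * H z :=
            Summable.of_nonneg_of_le (fun b => mul_nonneg (gq_pos _ _).le (h0 b))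
              (fun b => mul_le_of_le_one_right (gq_pos _ _).le (h1 b)) (s1 c)
          have t2 := (t1.sum_le_tsum s fun b _ => mul_nonneg (gq_pos _ _).le (h0 b)).trans (hF c)
          exact (mul_le_mul_of_nonneg_left t2 (gq_pos _ _).le).trans_eq (by ring)
      _ ≤ _ := by
          rw [integral_add (i1.const_mul _) ((integrable_gq hB2).mul_const _), integral_const_mul,
            integral_mul_const, integral_gq hB2]
          gcongr
  rw [hK, hd1, mul_pow, mul_pow] at c2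
  have e : σ ^ Fintype.card (C ⊕ R) = σ ^ Fintype.card C * σ ^ Fintype.card R := by
    rw [Fintype.card_sum, pow_add]
  rw [e] at c2
  have ha' : 0 < (1 + γ) ^ Fintype.card (C ⊕ R) := pow_pos hg _
  set a := (1 + γ) ^ Fintype.card (C ⊕ R)
  set b' := (1 - γ) ^ Fintype.card C
  have hb' : 0 < b' := by linarith
  have t1 : 0 < σ ^ Fintype.card C := pow_pos hσ _
  have t2 : 0 < σ ^ Fintype.card R := pow_pos hσ _
  set tc := σ ^ Fintype.card C
  set tr := σ ^ Fintype.card R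
  have c3 : ∑ z ∈ s, gq B (P z) * H z ≤ a * a * (κ * |B.det|⁻¹) * (b'⁻¹ * (|D2.det| * S) + ε) := by
    have := mul_le_mul_of_nonneg_left c2 (by positivity : 0 ≤ a * (tc * tr))
    calc _ = a * (tc * tr) * ((∑ z ∈ s, gq B (P z) * H z) * (a * (tc * tr))⁻¹) := by field_simp
      _ ≤ _ := this
      _ = _ := by field_simp
  have c4 : b'⁻¹ ≤ 8 / 7 := by rw [inv_le_comm₀ hb' (by norm_num)]; linarith
  have c5 : b'⁻¹ * (|D2.det| * S) + ε ≤ 8 / 7 * (|D2.det| * S + ε) := by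
    have : 0 ≤ |D2.det| * S := by positivity
    nlinarith
  calc _ ≤ _ := c3
    _ ≤ 8 / 7 * (8 / 7) * (κ * |B.det|⁻¹) * (8 / 7 * (|D2.det| * S + ε)) := by gcongr
    _ = _ := by ring

/-- **MG.** The marginal of the wide weight, relative to its total mass. -/
theorem mg {B : Matrix (C ⊕ R) (C ⊕ R) ℝ} (hB : B.det ≠ 0) {D D2 : Matrix C C ℝ}
    (hD2 : D2.det ≠ 0) {σ γ κ1 κ2 δ : ℝ} (hσ : 0 < σ) (hγ : 0 < γ) (hγ1 : γ ≤ 1 / 2)
    (hγ2 : γ * Fintype.card (C ⊕ R) ≤ 1 / 8) (hκ1 : 0 < κ1) (hκ2 : 0 ≤ κ2) (hδ : 0 ≤ δ)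
    (ha : ∀ u v, (1 + γ) ^ 4 * qf D u ≤ qf B (Sum.elim u v))
    (hb : ∀ u, ∃ v, qf B (Sum.elim u v) ≤ qf D2 u)
    (hs : ∀ x, (1 + γ) ^ 2 * qf B x ≤ γ ^ 2 * qf (σ • (1 : Matrix (C ⊕ R) (C ⊕ R) ℝ)) x)
    {P : Z → C ⊕ R → ℝ} {U : Bx → C → ℝ} {H : Z → ℝ} {H' : Bx → ℝ} (h0 : ∀ z, 0 ≤ H z)
    (h1 : ∀ z, H z ≤ 1) (h0' : ∀ b, 0 ≤ H' b) (h1' : ∀ b, H' b ≤ 1) (c0 : C ⊕ R → ℝ)
    (s1 : ∀ c, Summable fun z => gq (σ • (1 : Matrix (C ⊕ R) (C ⊕ R) ℝ)) (P z - c))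
    (s2 : Summable fun z => gq B (P z - c0))
    (s3 : ∀ c, Summable fun b => gq (σ • (1 : Matrix C C ℝ)) (U b - c))
    (s4 : Summable fun b => gq D (U b - fun i => c0 (Sum.inl i)))
    (hL : ∀ c, κ1 * κ2 * (σ ^ Fintype.card (C ⊕ R))⁻¹ ≤
      2 * ∑' z, gq (σ • (1 : Matrix (C ⊕ R) (C ⊕ R) ℝ)) (P z - c))
    (hF : ∀ c : C ⊕ R → ℝ, ∑' z, gq (σ • (1 : Matrix (C ⊕ R) (C ⊕ R) ℝ)) (P z - c) * H z ≤
      κ2 * (σ ^ Fintype.card R)⁻¹ *
        ∑' b, gq (σ • (1 : Matrix C C ℝ)) (U b - fun i => c (Sum.inl i)) * H' b +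
      δ * κ1 * κ2 * (σ ^ Fintype.card (C ⊕ R))⁻¹) :
    ∑' z, gq B (P z - c0) * H z ≤ 4 * (∑' z, gq B (P z - c0)) *
      (|D2.det| * κ1⁻¹ * ∑' b, gq D (U b - fun i => c0 (Sum.inl i)) * H' b + δ) := by
  have l := low (P := fun z => P z - c0) hB hσ hγ hγ1 hγ2 (mul_nonneg hκ1.le hκ2) hs
    (fun c => by simpa only [sub_sub] using s1 (c0 + c)) s2
    (fun c => by simpa only [sub_sub] using hL (c0 + c))
  have u := upp (P := fun z => P z - c0) (U := fun b => U b - fun i => c0 (Sum.inl i))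
    (ε := δ * κ1) hB hD2 hσ hγ hγ1 hγ2 hκ2 (mul_nonneg hδ hκ1.le) ha hb
    (fun x => le_trans (by nlinarith [qf_nonneg B x, mul_nonneg hγ.le (qf_nonneg B x), mul_nonneg hγ.le (mul_nonneg hγ.le (qf_nonneg B x))]) (hs x)) h0 h1 h0' h1'
    (fun c => by simpa only [sub_sub] using s1 (c0 + c))
    (fun c => by simpa only [sub_sub] using s3 ((fun i => c0 (Sum.inl i)) + c)) s4
    (fun c => by simp only [sub_sub]; exact hF (c0 + c))
  have hS : 0 ≤ ∑' b, gq D (U b - fun i => c0 (Sum.inl i)) * H' b :=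
    tsum_nonneg fun b => mul_nonneg (gq_pos _ _).le (h0' b)
  have hM : 0 ≤ ∑' z, gq B (P z - c0) := tsum_nonneg fun z => (gq_pos _ _).le
  set S := ∑' b, gq D (U b - fun i => c0 (Sum.inl i)) * H' b
  set M := ∑' z, gq B (P z - c0)
  have hX : 0 ≤ |D2.det| * κ1⁻¹ * S + δ := by positivity
  calc _ ≤ _ := u
    _ = 512 / 343 * (κ1 * κ2 * |B.det|⁻¹) * (|D2.det| * κ1⁻¹ * S + δ) := by field_simp
    _ ≤ 512 / 343 * (128 / 49 * M) * (|D2.det| * κ1⁻¹ * S + δ) := by gcongr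
    _ ≤ _ := by nlinarith [mul_nonneg hM hX]

end

end Vale.Agent.P057T.Mg
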