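import Vale.Agent.P057T.L1
import Mathlib.Algebra.MvPolynomial.Funext

/-!
Algebra of the step (1*) of the relative global structure theorem (notes 4537, 4548).
Variables `τ` are fixed, variables `ι` move; slots are indexed by `Fin n`.
-/

namespace Vale.Agent.P057T.One

open MvPolynomial Finset Vale.Agent.P057T.L1

noncomputable section

variable {τ ι : Type}

/-- polynomials in the fixed variables and `n` copies of the moving variables -/
abbrev W (τ ι : Type) (n : ℕ) := MvPolynomial (τ ⊕ (Fin n × ι)) ℝ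
/-- one copy -/
abbrev V (τ ι : Type) := MvPolynomial (τ ⊕ ι) ℝ

def ev1 (k : V τ ι) (t : τ → ℝ) (x : ι → ℝ) : ℝ := eval (Sum.elim t x) k
def ev2 (L : W τ ι 2) (t : τ → ℝ) (x y : ι → ℝ) : ℝ :=
  eval (Sum.elim t (fun p => (![x, y] : Fin 2 → ι → ℝ) p.1 p.2)) L
def ev3 (b : W τ ι 3) (t : τ → ℝ) (x y z : ι → ℝ) : ℝ :=
  eval (Sum.elim t (fun p => (![x, y, z] : Fin 3 → ι → ℝ) p.1 p.2)) b

theorem ev1_ext {k k' : V τ ι} (h : ∀ t x, ev1 k t x = ev1 k' t x) : k = k' := by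
  apply MvPolynomial.funext
  intro v
  have := h (fun a => v (Sum.inl a)) (fun a => v (Sum.inr a))
  have e : (Sum.elim (fun a => v (Sum.inl a)) (fun a => v (Sum.inr a))) = v := by
    funext a; cases a <;> rfl
  simpa only [ev1, e] using this

theorem ev2_ext {k k' : W τ ι 2} (h : ∀ t x y, ev2 k t x y = ev2 k' t x y) : k = k' := by
  apply MvPolynomial.funext
  intro v
  have := h (fun a => v (Sum.inl a)) (fun a => v (Sum.inr (0, a))) (fun a => v (Sum.inr (1, a)))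
  have e : (Sum.elim (fun a => v (Sum.inl a)) (fun p : Fin 2 × ι =>
      (![fun a => v (Sum.inr (0, a)), fun a => v (Sum.inr (1, a))] : Fin 2 → ι → ℝ) p.1 p.2)) = v := by
    funext a
    rcases a with a | ⟨j, a⟩
    · rfl
    · fin_cases j <;> rfl
  simpa only [ev2, e] using this

theorem ev3_ext {k k' : W τ ι 3} (h : ∀ t x y z, ev3 k t x y z = ev3 k' t x y z) : k = k' := by
  apply MvPolynomial.funext
  intro v
  have := h (fun a => v (Sum.inl a)) (fun a => v (Sum.inr (0, a))) (fun a => v (Sum.inr (1, a)))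
    (fun a => v (Sum.inr (2, a)))
  have e : (Sum.elim (fun a => v (Sum.inl a)) (fun p : Fin 3 × ι =>
      (![fun a => v (Sum.inr (0, a)), fun a => v (Sum.inr (1, a)), fun a => v (Sum.inr (2, a))] :
        Fin 3 → ι → ℝ) p.1 p.2)) = v := by
    funext a
    rcases a with a | ⟨j, a⟩
    · rfl
    · fin_cases j <;> rfl
  simpa only [ev3, e] using this

theorem eval_aeval' {σ ρ : Type} (f : σ → MvPolynomial ρ ℝ) (v : ρ → ℝ) (p : MvPolynomial σ ℝ) :
    eval v (aeval f p) = eval (fun a => eval v (f a)) p := by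
  induction p using MvPolynomial.induction_on with
  | C a => simp
  | add p q hp hq => rw [map_add, map_add, hp, hq, map_add]
  | mul_X p a hp => rw [map_mul, map_mul, hp, aeval_X, map_mul, eval_X]

/-- substitute `c j • (copy s j)` for the copy `j` of three copies, into two copies -/
def s32 (c : Fin 3 → ℝ) (s : Fin 3 → Fin 2) (b : W τ ι 3) : W τ ι 2 :=
  aeval (Sum.elim (fun a => X (Sum.inl a)) (fun p => C (c p.1) * X (Sum.inr (s p.1, p.2)))) b

/-- substitute `c j • x` for the copy `j` of two copies -/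
def s21 (c : Fin 2 → ℝ) (L : W τ ι 2) : V τ ι :=
  aeval (Sum.elim (fun a => X (Sum.inl a)) (fun p => C (c p.1) * X (Sum.inr p.2))) L

/-- scale the moving variables -/
def s11 (c : ℝ) (k : V τ ι) : V τ ι :=
  aeval (Sum.elim (fun a => X (Sum.inl a)) (fun a => C c * X (Sum.inr a))) k

theorem ev_s32 (c : Fin 3 → ℝ) (s : Fin 3 → Fin 2) (b : W τ ι 3) (t : τ → ℝ) (x y : ι → ℝ) :
    ev2 (s32 c s b) t x y = ev3 b t (c 0 • (![x, y] : Fin 2 → ι → ℝ) (s 0))
      (c 1 • (![x, y] : Fin 2 → ι → ℝ) (s 1)) (c 2 • (![x, y] : Fin 2 → ι → ℝ) (s 2)) := by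
  unfold ev2 s32 ev3
  rw [eval_aeval']
  congr 2
  funext a
  rcases a with a | ⟨j, a⟩
  · simp
  · fin_cases j <;> simp

theorem ev_s21 (c : Fin 2 → ℝ) (L : W τ ι 2) (t : τ → ℝ) (x : ι → ℝ) :
    ev1 (s21 c L) t x = ev2 L t (c 0 • x) (c 1 • x) := by
  unfold ev1 s21 ev2
  rw [eval_aeval']
  congr 2
  funext a
  rcases a with a | ⟨j, a⟩
  · simp
  · fin_cases j <;> simp

theorem ev_s11 (c : ℝ) (k : V τ ι) (t : τ → ℝ) (x : ι → ℝ) :
    ev1 (s11 c k) t x = ev1 k t (c • x) := by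
  unfold ev1 s11
  rw [eval_aeval']
  congr 2
  funext a
  rcases a with a | a
  · simp
  · simp

theorem nrm_s32 {c : Fin 3 → ℝ} (hc : ∀ j, |c j| ≤ 1) (s : Fin 3 → Fin 2) (b : W τ ι 3) :
    nrm (s32 c s b) ≤ nrm b := by
  apply nrm_aeval_le_one
  rintro (a | ⟨j, a⟩)
  · simp
  · simp [nrm_C_mul, hc j]

theorem nrm_s21 {c : Fin 2 → ℝ} (hc : ∀ j, |c j| ≤ 1) (b : W τ ι 2) :
    nrm (s21 c b) ≤ nrm b := by
  apply nrm_aeval_le_one
  rintro (a | ⟨j, a⟩)
  · simp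
  · simp [nrm_C_mul, hc j]

theorem nrm_s11 {c : ℝ} (hc : |c| ≤ 1) (b : V τ ι) : nrm (s11 c b) ≤ nrm b := by
  apply nrm_aeval_le_one
  rintro (a | a)
  · simp
  · simp [nrm_C_mul, hc]

theorem ev1_sub (k k' : V τ ι) (t : τ → ℝ) (x : ι → ℝ) :
    ev1 (k - k') t x = ev1 k t x - ev1 k' t x := by simp [ev1]
theorem ev1_add (k k' : V τ ι) (t : τ → ℝ) (x : ι → ℝ) :
    ev1 (k + k') t x = ev1 k t x + ev1 k' t x := by simp [ev1]
theorem ev2_sub (k k' : W τ ι 2) (t : τ → ℝ) (x y : ι → ℝ) :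
    ev2 (k - k') t x y = ev2 k t x y - ev2 k' t x y := by simp [ev2]

/-- label of the pair `(1,4)`: `(x, σ) ↦ b(x,0,σ) - b(0,0,σ)` -/
def lab1 (b : W τ ι 3) : W τ ι 2 := s32 ![1, 0, 1] ![0, 0, 1] b - s32 ![0, 0, 1] ![0, 0, 1] b
/-- label of the pair `(2,4)`: `(y, δ) ↦ b(0,y,δ) - b(0,0,δ)` -/
def lab2 (b : W τ ι 3) : W τ ι 2 := s32 ![0, 1, 1] ![0, 0, 1] b - s32 ![0, 0, 1] ![0, 0, 1] b
/-- label of the pair `(3,4)`: `(z, δ) ↦ b(0,δ,z) - b(0,δ,0)` -/
def lab3 (b : W τ ι 3) : W τ ι 2 := s32 ![0, 1, 1] ![0, 1, 0] b - s32 ![0, 1, 0] ![0, 1, 0] b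

theorem ev_lab1 (b : W τ ι 3) (t : τ → ℝ) (x s : ι → ℝ) :
    ev2 (lab1 b) t x s = ev3 b t x 0 s - ev3 b t 0 0 s := by
  simp [lab1, ev2_sub, ev_s32]
theorem ev_lab2 (b : W τ ι 3) (t : τ → ℝ) (y d : ι → ℝ) :
    ev2 (lab2 b) t y d = ev3 b t 0 y d - ev3 b t 0 0 d := by
  simp [lab2, ev2_sub, ev_s32]
theorem ev_lab3 (b : W τ ι 3) (t : τ → ℝ) (z d : ι → ℝ) :
    ev2 (lab3 b) t z d = ev3 b t 0 d z - ev3 b t 0 d 0 := by
  simp [lab3, ev2_sub, ev_s32]

theorem abs_vec3 {a b c : ℝ} (ha : |a| ≤ 1) (hb : |b| ≤ 1) (hc : |c| ≤ 1) :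
    ∀ j, |(![a, b, c] : Fin 3 → ℝ) j| ≤ 1 := by
  intro j; fin_cases j <;> simpa
theorem abs_vec2 {a b : ℝ} (ha : |a| ≤ 1) (hb : |b| ≤ 1) :
    ∀ j, |(![a, b] : Fin 2 → ℝ) j| ≤ 1 := by
  intro j; fin_cases j <;> simpa

theorem nrm_lab1 (b : W τ ι 3) : nrm (lab1 b) ≤ 2 * nrm b := by
  have h1 := nrm_s32 (abs_vec3 (a := 1) (b := 0) (c := 1) (by simp) (by simp) (by simp)) ![0, 0, 1] b
  have h2 := nrm_s32 (abs_vec3 (a := 0) (b := 0) (c := 1) (by simp) (by simp) (by simp)) ![0, 0, 1] b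
  have := nrm_sub_le (s32 ![1, 0, 1] ![0, 0, 1] b) (s32 ![0, 0, 1] ![0, 0, 1] b)
  unfold lab1; linarith
theorem nrm_lab2 (b : W τ ι 3) : nrm (lab2 b) ≤ 2 * nrm b := by
  have h1 := nrm_s32 (abs_vec3 (a := 0) (b := 1) (c := 1) (by simp) (by simp) (by simp)) ![0, 0, 1] b
  have h2 := nrm_s32 (abs_vec3 (a := 0) (b := 0) (c := 1) (by simp) (by simp) (by simp)) ![0, 0, 1] b
  have := nrm_sub_le (s32 ![0, 1, 1] ![0, 0, 1] b) (s32 ![0, 0, 1] ![0, 0, 1] b)
  unfold lab2; linarith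
theorem nrm_lab3 (b : W τ ι 3) : nrm (lab3 b) ≤ 2 * nrm b := by
  have h1 := nrm_s32 (abs_vec3 (a := 0) (b := 1) (c := 1) (by simp) (by simp) (by simp)) ![0, 1, 0] b
  have h2 := nrm_s32 (abs_vec3 (a := 0) (b := 1) (c := 0) (by simp) (by simp) (by simp)) ![0, 1, 0] b
  have := nrm_sub_le (s32 ![0, 1, 1] ![0, 1, 0] b) (s32 ![0, 1, 0] ![0, 1, 0] b)
  unfold lab3; linarith

def S1 (b : W τ ι 3) : Prop :=
  ∀ t x y z, ev3 b t x y z - ev3 b t 0 y z = ev3 b t x 0 (y + z) - ev3 b t 0 0 (y + z)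
def S2 (b : W τ ι 3) : Prop :=
  ∀ t x y d, ev3 b t x y (x + d) - ev3 b t x 0 (x + d) = ev3 b t 0 y d - ev3 b t 0 0 d
def S3 (b : W τ ι 3) : Prop :=
  ∀ t x z d, ev3 b t x (x + d) z - ev3 b t x (x + d) 0 = ev3 b t 0 d z - ev3 b t 0 d 0

/-- 4-cycle in the fibre `b1 + b4 = b2 + b3` -/
theorem cyc1 {b1 b2 b3 b4 : W τ ι 3} (h : ∀ t x x' y y' s, ev3 b1 t x y (s - y) -
    ev3 b2 t x' y (s - y) + ev3 b3 t x' y' (s - y') - ev3 b4 t x y' (s - y') = 0) :
    S1 b1 ∧ lab1 b1 = lab1 b4 := by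
  have k : ∀ t x y s, ev3 b1 t x y (s - y) - ev3 b1 t 0 y (s - y) =
      ev3 b4 t x 0 s - ev3 b4 t 0 0 s := by
    intro t x y s
    have h1 := h t x 0 y 0 s
    have h2 := h t 0 0 y 0 s
    simp only [sub_zero] at h1 h2
    linarith
  refine ⟨fun t x y z => ?_, ev2_ext fun t x s => ?_⟩
  · have h1 := k t x y (y + z)
    have h2 := k t x 0 (y + z)
    simp only [add_sub_cancel_left, sub_zero] at h1 h2
    linarith
  · have h2 := k t x 0 s
    simp only [sub_zero] at h2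
    rw [ev_lab1, ev_lab1, h2]

/-- 4-cycle in the fibre `b4 - b2 = b3 - b1` -/
theorem cyc2 {b1 b2 b3 b4 : W τ ι 3} (h : ∀ t x x' y y' d, ev3 b1 t x y (x + d) -
    ev3 b2 t x y' (x + d) + ev3 b3 t x' y' (x' + d) - ev3 b4 t x' y (x' + d) = 0) :
    S2 b1 ∧ lab2 b1 = lab2 b4 := by
  have k : ∀ t x y d, ev3 b1 t x y (x + d) - ev3 b1 t x 0 (x + d) =
      ev3 b4 t 0 y d - ev3 b4 t 0 0 d := by
    intro t x y d
    have h1 := h t x 0 y 0 d
    have h2 := h t x 0 0 0 d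
    simp only [zero_add] at h1 h2
    linarith
  refine ⟨fun t x y d => ?_, ev2_ext fun t y d => ?_⟩
  · have h1 := k t x y d
    have h2 := k t 0 y d
    simp only [zero_add] at h2
    linarith
  · have h2 := k t 0 y d
    simp only [zero_add] at h2
    rw [ev_lab2, ev_lab2, h2]

/-- 4-cycle in the fibre `b4 - b3 = b2 - b1` -/
theorem cyc3 {b1 b2 b3 b4 : W τ ι 3} (h : ∀ t x x' z z' d, ev3 b1 t x (x + d) z -
    ev3 b2 t x (x + d) z' + ev3 b3 t x' (x' + d) z' - ev3 b4 t x' (x' + d) z = 0) :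
    S3 b1 ∧ lab3 b1 = lab3 b4 := by
  have k : ∀ t x z d, ev3 b1 t x (x + d) z - ev3 b1 t x (x + d) 0 =
      ev3 b4 t 0 d z - ev3 b4 t 0 d 0 := by
    intro t x z d
    have h1 := h t x 0 z 0 d
    have h2 := h t x 0 0 0 d
    simp only [zero_add] at h1 h2
    linarith
  refine ⟨fun t x z d => ?_, ev2_ext fun t z d => ?_⟩
  · have h1 := k t x z d
    have h2 := k t 0 z d
    simp only [zero_add] at h2
    linarith
  · have h2 := k t 0 z d
    simp only [zero_add] at h2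
    rw [ev_lab3, ev_lab3, h2]

/-! ### scaling -/

/-- weight `0` on the fixed, `1` on the moving variables -/
def wt {ρ : Type} : τ ⊕ ρ → ℕ := Sum.elim (fun _ => 0) (fun _ => 1)

def scl {ρ : Type} (c : ℝ) (p : MvPolynomial (τ ⊕ ρ) ℝ) : MvPolynomial (τ ⊕ ρ) ℝ :=
  aeval (fun v => C (c ^ wt v) * X v) p

theorem scl_monomial {ρ : Type} (c : ℝ) (m : (τ ⊕ ρ) →₀ ℕ) (a : ℝ) :
    scl c (monomial m a) = monomial m (c ^ Finsupp.weight wt m * a) := by
  unfold scl
  rw [aeval_monomial, monomial_eq, Finsupp.weight_apply, Finsupp.sum, Finsupp.prod, Finsupp.prod]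
  simp only [mul_pow, prod_mul_distrib, ← C_pow, ← pow_mul, algebraMap_eq, ← map_prod,
    prod_pow_eq_pow_sum, smul_eq_mul, map_mul]
  have : ∑ x ∈ m.support, wt x * m x = ∑ x ∈ m.support, m x * wt x :=
    sum_congr rfl fun _ _ => mul_comm _ _
  rw [this]; ring

theorem coeff_scl {ρ : Type} (c : ℝ) (p : MvPolynomial (τ ⊕ ρ) ℝ) (m : (τ ⊕ ρ) →₀ ℕ) :
    coeff m (scl c p) = c ^ Finsupp.weight wt m * coeff m p := by
  classical
  induction p using MvPolynomial.induction_on' with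
  | monomial u a =>
    rw [scl_monomial, coeff_monomial, coeff_monomial]
    split_ifs with h
    · rw [h]
    · simp
  | add p q hp hq =>
    have : scl c (p + q) = scl c p + scl c q := by simp [scl]
    rw [this, coeff_add, coeff_add, hp, hq]; ring

theorem eval_scl {ρ : Type} (c : ℝ) (p : MvPolynomial (τ ⊕ ρ) ℝ) (t : τ → ℝ) (x : ρ → ℝ) :
    eval (Sum.elim t x) (scl c p) = eval (Sum.elim t (fun a => c * x a)) p := by
  unfold scl
  rw [eval_aeval']
  congr 2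
  funext a
  rcases a with a | a <;> simp [wt]

/-- only monomials of degree one in the moving variables -/
def Lin {ρ : Type} (p : MvPolynomial (τ ⊕ ρ) ℝ) : Prop :=
  ∀ m, Finsupp.weight wt m ≠ 1 → coeff m p = 0

theorem wt_zero {ρ : Type} {m : (τ ⊕ ρ) →₀ ℕ} (h : Finsupp.weight wt m = 0) (a : ρ) :
    m (Sum.inr a) = 0 := by
  by_contra hne
  have hm : Sum.inr a ∈ m.support := Finsupp.mem_support_iff.2 hne
  rw [Finsupp.weight_apply, Finsupp.sum, sum_eq_zero_iff] at h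
  have := h _ hm
  simp [wt] at this
  exact hne this

theorem wt_eq_zero {ρ : Type} {m : (τ ⊕ ρ) →₀ ℕ} (h : ∀ a, m (Sum.inr a) = 0) :
    Finsupp.weight wt m = 0 := by
  rw [Finsupp.weight_apply, Finsupp.sum, sum_eq_zero_iff]
  rintro (v | v) _
  · simp [wt]
  · simp [h v]

theorem eval_wt_zero {ρ : Type} {m : (τ ⊕ ρ) →₀ ℕ} (h : Finsupp.weight wt m = 0) (c : ℝ)
    (t : τ → ℝ) (x y : ρ → ℝ) :
    eval (Sum.elim t x) (monomial m c) = eval (Sum.elim t y) (monomial m c) := by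
  rw [eval_monomial, eval_monomial]
  congr 1
  apply Finsupp.prod_congr
  rintro (v | v) hv
  · rfl
  · exact absurd (wt_zero h v) (Finsupp.mem_support_iff.1 hv)

theorem Lin.eval_add {ρ : Type} {p : MvPolynomial (τ ⊕ ρ) ℝ} (hp : Lin p) (t : τ → ℝ)
    (x y : ρ → ℝ) :
    eval (Sum.elim t (x + y)) p = eval (Sum.elim t x) p + eval (Sum.elim t y) p := by
  classical
  rw [p.as_sum, map_sum, map_sum, map_sum, ← sum_add_distrib]
  refine sum_congr rfl fun m hm => ?_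
  have h1 : Finsupp.weight wt m = 1 := by
    by_contra h
    exact (mem_support_iff.1 hm) (hp m h)
  obtain ⟨a, ha⟩ : ∃ a, m (Sum.inr a) ≠ 0 := by
    by_contra h
    push Not at h
    rw [wt_eq_zero h] at h1
    exact zero_ne_one h1
  have hle : Finsupp.single (Sum.inr a : τ ⊕ ρ) 1 ≤ m :=
    Finsupp.single_le_iff.2 (Nat.one_le_iff_ne_zero.2 ha)
  obtain ⟨m0, rfl⟩ := exists_add_of_le hle
  have h0 : Finsupp.weight wt m0 = 0 := by
    rw [map_add, Finsupp.weight_single] at h1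
    simp only [wt, Sum.elim_inr, smul_eq_mul, mul_one] at h1
    simp only [wt]
    omega
  have e : ∀ c : ℝ, (monomial (Finsupp.single (Sum.inr a : τ ⊕ ρ) 1 + m0) c :
      MvPolynomial (τ ⊕ ρ) ℝ) = X (Sum.inr a) * monomial m0 c := by
    intro c
    rw [X, monomial_mul, one_mul]
  rw [e, map_mul, map_mul, map_mul, eval_X, eval_X, eval_X, eval_wt_zero h0 _ t (x + y) x,
    eval_wt_zero h0 _ t y x]
  simp only [Sum.elim_inr, Pi.add_apply]
  ring

theorem two_pow_ne {n : ℕ} (h : n ≠ 1) : (2 : ℝ) ^ n - 2 ≠ 0 := by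
  rcases n with _ | _ | n
  · norm_num
  · exact absurd rfl h
  · have : (1 : ℝ) ≤ 2 ^ n := one_le_pow₀ (by norm_num)
    rw [pow_succ, pow_succ]
    nlinarith

theorem one_le_abs_two_pow {n : ℕ} (h : n ≠ 1) : 1 ≤ |(2 : ℝ) ^ n - 2| := by
  rcases n with _ | _ | n
  · norm_num
  · exact absurd rfl h
  · have : (1 : ℝ) ≤ 2 ^ n := one_le_pow₀ (by norm_num)
    rw [pow_succ, pow_succ]
    exact le_trans (by nlinarith) (le_abs_self _)

theorem lin_of_scl {ρ : Type} {p : MvPolynomial (τ ⊕ ρ) ℝ} (h : scl 2 p = C 2 * p) : Lin p := by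
  intro m hm
  have := congrArg (coeff m) h
  rw [coeff_scl, coeff_C_mul, ← sub_eq_zero, ← sub_mul] at this
  exact (mul_eq_zero.1 this).resolve_left (two_pow_ne hm)

/-- the solution `k` of `k(2w) - 2 k(w) = Δ(w)` without linear part -/
def prim {ρ : Type} (d : MvPolynomial (τ ⊕ ρ) ℝ) : MvPolynomial (τ ⊕ ρ) ℝ :=
  ∑ m ∈ d.support, monomial m (coeff m d / (2 ^ Finsupp.weight wt m - 2))

theorem coeff_prim {ρ : Type} (d : MvPolynomial (τ ⊕ ρ) ℝ) (m : (τ ⊕ ρ) →₀ ℕ) :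
    coeff m (prim d) = coeff m d / (2 ^ Finsupp.weight wt m - 2) := by
  classical
  unfold prim
  rw [coeff_sum]
  simp only [coeff_monomial]
  rw [sum_ite_eq']
  split_ifs with h
  · rfl
  · rw [notMem_support_iff.1 h, zero_div]

theorem nrm_prim {ρ : Type} (d : MvPolynomial (τ ⊕ ρ) ℝ) : nrm (prim d) ≤ nrm d := by
  apply nrm_le_of_coeff
  intro m
  rw [coeff_prim]
  by_cases h : Finsupp.weight wt m = 1
  · simp [h]
  · rw [abs_div]
    exact div_le_self (abs_nonneg _) (one_le_abs_two_pow h)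

/-- `prim` has no monomial of moving degree one, and its support is inside that of `d` -/
theorem coeff_prim_one {ρ : Type} (d : MvPolynomial (τ ⊕ ρ) ℝ) {m : (τ ⊕ ρ) →₀ ℕ}
    (h : Finsupp.weight wt m = 1) : coeff m (prim d) = 0 := by
  simp [coeff_prim, h]

theorem support_prim {ρ : Type} (d : MvPolynomial (τ ⊕ ρ) ℝ) : (prim d).support ⊆ d.support := by
  intro m hm
  rw [mem_support_iff] at hm ⊢
  intro h
  exact hm (by rw [coeff_prim, h, zero_div])

theorem lin_prim {ρ : Type} (d : MvPolynomial (τ ⊕ ρ) ℝ) :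
    Lin (scl 2 (prim d) - C 2 * prim d - d) := by
  intro m hm
  rw [coeff_sub, coeff_sub, coeff_scl, coeff_C_mul, coeff_prim, ← sub_mul,
    mul_div_cancel₀ _ (two_pow_ne hm), sub_self]

/-! ### the cocycle -/

/-- substitute a combination of the two copies -/
def s12 (c : Fin 2 → ℝ) (k : V τ ι) : W τ ι 2 :=
  aeval (Sum.elim (fun a => X (Sum.inl a))
    (fun a => C (c 0) * X (Sum.inr (0, a)) + C (c 1) * X (Sum.inr (1, a)))) k

theorem ev_s12 (c : Fin 2 → ℝ) (k : V τ ι) (t : τ → ℝ) (x y : ι → ℝ) :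
    ev2 (s12 c k) t x y = ev1 k t (c 0 • x + c 1 • y) := by
  unfold ev1 s12 ev2
  rw [eval_aeval']
  congr 2
  funext a
  rcases a with a | a
  · simp
  · simp

theorem ev2_add (k k' : W τ ι 2) (t : τ → ℝ) (x y : ι → ℝ) :
    ev2 (k + k') t x y = ev2 k t x y + ev2 k' t x y := by simp [ev2]

theorem ev2_scl (c : ℝ) (k : W τ ι 2) (t : τ → ℝ) (x y : ι → ℝ) :
    ev2 (scl c k) t x y = ev2 k t (c • x) (c • y) := by
  unfold ev2
  rw [eval_scl]
  congr 2
  funext a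
  rcases a with a | ⟨j, a⟩
  · rfl
  · fin_cases j <;> rfl

theorem ev1_scl (c : ℝ) (k : V τ ι) (t : τ → ℝ) (x : ι → ℝ) :
    ev1 (scl c k) t x = ev1 k t (c • x) := by
  unfold ev1
  rw [eval_scl]
  rfl

theorem Lin.ev1_add {p : V τ ι} (hp : Lin p) (t : τ → ℝ) (x y : ι → ℝ) :
    ev1 p t (x + y) = ev1 p t x + ev1 p t y := hp.eval_add t x y

theorem Lin.ev2_split {p : W τ ι 2} (hp : Lin p) (t : τ → ℝ) (x y : ι → ℝ) :
    ev2 p t x y = ev2 p t x 0 + ev2 p t 0 y := by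
  unfold ev2
  rw [← hp.eval_add]
  congr 2
  funext a
  rcases a with a | ⟨j, a⟩
  · rfl
  · fin_cases j <;> simp

/-- a symmetric normalised polynomial cocycle is the coboundary of `prim` of its diagonal -/
theorem cobound {M : W τ ι 2} {d : V τ ι} (hd : ∀ t w, ev1 d t w = ev2 M t w w)
    (h0 : ∀ t y, ev2 M t y 0 = 0) (hs : ∀ t y z, ev2 M t y z = ev2 M t z y)
    (hc : ∀ t a b c, ev2 M t a b + ev2 M t (a + b) c = ev2 M t b c + ev2 M t a (b + c)) :
    (∀ t, ev1 (prim d) t 0 = 0) ∧ ∀ t y z,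
      ev2 M t y z = ev1 (prim d) t (y + z) - ev1 (prim d) t y - ev1 (prim d) t z := by
  set k := prim d with hk
  have hl := lin_prim d
  rw [← hk] at hl
  set l := scl 2 k - C 2 * k - d with hldef
  have el : ∀ t w, ev1 l t w = ev1 k t ((2 : ℝ) • w) - 2 * ev1 k t w - ev2 M t w w := by
    intro t w
    rw [hldef, ev1_sub, ev1_sub, ev1_scl, hd]
    simp [ev1]
  have k0 : ∀ t, ev1 k t 0 = 0 := by
    intro t
    have h1 := hl.ev1_add t 0 0
    have h2 := el t 0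
    rw [add_zero] at h1
    rw [smul_zero, h0] at h2
    linarith
  refine ⟨k0, ?_⟩
  set N := M - (s12 ![1, 1] k - s12 ![1, 0] k - s12 ![0, 1] k) with hN
  have eN : ∀ t y z, ev2 N t y z =
      ev2 M t y z - (ev1 k t (y + z) - ev1 k t y - ev1 k t z) := by
    intro t y z
    simp [hN, ev2_sub, ev_s12]
  have hN2 : scl 2 N = C 2 * N := by
    apply ev2_ext
    intro t y z
    have e2 : ev2 (C 2 * N) t y z = 2 * ev2 N t y z := by simp [ev2]
    rw [ev2_scl, e2, eN, eN, ← smul_add]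
    have a1 := hc t y y (z + z)
    have a2 := hc t y z z
    have a3 := hc t y z (y + z)
    have a4 := hs t (y + z) z
    have e3 : z + (y + z) = y + (z + z) := by abel
    rw [e3] at a3
    have b1 := el t (y + z)
    have b2 := el t y
    have b3 := el t z
    have b4 := hl.ev1_add t y z
    rw [two_smul ℝ y, two_smul ℝ z] at *
    linarith
  intro t y z
  have h1 := (lin_of_scl hN2).ev2_split t y z
  rw [eN, eN, eN, h0, hs t 0 z, h0, add_zero, zero_add, k0] at h1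
  linarith

/-- the diagonal of the cocycle, read off a label -/
def dg (e : ℝ) (L : W τ ι 2) : V τ ι := s21 ![e, 1] L - s21 ![e, 0] L
/-- `k4` from the label of the pair `(1,4)` -/
def k41 (L : W τ ι 2) : V τ ι := prim (dg (-1) L)
/-- `k4` from the label of the pair `(2,4)` or `(3,4)` -/
def k42 (L : W τ ι 2) : V τ ι := prim (dg 1 L)
/-- `k1` from the label of the pair `(1,4)` -/
def k1 (L : W τ ι 2) : V τ ι := s21 ![1, 0] L - s11 (-1) (k41 L)
/-- `k2`, `k3` from the label of the pair `(2,4)`, `(3,4)` -/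
def k2 (L : W τ ι 2) : V τ ι := s21 ![1, 0] L - k42 L

theorem nrm_dg {e : ℝ} (he : |e| ≤ 1) (L : W τ ι 2) : nrm (dg e L) ≤ 2 * nrm L := by
  have h1 := nrm_s21 (abs_vec2 (a := e) (b := 1) he (by simp)) L
  have h2 := nrm_s21 (abs_vec2 (a := e) (b := 0) he (by simp)) L
  have := nrm_sub_le (s21 ![e, 1] L) (s21 ![e, 0] L)
  unfold dg; linarith
theorem nrm_k41 (L : W τ ι 2) : nrm (k41 L) ≤ 2 * nrm L :=
  (nrm_prim _).trans (nrm_dg (by simp) L)
theorem nrm_k42 (L : W τ ι 2) : nrm (k42 L) ≤ 2 * nrm L :=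
  (nrm_prim _).trans (nrm_dg (by simp) L)
theorem nrm_k1 (L : W τ ι 2) : nrm (k1 L) ≤ 3 * nrm L := by
  have h1 := nrm_s21 (abs_vec2 (a := 1) (b := 0) (by simp) (by simp)) L
  have h2 := nrm_s11 (c := -1) (by simp) (k41 L)
  have h3 := nrm_k41 L
  have := nrm_sub_le (s21 ![1, 0] L) (s11 (-1) (k41 L))
  unfold k1; linarith
theorem nrm_k2 (L : W τ ι 2) : nrm (k2 L) ≤ 3 * nrm L := by
  have h1 := nrm_s21 (abs_vec2 (a := 1) (b := 0) (by simp) (by simp)) L
  have h3 := nrm_k42 L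
  have := nrm_sub_le (s21 ![1, 0] L) (k42 L)
  unfold k2; linarith

/-- the cocycle `M(y,z) = b(0,y,z) - b(0,y,0) - b(0,0,z) + b(0,0,0)` -/
def coc (b : W τ ι 3) : W τ ι 2 :=
  s32 ![0, 1, 1] ![0, 0, 1] b - s32 ![0, 1, 0] ![0, 0, 1] b - s32 ![0, 0, 1] ![0, 0, 1] b +
    s32 ![0, 0, 0] ![0, 0, 1] b

theorem ev_coc (b : W τ ι 3) (t : τ → ℝ) (y z : ι → ℝ) : ev2 (coc b) t y z =
    ev3 b t 0 y z - ev3 b t 0 y 0 - ev3 b t 0 0 z + ev3 b t 0 0 0 := by
  simp [coc, ev2_add, ev2_sub, ev_s32]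

/-- **ALG**: `b = k1(x) + k2(y) + k3(z) + k4(y + z - x) + b(0,0,0)`, every `k` a function of one
label, and the three readings of `k4` agree. -/
theorem alg {b : W τ ι 3} (h1 : S1 b) (h2 : S2 b) (h3 : S3 b) :
    k41 (lab1 b) = k42 (lab2 b) ∧ k42 (lab2 b) = k42 (lab3 b) ∧
    (∀ t, ev1 (k42 (lab2 b)) t 0 = 0) ∧
    ∀ t x y z, ev3 b t x y z = ev1 (k1 (lab1 b)) t x + ev1 (k2 (lab2 b)) t y +
      ev1 (k2 (lab3 b)) t z + ev1 (k42 (lab2 b)) t (y + z - x) + ev3 b t 0 0 0 := by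
  have fA : ∀ t a s, ev3 b t (-a) 0 s - ev3 b t 0 0 s - ev3 b t (-a) 0 0 + ev3 b t 0 0 0 =
      ev2 (coc b) t a s := by
    intro t a s
    have := h3 t (-a) s a
    rw [neg_add_cancel] at this
    rw [ev_coc]; linarith
  have hs : ∀ t y z, ev2 (coc b) t y z = ev2 (coc b) t z y := by
    intro t a s
    have e1 := h2 t (-a) s a
    have e2 := h1 t (-a) s 0
    rw [neg_add_cancel] at e1
    rw [add_zero] at e2
    rw [← fA, ev_coc]; linarith
  have h0 : ∀ t y, ev2 (coc b) t y 0 = 0 := by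
    intro t y; rw [ev_coc]; ring
  have hc : ∀ t a y z, ev2 (coc b) t a y + ev2 (coc b) t (a + y) z =
      ev2 (coc b) t y z + ev2 (coc b) t a (y + z) := by
    intro t a y z
    have e1 := h2 t (-a) z (a + y)
    have e0 : -a + (a + y) = y := by abel
    rw [e0] at e1
    have e2 := h1 t (-a) z y
    have e3 := fA t a (z + y)
    have e4 := fA t a y
    have e5 := hs t (a + y) z
    have e6 := hs t y z
    have e7 := ev_coc b t z (a + y)
    have e8 := ev_coc b t z y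
    rw [add_comm y z]
    linarith
  have d2 : ∀ t w, ev1 (dg 1 (lab2 b)) t w = ev2 (coc b) t w w := by
    intro t w
    simp only [dg, ev1_sub, ev_s21, ev_lab2, ev_coc, Matrix.cons_val_zero, Matrix.cons_val_one,
      one_smul, zero_smul]
    ring
  have d3 : ∀ t w, ev1 (dg 1 (lab3 b)) t w = ev2 (coc b) t w w := by
    intro t w
    simp only [dg, ev1_sub, ev_s21, ev_lab3, ev_coc, Matrix.cons_val_zero, Matrix.cons_val_one,
      one_smul, zero_smul]
    ring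
  have d1 : ∀ t w, ev1 (dg (-1) (lab1 b)) t w = ev2 (coc b) t w w := by
    intro t w
    simp only [dg, ev1_sub, ev_s21, ev_lab1, Matrix.cons_val_zero, Matrix.cons_val_one,
      one_smul, zero_smul, neg_smul]
    rw [← fA]; ring
  have q12 : k41 (lab1 b) = k42 (lab2 b) := by
    unfold k41 k42
    rw [ev1_ext fun t w => (d1 t w).trans (d2 t w).symm]
  have q23 : k42 (lab2 b) = k42 (lab3 b) := by
    unfold k42
    rw [ev1_ext fun t w => (d2 t w).trans (d3 t w).symm]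
  obtain ⟨c0, c1⟩ := cobound d2 h0 hs hc
  refine ⟨q12, q23, c0, fun t x y z => ?_⟩
  have e1 := h1 t x y z
  have e2 := fA t (-x) (y + z)
  rw [neg_neg] at e2
  have e3 := c1 t (-x) (y + z)
  have e4 := c1 t y z
  have e5 := ev_coc b t y z
  have e6 : -x + (y + z) = y + z - x := by abel
  rw [e6] at e3
  simp only [k1, k2, ev1_sub, ev_s21, ev_s11, ev_lab1, ev_lab2, ev_lab3, Matrix.cons_val_zero,
    Matrix.cons_val_one, one_smul, zero_smul, neg_smul, q12, ← q23]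
  unfold k42
  linarith

end

end Vale.Agent.P057T.One
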