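import Vale.Agent.P057T.OneH31
import Mathlib.Algebra.MvPolynomial.Division

/-!
Step (1*): the extraction (c) of note 4537, and the gradings of the labels and of `k1 .. k4`.
-/

namespace Vale.Agent.P057T.One

open MvPolynomial Finset Vale.Agent.P057T.L1

noncomputable section

variable {τ ι : Type}

/-! ### gradings -/

/-- every monomial has its weight in `S` -/
def Sp {σ M : Type} [AddCommMonoid M] (w : σ → M) (S : Set M) (p : MvPolynomial σ ℝ) : Prop :=
  ∀ m, coeff m p ≠ 0 → Finsupp.weight w m ∈ S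

section
variable {σ ρ M : Type} [AddCommMonoid M] {w : σ → M} {S : Set M} {p q : MvPolynomial σ ℝ}

theorem Sp.add (hp : Sp w S p) (hq : Sp w S q) : Sp w S (p + q) := by
  intro m hm
  by_cases h : coeff m p = 0
  · rw [coeff_add, h, zero_add] at hm
    exact hq m hm
  · exact hp m h

theorem Sp.neg (hp : Sp w S p) : Sp w S (-p) := by
  intro m hm
  rw [coeff_neg, neg_ne_zero] at hm
  exact hp m hm

theorem Sp.sub (hp : Sp w S p) (hq : Sp w S q) : Sp w S (p - q) := by
  rw [sub_eq_add_neg]; exact hp.add hq.neg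

theorem Sp.of_support (hq : Sp w S q) (h : p.support ⊆ q.support) : Sp w S p :=
  fun m hm => hq m (mem_support_iff.1 (h (mem_support_iff.2 hm)))

/-- a graded substitution keeps the weights -/
theorem Sp.aeval {w' : ρ → M} (hp : Sp w S p) {g : σ → MvPolynomial ρ ℝ}
    (hg : ∀ v, IsWeightedHomogeneous w' (g v) (w v)) : Sp w' S (aeval g p) := by
  classical
  intro m hm
  rw [p.as_sum, map_sum, coeff_sum] at hm
  obtain ⟨u, hu, hne⟩ := exists_ne_zero_of_sum_ne_zero hm
  have hh : IsWeightedHomogeneous w' (MvPolynomial.aeval g (monomial u (coeff u p)))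
      (Finsupp.weight w u) := by
    rw [aeval_monomial, algebraMap_eq, Finsupp.weight_apply, Finsupp.sum, Finsupp.prod]
    exact (IsWeightedHomogeneous.prod _ _ _ fun v _ => (hg v).pow (u v)).C_mul _
  rw [hh hne]
  exact hp u (mem_support_iff.1 hu)

end

/-- the weight of a copy is the weight of the variable -/
def wn {M : Type} (w : τ ⊕ ι → M) (n : ℕ) : τ ⊕ (Fin n × ι) → M :=
  Sum.elim (fun a => w (Sum.inl a)) (fun p => w (Sum.inr p.2))

section
variable {M : Type} [AddCommMonoid M] {w : τ ⊕ ι → M} {S : Set M}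

theorem Sp.s32 {b : W τ ι 3} (h : Sp (wn w 3) S b) (c : Fin 3 → ℝ) (s : Fin 3 → Fin 2) :
    Sp (wn w 2) S (s32 c s b) := by
  apply h.aeval
  rintro (a | ⟨j, a⟩)
  · exact isWeightedHomogeneous_X ℝ (wn w 2) (Sum.inl a)
  · exact (isWeightedHomogeneous_X ℝ (wn w 2) (Sum.inr (s j, a))).C_mul _

theorem Sp.s21 {b : W τ ι 2} (h : Sp (wn w 2) S b) (c : Fin 2 → ℝ) : Sp w S (s21 c b) := by
  apply h.aeval
  rintro (a | ⟨j, a⟩)
  · exact isWeightedHomogeneous_X ℝ w (Sum.inl a)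
  · exact (isWeightedHomogeneous_X ℝ w (Sum.inr a)).C_mul _

theorem Sp.s11 {b : V τ ι} (h : Sp w S b) (c : ℝ) : Sp w S (s11 c b) := by
  apply h.aeval
  rintro (a | a)
  · exact isWeightedHomogeneous_X ℝ w (Sum.inl a)
  · exact (isWeightedHomogeneous_X ℝ w (Sum.inr a)).C_mul _

theorem Sp.lab1 {b : W τ ι 3} (h : Sp (wn w 3) S b) : Sp (wn w 2) S (lab1 b) :=
  (h.s32 _ _).sub (h.s32 _ _)
theorem Sp.lab2 {b : W τ ι 3} (h : Sp (wn w 3) S b) : Sp (wn w 2) S (lab2 b) :=
  (h.s32 _ _).sub (h.s32 _ _)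
theorem Sp.lab3 {b : W τ ι 3} (h : Sp (wn w 3) S b) : Sp (wn w 2) S (lab3 b) :=
  (h.s32 _ _).sub (h.s32 _ _)
theorem Sp.dg {L : W τ ι 2} (h : Sp (wn w 2) S L) (e : ℝ) : Sp w S (dg e L) :=
  (h.s21 _).sub (h.s21 _)
theorem Sp.k41 {L : W τ ι 2} (h : Sp (wn w 2) S L) : Sp w S (k41 L) :=
  (h.dg _).of_support (support_prim _)
theorem Sp.k42 {L : W τ ι 2} (h : Sp (wn w 2) S L) : Sp w S (k42 L) :=
  (h.dg _).of_support (support_prim _)
theorem Sp.k1 {L : W τ ι 2} (h : Sp (wn w 2) S L) : Sp w S (k1 L) :=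
  (h.s21 _).sub (h.k41.s11 _)
theorem Sp.k2 {L : W τ ι 2} (h : Sp (wn w 2) S L) : Sp w S (k2 L) :=
  (h.s21 _).sub h.k42

end

/-! ### extraction -/

/-- the part of degree one in the moving variables -/
def lin (p : V τ ι) : V τ ι := weightedHomogeneousComponent wt 1 p

theorem coeff_lin (p : V τ ι) (m : (τ ⊕ ι) →₀ ℕ) :
    coeff m (lin p) = if Finsupp.weight wt m = 1 then coeff m p else 0 := by
  unfold lin
  rw [coeff_weightedHomogeneousComponent]

theorem lin_lin (p : V τ ι) : Lin (lin p) := fun m hm => by rw [coeff_lin, if_neg hm]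

theorem support_lin (p : V τ ι) : (lin p).support ⊆ p.support := by
  intro m hm
  rw [mem_support_iff] at hm ⊢
  intro h
  exact hm (by rw [coeff_lin, h, ite_self])

theorem ev1_scl0 (p : V τ ι) (t : τ → ℝ) (x : ι → ℝ) : ev1 (scl 0 p) t x = ev1 p t 0 := by
  rw [ev1_scl, zero_smul]

theorem support_scl0 (p : V τ ι) : (scl 0 p).support ⊆ p.support := by
  intro m hm
  rw [mem_support_iff] at hm ⊢
  intro h
  exact hm (by rw [coeff_scl, h, mul_zero])

/-- integral affine substitution of the three copies -/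
def s31 (c : Fin 3 → ℤ) (v : Fin 3 → ι → ℤ) (I : W τ ι 3) : V τ ι :=
  aeval (Sum.elim (fun a => X (Sum.inl a))
    (fun p => C (c p.1 : ℝ) * X (Sum.inr p.2) + C (v p.1 p.2 : ℝ))) I

theorem isInt_s31 (c : Fin 3 → ℤ) (v : Fin 3 → ι → ℤ) {I : W τ ι 3} (hI : IsInt I) :
    IsInt (s31 c v I) := by
  apply hI.aeval
  rintro (a | ⟨j, a⟩)
  · exact isInt_X _
  · exact ((isInt_C _).mul (isInt_X _)).add (isInt_C _)

theorem ev_s31 (c : Fin 3 → ℤ) (v : Fin 3 → ι → ℤ) (I : W τ ι 3) (t : τ → ℝ) (x : ι → ℝ) :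
    ev1 (s31 c v I) t x = ev3 I t (fun a => c 0 * x a + v 0 a) (fun a => c 1 * x a + v 1 a)
      (fun a => c 2 * x a + v 2 a) := by
  unfold ev1 s31 ev3
  rw [eval_aeval']
  congr 2
  funext a
  rcases a with a | ⟨j, a⟩
  · simp
  · fin_cases j <;> simp

theorem isInt_s11_neg {p : V τ ι} (hp : IsInt p) : IsInt (s11 (-1) p) := by
  apply hp.aeval
  rintro (a | a)
  · exact isInt_X _
  · have := (isInt_C (σ := τ ⊕ ι) (-1)).mul (isInt_X (Sum.inr a))
    simpa using this

theorem ev1_free {p : V τ ι} {a : ι} (h : ∀ m, coeff m p ≠ 0 → m (Sum.inr a) = 0) (t : τ → ℝ)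
    {x y : ι → ℝ} (hxy : ∀ a', a' ≠ a → x a' = y a') : ev1 p t x = ev1 p t y := by
  unfold ev1
  rw [eval_eq, eval_eq]
  refine sum_congr rfl fun m hm => ?_
  congr 1
  refine prod_congr rfl ?_
  rintro (v | v) hv
  · rfl
  · have : v ≠ a := by
      rintro rfl
      exact Finsupp.mem_support_iff.1 hv (h m (mem_support_iff.1 hm))
    simp [hxy v this]

theorem ev1_shift [DecidableEq ι] {p : V τ ι} {a : ι}
    (h : ∀ m, coeff m p ≠ 0 → m (Sum.inr a) ≤ 1) (t : τ → ℝ) (x : ι → ℝ) :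
    ev1 p t (x + Pi.single a 1) - ev1 p t x =
      ev1 (p.divMonomial (Finsupp.single (Sum.inr a) 1)) t x := by
  set q := p.divMonomial (Finsupp.single (Sum.inr a) 1) with hq
  set r := p.modMonomial (Finsupp.single (Sum.inr a) 1) with hr
  have e : p = X (Sum.inr a) * q + r := (divMonomial_add_modMonomial_single p _).symm
  have hxy : ∀ a', a' ≠ a → (x + Pi.single a 1 : ι → ℝ) a' = x a' := by
    intro a' ha'
    simp [ha']
  have fq : ev1 q t (x + Pi.single a 1) = ev1 q t x := by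
    refine ev1_free (a := a) (fun m hm => ?_) t hxy
    rw [hq, coeff_divMonomial] at hm
    have := h _ hm
    simp only [Finsupp.add_apply, Finsupp.single_eq_same] at this
    omega
  have fr : ev1 r t (x + Pi.single a 1) = ev1 r t x := by
    refine ev1_free (a := a) (fun m hm => ?_) t hxy
    by_contra hne
    exact hm (coeff_modMonomial_of_le p
      (Finsupp.single_le_iff.2 (Nat.one_le_iff_ne_zero.2 hne)))
  have e1 : ∀ y, ev1 p t y = y a * ev1 q t y + ev1 r t y := by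
    intro y
    conv_lhs => rw [e]
    simp [ev1]
  rw [e1, e1 x, fq, fr]
  simp only [Pi.add_apply, Pi.single_eq_same]
  ring

/-- **EXTRACTION (c)** of note 4537. -/
theorem extract {p1 p2 p3 p0 : V τ ι} {I : W τ ι 3} (hI : IsInt I) {c : (τ → ℝ) → ℝ}
    (h : ∀ t x y z, ev1 p1 t x - ev1 p2 t y - ev1 p3 t z + ev1 p0 t (y + z - x) =
      ev3 I t x y z + c t)
    (hsq : ∀ m, coeff m p0 ≠ 0 → ∀ a, m (Sum.inr a) ≤ 1) :
    IsInt (p0 - scl 0 p0 - lin p0) ∧ IsInt (p1 - scl 0 p1 - lin p0) ∧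
      IsInt (p2 - scl 0 p2 - lin p0) ∧ IsInt (p3 - scl 0 p3 - lin p0) ∧
      ∃ I0 : V τ ι, IsInt I0 ∧ ∀ t x,
        ev1 (scl 0 p1 - scl 0 p2 - scl 0 p3 + scl 0 p0) t x = ev1 I0 t x + c t := by
  classical
  have z0 : (fun _ : ι => (0 : ℝ)) = 0 := rfl
  have e0 : ∀ t x, ev1 (s31 ![0, 0, 0] 0 I) t x = ev3 I t 0 0 0 := by
    intro t x; simp [ev_s31, z0]
  have e1 : ∀ t x, ev1 (s31 ![1, 0, 0] 0 I) t x = ev3 I t x 0 0 := by
    intro t x; simp [ev_s31, z0]
  have e2 : ∀ t x, ev1 (s31 ![0, 1, 0] 0 I) t x = ev3 I t 0 x 0 := by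
    intro t x; simp [ev_s31, z0]
  have e3 : ∀ t x, ev1 (s31 ![0, 0, 1] 0 I) t x = ev3 I t 0 0 x := by
    intro t x; simp [ev_s31, z0]
  have H0 : IsInt (p0 - scl 0 p0 - lin p0) := by
    intro m
    rw [coeff_sub, coeff_sub, coeff_scl, coeff_lin]
    by_cases w0 : Finsupp.weight wt m = 0
    · exact ⟨0, by simp [w0]⟩
    by_cases w1 : Finsupp.weight wt m = 1
    · exact ⟨0, by simp [w1]⟩
    rw [if_neg w1, zero_pow w0, zero_mul, sub_zero, sub_zero]
    obtain ⟨a, ha⟩ : ∃ a, m (Sum.inr a) ≠ 0 := by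
      by_contra hh
      push Not at hh
      exact w0 (wt_eq_zero hh)
    obtain ⟨m0, rfl⟩ := exists_add_of_le
      (Finsupp.single_le_iff.2 (Nat.one_le_iff_ne_zero.2 ha) :
        Finsupp.single (Sum.inr a : τ ⊕ ι) 1 ≤ m)
    have w2 : Finsupp.weight wt m0 ≠ 0 := by
      intro hz
      apply w1
      rw [map_add, Finsupp.weight_single, hz]
      simp [wt]
    set q := p0.divMonomial (Finsupp.single (Sum.inr a) 1) with hq
    set J := s31 ![0, 0, 1] ![0, Pi.single a 1, 0] I - s31 ![0, 0, 1] 0 I with hJ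
    have hJi : IsInt J := (isInt_s31 _ _ hI).sub (isInt_s31 _ _ hI)
    have e4 : ∀ t x, ev1 (s31 ![0, 0, 1] ![0, Pi.single a 1, 0] I) t x =
        ev3 I t 0 (Pi.single a 1) x := by
      intro t x
      rw [ev_s31]
      congr 1
      · funext a'; simp
      · funext a'; by_cases ha' : a' = a <;> simp [ha']
      · funext a'; simp
    have e5 : ∀ t x, ev1 (q - J) t x = ev1 p2 t (Pi.single a 1) - ev1 p2 t 0 := by
      intro t x
      have a1 := h t 0 (Pi.single a 1) x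
      have a2 := h t 0 0 x
      have a3 := ev1_shift (fun m hm => hsq m hm a) t x
      rw [sub_zero, add_comm (Pi.single a 1 : ι → ℝ) x] at a1
      rw [sub_zero, zero_add] at a2
      rw [ev1_sub, hJ, ev1_sub, e4, e3, hq, ← a3]
      linarith
    have e6 : scl 0 (q - J) = q - J := ev1_ext fun t x => by rw [ev1_scl0, e5, e5]
    have e7 := congrArg (coeff m0) e6
    rw [coeff_scl, zero_pow w2, zero_mul, coeff_sub, hq, coeff_divMonomial] at e7
    obtain ⟨n, hn⟩ := hJi m0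
    exact ⟨n, by linarith⟩
  have b0 := fun t => h t 0 0 0
  simp only [add_zero, sub_zero] at b0
  refine ⟨H0, ?_, ?_, ?_, s31 ![0, 0, 0] 0 I, isInt_s31 _ _ hI, fun t x => ?_⟩
  · have : p1 - scl 0 p1 - lin p0 = s31 ![1, 0, 0] 0 I - s31 ![0, 0, 0] 0 I -
        s11 (-1) (p0 - scl 0 p0 - lin p0) := by
      apply ev1_ext
      intro t x
      have a1 := h t x 0 0
      have a2 := (lin_lin p0).ev1_add t x (-x)
      have a3 := (lin_lin p0).ev1_add t 0 0
      rw [add_neg_cancel] at a2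
      rw [add_zero] at a3
      rw [add_zero, zero_sub] at a1
      simp only [ev1_sub, ev1_scl0, e0, e1, ev_s11, neg_smul, one_smul]
      linarith [b0 t]
    rw [this]
    exact ((isInt_s31 _ _ hI).sub (isInt_s31 _ _ hI)).sub (isInt_s11_neg H0)
  · have : p2 - scl 0 p2 - lin p0 = s31 ![0, 0, 0] 0 I - s31 ![0, 1, 0] 0 I +
        (p0 - scl 0 p0 - lin p0) := by
      apply ev1_ext
      intro t x
      have a1 := h t 0 x 0
      rw [add_zero, sub_zero x] at a1
      simp only [ev1_add, ev1_sub, ev1_scl0, e0, e2]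
      linarith [b0 t]
    rw [this]
    exact ((isInt_s31 _ _ hI).sub (isInt_s31 _ _ hI)).add H0
  · have : p3 - scl 0 p3 - lin p0 = s31 ![0, 0, 0] 0 I - s31 ![0, 0, 1] 0 I +
        (p0 - scl 0 p0 - lin p0) := by
      apply ev1_ext
      intro t x
      have a1 := h t 0 0 x
      rw [zero_add, sub_zero x] at a1
      simp only [ev1_add, ev1_sub, ev1_scl0, e0, e3]
      linarith [b0 t]
    rw [this]
    exact ((isInt_s31 _ _ hI).sub (isInt_s31 _ _ hI)).add H0
  · simp only [ev1_add, ev1_sub, ev1_scl0, e0]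
    exact b0 t

end

end Vale.Agent.P057T.One
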