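import Mathlib

/-! Most integer frames have a left inverse up to a small integer. -/

set_option linter.all false

open Finset
open scoped BigOperators Classical

namespace Vale.Agent.P057T.Prim

variable {ι κ : Type} [Fintype ι] [Fintype κ] [DecidableEq ι] [DecidableEq κ]

/-- the frame kills a vector of order e modulo e -/
def At (e : ℕ) (V : ι → κ → ℤ) : Prop :=
  ∃ v a : κ → ℤ, (e : ℤ) ∣ a ⬝ᵥ v - 1 ∧ ∀ i, (e : ℤ) ∣ V i ⬝ᵥ v

/-- degenerate beyond Q -/
def Bad (Q : ℕ) (V : ι → κ → ℤ) : Prop := ∃ e, Q < e ∧ At e V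

/-- a frame which is not degenerate has a left inverse up to n -/
theorem linv {Q : ℕ} {V : ι → κ → ℤ} (h : ¬ Bad Q V) : ∃ n : ℕ, 1 ≤ n ∧ n ≤ Q ∧
    ∃ W : κ → ι → ℤ, ∀ k k', ∑ i, W k i * V i k' = if k = k' then (n : ℤ) else 0 := by
  obtain ⟨r, bM, bN, f, a, snf⟩ := (Submodule.span ℤ (Set.range V)).smithNormalForm
    (Pi.basisFun ℤ κ)
  have at' : ∀ (φ : (κ → ℤ) →ₗ[ℤ] ℤ) (e : ℕ) (a0 : κ → ℤ), (e : ℤ) ∣ φ a0 - 1 →
      (∀ i, (e : ℤ) ∣ φ (bN i)) → At e V := fun φ e a0 h1 h2 => by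
    have d : ∀ x, φ x = x ⬝ᵥ fun k => φ fun j => if k = j then 1 else 0 := fun x =>
      LinearMap.pi_apply_eq_sum_univ φ x
    refine ⟨_, a0, d a0 ▸ h1, fun i => ?_⟩
    have := congrArg Subtype.val (bN.sum_repr ⟨V i, Submodule.subset_span ⟨i, rfl⟩⟩)
    simp only [AddSubmonoidClass.coe_finset_sum, SetLike.val_smul] at this
    rw [← d, ← this, map_sum]
    exact dvd_sum fun j _ => by rw [map_smul]; exact (h2 j).mul_left _
  by_cases hf : Function.Surjective f
  swap
  · obtain ⟨j, hj⟩ := not_forall.1 hf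
    refine (h ⟨Q + 1, by omega, at' (bM.coord j) _ (bM j) (by simp) fun i => ?_⟩).elim
    rw [snf, map_smul, Module.Basis.coord_apply, bM.repr_self,
      Finsupp.single_eq_of_ne' fun e => hj ⟨i, e⟩]
    simp
  have a0 : ∀ i, a i ≠ 0 := fun i e => bN.ne_zero i (Subtype.ext (by rw [snf, e, zero_smul]; rfl))
  obtain ⟨n, hn⟩ : ∃ n : ℕ, (n : ℤ) = |univ.lcm a| := ⟨_, Int.natCast_natAbs _⟩
  have n0 : n ≠ 0 := by
    rintro rfl
    exact Finset.lcm_ne_zero_iff.2 (fun i _ => a0 i) (abs_eq_zero.1 hn.symm)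
  have dv : ∀ i, a i ∣ (n : ℤ) := fun i => hn ▸ (dvd_abs _ _).2 (dvd_lcm (mem_univ i))
  choose d hd using dv
  let φ : (κ → ℤ) →ₗ[ℤ] ℤ := ∑ i, d i • bM.coord (f i)
  have hφ : ∀ i, φ (bM (f i)) = d i := fun i => by
    simp [φ, LinearMap.sum_apply, Finsupp.single_apply, f.injective.eq_iff]
  obtain ⟨g, hg⟩ := Finset.gcd_eq_sum_mul univ d
  have u : ∃ t, (n : ℤ) ∣ t * univ.gcd d - 1 := by
    rcases isEmpty_or_nonempty (Fin r) with e | ⟨⟨i0⟩⟩
    · exact ⟨0, by rw [hn, univ_eq_empty]; simp⟩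
    · obtain ⟨c, hc⟩ : univ.gcd d ∣ (n : ℤ) := hd i0 ▸ (gcd_dvd (mem_univ i0)).mul_left _
      have g0 : univ.gcd d ≠ 0 := fun e => n0 (by rw [e, zero_mul] at hc; exact_mod_cast hc)
      have c0 : c ≠ 0 := fun e => n0 (by rw [e, mul_zero] at hc; exact_mod_cast hc)
      have : (n : ℤ) ∣ c := hn ▸ (abs_dvd _ _).2 (Finset.lcm_dvd fun i _ => by
        obtain ⟨z, hz⟩ := gcd_dvd (f := d) (mem_univ i)
        refine ⟨z, mul_left_cancel₀ g0 ?_⟩
        rw [← hc, hd i, hz]
        generalize univ.gcd d = G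
        ring)
      obtain ⟨t, ht⟩ := this
      refine ⟨t, ?_⟩
      have : t * univ.gcd d - 1 = 0 := mul_left_cancel₀ c0 (by
        generalize univ.gcd d = G at hc
        rw [hc] at ht
        linear_combination -ht)
      simp [this]
  obtain ⟨t, ht⟩ := u
  have := at' φ n (t • ∑ i, g i • bM (f i)) (by
    simp only [map_smul, map_sum, hφ, smul_eq_mul, mul_comm (g _), ← hg]
    exact ht) fun i => by rw [snf, map_smul, hφ, smul_eq_mul, ← hd]
  refine ⟨n, Nat.pos_of_ne_zero n0, not_lt.1 fun e => h ⟨n, e, this⟩, ?_⟩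
  have m : ∀ x : κ → ℤ, (n : ℤ) • x ∈ Submodule.span ℤ (Set.range V) := fun x => by
    rw [← bM.sum_repr x, smul_sum]
    refine Submodule.sum_mem _ fun j _ => ?_
    obtain ⟨i, rfl⟩ := hf j
    rw [smul_comm, hd i, mul_comm, mul_smul, ← snf]
    exact Submodule.smul_mem _ _ (Submodule.smul_mem _ _ (bN i).2)
  choose W hW using fun k => (Submodule.mem_span_range_iff_exists_fun ℤ).1 (m (Pi.single k 1))
  refine ⟨W, fun k k' => ?_⟩
  have := congrFun (hW k) k'
  simpa [Finset.sum_apply, Pi.single_apply, eq_comm] using this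

/-- a row of the box -/
noncomputable def row (y : κ → ℤ) (S : ℕ) : Finset (κ → ℤ) :=
  Fintype.piFinset fun k => Ico (y k) (y k + S)

/-- the box of frames -/
noncomputable def box (y : ι → κ → ℤ) (S : ℕ) : Finset (ι → κ → ℤ) :=
  Fintype.piFinset fun i => row (y i) S

theorem card_row (y : κ → ℤ) (S : ℕ) : (row y S).card = S ^ Fintype.card κ := by simp [row]

theorem card_box (y : ι → κ → ℤ) (S : ℕ) :
    (box y S).card = S ^ (Fintype.card κ * Fintype.card ι) := by simp [box, card_row, pow_mul]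

theorem row_le {e S : ℕ} (he : 0 < e) (hS : e ≤ S) (y v a : κ → ℤ) (h : (e : ℤ) ∣ a ⬝ᵥ v - 1) :
    #{r ∈ row y S | (e : ℤ) ∣ r ⬝ᵥ v} * e ≤ (2 * S) ^ Fintype.card κ := by
  rw [← card_row y, ← card_range e, ← card_product, card_range]
  have e0 : (0 : ℤ) < e := by exact_mod_cast he
  have key : ∀ (r : κ → ℤ) (t : ℕ), (e : ℤ) ∣ r ⬝ᵥ v →
      (e : ℤ) ∣ (r + fun k => (t * a k) % e) ⬝ᵥ v - t := fun r t hr => by
    have : (e : ℤ) ∣ ((fun k => (t * a k) % e) - (t : ℤ) • a) ⬝ᵥ v :=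
      dvd_sum fun k _ => (dvd_sub_comm.1 (Int.dvd_self_sub_of_emod_eq
        (rfl : t * a k % e = _))).mul_right _
    rw [sub_dotProduct, smul_dotProduct, smul_eq_mul] at this
    have := (hr.add this).add (h.mul_left t)
    rw [add_dotProduct]
    exact this.trans (dvd_of_eq (by ring))
  refine card_le_card_of_injOn (fun p => p.1 + fun k => (p.2 * a k) % e) (fun p hp => ?_)
    fun p hp q hq E => ?_
  · have := Fintype.mem_piFinset.1 (mem_filter.1 (mem_product.1 (mem_coe.1 hp)).1).1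
    refine mem_coe.2 (Fintype.mem_piFinset.2 fun k => ?_)
    have a1 := mem_Ico.1 (this k)
    have a2 := Int.emod_nonneg (p.2 * a k) e0.ne'
    have a3 := Int.emod_lt_of_pos (p.2 * a k) e0
    simp only [mem_Ico, Pi.add_apply]
    push_cast
    omega
  · obtain ⟨p1, p2⟩ := mem_product.1 (mem_coe.1 hp)
    obtain ⟨q1, q2⟩ := mem_product.1 (mem_coe.1 hq)
    have a1 := key _ p.2 (mem_filter.1 p1).2
    have a2 := key _ q.2 (mem_filter.1 q1).2
    beta_reduce at E
    rw [E] at a1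
    have a3 := Int.eq_zero_of_abs_lt_dvd (a1.sub a2) (by
      have := mem_range.1 p2
      have := mem_range.1 q2
      rw [sub_sub_sub_cancel_left, abs_lt]
      omega)
    have a4 : p.2 = q.2 := by omega
    rw [a4] at E
    exact Prod.ext (add_right_cancel E) a4

theorem at_le {e S : ℕ} (he : 0 < e) (hS : e ≤ S) (y : ι → κ → ℤ) :
    #{V ∈ box y S | At e V} * e ^ Fintype.card ι ≤
      e ^ Fintype.card κ * (2 * S) ^ (Fintype.card κ * Fintype.card ι) := by
  have e0 : (0 : ℤ) < e := by exact_mod_cast he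
  have : ({V ∈ box y S | At e V} : Finset _) ⊆ ((row 0 e).filter fun v : κ → ℤ =>
      ∃ a : κ → ℤ, (e : ℤ) ∣ a ⬝ᵥ v - 1).biUnion fun v =>
        Fintype.piFinset fun i => {r ∈ row (y i) S | (e : ℤ) ∣ r ⬝ᵥ v} := fun V hV => by
    obtain ⟨h1, v, a, h2, h3⟩ := mem_filter.1 hV
    have k : ∀ r : κ → ℤ, (e : ℤ) ∣ r ⬝ᵥ v - r ⬝ᵥ fun k => v k % e := fun r => by
      rw [← dotProduct_sub]
      exact dvd_sum fun k _ => (Int.dvd_self_sub_of_emod_eq rfl).mul_left _
    refine mem_biUnion.2 ⟨fun k => v k % e, mem_filter.2 ⟨Fintype.mem_piFinset.2 fun k =>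
      mem_Ico.2 ⟨Int.emod_nonneg _ e0.ne', by simpa using Int.emod_lt_of_pos _ e0⟩, a,
      (h2.sub (k a)).trans (dvd_of_eq (by ring))⟩, Fintype.mem_piFinset.2 fun i => mem_filter.2
        ⟨Fintype.mem_piFinset.1 h1 i, ((h3 i).sub (k _)).trans (dvd_of_eq (by ring))⟩⟩
  refine (Nat.mul_le_mul_right _ ((card_le_card this).trans card_biUnion_le)).trans ?_
  rw [sum_mul]
  refine (sum_le_card_nsmul _ _ _ fun v hv => ?_).trans (Nat.mul_le_mul_right _
    ((card_filter_le _ _).trans (card_row _ _).le))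
  obtain ⟨a, ha⟩ := (mem_filter.1 hv).2
  rw [Fintype.card_piFinset, pow_mul, ← card_univ (α := ι), ← prod_const, ← prod_const,
    ← prod_mul_distrib]
  exact prod_le_prod' fun i _ => row_le he hS _ v a ha

theorem blk (y : ι → κ → ℤ) (S : ℕ) (e : κ → ι) (he : Function.Injective e)
    (P : (ι → κ → ℤ) → Prop) [DecidablePred P] (b : ℝ)
    (h : ∀ V ∈ box y S, (#{R ∈ box (y ∘ e) S | P (Function.extend e R V)} : ℝ) ≤
      b * #(box (y ∘ e) S)) (hS : 0 < S) : (#{V ∈ box y S | P V} : ℝ) ≤ b * #(box y S) := by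
  have p : (0 : ℝ) < #(box (y ∘ e) S) := by rw [card_box]; positivity
  have k : ∀ (R : κ → κ → ℤ) (V : ι → κ → ℤ),
      Function.extend e (V ∘ e) (Function.extend e R V) = V := fun R V => by
    funext i
    by_cases a : ∃ k, e k = i
    · obtain ⟨k, rfl⟩ := a
      rw [he.extend_apply]; rfl
    · rw [Function.extend_apply' _ _ _ a, Function.extend_apply' _ _ _ a]
  have h1 : #({V ∈ box y S | P V} ×ˢ box (y ∘ e) S) ≤ #((box y S).sigma fun V =>
      {R ∈ box (y ∘ e) S | P (Function.extend e R V)}) := by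
    refine card_le_card_of_injOn (fun p => ⟨Function.extend e p.2 p.1, p.1 ∘ e⟩) (fun p hp => ?_)
      fun p _ q _ E => ?_
    · obtain ⟨p1, p2⟩ := mem_product.1 (mem_coe.1 hp)
      obtain ⟨p3, p4⟩ := mem_filter.1 p1
      refine mem_coe.2 (mem_sigma.2 ⟨Fintype.mem_piFinset.2 fun i => ?_, mem_filter.2
        ⟨Fintype.mem_piFinset.2 fun k => Fintype.mem_piFinset.1 p3 (e k), by rwa [k]⟩⟩)
      by_cases a : ∃ k, e k = i
      · obtain ⟨k, rfl⟩ := a
        dsimp only
        rw [he.extend_apply]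
        exact Fintype.mem_piFinset.1 p2 k
      · dsimp only
        rw [Function.extend_apply' _ _ _ a]
        exact Fintype.mem_piFinset.1 p3 i
    · obtain ⟨E1, E2⟩ := Sigma.mk.inj_iff.1 E
      refine Prod.ext (by rw [← k p.2 p.1, E1, eq_of_heq E2, k]) (funext fun j => ?_)
      have := congrFun E1 (e j)
      rwa [he.extend_apply, he.extend_apply] at this
  rw [card_product, card_sigma] at h1
  have h2 := (Nat.cast_le (α := ℝ)).2 h1
  push_cast at h2
  have h3 := h2.trans (sum_le_card_nsmul _ _ _ h)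
  rw [nsmul_eq_mul, ← mul_assoc] at h3
  exact (le_of_mul_le_mul_right h3 p).trans (le_of_eq (mul_comm _ _))

theorem sz {R : Type} [CommRing R] [IsDomain R] (φ : ℤ →+* R) (y : κ → κ → ℤ) (S : ℕ)
    (hS : 0 < S) (hφ : ∀ a b : ℤ, |a - b| < S → φ a = φ b → a = b) :
    (#{M ∈ box y S | φ (Matrix.of M).det = 0} : ℝ) ≤
      (Fintype.card κ : ℝ) ^ 3 / S * #(box y S) := by
  let e := Fintype.equivFin (κ × κ)
  let D := (Matrix.mvPolynomialX κ κ R).det
  have d : D.totalDegree ≤ Fintype.card κ := by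
    rw [show D = _ from Matrix.det_apply' _]
    refine (MvPolynomial.totalDegree_finsetSum _ _).trans (Finset.sup_le fun σ _ => ?_)
    refine (MvPolynomial.totalDegree_mul _ _).trans ?_
    rw [← map_intCast (MvPolynomial.C : R →+* MvPolynomial (κ × κ) R), MvPolynomial.totalDegree_C,
      zero_add]
    refine (MvPolynomial.totalDegree_finsetProd _ _).trans
      ((sum_le_card_nsmul _ _ 1 fun i _ => ?_).trans (by simp))
    simp [Matrix.mvPolynomialX]
  let I : Fin (Fintype.card (κ × κ)) → Finset R := fun j =>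
    (Ico (y (e.symm j).1 (e.symm j).2) (y (e.symm j).1 (e.symm j).2 + S)).image φ
  have inj : ∀ c : ℤ, Set.InjOn φ (Ico c (c + S) : Finset ℤ) := fun c a ha b hb => hφ a b (by
    have := mem_Ico.1 (mem_coe.1 ha)
    have := mem_Ico.1 (mem_coe.1 hb)
    rw [abs_lt]
    omega)
  have cI : ∀ j, (I j).card = S := fun j => (card_image_of_injOn (inj _)).trans (by simp)
  have h := MvPolynomial.schwartz_zippel_sum_degreeOf (p := MvPolynomial.rename e D)
    (fun h => Matrix.det_mvPolynomialX_ne_zero κ R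
      (MvPolynomial.rename_injective e e.injective (h.trans (map_zero _).symm))) I
  simp only [cI, prod_const, card_univ, Fintype.card_fin] at h
  have h1 := h.trans (sum_le_card_nsmul _ _ ((Fintype.card κ : ℚ≥0) / S) fun j _ =>
    div_le_div_of_nonneg_right (Nat.cast_le.2 ((MvPolynomial.degreeOf_le_totalDegree _ _).trans
      ((MvPolynomial.totalDegree_rename_le _ _).trans d))) (by positivity))
  rw [div_le_iff₀ (by positivity), card_univ, Fintype.card_fin, nsmul_eq_mul] at h1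
  have h2 := (NNRat.cast_le (K := ℝ)).2 h1
  push_cast at h2
  rw [card_box]
  refine le_trans (Nat.cast_le.2 (card_le_card_of_injOn
    (fun M j => φ (M (e.symm j).1 (e.symm j).2)) (fun M hM => ?_) fun M hM M' hM' E => ?_))
    (h2.trans (le_of_eq (by rw [Fintype.card_prod]; push_cast; ring)))
  · obtain ⟨a, b⟩ := mem_filter.1 (mem_coe.1 hM)
    refine mem_coe.2 (mem_filter.2 ⟨Fintype.mem_piFinset.2 fun j => mem_image_of_mem _
      (Fintype.mem_piFinset.1 (Fintype.mem_piFinset.1 a _) _), ?_⟩)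
    rw [MvPolynomial.eval_rename, Matrix.eval_det_mvPolynomialX, ← b, RingHom.map_det]
    congr 1
    ext i j
    simp
  · funext i j
    have := congrFun E (e (i, j))
    simp only [Equiv.symm_apply_apply] at this
    exact inj (y i j) (mem_coe.2 (Fintype.mem_piFinset.1 (Fintype.mem_piFinset.1
      (mem_filter.1 (mem_coe.1 hM)).1 _) _)) (mem_coe.2 (Fintype.mem_piFinset.1
      (Fintype.mem_piFinset.1 (mem_filter.1 (mem_coe.1 hM')).1 _) _)) this

theorem At.det {e : ℕ} {V : ι → κ → ℤ} (h : At e V) (f : κ → ι) :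
    (e : ℤ) ∣ (Matrix.of (V ∘ f)).det := by
  obtain ⟨v, a, h1, h2⟩ := h
  have k : (e : ℤ) ∣ a ⬝ᵥ ((Matrix.of (V ∘ f)).adjugate.mulVec ((Matrix.of (V ∘ f)).mulVec v)) :=
    dvd_sum fun k _ => (dvd_sum fun j _ => (h2 (f j)).mul_left _).mul_left _
  rw [Matrix.mulVec_mulVec, Matrix.adjugate_mul, Matrix.smul_mulVec, Matrix.one_mulVec,
    dotProduct_smul, smul_eq_mul] at k
  exact (k.sub (h1.mul_left (Matrix.of (V ∘ f)).det)).trans (dvd_of_eq (by ring))

theorem Bad.split {Q S : ℕ} {V : ι → κ → ℤ} (h : Bad Q V) (hQ : 1 ≤ Q) (hS : Q ^ 2 ≤ S) :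
    (∃ e ∈ Ioc Q S, At e V) ∨ ∃ p, p.Prime ∧ S < p ∧ At p V := by
  have hP : ∃ e, Q < e ∧ At e V := h
  obtain ⟨h1, v, a, h2, h3⟩ := Nat.find_spec hP
  have hmin := fun e => Nat.find_min' hP (m := e)
  generalize Nat.find hP = e at h1 h2 h3 hmin
  by_cases k : e ≤ S
  · exact .inl ⟨e, mem_Ioc.2 ⟨h1, k⟩, v, a, h2, h3⟩
  refine .inr ⟨e, ?_, not_le.1 k, v, a, h2, h3⟩
  by_contra np
  obtain ⟨b, c, hb, hc, rfl⟩ := (Nat.not_prime_iff_exists_mul_eq (by omega)).1 np
  have dv : ∀ d, d ∣ b * c → d < b * c → d ≤ Q := fun d hd l => not_lt.1 fun q => l.not_ge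
    (hmin d ⟨q, v, a, (Int.natCast_dvd_natCast.2 hd).trans h2,
      fun i => (Int.natCast_dvd_natCast.2 hd).trans (h3 i)⟩)
  have := Nat.mul_le_mul (dv b (dvd_mul_right _ _) hb) (dv c (dvd_mul_left _ _) hc)
  rw [sq] at hS
  omega

/-- few frames of a box are degenerate -/
theorem cnt (y : ι → κ → ℤ) (S Q T w u : ℕ) (e0 e1 : κ → ι) (i0 : Function.Injective e0)
    (i1 : Function.Injective e1) (dj : ∀ k k', e1 k ≠ e0 k') (hQ : 1 ≤ Q) (hS : Q ^ 2 ≤ S)
    (hT : ∀ i k, |y i k| + S ≤ T) (hw : (Fintype.card κ).factorial * T ^ Fintype.card κ < S ^ w)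
    (hm : Fintype.card κ + 2 + u = Fintype.card ι) :
    (#{V ∈ box y S | Bad Q V} : ℝ) ≤ (2 ^ (Fintype.card κ * Fintype.card ι) / Q ^ (u + 1) +
      (w + 1) * ((Fintype.card κ : ℝ) ^ 3 / S)) * #(box y S) := by
  have S0 : 0 < S := lt_of_lt_of_le (by positivity) hS
  have QS : Q ≤ S := (Nat.le_self_pow two_ne_zero Q).trans hS
  have Q0 : (0 : ℝ) < Q := by exact_mod_cast hQ
  let P : (ι → κ → ℤ) → Prop := fun V => (Matrix.of (V ∘ e0)).det ≠ 0 ∧
    ∃ p : ℕ, p.Prime ∧ S < p ∧ (p : ℤ) ∣ (Matrix.of (V ∘ e0)).det ∧ (p : ℤ) ∣ (Matrix.of (V ∘ e1)).det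
  have sub : ({V ∈ box y S | Bad Q V} : Finset _) ⊆ ((Ioc Q S).biUnion fun e =>
      {V ∈ box y S | At e V}) ∪ ({V ∈ box y S | (Matrix.of (V ∘ e0)).det = 0} ∪
        {V ∈ box y S | P V}) := fun V hV => by
    obtain ⟨a, b⟩ := mem_filter.1 hV
    rcases b.split hQ hS with ⟨e, he, h⟩ | ⟨p, p1, p2, h⟩
    · exact mem_union_left _ (mem_biUnion.2 ⟨e, he, mem_filter.2 ⟨a, h⟩⟩)
    · by_cases z : (Matrix.of (V ∘ e0)).det = 0
      · exact mem_union_right _ (mem_union_left _ (mem_filter.2 ⟨a, z⟩))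
      · exact mem_union_right _ (mem_union_right _
          (mem_filter.2 ⟨a, z, p, p1, p2, h.det e0, h.det e1⟩))
  have c1 : (#((Ioc Q S).biUnion fun e => {V ∈ box y S | At e V}) : ℝ) ≤
      2 ^ (Fintype.card κ * Fintype.card ι) / Q ^ (u + 1) * #(box y S) := by
    refine (Nat.cast_le.2 card_biUnion_le).trans ?_
    rw [Nat.cast_sum]
    refine (sum_le_sum (g := fun e : ℕ => (2 ^ (Fintype.card κ * Fintype.card ι) / Q ^ u *
      #(box y S) : ℝ) * ((e : ℝ) ^ 2)⁻¹) fun e he => ?_).trans ?_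
    · obtain ⟨a, b⟩ := mem_Ioc.1 he
      have e' : (Q : ℝ) ≤ e := by exact_mod_cast a.le
      have e0 : (0 : ℝ) < e := by linarith
      have h := (Nat.cast_le (α := ℝ)).2 (at_le (by omega) b y)
      rw [← hm, pow_add, pow_add, hm] at h
      push_cast at h
      rw [card_box, ← div_eq_mul_inv, le_div_iff₀ (by positivity), div_mul_eq_mul_div,
        le_div_iff₀ (by positivity), Nat.cast_pow, ← mul_pow]
      refine le_of_mul_le_mul_left (le_trans ?_ h) (pow_pos e0 _)
      calc _ = #{V ∈ box y S | At e V} * ((e : ℝ) ^ Fintype.card κ * e ^ 2 * Q ^ u) := by ring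
        _ ≤ _ := by gcongr
    · rw [← mul_sum]
      refine (mul_le_mul_of_nonneg_left ((sum_Ioc_inv_sq_le_sub (by omega) QS).trans
        (sub_le_self _ (by positivity))) (by positivity)).trans (le_of_eq ?_)
      field_simp
      ring
  have ex : ∀ (e : κ → ι), Function.Injective e → ∀ (R : κ → κ → ℤ) (V : ι → κ → ℤ),
      Function.extend e R V ∘ e = R := fun e he R V => Function.extend_comp he R V
  have c2 := blk y S e0 i0 (fun V => (Matrix.of (V ∘ e0)).det = 0)
    ((Fintype.card κ : ℝ) ^ 3 / S) (fun V _ => by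
    simp only [ex e0 i0]
    simpa only [RingHom.id_apply] using
      sz (RingHom.id ℤ) (y ∘ e0) S S0 fun a b _ h => h) S0
  have c3 := blk y S e1 i1 P (w * ((Fintype.card κ : ℝ) ^ 3 / S)) (fun V hV => by
    have e : ∀ R, Function.extend e1 R V ∘ e0 = V ∘ e0 := fun R => funext fun k =>
      Function.extend_apply' _ _ _ fun ⟨j, h⟩ => dj j k h
    simp only [P, e, ex e1 i1]
    generalize hD : (Matrix.of (V ∘ e0)).det = D
    by_cases z : D = 0
    · simp only [z, ne_eq, not_true, false_and, filter_false, card_empty, Nat.cast_zero]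
      positivity
    let s := D.natAbs.primeFactors.filter (S < ·)
    have cs : s.card ≤ w := by
      have a1 : S ^ s.card ≤ ∏ p ∈ s, p := pow_card_le_prod _ _ _ fun p hp => (mem_filter.1 hp).2.le
      have a2 := Nat.le_of_dvd (Int.natAbs_pos.2 z) ((prod_dvd_prod_of_subset _ _ (fun p => p)
        (filter_subset (S < ·) _)).trans (Nat.prod_primeFactors_dvd D.natAbs))
      have a3 : |D| ≤ _ := hD ▸ Matrix.det_le (abv := AbsoluteValue.abs) (x := (T : ℤ)) fun i j => by
        have := mem_Ico.1 (Fintype.mem_piFinset.1 (Fintype.mem_piFinset.1 hV (e0 i)) j)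
        have b := hT (e0 i) j
        have := le_abs_self (y (e0 i) j)
        have := neg_abs_le (y (e0 i) j)
        show |V (e0 i) j| ≤ _
        rw [abs_le]
        omega
      rw [Int.abs_eq_natAbs, nsmul_eq_mul] at a3
      have a4 : D.natAbs ≤ (Fintype.card κ).factorial * T ^ Fintype.card κ := by exact_mod_cast a3
      by_contra k
      exact (((Nat.pow_le_pow_right S0 (not_le.1 k).le).trans a1).trans (a2.trans a4)).not_gt hw
    refine (Nat.cast_le.2 ((card_le_card (t := s.biUnion fun p => {R ∈ box (y ∘ e1) S |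
      (p : ℤ) ∣ (Matrix.of R).det}) fun R hR => ?_).trans card_biUnion_le)).trans ?_
    · obtain ⟨a, -, p, p1, p2, p3, p4⟩ := mem_filter.1 hR
      exact mem_biUnion.2 ⟨p, mem_filter.2 ⟨Nat.mem_primeFactors.2 ⟨p1, Int.natCast_dvd.1 p3,
        Int.natAbs_ne_zero.2 z⟩, p2⟩, mem_filter.2 ⟨a, p4⟩⟩
    · rw [Nat.cast_sum, mul_assoc]
      refine (sum_le_card_nsmul _ _ _ fun p hp => ?_).trans (by
        rw [nsmul_eq_mul]
        exact mul_le_mul_of_nonneg_right (Nat.cast_le.2 cs) (by positivity))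
      haveI : Fact p.Prime := ⟨Nat.prime_of_mem_primeFactors (mem_filter.1 hp).1⟩
      have := sz (Int.castRingHom (ZMod p)) (y ∘ e1) S S0 fun a b l h => by
        have := Int.eq_zero_of_abs_lt_dvd ((ZMod.intCast_eq_intCast_iff_dvd_sub b a p).1 h.symm)
          (l.trans (by exact_mod_cast (mem_filter.1 hp).2))
        omega
      simpa only [eq_intCast, ZMod.intCast_zmod_eq_zero_iff_dvd] using this) S0
  have h := (Nat.cast_le (α := ℝ)).2 ((card_le_card sub).trans ((card_union_le _ _).trans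
    (Nat.add_le_add_left (card_union_le _ _) _)))
  push_cast at h
  rw [add_mul, add_mul, add_mul, one_mul]
  exact h.trans (add_le_add c1 ((add_le_add c2 c3).trans (add_comm _ _).le))

end Vale.Agent.P057T.Prim
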