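import Vale.Agent.P057T.EncH48

/-! Pulling the scalar half step back to boxes. -/

set_option linter.all false

open Finset
open scoped BigOperators

namespace Vale.Agent.P057T.Pl

open Vale.Agent.P057L Vale.Agent.P057T.En

noncomputable section

/-- the block a of the class i -/
def blk {j p m : ℕ} (w : Pt j (p * m)) (i : Fin j) (a : Fin p) : Vz m :=
  fun l => w i (finProdFinEquiv (a, l))

/-- encoding of all blocks -/
def encP {j p m : ℕ} (M : ℕ) (w : Pt j (p * m)) : Pt j p := fun i a => enc M (blk w i a)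

/-- the product over the cells, in boxes -/
def GwV {j p m : ℕ} (F : Vz m → ℝ) (z : Fin j → Fin p → Vz m) (w : Pt j (p * m)) (s : Vz m) : ℝ :=
  ∏ c : Fin j → Fin p, F (s + ∑ i, (z i (c i) + blk w i (c i)))

/-- the weighted excess in a box, with a vector of frequencies -/
def excV {m Q r : ℕ} (Ψ : (Fin r → ZMod Q) → ℝ) (ξ : Fin m → Fin r → ZMod Q)
    (γ : Fin r → ZMod Q) (I : ℕ) (G : Vz m → ℝ) (θ : ℝ) : ℝ :=
  𝔼 s ∈ bz m I, Ψ (∑ l, (s l : ZMod Q) • ξ l + γ) * (G s - θ)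

/-- the pull back -/
def PULLC : Prop :=
  ∀ (m j p M R I T Q r : ℕ) (F : Vz m → ℝ) (Ψ : (Fin r → ZMod Q) → ℝ)
    (ξ γ : Pt j p → Fin r → ZMod Q) (E : Finset (Pt j p)) (x0 : ℤ) (B δ θ : ℝ),
    1 ≤ p → 1 ≤ I → 1 ≤ T → 2 ≤ M → (j + 1) * (R + (j + 1) * I) ≤ M → 0 < δ → 0 ≤ θ → θ ≤ B →
    (∀ u, 0 ≤ Ψ u ∧ Ψ u ≤ 1) → (∀ x, 0 ≤ F x) → (∀ (W : Pt j p) s, Gw (gE M R F) W s ≤ B) →
    E ⊆ bp j p (M ^ m) → E.Nonempty → 8 * B * I * (M : ℝ) ^ m ≤ δ * T * M →
    (∀ W ∈ E, δ ≤ exc Ψ (ξ W) (γ W) T (fun s => Gw (gE M R F) W (x0 + s)) θ) →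
    ∃ (W0 : Pt j p) (s0 : ℤ) (z0 : Vz m) (z : Fin j → Fin p → Vz m) (E' : Finset (Pt j (p * m))),
      E' ⊆ bp j (p * m) I ∧ (∀ w ∈ E', W0 + encP M w ∈ E) ∧
      δ * E.card * (I : ℝ) ^ (j * (p * m)) ≤ 4 * B * (2 * (M : ℝ) ^ m) ^ (j * p) * E'.card ∧
      (∀ (c : Fin j → Fin p) (l : Fin m), -(((j + 1) * I : ℕ) : ℤ) < (z0 + ∑ i, z i (c i)) l ∧
        (z0 + ∑ i, z i (c i)) l < R) ∧
      ∀ w ∈ E', δ / 4 ≤ excV Ψ (fun l => (M : ZMod Q) ^ (l : ℕ) • ξ (W0 + encP M w))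
        ((s0 : ZMod Q) • ξ (W0 + encP M w) + γ (W0 + encP M w)) I
        (fun s => GwV (cutV R F) z w (z0 + s)) θ

variable {m j p : ℕ}

theorem enc_le (M I : ℕ) (hM : 1 ≤ M) : ∀ {m : ℕ} (v : Vz m), v ∈ bz m I →
    0 ≤ enc M v ∧ enc M v * ((M : ℤ) - 1) ≤ I * ((M : ℤ) ^ m - 1)
  | 0, v, _ => by simp [enc]
  | m + 1, v, h => by
    rw [mem_bz] at h
    obtain ⟨h1, h2⟩ := enc_le M I hM (fun l : Fin m => v l.succ) (mem_bz.2 fun l => h l.succ)
    have h0 := h 0
    rw [enc_succ]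
    have M1 : (1 : ℤ) ≤ M := by exact_mod_cast hM
    refine ⟨add_nonneg h0.1 (mul_nonneg (by omega) h1), ?_⟩
    have a := mul_le_mul_of_nonneg_left h2 (show (0 : ℤ) ≤ M by omega)
    have b := mul_le_mul_of_nonneg_right h0.2.le (show (0 : ℤ) ≤ M - 1 by omega)
    rw [pow_succ]
    nlinarith

theorem enc_le2 {M I : ℕ} (hM : 2 ≤ M) {v : Vz m} (h : v ∈ bz m I) :
    |((enc M v : ℤ) : ℝ)| * M ≤ 2 * I * (M : ℝ) ^ m := by
  obtain ⟨h1, h2⟩ := enc_le M I (by omega) v h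
  have M2 : (2 : ℤ) ≤ M := by exact_mod_cast hM
  have h3 : enc M v * M ≤ 2 * I * (M : ℤ) ^ m := by
    have : (0 : ℤ) ≤ I := Int.natCast_nonneg I
    nlinarith
  rw [abs_of_nonneg (by exact_mod_cast h1)]
  exact_mod_cast h3

theorem blk_bz {I : ℕ} {w : Pt j (p * m)} (h : w ∈ bp j (p * m) I) (i : Fin j) (a : Fin p) :
    blk w i a ∈ bz m I :=
  mem_bz.2 fun l => mem_bz.1 (Fintype.mem_piFinset.1 h i) _

theorem card_bp (j q N : ℕ) : (bp j q N).card = N ^ (j * q) := by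
  simp only [bp, Fintype.card_piFinset, SV.bz_card, prod_const, card_univ, Fintype.card_fin]
  rw [← pow_mul, mul_comm]

theorem phase {M Q r : ℕ} (ξ γ : Fin r → ZMod Q) (s0 : ℤ) (s : Vz m) :
    ((s0 + enc M s : ℤ) : ZMod Q) • ξ + γ =
      ∑ l, (s l : ZMod Q) • ((M : ZMod Q) ^ (l : ℕ) • ξ) + ((s0 : ZMod Q) • ξ + γ) := by
  simp only [enc, smul_smul, ← sum_smul]
  push_cast
  rw [add_smul]
  abel

/-- a window of encoded points -/
theorem win {M I : ℕ} (hI : I ≤ M) (hM : 1 ≤ M) (E : Finset (Pt j p)) (hE : E ⊆ bp j p (M ^ m)) :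
    ∃ (W0 : Pt j p) (E' : Finset (Pt j (p * m))), E' ⊆ bp j (p * m) I ∧
      (∀ w ∈ E', W0 + encP M w ∈ E) ∧
      (E.card : ℝ) * (I : ℝ) ^ (j * (p * m)) ≤ (2 * (M : ℝ) ^ m) ^ (j * p) * E'.card := by
  classical
  set N := M ^ m with hN
  have N1 : 1 ≤ N := Nat.one_le_pow _ _ hM
  set Bx : Finset (Pt j p) :=
    Fintype.piFinset fun _ => Fintype.piFinset fun _ => Ico (-(N : ℤ)) N with hBx
  have cB : Bx.card = (2 * N) ^ (j * p) := by
    simp only [hBx, Fintype.card_piFinset, prod_const, card_univ, Fintype.card_fin, Int.card_Ico]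
    rw [← pow_mul, mul_comm p j]
    congr 1
    omega
  have neB : Bx.Nonempty := card_pos.1 (by rw [cB]; positivity)
  have h1 : ∑ W0 ∈ Bx, E.card * I ^ (j * (p * m)) ≤
      ∑ W0 ∈ Bx, (2 * N) ^ (j * p) * ((bp j (p * m) I).filter fun w => W0 + encP M w ∈ E).card := by
    rw [sum_const, ← mul_sum, cB, smul_eq_mul]
    refine Nat.mul_le_mul_left _ ?_
    have := sum_card_bipartiteAbove_eq_sum_card_bipartiteBelow (s := Bx) (t := bp j (p * m) I)
      (r := fun W0 w => W0 + encP M w ∈ E)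
    simp only [bipartiteAbove, bipartiteBelow] at this
    rw [this, ← card_bp, mul_comm, ← smul_eq_mul, ← sum_const]
    refine sum_le_sum fun w hw => ?_
    refine card_le_card_of_injOn (fun W => W - encP M w) (fun W hW => ?_) fun W _ W' _ e =>
      sub_left_injective e
    simp only [coe_filter, Set.mem_setOf_eq, sub_add_cancel]
    refine ⟨?_, hW⟩
    simp only [hBx, Fintype.mem_piFinset, mem_Ico]
    intro i a
    have a1 := mem_bz.1 (Fintype.mem_piFinset.1 (hE hW) i) a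
    have a2 := mem_rg.1 (enc_rg M _ (bz_mono hI (blk_bz hw i a)))
    simp only [Pi.sub_apply, encP]
    rw [← hN] at a2
    constructor <;> omega
  obtain ⟨W0, -, h2⟩ := exists_le_of_sum_le neB h1
  refine ⟨W0, _, filter_subset _ _, fun w hw => (mem_filter.1 hw).2, ?_⟩
  rw [hN] at h2
  exact_mod_cast h2

theorem blk_upd (w : Pt j (p * m)) (i : Fin j) (s : Vz (p * m)) (M : ℕ) (W0 : Pt j p) :
    W0 + encP M (Function.update w i s) = Function.update (W0 + encP M w) i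
      (W0 i + fun a => enc M fun l => s (finProdFinEquiv (a, l))) := by
  funext i'
  by_cases h : i' = i
  · subst h
    funext a
    rw [Function.update_self]
    simp only [Pi.add_apply, encP]
    congr 2
    funext l
    simp only [blk, Function.update_self]
  · funext a
    rw [Function.update_of_ne h]
    simp only [Pi.add_apply, encP]
    congr 2
    funext l
    simp only [blk, Function.update_of_ne h]

/-- homomorphisms pull back -/
theorem mh_pull {H H' : Type} [AddCommGroup H] [AddCommGroup H'] (φ : Pt j p → H) (f : H →+ H')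
    {E : Finset (Pt j p)} {E' : Finset (Pt j (p * m))} (M : ℕ) (W0 : Pt j p) (h : MH φ E)
    (hE : ∀ w ∈ E', W0 + encP M w ∈ E) : MH (fun w => f (φ (W0 + encP M w))) E' := by
  intro i w s t hs ht e
  simp only [← map_sum]
  congr 1
  simp only [blk_upd]
  refine h i _ _ _ (fun a => blk_upd w i (s a) M W0 ▸ hE _ (hs a))
    (fun a => blk_upd w i (t a) M W0 ▸ hE _ (ht a)) ?_
  rw [sum_add_distrib, sum_add_distrib]
  congr 1
  funext a
  simp only [Finset.sum_apply]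
  rw [← enc_sum, ← enc_sum]
  congr 1
  funext l
  simpa [Finset.sum_apply] using congrFun e (finProdFinEquiv (a, l))

/-- decoding the offsets -/
theorem dec {M K R : ℕ} (hp : 1 ≤ p) (hM : (j + 1) * (R + K) ≤ M) (n0 : ℤ) (W0 : Pt j p)
    (d : (Fin j → Fin p) → Vz m) (hd : ∀ c, enc M (d c) = n0 + ∑ i, W0 i (c i))
    (hb : ∀ c l, -(K : ℤ) < d c l ∧ d c l < R) :
    ∃ (z0 : Vz m) (z : Fin j → Fin p → Vz m), ∀ c, d c = z0 + ∑ i, z i (c i) := by
  classical
  let c0 : Fin j → Fin p := fun _ => ⟨0, hp⟩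
  refine ⟨d c0, fun i a => d (Function.update c0 i a) - d c0, fun c => ?_⟩
  refine enc_inj M ?_ fun l => ?_
  · rw [enc_add, enc_sum]
    have : ∀ i, enc M (d (Function.update c0 i (c i)) - d c0) = W0 i (c i) - W0 i (c0 i) := by
      intro i
      rw [enc_sub, hd, hd, add_sub_add_left_eq_sub, ← sum_sub_distrib, sum_eq_single i]
      · simp
      · intro b _ hb
        simp [Function.update_of_ne hb]
      · simp
    simp only [this]
    rw [hd, hd, sum_sub_distrib]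
    ring
  · have h1 : |∑ i, (d (Function.update c0 i (c i)) - d c0) l| ≤ ∑ i : Fin j, ((R + K : ℤ) - 1) := by
      refine (abs_sum_le_sum_abs _ _).trans (sum_le_sum fun i _ => ?_)
      have a := hb (Function.update c0 i (c i)) l
      have b := hb c0 l
      rw [Pi.sub_apply, abs_le]
      constructor <;> omega
    rw [sum_const, card_univ, Fintype.card_fin, nsmul_eq_mul, abs_le] at h1
    have a := hb c l
    have b := hb c0 l
    have hM' : ((j : ℤ) + 1) * (R + K) ≤ M := by exact_mod_cast hM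
    have j0 : (0 : ℤ) ≤ j := Int.natCast_nonneg j
    rw [Pi.add_apply, Finset.sum_apply, abs_lt]
    constructor <;> nlinarith [h1.1, h1.2]

theorem sum_bd {I : ℕ} {w : Pt j (p * m)} (hw : w ∈ bp j (p * m) I) {s : Vz m} (hs : s ∈ bz m I)
    (c : Fin j → Fin p) (l : Fin m) : 0 ≤ (s + ∑ i, blk w i (c i)) l ∧
      (s + ∑ i, blk w i (c i)) l < (((j + 1) * I : ℕ) : ℤ) := by
  have a := mem_bz.1 hs l
  rw [Pi.add_apply, Finset.sum_apply]
  have b : ∑ i, blk w i (c i) l ≤ ∑ i : Fin j, (I : ℤ) :=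
    sum_le_sum fun i _ => (mem_bz.1 (blk_bz hw i (c i)) l).2.le
  have b0 : 0 ≤ ∑ i, blk w i (c i) l := sum_nonneg fun i _ => (mem_bz.1 (blk_bz hw i (c i)) l).1
  rw [sum_const, card_univ, Fintype.card_fin, nsmul_eq_mul] at b
  push_cast
  constructor <;> nlinarith [a.1, a.2]

theorem arg_eq (M : ℕ) (W0 : Pt j p) (w : Pt j (p * m)) (x0 s0 : ℤ) (s : Vz m)
    (c : Fin j → Fin p) : x0 + (s0 + enc M s) + ∑ i, (W0 + encP M w) i (c i) =
      (x0 + s0 + ∑ i, W0 i (c i)) + enc M (s + ∑ i, blk w i (c i)) := by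
  simp only [Pi.add_apply, encP, sum_add_distrib, enc_add, enc_sum]
  ring

theorem pullc : PULLC := by
  classical
  intro m j p M R I T Q r F Ψ ξ γ E x0 B δ θ hp hI hT hM2 hM hδ θ0 θB hΨ hF hG hE ne hsh hx
  have B0 : 0 ≤ B := θ0.trans θB
  have T0 : (0 : ℝ) < T := by exact_mod_cast hT
  have M0 : (0 : ℝ) < M := by exact_mod_cast (show 0 < M by omega)
  have IM : I ≤ M := by
    have a : I ≤ (j + 1) * I := Nat.le_mul_of_pos_left _ (Nat.succ_pos j)
    have b := le_trans (Nat.le_mul_of_pos_left _ (Nat.succ_pos j)) hM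
    omega
  have G0 : ∀ (W : Pt j p) s, 0 ≤ Gw (gE M R F) W s := fun W s =>
    prod_nonneg fun c _ => gE_nn _ _ _ hF _
  set h : Pt j p → ℤ → ℝ := fun W s =>
    Ψ ((s : ZMod Q) • ξ W + γ W) * (Gw (gE M R F) W (x0 + s) - θ) with hh
  have hb : ∀ W s, -B ≤ h W s ∧ h W s ≤ B := by
    intro W s
    have a := hΨ ((s : ZMod Q) • ξ W + γ W)
    have b := G0 W (x0 + s)
    have c := hG W (x0 + s)
    simp only [hh]
    constructor <;> nlinarith [a.1, a.2]
  set A : Pt j p → ℤ → ℝ := fun W s0 => 𝔼 s ∈ bz m I, h W (s0 + enc M s) with hA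
  have neI : (bz m I).Nonempty := SV.bz_ne hI
  have neT : (rg T).Nonempty := ⟨0, mem_rg.2 ⟨le_rfl, by exact_mod_cast hT⟩⟩
  have AB : ∀ W s0, A W s0 ≤ B := fun W s0 => expect_le neI fun s _ => (hb _ _).2
  have h1 : ∀ W ∈ E, δ / 2 ≤ 𝔼 s0 ∈ rg T, A W s0 := by
    intro W hW
    simp only [hA]
    rw [expect_comm]
    refine le_expect neI fun s hs => ?_
    have a := SV.shift1 hT (fun x => h W x + B) (B := 2 * B)
      (fun x => ⟨by linarith [(hb W x).1], by linarith [(hb W x).2]⟩) (enc M s)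
    rw [expect_add_distrib, expect_add_distrib, expect_const neT] at a
    have b : δ ≤ 𝔼 x ∈ rg T, h W x := hx W hW
    have c : |((enc M s : ℤ) : ℝ)| * (2 * B) / T ≤ δ / 2 := by
      rw [div_le_iff₀ T0]
      refine le_of_mul_le_mul_right ?_ M0
      have := mul_le_mul_of_nonneg_right (enc_le2 hM2 hs) B0
      nlinarith
    linarith
  obtain ⟨s0, -, h2⟩ : ∃ s0 ∈ rg T, δ / 2 * E.card ≤ ∑ W ∈ E, A W s0 := by
    refine exists_le_of_le_expect neT ?_
    rw [expect_sum_comm]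
    have := sum_le_sum h1
    rw [sum_const, nsmul_eq_mul] at this
    linarith
  set E1 := E.filter fun W => δ / 4 ≤ A W s0 with hE1
  have h3 : δ * E.card ≤ 4 * B * E1.card := by
    have a : ∑ W ∈ E, A W s0 ≤ ∑ W ∈ E, (δ / 4 + if δ / 4 ≤ A W s0 then B else 0) :=
      sum_le_sum fun W _ => by
        have := AB W s0
        split_ifs with c
        · linarith
        · linarith [not_le.1 c]
    rw [sum_add_distrib, sum_const, ← sum_filter, sum_const, nsmul_eq_mul, nsmul_eq_mul] at a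
    linarith
  obtain ⟨W0, E', e1, e2, e3⟩ := win IM (by omega) E1 ((filter_subset _ _).trans hE)
  have I0 : (0 : ℝ) < (I : ℝ) ^ (j * (p * m)) := by
    have : (0 : ℝ) < I := by exact_mod_cast hI
    positivity
  have h4 : δ * E.card * (I : ℝ) ^ (j * (p * m)) ≤
      4 * B * (2 * (M : ℝ) ^ m) ^ (j * p) * E'.card := by
    have a := mul_le_mul_of_nonneg_right h3 I0.le
    have b := mul_le_mul_of_nonneg_left e3 (show 0 ≤ 4 * B by linarith)
    nlinarith
  have ne' : E'.Nonempty := by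
    rw [nonempty_iff_ne_empty]
    rintro rfl
    have : (0 : ℝ) < E.card := by exact_mod_cast card_pos.2 ne
    have : 0 < δ * E.card * (I : ℝ) ^ (j * (p * m)) := by positivity
    simp only [card_empty, Nat.cast_zero, mul_zero] at h4
    linarith
  obtain ⟨w1, hw1⟩ := ne'
  obtain ⟨s1, hs1, h5⟩ : ∃ s1 ∈ bz m I, δ / 4 ≤ h (W0 + encP M w1) (s0 + enc M s1) :=
    exists_le_of_le_expect neI (mem_filter.1 (e2 w1 hw1)).2
  have h6 : Gw (gE M R F) (W0 + encP M w1) (x0 + (s0 + enc M s1)) ≠ 0 := by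
    intro z
    simp only [hh, z] at h5
    nlinarith [(hΨ (((s0 + enc M s1 : ℤ) : ZMod Q) • ξ (W0 + encP M w1) + γ (W0 + encP M w1))).1]
  have h7 : ∀ c : Fin j → Fin p, ∃ d : Vz m, enc M d = x0 + s0 + ∑ i, W0 i (c i) ∧
      ∀ l, -(((j + 1) * I : ℕ) : ℤ) < d l ∧ d l < R := by
    intro c
    obtain ⟨v, hv, e⟩ := gE_ne M R F (prod_ne_zero_iff.1 h6 c (mem_univ c))
    rw [arg_eq] at e
    refine ⟨v - (s1 + ∑ i, blk w1 i (c i)), by rw [enc_sub, e]; ring, fun l => ?_⟩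
    have a := mem_bz.1 hv l
    have b := sum_bd (e1 hw1) hs1 c l
    rw [Pi.sub_apply]
    constructor <;> omega
  choose d hd1 hd2 using h7
  obtain ⟨z0, z, hz⟩ := dec hp hM (x0 + s0) W0 d hd1 hd2
  refine ⟨W0, s0, z0, z, E', e1, fun w hw => (mem_filter.1 (e2 w hw)).1, h4,
    fun c l => hz c ▸ hd2 c l, fun w hw => ?_⟩
  refine (mem_filter.1 (e2 w hw)).2.trans (le_of_eq ?_)
  refine expect_congr rfl fun s hs => ?_
  simp only [hh]
  rw [phase]
  refine congrArg (fun x => _ * (x - θ)) (prod_congr rfl fun c _ => ?_)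
  rw [arg_eq, ← hd1, ← enc_add, gE_enc M R F fun l => ?_]
  · refine congrArg (cutV R F) ?_
    rw [hz, sum_add_distrib]
    abel
  · have a := hd2 c l
    have b := sum_bd (e1 hw) hs c l
    have e : ((R + (j + 1) * I : ℕ) : ℤ) ≤ M := by
      exact_mod_cast le_trans (Nat.le_mul_of_pos_left _ (Nat.succ_pos j)) hM
    rw [Nat.cast_add] at e
    rw [Pi.add_apply]
    constructor <;> omega

end

end Vale.Agent.P057T.Pl
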