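import Vale.Agent.P057T.EncH48

/-! Decoding: from the encoded function on the integers back to boxes. -/

set_option linter.all false

open Finset
open scoped BigOperators

namespace Vale.Agent.P057T

open Vale.Agent.P057L Vale.Agent.P057Z

noncomputable section

variable {j q m : ℕ}

/-- block a of a vector made of q blocks of length m -/
def blk (w : Vz (q * m)) (a : Fin q) : Vz m := fun l => w (finProdFinEquiv (a, l))

/-- the encoded point -/
def encP (M : ℕ) (u : Fin j → Fin q → Vz m) (w : Pt j (q * m)) : Pt j q :=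
  fun i a => enc M (u i a + blk (w i) a)

/-- the product over the cells, in boxes -/
def GwV (F : Vz m → ℝ) (z : Fin j → Fin q → Vz m) (w : Pt j (q * m)) (s : Vz m) : ℝ :=
  ∏ c : Fin j → Fin q, F (s + ∑ i, (z i (c i) + blk (w i) (c i)))

/-- the weighted excess over a box -/
def excV {Q r : ℕ} (Ψ : (Fin r → ZMod Q) → ℝ) (ξ : Fin m → Fin r → ZMod Q) (γ : Fin r → ZMod Q)
    (T : ℕ) (G : Vz m → ℝ) (θ : ℝ) : ℝ :=
  𝔼 s ∈ bz m T, Ψ (∑ l, (s l : ZMod Q) • ξ l + γ) * (G s - θ)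

/-- decoding -/
def PULL : Prop :=
  ∀ (j q m R K lam T Q r : ℕ) (κ θ B : ℝ) (F : Vz m → ℝ) (Ψ : (Fin r → ZMod Q) → ℝ)
    (ξ γ : Pt j q → Fin r → ZMod Q) (E : Finset (Pt j q)) (x0 : ℤ),
    1 ≤ q → 1 ≤ lam → 1 ≤ K → (j + 1) * (R + (j + 1) * lam) ≤ K * lam → 1 ≤ T →
    T ≤ (K * lam) ^ m → 0 < κ → κ ≤ B → 0 ≤ θ → θ ≤ B → (∀ x, 0 ≤ Ψ x ∧ Ψ x ≤ 1) →
    (∀ W s, 0 ≤ Gw (gE (K * lam) R F) W s ∧ Gw (gE (K * lam) R F) (W : Pt j q) s ≤ B) →
    4 * B * (m * lam * (K * lam : ℕ) ^ (m - 1)) < κ * T → E ⊆ bp j q ((K * lam) ^ m) →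
    (∀ W ∈ E, κ ≤ exc Ψ (ξ W) (γ W) T (fun s => Gw (gE (K * lam) R F) W (x0 + s)) θ) →
    ∃ (u z : Fin j → Fin q → Vz m) (s0 : ℤ) (z0 : Vz m) (E' : Finset (Pt j (q * m))),
      E' ⊆ bp j (q * m) lam ∧ E.card ≤ K ^ (m * (j * q + 1)) * E'.card ∧
      (∀ l, |z0 l| ≤ (R + (j + 1) * lam : ℕ)) ∧ (∀ i a l, |z i a l| ≤ (R + (j + 1) * lam : ℕ)) ∧
      ∀ w ∈ E', encP (K * lam) u w ∈ E ∧
        κ / 2 ≤ excV Ψ (fun l => ((K * lam : ℕ) : ZMod Q) ^ (l : ℕ) • ξ (encP (K * lam) u w))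
          (γ (encP (K * lam) u w) + (s0 : ZMod Q) • ξ (encP (K * lam) u w)) lam
          (fun s => GwV (cutV R F) z w (z0 + s)) θ

namespace Pu

open En

theorem blk_add (v w : Vz (q * m)) (a : Fin q) : blk (v + w) a = blk v a + blk w a := rfl

theorem blk_sum {ι : Type} (s : Finset ι) (v : ι → Vz (q * m)) (a : Fin q) :
    blk (∑ i ∈ s, v i) a = ∑ i ∈ s, blk (v i) a := by
  funext l
  simp [blk, Finset.sum_apply]

theorem encP_upd (M : ℕ) (u : Fin j → Fin q → Vz m) (W : Pt j (q * m)) (i : Fin j)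
    (s : Vz (q * m)) : encP M u (Function.update W i s) =
      Function.update (encP M u W) i (fun a => enc M (u i a + blk s a)) := by
  funext i' a
  by_cases h : i' = i
  · subst h; simp [encP]
  · simp [encP, Function.update_of_ne h]

/-- multi-homomorphisms pull back -/
theorem mh_pull {H : Type} [AddCommGroup H] (M : ℕ) (u : Fin j → Fin q → Vz m) {φ : Pt j q → H}
    {E : Finset (Pt j q)} {E' : Finset (Pt j (q * m))} (h : MH φ E)
    (hE : ∀ w ∈ E', encP M u w ∈ E) : MH (fun w => φ (encP M u w)) E' := by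
  intro i W s t hs ht e
  simp only [encP_upd]
  refine h i (encP M u W) _ _ (fun a => ?_) (fun a => ?_) ?_
  · rw [← encP_upd]; exact hE _ (hs a)
  · rw [← encP_upd]; exact hE _ (ht a)
  · funext a
    simp only [Finset.sum_apply, enc_add, sum_add_distrib]
    rw [← enc_sum M univ (fun b => blk (s b) a), ← enc_sum M univ (fun b => blk (t b) a),
      ← blk_sum, ← blk_sum, e]

theorem mh_map {H H' : Type} [AddCommGroup H] [AddCommGroup H'] (f : H →+ H') {φ : Pt j q → H}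
    {E : Finset (Pt j q)} (h : MH φ E) : MH (fun w => f (φ w)) E := by
  intro i W s t hs ht e
  rw [← map_sum, ← map_sum, h i W s t hs ht e]

theorem split {K lam : ℕ} (hl : 1 ≤ lam) {v : Vz m} (hv : v ∈ bz m (K * lam)) :
    ∃ a ∈ bz m K, ∃ σ ∈ bz m lam, v = (lam : ℤ) • a + σ := by
  have l0 : (0 : ℤ) < lam := by exact_mod_cast hl
  refine ⟨fun l => v l / lam, mem_bz.2 fun l => ?_, fun l => v l % lam, mem_bz.2 fun l =>
    ⟨Int.emod_nonneg _ l0.ne', Int.emod_lt_of_pos _ l0⟩, funext fun l => ?_⟩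
  · have h := mem_bz.1 hv l
    refine ⟨Int.ediv_nonneg h.1 l0.le, ?_⟩
    rw [Int.ediv_lt_iff_lt_mul l0]
    exact_mod_cast h.2
  · simp [Int.mul_ediv_add_emod]

theorem join {K lam : ℕ} {a σ : Vz m} (ha : a ∈ bz m K) (hσ : σ ∈ bz m lam) :
    (lam : ℤ) • a + σ ∈ bz m (K * lam) := by
  refine mem_bz.2 fun l => ?_
  have h1 := mem_bz.1 ha l
  have h2 := mem_bz.1 hσ l
  have l0 : (0 : ℤ) ≤ lam := Int.natCast_nonneg _
  simp only [Pi.add_apply, Pi.smul_apply, smul_eq_mul]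
  push_cast
  refine ⟨add_nonneg (mul_nonneg l0 h1.1) h2.1, ?_⟩
  nlinarith [mul_le_mul_of_nonneg_left (Int.add_one_le_of_lt h1.2) l0]

theorem enc_bd {M lam : ℕ} (hM : 1 ≤ M) {σ : Vz m} (hσ : σ ∈ bz m lam) :
    0 ≤ enc M σ ∧ enc M σ ≤ (m * lam * M ^ (m - 1) : ℕ) := by
  have M1 : (1 : ℤ) ≤ M := by exact_mod_cast hM
  refine ⟨sum_nonneg fun l _ => mul_nonneg (mem_bz.1 hσ l).1 (by positivity), ?_⟩
  refine (sum_le_card_nsmul univ _ ((lam : ℤ) * M ^ (m - 1)) fun l _ => ?_).trans ?_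
  · exact mul_le_mul (mem_bz.1 hσ l).2.le (pow_le_pow_right₀ M1 (by have := l.2; omega))
      (by positivity) (by positivity)
  · rw [card_univ, Fintype.card_fin, nsmul_eq_mul]
    push_cast
    exact le_of_eq (by ring)

/-- a cell with a large mean -/
theorem cell {K lam T : ℕ} (hl : 1 ≤ lam) (hK : 1 ≤ K) (hT : 1 ≤ T) (hT' : T ≤ (K * lam) ^ m)
    (h : ℤ → ℝ) {κ B : ℝ} (hκ : 0 < κ) (hκB : κ ≤ B) (hB : ∀ s, |h s| ≤ B)
    (hD : 4 * B * (m * lam * (K * lam : ℕ) ^ (m - 1)) < κ * T) (hx : κ ≤ 𝔼 s ∈ rg T, h s) :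
    ∃ a ∈ bz m K, κ / 2 ≤ 𝔼 σ ∈ bz m lam, h (enc (K * lam) ((lam : ℤ) • a + σ)) := by
  classical
  by_contra hn
  push Not at hn
  have M1 : 1 ≤ K * lam := Nat.mul_pos hK hl
  set M := K * lam with hM
  set D := m * lam * M ^ (m - 1) with hDd
  set A := (bz m K).filter fun a => enc M ((lam : ℤ) • a) < T with hA
  set e : Vz m × Vz m → ℤ := fun p => enc M ((lam : ℤ) • p.1 + p.2) with he
  have l0 : (0 : ℤ) < lam := by exact_mod_cast hl
  have inj : Set.InjOn e (A ×ˢ bz m lam : Finset (Vz m × Vz m)) := by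
    intro p hp p' hp' h1
    simp only [coe_product, Set.mem_prod, mem_coe, hA, mem_filter] at hp hp'
    have j1 := mem_bz.1 (join hp.1.1 hp.2)
    have j2 := mem_bz.1 (join hp'.1.1 hp'.2)
    have h2 := enc_inj M h1 fun l => by
      have a1 := j1 l
      have a2 := j2 l
      rw [abs_lt]; constructor <;> omega
    have h3 : ∀ l, p.1 l = p'.1 l ∧ p.2 l = p'.2 l := fun l => by
      have a1 := congrFun h2 l
      have a2 := mem_bz.1 hp.2 l
      have a3 := mem_bz.1 hp'.2 l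
      simp only [Pi.add_apply, Pi.smul_apply, smul_eq_mul] at a1
      have a4 : p.1 l = p'.1 l := by
        by_contra a5
        rcases lt_or_gt_of_ne a5 with a6 | a6
        · nlinarith [mul_le_mul_of_nonneg_left (Int.add_one_le_of_lt a6) l0.le]
        · nlinarith [mul_le_mul_of_nonneg_left (Int.add_one_le_of_lt a6) l0.le]
      exact ⟨a4, by rw [a4] at a1; linarith⟩
    exact Prod.ext (funext fun l => (h3 l).1) (funext fun l => (h3 l).2)
  set S := (A ×ˢ bz m lam).image e with hS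
  have s1 : rg T ⊆ S := fun s hs => by
    have h1 := mem_rg.1 hs
    obtain ⟨v, hv, rfl⟩ := enc_surj M (m := m) s (mem_rg.2 ⟨h1.1, h1.2.trans_le (by
      exact_mod_cast hT')⟩)
    obtain ⟨a, ha, σ, hσ, rfl⟩ := split hl hv
    refine mem_image.2 ⟨(a, σ), mem_product.2 ⟨mem_filter.2 ⟨ha, ?_⟩, hσ⟩, rfl⟩
    rw [enc_add] at h1
    linarith [(enc_bd M1 hσ).1, h1.2]
  have s2 : S \ rg T ⊆ Ico (T : ℤ) (T + D) := fun s hs => by
    obtain ⟨h1, h2⟩ := mem_sdiff.1 hs
    obtain ⟨p, hp, rfl⟩ := mem_image.1 h1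
    obtain ⟨h3, h4⟩ := mem_product.1 hp
    obtain ⟨h5, h6⟩ := mem_filter.1 h3
    have h7 := (mem_rg.1 (enc_rg M _ (join h5 h4))).1
    rw [mem_rg] at h2
    have h8 := (enc_bd M1 h4).2
    rw [mem_Ico]
    refine ⟨by by_contra h9; exact h2 ⟨h7, not_le.1 h9⟩, ?_⟩
    simp only [he, enc_add]
    linarith
  have c2 : ((S \ rg T).card : ℝ) ≤ D := by
    have := card_le_card s2
    rw [Int.card_Ico] at this
    exact_mod_cast (show (S \ rg T).card ≤ D by omega)
  have T0 : (0 : ℝ) < T := by exact_mod_cast hT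
  have b1 : ∑ s ∈ S, (h s - κ / 2) ≤ 0 := by
    rw [hS, sum_image inj, sum_product]
    refine sum_nonpos fun a ha => ?_
    have h1 := hn a (mem_filter.1 ha).1
    have c0 : (0 : ℝ) < (bz m lam).card := by exact_mod_cast card_pos.2 (SV.bz_ne hl)
    rw [expect_eq_sum_div_card, div_lt_iff₀ c0] at h1
    rw [sum_sub_distrib, sum_const, nsmul_eq_mul]
    simp only [he]
    linarith
  have b2 : κ / 2 * T ≤ ∑ s ∈ rg T, (h s - κ / 2) := by
    rw [expect_eq_sum_div_card, St1.rg_card, le_div_iff₀ T0] at hx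
    rw [sum_sub_distrib, sum_const, nsmul_eq_mul, St1.rg_card]
    linarith
  have b3 : -(2 * B * D) ≤ ∑ s ∈ S \ rg T, (h s - κ / 2) := by
    have h1 := card_nsmul_le_sum (S \ rg T) (fun s => h s - κ / 2) (-(2 * B)) fun s _ => by
      linarith [(abs_le.1 (hB s)).1]
    rw [nsmul_eq_mul] at h1
    nlinarith
  have b4 := sum_sdiff (f := fun s => h s - κ / 2) s1
  have b5 : (D : ℝ) = m * lam * (M : ℝ) ^ (m - 1) := by rw [hDd]; push_cast; ring
  rw [← b5] at hD
  linarith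

theorem pt_sum {lam : ℕ} {w : Pt j (q * m)} (hw : w ∈ bp j (q * m) lam) {σ : Vz m}
    (hσ : σ ∈ bz m lam) (c : Fin j → Fin q) (l : Fin m) :
    0 ≤ (σ + ∑ i, blk (w i) (c i)) l ∧ (σ + ∑ i, blk (w i) (c i)) l < ((j + 1) * lam : ℕ) := by
  have h1 : ∀ i x, 0 ≤ w i x ∧ w i x < lam := fun i x =>
    mem_bz.1 (Fintype.mem_piFinset.1 hw i) x
  have h2 := mem_bz.1 hσ l
  simp only [Pi.add_apply, Finset.sum_apply, blk]
  refine ⟨add_nonneg h2.1 (sum_nonneg fun i _ => (h1 _ _).1), ?_⟩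
  have h3 := sum_le_card_nsmul univ (fun i => w i (finProdFinEquiv (c i, l))) (lam : ℤ)
    fun i _ => (h1 _ _).2.le
  rw [card_univ, Fintype.card_fin, nsmul_eq_mul] at h3
  push_cast
  linarith [h2.2]

/-- the carries are additive -/
theorem carry {M D : ℕ} (hq : 1 ≤ q) (hM : (j + 1) * D ≤ M) (x : ℤ) (f : Fin j → Fin q → ℤ)
    (d : (Fin j → Fin q) → Vz m) (hd : ∀ c, enc M (d c) = x + ∑ i, f i (c i))
    (hb : ∀ c c' l, |d c l - d c' l| < D) :
    ∃ (c0 : Fin j → Fin q) (z : Fin j → Fin q → Vz m), (∀ i a l, |z i a l| < D) ∧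
      ∀ c, d c = d c0 + ∑ i, z i (c i) := by
  classical
  let c0 : Fin j → Fin q := fun _ => ⟨0, hq⟩
  refine ⟨c0, fun i a => d (Function.update c0 i a) - d c0, fun i a l => hb _ _ l, fun c => ?_⟩
  have e1 : ∀ i a, enc M (d (Function.update c0 i a) - d c0) = f i a - f i (c0 i) := fun i a => by
    rw [enc_sub, hd, hd, add_sub_add_left_eq_sub, ← sum_sub_distrib, sum_eq_single i]
    · simp
    · intro b _ hb
      simp [Function.update_of_ne hb]
    · simp
  refine enc_inj M ?_ fun l => ?_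
  · rw [enc_add, enc_sum, hd, hd]
    simp only [e1, sum_sub_distrib]
    ring
  · have h1 := (abs_sum_le_sum_abs _ _).trans (sum_le_card_nsmul univ
      (fun i => |(d (Function.update c0 i (c i)) - d c0) l|) (D : ℤ) fun i _ => (hb _ _ l).le)
    rw [card_univ, Fintype.card_fin, nsmul_eq_mul] at h1
    have h2 := hb c c0 l
    have h3 : ((j : ℤ) + 1) * D ≤ M := by exact_mod_cast hM
    simp only [Pi.add_apply, Finset.sum_apply]
    rw [← sub_sub]
    refine (abs_sub _ _).trans_lt ?_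
    linarith

end Pu

open En Pu

theorem pull : PULL := by
  classical
  intro j q m R K lam T Q r κ θ B F Ψ ξ γ E x0 hq hl hK hM hT hT' hκ hκB θ0 θ1 hΨ hG hD hE hx
  set M := K * lam with hMd
  have h1 : ∀ W : Pt j q, ∃ a ∈ bz m K, W ∈ E → κ / 2 ≤ 𝔼 σ ∈ bz m lam,
      Ψ (((enc M ((lam : ℤ) • a + σ) : ℤ) : ZMod Q) • ξ W + γ W) *
        (Gw (gE M R F) W (x0 + enc M ((lam : ℤ) • a + σ)) - θ) := fun W => by
    by_cases hW : W ∈ E
    · obtain ⟨a, ha, h⟩ := cell hl hK hT hT' (fun s => Ψ ((s : ZMod Q) • ξ W + γ W) *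
        (Gw (gE M R F) W (x0 + s) - θ)) hκ hκB (fun s => by
          have a1 := hΨ ((s : ZMod Q) • ξ W + γ W)
          have a2 := hG W (x0 + s)
          rw [abs_mul, abs_of_nonneg a1.1]
          have a3 : |Gw (gE M R F) W (x0 + s) - θ| ≤ B := abs_le.2 ⟨by linarith, by linarith⟩
          nlinarith [abs_nonneg (Gw (gE M R F) W (x0 + s) - θ)]) hD (hx W hW)
      exact ⟨a, ha, fun _ => h⟩
    · obtain ⟨a, ha⟩ := SV.bz_ne (m := m) hK
      exact ⟨a, ha, fun h => absurd h hW⟩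
  choose a0 ha0 hx0 using h1
  have h2 : ∀ (W : Pt j q) (i : Fin j) (a : Fin q), ∃ u ∈ bz m K, W ∈ E →
      ∃ σ ∈ bz m lam, W i a = enc M ((lam : ℤ) • u + σ) := fun W i a => by
    by_cases hW : W ∈ E
    · obtain ⟨v, hv, e⟩ := enc_surj M (m := m) (W i a)
        (Fintype.mem_piFinset.1 (Fintype.mem_piFinset.1 (hE hW) i) a)
      obtain ⟨u, hu, σ, hσ, rfl⟩ := split hl hv
      exact ⟨u, hu, fun _ => ⟨σ, hσ, e.symm⟩⟩
    · obtain ⟨u, hu⟩ := SV.bz_ne (m := m) hK
      exact ⟨u, hu, fun h => absurd h hW⟩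
  choose uu huu hw using h2
  set O : Finset (Vz m × (Fin j → Fin q → Vz m)) :=
    bz m K ×ˢ Fintype.piFinset fun _ => Fintype.piFinset fun _ => bz m K with hO
  have cO : O.card = K ^ (m * (j * q + 1)) := by
    simp only [hO, card_product, Fintype.card_piFinset, prod_const, card_univ, Fintype.card_fin,
      SV.bz_card]
    ring
  have O0 : O.Nonempty := card_pos.1 (by rw [cO]; positivity)
  obtain ⟨o, -, ho⟩ := exists_le_of_sum_le (s := O) (f := fun _ => E.card)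
    (g := fun o => O.card * (E.filter fun W => (a0 W, uu W) = o).card) O0 (by
      rw [← mul_sum, sum_const, smul_eq_mul, ← card_eq_sum_card_fiberwise (f := fun W =>
        (a0 W, uu W))]
      intro W _
      exact mem_coe.2 (mem_product.2 ⟨ha0 W, Fintype.mem_piFinset.2 fun i =>
        Fintype.mem_piFinset.2 fun a => huu W i a⟩))
  obtain ⟨a, u⟩ := o
  set u' : Fin j → Fin q → Vz m := fun i b => (lam : ℤ) • u i b with hu'
  set E' := (bp j (q * m) lam).filter fun w => encP M u' w ∈ E ∧ a0 (encP M u' w) = a with hE'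
  have c1 : (E.filter fun W => (a0 W, uu W) = (a, u)).card ≤ E'.card := by
    refine card_le_card_of_surjOn (encP M u') fun W hW => ?_
    obtain ⟨w1, w2⟩ := mem_filter.1 (mem_coe.1 hW)
    obtain ⟨w3, w4⟩ := Prod.mk.inj w2
    choose σ hσ eσ using fun i b => hw W i b w1
    have e : encP M u' (fun i x => σ i (finProdFinEquiv.symm x).1 (finProdFinEquiv.symm x).2) =
        W := by
      funext i b
      rw [eσ, w4]
      simp only [encP, hu']
      congr 2
      funext l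
      simp [blk]
    refine ⟨_, mem_coe.2 (mem_filter.2 ⟨?_, by rw [e]; exact ⟨w1, w3⟩⟩), e⟩
    exact Fintype.mem_piFinset.2 fun i => mem_bz.2 fun x => mem_bz.1 (hσ _ _) _
  have c2 : E.card ≤ K ^ (m * (j * q + 1)) * E'.card := by
    rw [← cO]; exact ho.trans (Nat.mul_le_mul_left _ c1)
  have key : ∀ (w : Pt j (q * m)) (σ : Vz m) (c : Fin j → Fin q),
      x0 + enc M ((lam : ℤ) • a + σ) + ∑ i, encP M u' w i (c i) =
        (x0 + enc M ((lam : ℤ) • a) + ∑ i, enc M (u' i (c i))) +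
          enc M (σ + ∑ i, blk (w i) (c i)) := fun w σ c => by
    simp only [encP, enc_add, enc_sum, sum_add_distrib]
    ring
  rcases E'.eq_empty_or_nonempty with h0 | ⟨w0, hw0⟩
  · exact ⟨u', 0, 0, 0, E', filter_subset _ _, c2, fun l => by simp; positivity,
      fun i b l => by simp; positivity,
      fun w h => by rw [h0] at h; simp at h⟩
  obtain ⟨w1, w2, w3⟩ := mem_filter.1 hw0
  obtain ⟨σ0, hσ0, g0⟩ : ∃ σ ∈ bz m lam,
      Gw (gE M R F) (encP M u' w0) (x0 + enc M ((lam : ℤ) • a + σ)) ≠ 0 := by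
    by_contra hn
    push Not at hn
    have h3 := hx0 _ w2
    rw [w3] at h3
    have h4 := h3.trans (expect_le (a := 0) (SV.bz_ne hl) fun σ hσ => by
      rw [hn σ hσ]
      exact mul_nonpos_of_nonneg_of_nonpos (hΨ _).1 (by linarith))
    linarith
  have h5 : ∀ c : Fin j → Fin q, ∃ d : Vz m,
      enc M d = x0 + enc M ((lam : ℤ) • a) + ∑ i, enc M (u' i (c i)) ∧
      ∀ l, -(((j + 1) * lam : ℕ) : ℤ) < d l ∧ d l < R := fun c => by
    obtain ⟨v, hv, e⟩ := gE_ne M R F (prod_ne_zero_iff.1 g0 c (mem_univ _))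
    rw [key] at e
    refine ⟨v - (σ0 + ∑ i, blk (w0 i) (c i)), by rw [enc_sub, e]; ring, fun l => ?_⟩
    have a1 := mem_bz.1 hv l
    have a2 := pt_sum w1 hσ0 c l
    rw [Pi.sub_apply]
    constructor <;> omega
  choose d hd hb using h5
  obtain ⟨c0, z, hz, ez⟩ := carry hq hM _ (fun i b => enc M (u' i b)) d hd fun c c' l => by
    have a1 := hb c l
    have a2 := hb c' l
    rw [abs_lt]
    push_cast at a1 a2 ⊢
    constructor <;> omega
  refine ⟨u', z, enc M ((lam : ℤ) • a), d c0, E', filter_subset _ _, c2, fun l => ?_,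
    fun i b l => (hz i b l).le, fun w h => ?_⟩
  · have a1 := hb c0 l
    rw [abs_le]
    push_cast at a1 ⊢
    have : (0 : ℤ) ≤ (j + 1) * lam := by positivity
    constructor <;> omega
  obtain ⟨v1, v2, v3⟩ := mem_filter.1 h
  refine ⟨v2, ?_⟩
  have h3 := hx0 _ v2
  rw [v3] at h3
  refine h3.trans_eq (expect_congr rfl fun σ hσ => ?_)
  congr 1
  · congr 1
    rw [enc_add, Int.cast_add, add_smul, add_comm (γ _), ← add_assoc, add_comm (_ • ξ _)]
    congr 2
    simp only [enc, Int.cast_sum, Int.cast_mul, Int.cast_pow, Int.cast_natCast, sum_smul, mul_smul]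
  · congr 1
    refine prod_congr rfl fun c _ => ?_
    have a1 := pt_sum v1 hσ c
    have a3 : ((R + (j + 1) * lam : ℕ) : ℤ) ≤ M := by
      exact_mod_cast le_trans (Nat.le_mul_of_pos_left _ (Nat.succ_pos j)) hM
    rw [key, ← hd, ← enc_add, gE_enc M R F fun l => ?_, ez c]
    · congr 1
      rw [sum_add_distrib]
      abel
    · have a2 := hb c l
      have a4 := a1 l
      rw [Pi.add_apply]
      push_cast at a2 a3 a4 ⊢
      constructor <;> omega

end

end Vale.Agent.P057T
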