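import Vale.Agent.P057T.StartV
import Vale.Agent.P057L.Step

/-! The start from lower bounds on box means, positions, shifts of grids. -/

set_option linter.all false

open Finset
open scoped BigOperators

namespace Vale.Agent.P057T

open Vale.Agent.P057L

noncomputable section

/-- the start from lower bounds on the means of boxes, one scale -/
def ST2V : Prop :=
  ∀ k : ℕ, 1 ≤ k → ∃ η : ℝ, 0 < η ∧ η ≤ 1 / 10 ∧ ∃ C : ℕ, ∀ (X : ℝ) (m M : ℕ) (F : Vz m → ℝ)
    (x0 : Vz m), (C : ℝ) ≤ X → 1 ≤ M → (∀ x, 0 ≤ F x ∧ F x ≤ Real.exp X) →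
    (∀ a d : Vz m, (∀ l, 1 ≤ d l) → (∀ i : ℕ, i < k + 2 → ∀ l,
      |(a + (i : ℤ) • d) l| ≤ (2 * (k + 1) ^ 2 * (k + 1).factorial * M : ℕ)) →
      ∃ i : ℕ, i < k + 2 ∧ F (x0 + (a + (i : ℤ) • d)) = 0) →
    (∀ (x : Vz m) (c : ℤ), c ≠ 0 → c ∣ (((k + 1).factorial ^ 2 : ℕ) : ℤ) →
      (∀ l, |x l| ≤ (2 * (k + 1) ^ 2 * (k + 1).factorial * M : ℕ)) →
      1 - η ≤ 𝔼 z ∈ bz m M, F (x0 + (x + c • z))) →
    ∃ (i : Fin (k + 2)) (p : ℕ) (c : Fin (k + 1) → ℤ), 1 ≤ p ∧ (p : ℝ) ≤ X ^ C ∧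
      (∀ a, c a ∣ (((k + 1).factorial ^ 2 : ℕ) : ℤ)) ∧ (1 + η) ^ (p ^ (k + 1)) ≤
        gridA (fun _ => bz m M) (fun _ => p)
          (fun _ y => F (x0 + ((fun _ => ((i : ℕ) : ℤ)) + ∑ a, c a • y a)))

open SV St1

theorem st2v (hH : HGA) : ST2V := by
  intro k hk
  obtain ⟨η, h0, h0', C, hC⟩ := hH k hk
  refine ⟨η, h0, h0', C, fun X m M F x0 hX hM fb hF lo => ?_⟩
  haveI : NeZero M := ⟨by omega⟩
  have mj : ∀ j : Fin (k + 2), Mj M M j = M := fun j => by unfold Mj; split_ifs <;> rfl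
  have G : ∀ (i : Fin (k + 2)) (y : Fin (k + 1) → Fin m → Fin M × Fin M),
      1 - η ≤ 𝔼 w, F (x0 + pv i (Function.update y (Fin.last k) w)) := fun i y => by
    have h1 := vv_exp (M := M) (M' := M) (i.succAbove (Fin.last k))
      fun z => F (x0 + (bv i y + cf i (i.succAbove (Fin.last k)) • z))
    simp only [pv_upd]
    rw [h1, mj]
    refine lo _ _ (cf_ne (Fin.succAbove_ne i _).symm) (cf_dvd (Fin.succAbove_ne i _).symm)
      fun l => ?_
    have h2 := congrFun (pv_upd i y 0) l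
    have h3 : vv (i.succAbove (Fin.last k)) (0 : Fin m → Fin M × Fin M) l = 0 := by
      unfold vv vl; split_ifs <;> simp
    rw [Pi.add_apply, Pi.smul_apply, h3, smul_zero, add_zero] at h2
    rw [← h2]
    exact pt_bd le_rfl hM i _
  obtain ⟨i, p, p1, p2, p3⟩ := hC X (Fin m → Fin M × Fin M) (fun i y => F (x0 + pv i y)) hX
    (fun i y => fb _) (fun i _ y => G i y) (by
      have h1 := Gh.resample (fun _ : Fin (k + 1) => (univ : Finset (Fin m → Fin M × Fin M)))
        (Fin.last k) fun y => F (x0 + pv (Fin.last (k + 1)) y)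
      rw [Fintype.piFinset_univ] at h1
      rw [h1]
      exact le_expect univ_nonempty fun y _ => G _ y) (by
      refine le_of_eq_of_le (expect_eq_zero fun y _ => ?_) (by norm_num)
      have e : ∀ (n : ℕ) (hn : n < k + 2),
          (-fun l => ∑ j : Fin (k + 2), ((j : ℕ) : ℤ) * (sc k j * vl j (y j l))) +
            (n : ℤ) • (fun l => 1 + ∑ j, sc k j * vl j (y j l)) =
              pv ⟨n, hn⟩ (y ∘ (⟨n, hn⟩ : Fin (k + 2)).succAbove) := fun n hn => by
        funext l
        have h4 := pt_full ⟨n, hn⟩ fun j => y j l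
        simp only [pv, Pi.add_apply, Pi.neg_apply, Pi.smul_apply, smul_eq_mul,
          Function.comp_def] at h4 ⊢
        rw [h4]
      obtain ⟨n, hn, h1⟩ := hF
        (-fun l => ∑ j : Fin (k + 2), ((j : ℕ) : ℤ) * (sc k j * vl j (y j l)))
        (fun l => 1 + ∑ j, sc k j * vl j (y j l))
        (fun l => le_add_of_nonneg_right (sum_nonneg fun j _ =>
          mul_nonneg (zero_le_one.trans (sc_pos j).1) (vl_bd le_rfl j _).1))
        fun n hn l => by rw [e n hn]; exact pt_bd le_rfl hM _ _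
      rw [e n hn] at h1
      exact prod_eq_zero (mem_univ ⟨n, hn⟩) h1)
  refine ⟨i, p, fun l => cf i (i.succAbove l), p1, p2,
    fun l => cf_dvd (Fin.succAbove_ne i l).symm, ?_⟩
  rw [← push (Fin m → Fin M × Fin M) (Vz m) (k + 1) (fun _ => univ) _
    (fun l => vv (i.succAbove l)) _ _ fun l h => (vv_exp _ h).trans (by rw [mj])]
  refine p3.trans_eq ?_
  simp only [pv_sum]

namespace SV

variable {m : ℕ}

theorem shiftp {p L : ℕ} (hL : 1 ≤ L) (h : (Fin p → Vz m) → ℝ) {B S : ℝ}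
    (hB : ∀ x, 0 ≤ h x ∧ h x ≤ B) (s : Vz m) (hs : ∀ l, |(s l : ℝ)| ≤ S) :
    𝔼 V ∈ Fintype.piFinset (fun _ : Fin p => bz m L), h V - p * (m * (S * B / L)) ≤
      𝔼 V ∈ Fintype.piFinset (fun _ : Fin p => bz m L), h (fun a => V a + s) := by
  have ne : (Fintype.piFinset fun _ : Fin p => bz m L).Nonempty :=
    Fintype.piFinset_nonempty.2 fun _ => bz_ne hL
  have one : ∀ (h : (Fin p → Vz m) → ℝ), (∀ x, 0 ≤ h x ∧ h x ≤ B) → ∀ a : Fin p,
      𝔼 V ∈ Fintype.piFinset (fun _ : Fin p => bz m L), h V - m * (S * B / L) ≤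
        𝔼 V ∈ Fintype.piFinset (fun _ : Fin p => bz m L), h (V + Pi.single a s) := fun h hB a => by
    have r2 := Gh.resample (fun _ : Fin p => bz m L) a
      fun V : Fin p → Vz m => h (V + Pi.single a s)
    rw [Gh.resample (fun _ : Fin p => bz m L) a h]
    refine le_of_le_of_eq ?_ r2.symm
    rw [← expect_const ne (m * (S * B / L)), ← expect_sub_distrib]
    refine expect_le_expect fun W _ => ?_
    refine (shift hL (fun v => h (Function.update W a v)) (fun v => hB _) s hs).trans_eq ?_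
    refine expect_congr rfl fun v _ => congrArg h (funext fun b => ?_)
    by_cases e : b = a
    · subst e; simp
    · simp [e]
  have key : ∀ T : Finset (Fin p),
      𝔼 V ∈ Fintype.piFinset (fun _ : Fin p => bz m L), h V - T.card * (m * (S * B / L)) ≤
        𝔼 V ∈ Fintype.piFinset (fun _ : Fin p => bz m L), h (V + ∑ a ∈ T, Pi.single a s) :=
    fun T => by
    induction T using Finset.induction_on with
    | empty => simp
    | insert a T ha ih =>
      have h1 := one (fun V => h (V + ∑ a ∈ T, Pi.single a s)) (fun x => hB _) a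
      rw [card_insert_of_notMem ha, sum_insert ha]
      simp only [← add_assoc]
      push_cast
      linarith
  have h1 := key univ
  rw [card_univ, Fintype.card_fin, univ_sum_single (fun _ : Fin p => s)] at h1
  exact h1

/-- a shift of a grid -/
theorem grd_shift {n p L : ℕ} (hL : 1 ≤ L) (g : Vz m → ℝ) {B S : ℝ}
    (hB : ∀ x, 0 ≤ g x ∧ g x ≤ B) (s : Vz m) (hs : ∀ l, |(s l : ℝ)| ≤ S) :
    grdV (n + 1) p L g - p * (m * (S * B ^ p ^ (n + 1) / L)) ≤
      grdV (n + 1) p L fun z => g (z + s) := by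
  have ne : (Fintype.piFinset fun _ : Fin n => Fintype.piFinset fun _ : Fin p => bz m L).Nonempty :=
    Fintype.piFinset_nonempty.2 fun _ => Fintype.piFinset_nonempty.2 fun _ => bz_ne hL
  have e : ∀ g : Vz m → ℝ, grdV (n + 1) p L g =
      𝔼 W ∈ Fintype.piFinset (fun _ : Fin n => Fintype.piFinset fun _ : Fin p => bz m L),
        𝔼 V ∈ Fintype.piFinset (fun _ : Fin p => bz m L),
          ∏ c : Fin (n + 1) → Fin p, g (V (c 0) + ∑ i : Fin n, W i (c i.succ)) := fun g => by
    unfold grdV gridA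
    rw [MonoA.E_ins _ 0, expect_comm]
    refine expect_congr rfl fun W _ => expect_congr rfl fun V _ => prod_congr rfl fun c _ =>
      congrArg g ?_
    simp only [Fin.sum_univ_succ, Fin.insertNth_zero', Fin.cons_zero, Fin.cons_succ]
  rw [e, e, ← expect_const ne (p * (m * (S * B ^ p ^ (n + 1) / L))), ← expect_sub_distrib]
  refine expect_le_expect fun W _ => ?_
  refine (shiftp hL (fun V => ∏ c : Fin (n + 1) → Fin p, g (V (c 0) + ∑ i : Fin n, W i (c i.succ)))
    (fun V => ⟨prod_nonneg fun c _ => (hB _).1, ?_⟩) s hs).trans_eq ?_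
  · refine (prod_le_prod (fun c _ => (hB _).1) fun c _ => (hB _).2).trans_eq ?_
    simp
  · exact expect_congr rfl fun V _ => prod_congr rfl fun c _ => congrArg g (add_right_comm _ _ _)

end SV

end

end Vale.Agent.P057T
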