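import Vale.Agent.P057T.PullH56
import Vale.Agent.P057T.PullH48
import Vale.Agent.P057Q.Scu

/-! The half step in boxes, with all scales and the kernel chosen before the function. -/

set_option linter.all false

open Finset
open scoped BigOperators

namespace Vale.Agent.P057T

open Vale.Agent.P057Z Vale.Agent.P057L Vale.Agent.P057Q

noncomputable section

/-- sifting, dropping and exact homomorphisms in boxes, scales fixed in advance -/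
def SDVU : Prop :=
  ∀ (j : ℕ) (ε : ℝ), 0 < ε → ε ≤ 1 / 100 → ∃ C : ℕ, ∀ (Y : ℝ) (m L : ℕ), (C : ℝ) ≤ Y → 1 ≤ m →
    (m : ℝ) ≤ Y → Y ^ C ≤ Real.log L →
    ∃ (p I Q r : ℕ) (_ : Fact Q.Prime) (ρ : ℝ) (K0 : ℕ) (Ψ0 : (Fin r → ZMod Q) → ℝ),
      1 ≤ p ∧ (p : ℝ) ≤ Y ^ C ∧ 1 ≤ I ∧ I ≤ L ∧ L ≤ I * Real.exp (Y ^ C) ∧
      ∀ (θ : ℝ) (q : ℕ) (F : Vz m → ℝ), 1 ≤ q → (q : ℝ) ≤ Y → (∀ x, 0 ≤ F x ∧ F x ≤ Real.exp Y) →
        1 / 2 ≤ (1 - ε) * θ → θ ^ (q ^ (j + 2)) ≤ grdV (j + 2) q L F →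
        ((r : ℝ) ≤ Y ^ C ∧ Real.exp (-Y ^ C) ≤ ρ ∧ ρ ≤ 1 ∧ L ^ m ≤ Q ∧
          Q ≤ (L : ℝ) ^ m * Real.exp (Y ^ C) ∧ (K0 : ℝ) + 1 ≤ Real.exp (Y ^ C) ∧ LL (1 / ρ) Ψ0 ∧
          FA Ψ0 K0 (Real.exp (Y ^ C)) (Real.exp (-Y))) ∧
        ∃ (t : ℕ) (b : Fin t → Fin r → ℤ) (z0 : Vz m) (z : Fin j → Fin p → Vz m)
          (ξ : Pt j (p * m) → Fin m → Fin r → ZMod Q) (γ : Pt j (p * m) → Fin r → ZMod Q)
          (E : Finset (Pt j (p * m))), t ≤ r ∧ (∀ i, b i ∈ Sm (Fin r) (K0 + 1)) ∧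
          LinearIndependent (ZMod Q) (fun i => cs Q (b i)) ∧ LL (1 / ρ) (avg (sp Q b) Ψ0) ∧
          (∀ u v, (∀ i, cs Q (b i) ⬝ᵥ v = 0) → avg (sp Q b) Ψ0 (u + v) = avg (sp Q b) Ψ0 u) ∧
          Dn E I (Y ^ C) ∧
          (∀ (c : Fin j → Fin p) (l : Fin m), -(((j + 1) * I : ℕ) : ℤ) < (z0 + ∑ i, z i (c i)) l ∧
            (z0 + ∑ i, z i (c i)) l < (((j + 2) * L : ℕ) : ℤ)) ∧
          MH (fun w (x : Fin t × Fin m) => cs Q (b x.1) ⬝ᵥ ξ w x.2) E ∧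
          ∀ w ∈ E, Real.exp (-Y ^ C) ≤ excV (avg (sp Q b) Ψ0) (ξ w) (γ w) I
            (fun s => GwV (cutV ((j + 2) * L) F) z w (z0 + s))
            ((1 - ε) * ((1 - ε) * ((1 - ε) * θ) ^ (p ^ j)))

namespace Sd

/-- multiplication by the powers of the base -/
def sc {Q t : ℕ} (m M : ℕ) : (Fin t → ZMod Q) →+ (Fin t × Fin m → ZMod Q) where
  toFun v x := (M : ZMod Q) ^ (x.2 : ℕ) * v x.1
  map_zero' := by funext x; simp
  map_add' v w := by funext x; simp [mul_add]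

theorem dens {δ B e n i c e' Z : ℝ} {k : ℕ} (hn : 0 < n) (hi : 0 ≤ i) (he' : 0 ≤ e')
    (hδ : δ = Real.exp (-Z)) (hB : B = Real.exp Z) (h1 : Real.exp (-Z) * n ^ k ≤ e)
    (h2 : δ * e * i ≤ 4 * B * (2 * n) ^ k * e') (hc : 3 * Z + 2 + k ≤ c) :
    Real.exp (-c) * i ≤ e' := by
  have a1 : (2 : ℝ) ^ k ≤ Real.exp k := two_pow_le_exp k
  have a2 : (4 : ℝ) ≤ Real.exp 2 := by
    have := two_pow_le_exp 2
    norm_num at this ⊢
    exact this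
  have nk : 0 < n ^ k := by positivity
  have a3 : δ * Real.exp (-Z) * i * n ^ k ≤ Real.exp 2 * B * Real.exp k * e' * n ^ k := by
    have b1 : δ * (Real.exp (-Z) * n ^ k) * i ≤ δ * e * i := by
      rw [hδ]; gcongr
    have b2 : 4 * B * (2 * n) ^ k * e' ≤ Real.exp 2 * B * (Real.exp k * n ^ k) * e' := by
      rw [mul_pow, hB]; gcongr
    nlinarith
  have a4 := le_of_mul_le_mul_right a3 nk
  rw [hδ, hB, ← Real.exp_add, ← Real.exp_add, ← Real.exp_add] at a4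
  have a5 : Real.exp (-c) * Real.exp (2 + Z + k) ≤ Real.exp (-Z + -Z) := by
    rw [← Real.exp_add]; exact Real.exp_le_exp.2 (by linarith)
  refine le_of_mul_le_mul_left ?_ (Real.exp_pos (2 + Z + k))
  have := mul_le_mul_of_nonneg_right a5 hi
  nlinarith

theorem n1 {Y ε : ℝ} {m j D L M p : ℕ} (hε : 0 < ε) (hY0 : 0 ≤ Y) (hm : (m : ℝ) ≤ Y)
    (L0 : (0 : ℝ) < L) (D0 : (0 : ℝ) < D) (hM : M = D * L) (p6 : ((j : ℝ) + 2) * D / ε ≤ Y)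
    (q1 : Y ^ 2 ≤ p) : (m * ((j + 2 : ℕ) : ℝ)) * Real.log ((M : ℝ) / L) ≤ ε * p := by
  have b1 : Real.log ((M : ℝ) / L) ≤ D := by
    rw [hM]; push_cast
    rw [mul_div_assoc, div_self L0.ne', mul_one]
    linarith [Real.log_le_sub_one_of_pos D0]
  rw [div_le_iff₀ hε] at p6
  have b3 : (m * ((j + 2 : ℕ) : ℝ)) * Real.log ((M : ℝ) / L) ≤ Y * ((j + 2) * D) := by
    push_cast
    calc _ ≤ (m * ((j : ℝ) + 2)) * D := mul_le_mul_of_nonneg_left b1 (by positivity)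
      _ = m * ((j + 2) * D) := by ring
      _ ≤ _ := mul_le_mul_of_nonneg_right hm (by positivity)
  have b4 := mul_le_mul_of_nonneg_left p6 hY0
  have b5 := mul_le_mul_of_nonneg_left q1 hε.le
  nlinarith

theorem n2 {Y : ℝ} {a I L M T m : ℕ} (hY : 10 ≤ Y) (LM : L ≤ M)
    (I2 : I * Real.exp (Y ^ (a + 1)) ≤ L) (NT : ((M ^ m : ℕ) : ℝ) ≤ T * Real.exp (Y ^ a)) :
    8 * Real.exp (Y ^ a) * I * (M : ℝ) ^ m ≤ Real.exp (-Y ^ a) * T * M := by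
  have hY1 : 1 ≤ Y := by linarith
  have hY0 : 0 ≤ Y := by linarith
  have b1 : (8 : ℝ) ≤ Real.exp 3 := by
    have := two_pow_le_exp 3
    norm_num at this ⊢
    exact this
  have b2 : 3 + Y ^ a + Y ^ a + Y ^ a ≤ Y ^ (a + 1) := by
    have := mul_pw_le hY0 (show (6 : ℝ) ≤ Y by linarith) a
    have := one_le_pow₀ hY1 (n := a)
    linarith
  have b3 : 8 * Real.exp (Y ^ a) * Real.exp (Y ^ a) * Real.exp (Y ^ a) ≤
      Real.exp (Y ^ (a + 1)) := by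
    refine le_trans ?_ (Real.exp_le_exp.2 b2)
    rw [Real.exp_add, Real.exp_add, Real.exp_add]
    gcongr
  have b4 : (I : ℝ) * (8 * Real.exp (Y ^ a) * Real.exp (Y ^ a) * Real.exp (Y ^ a)) ≤ M :=
    (mul_le_mul_of_nonneg_left b3 (Nat.cast_nonneg _)).trans
      (I2.trans (by exact_mod_cast LM))
  have b5 : Real.exp (-Y ^ a) * Real.exp (Y ^ a) = 1 := by rw [← Real.exp_add]; simp
  push_cast at NT
  have u1 : 0 < Real.exp (Y ^ a) := Real.exp_pos _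
  have u0 : 0 < Real.exp (-Y ^ a) := Real.exp_pos _
  generalize Real.exp (Y ^ a) = u at *
  generalize Real.exp (-Y ^ a) = v at *
  have T0 : (0 : ℝ) ≤ T := Nat.cast_nonneg _
  have I0 : (0 : ℝ) ≤ I := Nat.cast_nonneg _
  calc 8 * u * I * (M : ℝ) ^ m ≤ 8 * u * I * (T * u) := by gcongr
    _ = (v * u) * (8 * u * I * (T * u)) := by rw [b5, one_mul]
    _ = v * T * (I * (8 * u * u * u)) := by ring
    _ ≤ v * T * M := by gcongr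

theorem n3 {Y : ℝ} {D L M m c C : ℕ} (hY : 10 ≤ Y) (hD : (D : ℝ) ≤ Y) (hm : (m : ℝ) ≤ Y)
    (hM : M = D * L) (h1 : c < C) (h2 : 2 < C) :
    ((M ^ m : ℕ) : ℝ) * Real.exp (Y ^ c) ≤ (L : ℝ) ^ m * Real.exp (Y ^ C) := by
  have b1 : (D : ℝ) ^ m ≤ Real.exp (Y ^ 2) := by
    have c1 : (D : ℝ) ≤ Real.exp Y := by linarith [Real.add_one_le_exp Y]
    refine (pow_le_pow_left₀ (Nat.cast_nonneg _) c1 m).trans ?_
    rw [← Real.exp_nat_mul]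
    exact Real.exp_le_exp.2 (by nlinarith)
  have b2 : Y ^ 2 + Y ^ c ≤ Y ^ C := add_pw_le (by linarith) h2 h1
  rw [hM]; push_cast
  calc ((D : ℝ) * L) ^ m * Real.exp (Y ^ c)
      = (L : ℝ) ^ m * ((D : ℝ) ^ m * Real.exp (Y ^ c)) := by rw [mul_pow]; ring
    _ ≤ (L : ℝ) ^ m * (Real.exp (Y ^ 2) * Real.exp (Y ^ c)) := by gcongr
    _ ≤ _ := by rw [← Real.exp_add]; gcongr

theorem n4 {j I L M : ℕ} (IL : I ≤ L) (hM : M = 2 * (j + 2) ^ 2 * L) :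
    (j + 1) * ((j + 2) * L + (j + 1) * I) ≤ M := by
  have b1 : (j + 1) * I ≤ (j + 1) * L := Nat.mul_le_mul_left _ IL
  calc _ ≤ (j + 1) * ((j + 2) * L + (j + 1) * L) := Nat.mul_le_mul_left _ (by omega)
    _ = ((j + 1) * (2 * j + 3)) * L := by ring
    _ ≤ M := by rw [hM]; exact Nat.mul_le_mul_right _ (by nlinarith)

theorem n5 {ε x : ℝ} (h0 : 0 < ε) (h1 : ε ≤ 1 / 100) (hx : 0 ≤ x) :
    (1 - ε) * ((1 - ε) * x) ≤ x := by
  have e1 : 0 ≤ 1 - ε := by linarith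
  nlinarith [mul_nonneg h0.le hx, mul_nonneg e1 hx, mul_nonneg h0.le (mul_nonneg e1 hx)]

theorem n6 {Y : ℝ} {a C j p : ℕ} (hY : 10 ≤ Y) (hj : (j : ℝ) ≤ Y) (q2 : (p : ℝ) ≤ Y ^ 3)
    (h1 : 4 ≤ a) (h2 : a + 1 ≤ C) : 3 * Y ^ a + 2 + ((j * p : ℕ) : ℝ) ≤ Y ^ C := by
  have hY1 : 1 ≤ Y := by linarith
  have hY0 : 0 ≤ Y := by linarith
  have b2 : ((j * p : ℕ) : ℝ) ≤ Y ^ 4 := by
    push_cast
    calc (j : ℝ) * p ≤ Y * Y ^ 3 := mul_le_mul hj q2 (Nat.cast_nonneg _) hY0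
      _ = _ := by ring
  have b3 : Y ^ 4 ≤ Y ^ a := pw_le hY1 h1
  have b4 := mul_pw_le hY0 (show (6 : ℝ) ≤ Y by linarith) a
  have b5 := one_le_pow₀ hY1 (n := a)
  have b6 : Y ^ (a + 1) ≤ Y ^ C := pw_le hY1 h2
  linarith

theorem n7 {Y : ℝ} {a C : ℕ} (hY : 10 ≤ Y) (h2 : a + 1 ≤ C) :
    Real.exp (-Y ^ C) ≤ Real.exp (-Y ^ a) / 4 := by
  have hY1 : 1 ≤ Y := by linarith
  have hY0 : 0 ≤ Y := by linarith
  have b1 : (4 : ℝ) ≤ Real.exp 2 := by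
    have := two_pow_le_exp 2
    norm_num at this ⊢
    exact this
  have b4 := mul_pw_le hY0 (show (6 : ℝ) ≤ Y by linarith) a
  have b5 := one_le_pow₀ hY1 (n := a)
  have b6 : Y ^ (a + 1) ≤ Y ^ C := pw_le hY1 h2
  rw [le_div_iff₀ (by norm_num)]
  calc Real.exp (-Y ^ C) * 4 ≤ Real.exp (-Y ^ C) * Real.exp 2 := by gcongr
    _ ≤ _ := by rw [← Real.exp_add]; exact Real.exp_le_exp.2 (by linarith)

theorem n8 {Y : ℝ} (hY : 10 ≤ Y) : (⌈Y ^ 2⌉₊ : ℝ) ≤ Y ^ 3 := by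
  have := Nat.ceil_lt_add_one (show 0 ≤ Y ^ 2 by positivity)
  nlinarith

theorem n9 (j : ℕ) : 2 ≤ 2 * (j + 2) ^ 2 ∧ j + 2 ≤ 2 * (j + 2) ^ 2 := by
  constructor <;> nlinarith [Nat.zero_le j]

end Sd

theorem sdvu_of (hU : UPV) (hS : SCU) (hP : Pl.PULLC) : SDVU := by
  intro j ε hε hε'
  obtain ⟨C1, hS⟩ := hS j ε hε hε'
  obtain ⟨a, ha⟩ : ∃ a, a = 3 * C1 + 3 * j + 4 := ⟨_, rfl⟩
  obtain ⟨D, hD⟩ : ∃ D : ℕ, D = 2 * (j + 2) ^ 2 := ⟨_, rfl⟩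
  refine ⟨a + 10 + C1 + j + D + ⌈(j + 2) * D / ε⌉₊, fun Y m L hY' hm1 hm hL => ?_⟩
  generalize hC : a + 10 + C1 + j + D + ⌈(j + 2) * D / ε⌉₊ = C at hL ⊢
  have aC : a + 10 ≤ C := by omega
  push_cast at hY'
  have p1 : (0 : ℝ) ≤ C1 := by positivity
  have p2 : (0 : ℝ) ≤ a := by positivity
  have p3 : (0 : ℝ) ≤ j := by positivity
  have p4 : (0 : ℝ) ≤ D := by positivity
  have p5 : (0 : ℝ) ≤ (⌈(j + 2) * D / ε⌉₊ : ℝ) := by positivity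
  have p6 := Nat.le_ceil (((j : ℝ) + 2) * D / ε)
  have hY : 10 ≤ Y := by linarith
  have hY1 : 1 ≤ Y := by linarith
  have hY0 : 0 ≤ Y := by linarith
  have L1 : 1 ≤ L := one_le_of_log (by positivity) hL
  have L0 : (0 : ℝ) < L := by exact_mod_cast L1
  have D1 : 2 ≤ D := hD ▸ (Sd.n9 j).1
  have D0 : (0 : ℝ) < D := by exact_mod_cast (show 0 < D by omega)
  obtain ⟨M, hM⟩ : ∃ M, M = D * L := ⟨_, rfl⟩
  have LM : L ≤ M := hM ▸ Nat.le_mul_of_pos_left _ (by omega)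
  have M2 : 2 ≤ M := hM ▸ D1.trans (Nat.le_mul_of_pos_right _ L1)
  have M0 : (0 : ℝ) < M := by exact_mod_cast (show 0 < M by omega)
  have MN : M ≤ M ^ m := Nat.le_self_pow (by omega) M
  have N1 : 1 ≤ M ^ m := by omega
  have lN : Real.log L ≤ Real.log ((M ^ m : ℕ) : ℝ) :=
    Real.log_le_log L0 (by exact_mod_cast LM.trans MN)
  have Y3 : Y ≤ Y ^ 3 := le_pw hY1 (by omega)
  obtain ⟨T, Q, r, hQ, ρ, K0, Ψ0, hS⟩ := hS (Y ^ 3) (M ^ m) (by linarith)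
    (by rw [← pow_mul]; exact (pw_le hY1 (by omega)).trans (hL.trans lN))
  obtain ⟨I, I1, I2, I3, -⟩ := exists_side (L := L) (Y := Y ^ (a + 1)) (one_le_pow₀ hY1)
    ((mul_pw_le hY0 (by linarith) _).trans ((pw_le hY1 (by omega)).trans hL))
  have IL : I ≤ L := by
    have : (I : ℝ) ≤ L := le_trans (le_mul_of_one_le_right (Nat.cast_nonneg _)
      (Real.one_le_exp (by positivity))) I2
    exact_mod_cast this
  obtain ⟨p, hp⟩ : ∃ p, p = ⌈Y ^ 2⌉₊ := ⟨_, rfl⟩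
  have q1 : Y ^ 2 ≤ p := hp ▸ Nat.le_ceil _
  have q2 : (p : ℝ) ≤ Y ^ 3 := hp ▸ Sd.n8 hY
  have Y2 : Y ≤ Y ^ 2 := le_pw hY1 (by omega)
  have q3 : 1 ≤ p := by exact_mod_cast (show (1 : ℝ) ≤ p by linarith)
  refine ⟨p, I, Q, r, hQ, ρ, K0, Ψ0, q3, q2.trans (pw_le hY1 (by omega)), I1, IL,
    I3.trans (mul_le_mul_of_nonneg_left (Real.exp_le_exp.2
      ((mul_pw_le hY0 (by linarith) _).trans (pw_le hY1 (by omega)))) (Nat.cast_nonneg _)), ?_⟩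
  intro θ q F hq1 hq hF hθ hgr
  have e1 : 0 < 1 - ε := by linarith
  have θ0 : 0 ≤ θ := ((mul_pos_iff_of_pos_left e1).1 (lt_of_lt_of_le (by norm_num) hθ)).le
  have JL : (j + 2) * L ≤ M := hM ▸ Nat.mul_le_mul_right _ (hD ▸ (Sd.n9 j).2)
  have hup := hU m (j + 2) q p L M ε θ F (by omega) hq1 (by exact_mod_cast hq.trans (Y2.trans q1))
    L1 JL hε.le (by linarith) (Sd.n1 hε hY0 hm L0 D0 hM (by linarith) q1) (fun x => (hF x).1) θ0 hgr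
  have hg := En.gE_bd M ((j + 2) * L) F (Real.exp_pos Y).le hF
  obtain ⟨s1, x0, ξ, γ, t, b, E, -, h2, hMH⟩ := hS ((1 - ε) * θ) p (gE M ((j + 2) * L) F) q3 q2
    (fun x => ⟨(hg x).1, (hg x).2.trans (Real.exp_le_exp.2 Y3)⟩) hθ hup
  rw [← pow_mul] at s1 h2
  have Za : Y ^ (3 * C1) ≤ Y ^ a := pw_le hY1 (by omega)
  have aC' : Y ^ a ≤ Y ^ C := pw_le hY1 (by omega)
  have hB : Real.exp Y ^ (p ^ j) ≤ Real.exp (Y ^ a) := by
    rw [← Real.exp_nat_mul]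
    refine Real.exp_le_exp.2 (le_trans ?_ (pw_le hY1 (by omega : 3 * j + 1 ≤ a)))
    push_cast; rw [pow_succ, pow_mul]
    exact mul_le_mul_of_nonneg_right (pow_le_pow_left₀ (by positivity) q2 j) hY0
  have hθM : (1 - ε) * θ ≤ Real.exp Y :=
    le_of_pow_le_pow_left₀ (by positivity) (Real.exp_pos Y).le (hup.trans (grd_le N1 hg))
  have hθa : ((1 - ε) * θ) ^ (p ^ j) ≤ Real.exp (Y ^ a) :=
    (pow_le_pow_left₀ (by positivity) hθM _).trans hB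
  have hθp : 0 ≤ ((1 - ε) * θ) ^ (p ^ j) := by positivity
  have h3 := h2.mono Za
  have NT : ((M ^ m : ℕ) : ℝ) ≤ T * Real.exp (Y ^ a) :=
    s1.hNT.trans (mul_le_mul_of_nonneg_left (Real.exp_le_exp.2 Za) (Nat.cast_nonneg _))
  refine ⟨⟨s1.hr.trans (Za.trans aC'), (Real.exp_le_exp.2 (by linarith)).trans s1.hρ, s1.hρ1,
    ?_, ?_, ?_, s1.hl, ?_⟩, ?_⟩
  · have := s1.hNQ
    have := Nat.pow_le_pow_left LM m
    omega
  · exact s1.hQN.trans (Sd.n3 hY (by linarith) hm hM (by omega) (by omega))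
  · have := h3.hK'
    push_cast at this
    exact this.trans (Real.exp_le_exp.2 aC')
  · obtain ⟨c, c1, c2⟩ := s1.hf
    exact ⟨c, c1.trans (Real.exp_le_exp.2 (Za.trans aC')),
      fun u => (c2 u).trans (Real.exp_le_exp.2 (by linarith))⟩
  obtain ⟨W0, s0, z0, z, E', f1, f2, f3, f4, f5⟩ := hP m j p M ((j + 2) * L) I T Q r F
    (avg (sp Q b) Ψ0) ξ γ E x0 (Real.exp (Y ^ a)) (Real.exp (-Y ^ a))
    ((1 - ε) * ((1 - ε) * ((1 - ε) * θ) ^ (p ^ j))) q3 I1 s1.hT M2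
    (Sd.n4 IL (hD ▸ hM))
    (Real.exp_pos _) (by positivity)
    ((Sd.n5 hε hε' hθp).trans hθa)
    (fun u => ⟨(h2.hl.pos u).le, h2.hl.le_one u⟩) (fun x => (hF x).1)
    (fun W s => (gw_bd hg W s).2.trans hB) h2.hd.1 (h2.hd.nonempty N1)
    (Sd.n2 hY LM I2 NT)
    h3.hx
  refine ⟨t, b, z0, z, fun w l => (M : ZMod Q) ^ (l : ℕ) • ξ (W0 + Pl.encP M w),
    fun w => (s0 : ZMod Q) • ξ (W0 + Pl.encP M w) + γ (W0 + Pl.encP M w), E', h2.ht, h2.hb, h2.hi,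
    h2.hl, h2.hp, ⟨f1, ?_⟩, f4, ?_, fun w hw => le_trans ?_ (f5 w hw)⟩
  · have b1 := h3.hd.2
    push_cast at b1
    exact Sd.dens (by positivity) (by positivity) (Nat.cast_nonneg _) rfl rfl b1 f3
      (Sd.n6 hY (by linarith) q2 (by omega) (by omega))
  · have := Pl.mh_pull (fun W (x : Fin t) => cs Q (b x) ⬝ᵥ ξ W) (Sd.sc m M) M W0 hMH f2
    refine (congrArg (fun φ => MH φ E') ?_).mp this
    funext w x
    simp [Sd.sc, dotProduct_smul]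
  · exact Sd.n7 hY (by omega)

theorem sdvu : SDVU := sdvu_of upv scu0 Pl.pullc

end

end Vale.Agent.P057T
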