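import Vale.Agent.P057T.StV0

/-! The start in boxes: either a dense box or a large grid. -/

set_option linter.all false

open Finset
open scoped BigOperators

namespace Vale.Agent.P057T

open Vale.Agent.P057L

noncomputable section

/-- the start before the normalisation of the differences, scales fixed in advance -/
def ST1V : Prop :=
  ∀ k : ℕ, 1 ≤ k → ∃ η : ℝ, 0 < η ∧ η ≤ 1 / 10 ∧ ∃ C : ℕ, ∀ (X : ℝ) (m N : ℕ), (C : ℝ) ≤ X →
    1 ≤ m → (m : ℝ) ≤ X → X ^ C ≤ Real.log N →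
    ∃ M M' : ℕ, 1 ≤ M' ∧ M' ≤ M ∧ M ≤ N ∧ N ≤ M' * Real.exp (X ^ C) ∧
      ∀ (α : ℝ) (A : Finset (Vz m)), A ⊆ bz m N → APV (k + 2) A → Real.exp (-X) ≤ α →
        α * (N : ℝ) ^ m = A.card →
        (∃ (x1 : Vz m) (d L : ℕ), 1 ≤ d ∧ d ∣ (k + 1).factorial ^ 2 ∧ (L = M ∨ L = M') ∧
          1 + η ≤ 𝔼 z ∈ bz m L, indV A α (x1 + (d : ℤ) • z)) ∨
        ∃ (x0 : Vz m) (p : ℕ) (Mi : Fin (k + 1) → ℕ) (c : Fin (k + 1) → ℤ), 1 ≤ p ∧
          (p : ℝ) ≤ X ^ C ∧ (∀ i, c i ∣ (((k + 1).factorial ^ 2 : ℕ) : ℤ)) ∧ (∀ i, M' ≤ Mi i) ∧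
          (1 + η) ^ (p ^ (k + 1)) ≤
            gridA (fun i => bz m (Mi i)) (fun _ => p) (fun _ y => indV A α (x0 + ∑ i, c i • y i))

namespace SV

open St1

variable {k m M M' : ℕ}

/-- the value of a variable -/
def vv (j : Fin (k + 2)) (w : Fin m → Fin M × Fin M') : Vz m := fun l => vl j (w l)

/-- the point of a slot -/
def pv (i : Fin (k + 2)) (y : Fin (k + 1) → Fin m → Fin M × Fin M') : Vz m :=
  fun l => pt i fun a => y a l

/-- the point without the last variable -/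
def bv (i : Fin (k + 2)) (y : Fin (k + 1) → Fin m → Fin M × Fin M') : Vz m :=
  fun l => (i : ℕ) + bs i fun a => y a l

theorem vv_exp [NeZero M] [NeZero M'] (j : Fin (k + 2)) (h : Vz m → ℝ) :
    𝔼 w : Fin m → Fin M × Fin M', h (vv j w) = 𝔼 z ∈ bz m (Mj M M' j), h z := by
  have h1 := MonoA.E_push (fun _ : Fin m => (univ : Finset (Fin M × Fin M')))
    (fun _ => rg (Mj M M' j)) (fun _ w => vl j w) (fun _ H => vl_exp j H) h
  rwa [Fintype.piFinset_univ] at h1

theorem pv_upd (i : Fin (k + 2)) (y : Fin (k + 1) → Fin m → Fin M × Fin M')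
    (w : Fin m → Fin M × Fin M') : pv i (Function.update y (Fin.last k) w) =
      bv i y + cf i (i.succAbove (Fin.last k)) • vv (i.succAbove (Fin.last k)) w := by
  funext l
  have e : (fun a => Function.update y (Fin.last k) w a l) =
      Function.update (fun a => y a l) (Fin.last k) (w l) := funext fun a => by
    by_cases h : a = Fin.last k
    · subst h; simp
    · simp [h]
  rw [pv, e, pt_upd]
  rfl

theorem pv_sum (i : Fin (k + 2)) (y : Fin (k + 1) → Fin m → Fin M × Fin M') :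
    pv i y = (fun _ => ((i : ℕ) : ℤ)) + ∑ a, cf i (i.succAbove a) • vv (i.succAbove a) (y a) := by
  funext l
  simp only [pv, pt, vv, Pi.add_apply, Finset.sum_apply, Pi.smul_apply, smul_eq_mul]

end SV

open SV St1

theorem st1v (hH : HGA) (hP : PUSH) : ST1V := by
  intro k hk
  obtain ⟨η₀, h0, h0', C₀, hC⟩ := hH k hk
  obtain ⟨η, hη⟩ : ∃ η : ℝ, η = η₀ / (4 * (k + 2)) := ⟨_, rfl⟩
  have hk0 : (0 : ℝ) ≤ k := Nat.cast_nonneg k
  have e1 : 4 * (k + 2) * η = η₀ := by rw [hη]; field_simp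
  have η0 : 0 < η := by rw [hη]; positivity
  have η1 : 2 * η ≤ η₀ := by nlinarith
  obtain ⟨K, hK⟩ : ∃ K : ℕ, K = 2 * (k + 1) ^ 2 * (k + 1).factorial := ⟨_, rfl⟩
  have K1 : (1 : ℝ) ≤ K := by
    have : 0 < K := by rw [hK]; positivity
    exact_mod_cast this
  refine ⟨η, η0, by linarith, C₀ + 4 + ⌈8 * (K : ℝ) ^ 2 / η ^ 2⌉₊, fun X m N hX hm hmX hN => ?_⟩
  have c1 := Nat.le_ceil (8 * (K : ℝ) ^ 2 / η ^ 2)
  generalize ⌈8 * (K : ℝ) ^ 2 / η ^ 2⌉₊ = c at hX hN c1 ⊢
  have c0 : (0 : ℝ) ≤ c := Nat.cast_nonneg c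
  have C0 : (0 : ℝ) ≤ C₀ := Nat.cast_nonneg C₀
  have m1' : (1 : ℝ) ≤ m := by exact_mod_cast hm
  push_cast at hX
  have X2 : 4 ≤ X := by linarith
  have X3 : c + X + X + X ≤ X ^ (C₀ + 4 + c) :=
    le_trans (by nlinarith) (pw_le (by linarith) (show 2 ≤ C₀ + 4 + c by omega))
  obtain ⟨M, M', m1, m2, m3, m4, m5⟩ := scales (X := X) (N := N) (K := K * m) η0 (by linarith)
    (one_le_mul_of_one_le_of_one_le K1 m1') (by linarith)
    (E := Real.exp (X ^ (C₀ + 4 + c))) (by
      refine le_trans ?_ (Real.exp_le_exp.2 X3)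
      rw [Real.exp_add, Real.exp_add, Real.exp_add]
      have a1 : (m : ℝ) ≤ Real.exp X := by linarith [Real.add_one_le_exp X]
      have a2 : 8 * (K : ℝ) ^ 2 / η ^ 2 ≤ Real.exp c := by linarith [Real.add_one_le_exp (c : ℝ)]
      calc _ = 8 * (K : ℝ) ^ 2 / η ^ 2 * m * m * Real.exp X := by ring
        _ ≤ _ := by gcongr) (exp_le_of_log (by positivity) hN)
  have M0 : (0 : ℝ) < M := by exact_mod_cast (show 0 < M by omega)
  have N0 : (0 : ℝ) < N := (Real.exp_pos _).trans_le (exp_le_of_log (by positivity) hN)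
  refine ⟨M, M', m1, m2, ?_, m5, fun α A hA hF hα e => ?_⟩
  · have h1 : (1 : ℝ) * M ≤ K * m * M :=
      mul_le_mul_of_nonneg_right (one_le_mul_of_one_le_of_one_le K1 m1') M0.le
    have h2 : (M : ℝ) ≤ N := by nlinarith
    exact_mod_cast h2
  have α0 : 0 < α := (Real.exp_pos _).trans_le hα
  have α1 : 1 / α ≤ Real.exp X := by
    rw [div_le_iff₀ α0]
    have h := mul_le_mul_of_nonneg_left hα (Real.exp_pos X).le
    rwa [← Real.exp_add, add_neg_cancel, Real.exp_zero] at h
  have fb : ∀ x, 0 ≤ indV A α x ∧ indV A α x ≤ Real.exp X := fun x =>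
    ⟨(SV.ind_bd A α0 x).1, (SV.ind_bd A α0 x).2.trans α1⟩
  haveI : NeZero M' := ⟨by omega⟩
  haveI : NeZero M := ⟨by omega⟩
  have mj : ∀ j : Fin (k + 2), M' ≤ Mj M M' j ∧ (Mj M M' j = M ∨ Mj M M' j = M') := fun j => by
    unfold Mj; split_ifs <;> omega
  refine or_iff_not_imp_left.2 fun hn => ?_
  have ub : ∀ (x : Vz m) (d : ℤ) (j : Fin (k + 2)), d ≠ 0 →
      d ∣ (((k + 1).factorial ^ 2 : ℕ) : ℤ) →
      𝔼 z ∈ bz m (Mj M M' j), indV A α (x + d • z) ≤ 1 + η := by
    have h : ∀ (x : Vz m) (d : ℕ) (j : Fin (k + 2)), 1 ≤ d → d ∣ (k + 1).factorial ^ 2 →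
        𝔼 z ∈ bz m (Mj M M' j), indV A α (x + (d : ℤ) • z) ≤ 1 + η := fun x d j hd hd' =>
      (not_le.1 fun h => hn ⟨x, d, _, hd, hd', (mj j).2, h⟩).le
    intro x d j hd hd'
    obtain ⟨n, rfl | rfl⟩ := Int.eq_nat_or_neg d
    · exact h x n j (by omega) (Int.natCast_dvd_natCast.1 hd')
    · rw [SV.refl]
      refine le_of_eq_of_le (expect_congr rfl fun z _ => ?_)
        (h (x - fun _ => (n : ℤ) * (Mj M M' j - 1)) n j (by omega)
          (Int.natCast_dvd_natCast.1 (neg_dvd.1 hd')))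
      congr 1
      funext l
      simp only [Pi.add_apply, Pi.sub_apply, Pi.smul_apply, smul_eq_mul]
      ring
  have G : ∀ (x : Vz m) (i : Fin (k + 2)) (y : Fin (k + 1) → Fin m → Fin M × Fin M'),
      𝔼 w, indV A α (x + pv i (Function.update y (Fin.last k) w)) =
        𝔼 z ∈ bz m (Mj M M' (i.succAbove (Fin.last k))),
          indV A α (x + bv i y + cf i (i.succAbove (Fin.last k)) • z) := fun x i y => by
    rw [← vv_exp]
    exact expect_congr rfl fun w _ => by rw [pv_upd, ← add_assoc]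
  have R : ∀ h : (Fin (k + 1) → Fin m → Fin M × Fin M') → ℝ,
      𝔼 y, h y = 𝔼 y, 𝔼 w, h (Function.update y (Fin.last k) w) := fun h => by
    have h1 := Gh.resample (fun _ : Fin (k + 1) => (univ : Finset (Fin m → Fin M × Fin M')))
      (Fin.last k) h
    rwa [Fintype.piFinset_univ] at h1
  have up : ∀ (x : Vz m) (i : Fin (k + 2)),
      𝔼 y : Fin (k + 1) → Fin m → Fin M × Fin M', indV A α (x + pv i y) ≤ 1 + η := fun x i => by
    rw [R]
    exact expect_le univ_nonempty fun y _ => (G x i y).trans_le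
      (ub _ _ _ (cf_ne (Fin.succAbove_ne i _).symm) (cf_dvd (Fin.succAbove_ne i _).symm))
  have lo : ∀ i : Fin (k + 2), (N : ℝ) ^ m ≤ ∑ x ∈ wb m N (K * M),
      𝔼 y : Fin (k + 1) → Fin m → Fin M × Fin M', indV A α (x + pv i y) := fun i => by
    rw [← expect_sum_comm]
    exact le_expect univ_nonempty fun y _ => SV.tot α0 hA e fun l =>
      hK ▸ pt_bd m2 (by omega) i fun a => y a l
  have hc : ((wb m N (K * M)).card : ℝ) * (1 - η) ≤ (N : ℝ) ^ m := by
    rw [wb_card]
    have h1 : (N : ℝ) + 2 * (K * M : ℕ) = N * (1 + 2 * (K * M) / N) := by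
      push_cast; field_simp
    have h2 := pw_num (m := m) (η := η) (x := 2 * (K * M) / N) (by positivity) (by
      rw [← mul_div_assoc, div_le_iff₀ N0]; linarith)
    have h3 : 1 - η ≤ Real.exp (-η) := by linarith [Real.add_one_le_exp (-η)]
    have h4 := mul_le_mul h2 h3 (by linarith) (Real.exp_pos _).le
    rw [← Real.exp_add, add_neg_cancel, Real.exp_zero] at h4
    rw [h1, mul_pow, mul_assoc]
    exact mul_le_of_le_one_right (by positivity) h4
  obtain ⟨x, -, hx⟩ := exists_le_of_sum_le (s := wb m N (K * M))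
    (f := fun x => ∑ i : Fin (k + 2),
      (1 + η - 𝔼 y : Fin (k + 1) → Fin m → Fin M × Fin M', indV A α (x + pv i y)))
    (g := fun _ => η₀ / 2) (wb_ne (by exact_mod_cast N0)) (by
      rw [sum_comm, sum_const, nsmul_eq_mul]
      refine (sum_le_card_nsmul univ _ (2 * η * (wb m N (K * M)).card) fun i _ => ?_).trans ?_
      · rw [sum_sub_distrib, sum_const, nsmul_eq_mul]
        have h1 := lo i
        linarith
      · rw [card_univ, Fintype.card_fin, nsmul_eq_mul, ← e1]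
        push_cast
        exact le_of_eq (by ring))
  have gd : ∀ i : Fin (k + 2), 1 + η - η₀ / 2 ≤
      𝔼 y : Fin (k + 1) → Fin m → Fin M × Fin M', indV A α (x + pv i y) := fun i => by
    have h := single_le_sum (f := fun i : Fin (k + 2) =>
      1 + η - 𝔼 y : Fin (k + 1) → Fin m → Fin M × Fin M', indV A α (x + pv i y))
      (fun i _ => sub_nonneg.2 (up x i)) (mem_univ i)
    linarith
  refine (hC X (Fin m → Fin M × Fin M') (fun i y => indV A α (x + pv i y))
    (by linarith) (fun i y => fb _) (fun i hi y => ?_) (by linarith [gd (Fin.last (k + 1))])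
    ?_).elim fun i hi => ?_
  rotate_left 2
  · obtain ⟨p, p1, p2, p3⟩ := hi
    refine ⟨x + fun _ => ((i : ℕ) : ℤ), p, fun l => Mj M M' (i.succAbove l),
      fun l => cf i (i.succAbove l), p1, p2.trans (pw_le (by linarith) (by omega)),
      fun l => cf_dvd (Fin.succAbove_ne i l).symm, fun l => (mj _).1, ?_⟩
    rw [← hP (Fin m → Fin M × Fin M') (Vz m) (k + 1) (fun _ => univ) _
      (fun l => vv (i.succAbove l)) _ _ fun l h => vv_exp _ h]
    refine (pow_le_pow_left₀ (by linarith) (by linarith) _).trans (p3.trans_eq ?_)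
    simp only [pv_sum, add_assoc]
  · have h1 := gd i
    rw [R] at h1
    obtain ⟨y', -, h2⟩ := exists_le_of_le_expect univ_nonempty h1
    choose s s1 s2 using fun l => bs_df hi (fun a => y a l) (fun a => y' a l)
    rw [G, Fin.succAbove_ne_last_last hi, Mj, if_pos rfl] at h2 ⊢
    have h3 := SV.shift (L := M) (by omega)
      (fun z => indV A α (x + bv i y' + cf i (Fin.last (k + 1)) • z)) (fun z => fb _)
      (S := K * M' / 2) s fun l => by
        have h : 2 * |s l| ≤ (K * M' : ℕ) := by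
          have := s1 l
          rw [hK]; push_cast at this ⊢; linarith
        have h' : 2 * |(s l : ℝ)| ≤ K * M' := by exact_mod_cast h
        linarith
    have h5 : m * (K * M' / 2 * Real.exp X / M) ≤ η := by
      rw [← mul_div_assoc, div_le_iff₀ M0]
      nlinarith [mul_pos η0 M0]
    refine le_trans (by linarith) (h3.trans_eq (expect_congr rfl fun w _ => ?_))
    congr 1
    funext l
    simp only [bv, Pi.add_apply, Pi.smul_apply, smul_eq_mul, s2 l]
    ring
  · refine le_of_eq_of_le (expect_eq_zero fun y _ => ?_) (by norm_num)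
    by_contra h
    refine hF (x - fun l => ∑ j : Fin (k + 2), (j : ℕ) * (sc k j * vl j (y j l)))
      (fun l => 1 + ∑ j, sc k j * vl j (y j l)) (fun h0 => ?_) fun n hn => ?_
    · have h1 := congrFun h0 ⟨0, hm⟩
      exact (add_pos_of_pos_of_nonneg one_pos (sum_nonneg fun j _ =>
        mul_nonneg (zero_le_one.trans (sc_pos j).1) (vl_bd m2 j _).1)).ne' h1
    · have h1 := prod_ne_zero_iff.1 h ⟨n, hn⟩ (mem_univ _)
      by_contra h2
      refine h1 (if_neg fun h3 => h2 ?_)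
      convert h3 using 1
      funext l
      have h4 := pt_full ⟨n, hn⟩ fun j => y j l
      simp only [pv, Pi.add_apply, Pi.sub_apply, Pi.smul_apply, smul_eq_mul, Function.comp_def]
        at h4 ⊢
      rw [h4]
      ring

end

end Vale.Agent.P057T
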