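import Vale.Agent.P057T.StV1

/-! One common difference for all classes; the start in boxes. -/

set_option linter.all false

open Finset
open scoped BigOperators

namespace Vale.Agent.P057T

open Vale.Agent.P057L

noncomputable section

/-- one common difference for all classes -/
def NRMV : Prop :=
  ∀ (m n p L D : ℕ) (M : Fin n → ℕ) (c : Fin n → ℤ) (g : Vz m → ℝ) (B : ℝ), 1 ≤ p → 1 ≤ L →
    1 ≤ D → (∀ i, c i ∣ (D : ℤ)) → (∀ x, 0 ≤ g x) →
    (∀ i, 1 ≤ M i ∧ (M i + 2 * (D * L : ℕ) : ℝ) ≤ B * M i) →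
    ∃ x1 : Vz m, gridA (fun i => bz m (M i)) (fun _ => p) (fun _ y => g (∑ i, c i • y i)) ≤
      B ^ (m * (n * p)) * grdV n p L (fun z => g (x1 + (D : ℤ) • z))

/-- the start in boxes, scales fixed in advance -/
def STARTV : Prop :=
  ∀ k : ℕ, 1 ≤ k → ∃ η : ℝ, 0 < η ∧ η ≤ 1 / 10 ∧ ∃ C : ℕ, ∀ (X : ℝ) (m N : ℕ), (C : ℝ) ≤ X →
    1 ≤ m → (m : ℝ) ≤ X → X ^ C ≤ Real.log N →
    ∃ M M' L : ℕ, 1 ≤ L ∧ L ≤ M' ∧ M' ≤ M ∧ M ≤ N ∧ N ≤ L * Real.exp (X ^ C) ∧
      ∀ (α : ℝ) (A : Finset (Vz m)), A ⊆ bz m N → APV (k + 2) A → Real.exp (-X) ≤ α →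
        α * (N : ℝ) ^ m = A.card →
        (∃ (x1 : Vz m) (d L' : ℕ), 1 ≤ d ∧ d ∣ (k + 1).factorial ^ 2 ∧ (L' = M ∨ L' = M') ∧
          1 + η ≤ 𝔼 z ∈ bz m L', indV A α (x1 + (d : ℤ) • z)) ∨
        ∃ (x1 : Vz m) (p : ℕ), 1 ≤ p ∧ (p : ℝ) ≤ X ^ C ∧ (1 + η) ^ (p ^ (k + 1)) ≤
          grdV (k + 1) p L fun z => indV A α (x1 + (((k + 1).factorial ^ 2 : ℕ) : ℤ) • z)

namespace SV

theorem two_exp {t : ℝ} (h : 0 ≤ t) : 2 * t ≤ Real.exp t := by
  have a2 := Real.add_one_le_exp (t / 2)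
  have a3 : Real.exp t = Real.exp (t / 2) ^ 2 := by
    rw [sq, ← Real.exp_add, add_halves]
  rw [a3]
  nlinarith [pow_le_pow_left₀ (by linarith) a2 2, sq_nonneg (t / 2 - 1)]

theorem exp12 {η : ℝ} (h0 : 0 < η) (h1 : η ≤ 1 / 10) : Real.exp (η / 12) ≤ 1 + η / 3 := by
  have h4 := Real.add_one_le_exp (-(η / 12))
  have h5 : Real.exp (η / 12) * Real.exp (-(η / 12)) = 1 := by rw [← Real.exp_add]; simp
  have h6 := Real.exp_pos (η / 12)
  have h7 := mul_le_mul_of_nonneg_left h4 h6.le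
  by_contra h
  nlinarith [mul_le_mul_of_nonneg_right (not_le.1 h).le (show 0 ≤ -(η / 12) + 1 by linarith)]

theorem side {M' N : ℕ} {r E F : ℝ} (r1 : 1 ≤ r) (hE : 0 < E) (h1 : 2 * r ≤ F)
    (h2 : N ≤ M' * E) (h3 : E * F ≤ N) :
    ∃ L : ℕ, 1 ≤ L ∧ L ≤ M' ∧ L * r ≤ M' ∧ N ≤ L * (E * F) := by
  have M2 : 2 * r ≤ M' := by
    refine h1.trans (le_of_mul_le_mul_left ?_ hE)
    linarith
  obtain ⟨l1, l2, l3⟩ := St1.floor_bd (x := M' / r) (by
    rw [le_div_iff₀ (by positivity)]; linarith)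
  generalize ⌊(M' : ℝ) / r⌋₊ = L at l1 l2 l3
  rw [le_div_iff₀ (by positivity)] at l2
  rw [div_le_iff₀ (by positivity)] at l3
  have L0 : (0 : ℝ) ≤ L := Nat.cast_nonneg L
  refine ⟨L, l1, ?_, l2, h2.trans ?_⟩
  · have h : (L : ℝ) ≤ M' := by nlinarith
    exact_mod_cast h
  · have h : (M' : ℝ) ≤ L * F := by nlinarith
    nlinarith

theorem fin_num {η x G : ℝ} {m k p : ℕ} (h0 : 0 < η) (h1 : η ≤ 1 / 10) (hx : 0 ≤ x)
    (e : ((m * (k + 1) : ℕ) : ℝ) * x ≤ η / 12)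
    (a : (1 + η) ^ p ^ (k + 1) ≤ (1 + x) ^ (m * ((k + 1) * p)) * G) :
    (1 + η / 2) ^ p ^ (k + 1) ≤ G := by
  have Bp : 0 < (1 + x) ^ (m * ((k + 1) * p)) := by positivity
  refine le_of_mul_le_mul_left (le_trans ?_ a) Bp
  have b0 : (1 + x) ^ (m * (k + 1)) ≤ 1 + η / 3 := (pw_num hx e).trans (exp12 h0 h1)
  have b : (1 + x) ^ (m * ((k + 1) * p)) ≤ (1 + η / 3) ^ p ^ (k + 1) := by
    rw [← mul_assoc, pow_mul]
    exact (pow_le_pow_left₀ (by positivity) b0 p).trans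
      (pow_le_pow_right₀ (by linarith) (Nat.le_self_pow (by omega) p))
  refine (mul_le_mul_of_nonneg_right b (by positivity)).trans ?_
  rw [← mul_pow]
  exact pow_le_pow_left₀ (by positivity) (by nlinarith) _

end SV

open SV

theorem nrmv (hL : LOC) (hP : PUSH) : NRMV := by
  intro m n p L D M c g B p1 L1 D1 hc hg hM
  choose e he using hc
  have D0 : (0 : ℤ) < D := by exact_mod_cast D1
  have e0 : ∀ i, e i ≠ 0 := fun i k => by
    have := he i
    rw [k, mul_zero] at this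
    exact D0.ne' this
  have e1 : ∀ i, |e i| ≤ D := fun i =>
    Int.le_of_dvd D0 ((abs_dvd _ _).2 (Dvd.intro_left _ (he i).symm))
  have key : ∀ T : Finset (Fin n), ∃ o : Fin n → Vz m,
      gridA (fun i => bz m (M i)) (fun _ => p) (fun _ y => g (∑ i, c i • y i)) ≤
        B ^ (m * (T.card * p)) * gridA (fun i => if i ∈ T then wn m L (e i) (o i) else bz m (M i))
          (fun _ => p) (fun _ y => g (∑ i, c i • y i)) := by
    intro T
    induction T using Finset.induction_on with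
    | empty => exact ⟨0, by simp⟩
    | insert i T hi ih =>
      obtain ⟨o, ho⟩ := ih
      have hO := wn_win (m := m) L1 (hM i).1 (e0 i) (e1 i) (hM i).2
      have M0 : (0 : ℝ) < M i := by exact_mod_cast (hM i).1
      have B0 : 0 ≤ B := by
        have : (0 : ℝ) ≤ M i + 2 * (D * L : ℕ) := by positivity
        exact nonneg_of_mul_nonneg_left (this.trans (hM i).2) M0
      obtain ⟨o', -, h'⟩ := hL (Vz m) (Vz m) n
        (fun i => if i ∈ T then wn m L (e i) (o i) else bz m (M i))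
        (fun _ => p) (fun y => g (∑ i, c i • y i)) i (wb m (M i) (D * L)) (wn m L (e i)) (B ^ m)
        (fun y => hg _) p1 (wb_ne (hM i).1) (pow_nonneg B0 _) (by simpa only [if_neg hi] using hO)
      refine ⟨Function.update o i o', ho.trans ?_⟩
      have eq : Function.update (fun i => if i ∈ T then wn m L (e i) (o i) else bz m (M i)) i
          (wn m L (e i) o') = fun k =>
            if k ∈ insert i T then wn m L (e k) (Function.update o i o' k) else bz m (M k) := by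
        funext k
        by_cases hk : k = i
        · subst hk
          rw [Function.update_self, Function.update_self, if_pos (mem_insert_self _ _)]
        · rw [Function.update_of_ne hk, Function.update_of_ne hk]
          simp only [mem_insert, hk, false_or]
      rw [eq] at h'
      rw [card_insert_of_notMem hi, add_mul, one_mul, mul_add, pow_add, mul_assoc, pow_mul B m p]
      exact mul_le_mul_of_nonneg_left h' (pow_nonneg B0 _)
  obtain ⟨o, ho⟩ := key univ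
  refine ⟨∑ i, c i • o i, ho.trans (le_of_eq ?_)⟩
  simp only [mem_univ, if_true, card_univ, Fintype.card_fin]
  rw [← hP (Vz m) (Vz m) n (fun _ => bz m L) (fun i => wn m L (e i) (o i))
    (fun i y => o i + e i • y) (fun _ => p) (fun y => g (∑ i, c i • y i))
    fun i h => wn_img L (e0 i) (o i) h, grdV]
  refine congrArg (fun F => B ^ (m * (n * p)) * gridA (fun _ : Fin n => bz m L) (fun _ => p) F) ?_
  funext _ y
  refine congrArg g ?_
  rw [smul_sum, ← sum_add_distrib]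
  exact sum_congr rfl fun i _ => by rw [he i, smul_add, mul_smul]

theorem startv (h1 : ST1V) (h2 : NRMV) : STARTV := by
  intro k hk
  obtain ⟨η, η0, η1, C, hC⟩ := h1 k hk
  obtain ⟨D, hD⟩ : ∃ D : ℕ, D = (k + 1).factorial ^ 2 := ⟨_, rfl⟩
  have D1 : 1 ≤ D := hD ▸ Nat.one_le_pow _ _ (Nat.factorial_pos _)
  have D0 : (1 : ℝ) ≤ D := by exact_mod_cast D1
  have hk0 : (0 : ℝ) ≤ k := Nat.cast_nonneg k
  obtain ⟨R, hR⟩ : ∃ R : ℝ, R = 24 * D * (k + 1) / η := ⟨_, rfl⟩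
  have Re : R * η = 24 * D * (k + 1) := by rw [hR]; field_simp
  have R1 : 1 ≤ R := by
    rw [hR, le_div_iff₀ η0]
    nlinarith
  refine ⟨η / 2, by linarith, by linarith, C + ⌈R⌉₊ + 4, fun X m N hX hm hmX hN => ?_⟩
  have c0 : (0 : ℝ) ≤ C := by positivity
  have X2 : (C : ℝ) + R + 4 ≤ X := by
    push_cast at hX
    linarith [Nat.le_ceil R]
  have X1 : 1 ≤ X := by linarith
  have m1 : (1 : ℝ) ≤ m := by exact_mod_cast hm
  have xc : 1 ≤ X ^ C := one_le_pow₀ X1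
  have x1 : X ^ C + X ^ 2 ≤ X ^ (C + ⌈R⌉₊ + 4) :=
    add_pw_le (by linarith) (by omega) (by omega)
  have x0 : 0 ≤ X ^ 2 := by positivity
  have Rm : 2 * (R * m) ≤ Real.exp (X ^ 2) := by
    have a1 : R * m ≤ X ^ 2 := by
      rw [sq]; exact mul_le_mul (by linarith) hmX (by linarith) (by linarith)
    linarith [two_exp x0]
  have x3 : Real.exp (X ^ C) * Real.exp (X ^ 2) ≤ Real.exp (X ^ (C + ⌈R⌉₊ + 4)) := by
    rw [← Real.exp_add]; exact Real.exp_le_exp.2 x1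
  obtain ⟨M, M', a1, a2, a3, a4, hA⟩ := hC X m N (by linarith) hm hmX (by linarith)
  have Rm1 : 1 ≤ R * m := one_le_mul_of_one_le_of_one_le R1 m1
  obtain ⟨L, l1, l3, l2, l4⟩ := side Rm1 (Real.exp_pos (X ^ C)) Rm a4
    (x3.trans (exp_le_of_log (by positivity) hN))
  clear hC
  refine ⟨M, M', L, l1, l3, a2, a3, l4.trans (mul_le_mul_of_nonneg_left x3 (Nat.cast_nonneg L)),
    fun α A hs hP hα hc => ?_⟩
  rcases hA α A hs hP hα hc with ⟨x₁, d, L', a, b, c, e⟩ | ⟨x₀, p, Mi, c, p1, p2, hd, hM, hg⟩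
  · exact Or.inl ⟨x₁, d, L', a, b, c, by linarith⟩
  clear hA
  have α0 : 0 < α := (Real.exp_pos _).trans_le hα
  obtain ⟨x, hx⟩ : ∃ x : ℝ, x = η / (12 * (k + 1) * m) := ⟨_, rfl⟩
  have x0' : 0 < x := by rw [hx]; positivity
  have xe : x * (R * m) = 2 * D := by rw [hx, hR]; field_simp; ring
  obtain ⟨x₁, h3⟩ := h2 m (k + 1) p L D Mi c (fun z => indV A α (x₀ + z)) (1 + x) p1 l1 D1
    (fun i => hD ▸ hd i) (fun x => (SV.ind_bd A α0 _).1) (fun i => by
      refine ⟨a1.trans (hM i), ?_⟩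
      have b1 : (M' : ℝ) ≤ Mi i := by exact_mod_cast hM i
      have b2 := mul_le_mul_of_nonneg_left (l2.trans b1) x0'.le
      have b3 : x * (L * (R * m)) = 2 * (D * L) := by rw [mul_left_comm, xe]; ring
      push_cast
      linarith)
  refine Or.inr ⟨x₀ + x₁, p, p1, by linarith, ?_⟩
  simp only [add_assoc, ← hD]
  exact fin_num η0 η1 x0'.le (le_of_eq (by rw [hx]; push_cast; field_simp)) (hg.trans h3)

/-- the closed form -/
theorem startv0 (hH : HGA) : STARTV := startv (st1v hH push) (nrmv loc push)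

end

end Vale.Agent.P057T
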