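import Vale.Agent.P057L.Num
import Vale.Agent.P057.R2.H279.Ser

/-! Epochs of relative steps: from an abstract system of hosts to the final bound. -/

set_option linter.all false

open Finset Filter
open scoped BigOperators

namespace Vale.Agent.P057T.H74

open Vale.Agent.P057L

/-- an abstract system of hosts: rank `D`, precision `R`, relative density `b` -/
structure Sys (k : ℕ) (η : ℝ) (C : ℕ) (Ho : ℕ → Finset ℤ → ℝ → ℝ → ℝ → Prop) : Prop where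
  h0 : ∀ (N : ℕ) (A : Finset ℤ) (b : ℝ), 1 ≤ N → A ⊆ rg N → b * N ≤ A.card → Ho N A 1 1 b
  rst : ∀ (X : ℝ) (N : ℕ) (A : Finset ℤ) (D R b : ℝ), (C : ℝ) ≤ X → A ⊆ rg N → APF k A →
    1 ≤ D → 1 ≤ R → Real.exp (-X) ≤ b → (D * X) ^ C * R ≤ Real.log N → Ho N A D R b →
    Ho N A (D + X ^ C) ((D * X) ^ C * R) ((1 + η) * b)
  kil : ∀ (X : ℝ) (N : ℕ) (A : Finset ℤ) (D R b : ℝ), (C : ℝ) ≤ X → A ⊆ rg N → APF k A →
    1 ≤ D → 1 ≤ R → Real.exp (-X) ≤ b → (D * X) ^ C * R ≤ Real.log N → Ho N A D R b →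
    ∃ (L : ℕ) (A' : Finset ℤ), Lg N L ((D * X) ^ C) ∧ A' ⊆ rg L ∧ APF k A' ∧ b / 2 * L ≤ A'.card

/-- the bound below every power of the logarithm -/
def Res (k : ℕ) : Prop :=
  ∀ c : ℝ, 0 < c → ∃ N₀ : ℕ, ∀ N : ℕ, N₀ ≤ N → ∀ A : Finset ℕ, A ⊆ Icc 1 N →
    (∀ a d : ℕ, 0 < d → ¬ ∀ i : ℕ, i < k → a + i * d ∈ A) → (A.card : ℝ) ≤ N / Real.log N ^ c

variable {k C : ℕ} {η : ℝ} {Ho : ℕ → Finset ℤ → ℝ → ℝ → ℝ → Prop}

theorem steps (h : Sys k η C Ho) (η0 : 0 < η) {X P : ℝ} {l N : ℕ} {A : Finset ℤ} {b : ℝ}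
    (hX : (C : ℝ) ≤ X) (X1 : 1 ≤ X) (hP : ((1 + l * X ^ C) * X) ^ C ≤ P) (P1 : 1 ≤ P)
    (N1 : 1 ≤ N) (hA : A ⊆ rg N) (hF : APF k A) (hb : Real.exp (-X) ≤ b) (hc : b * N ≤ A.card)
    (hN : P ^ (l + 1) ≤ Real.log N) (i : ℕ) (hi : i ≤ l) :
    ∃ D R : ℝ, 1 ≤ D ∧ D ≤ 1 + i * X ^ C ∧ 1 ≤ R ∧ R ≤ P ^ i ∧ Ho N A D R ((1 + η) ^ i * b) := by
  induction i with
  | zero => exact ⟨1, 1, le_rfl, by simp, le_rfl, by simp, by simpa using h.h0 N A b N1 hA hc⟩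
  | succ i ih =>
    obtain ⟨D, R, d1, d2, r1, r2, H⟩ := ih (by omega)
    have x0 : 0 ≤ X ^ C := by positivity
    have il : (i : ℝ) ≤ l := by exact_mod_cast (by omega : i ≤ l)
    have q : (D * X) ^ C ≤ P := (pow_le_pow_left₀ (by positivity)
      (mul_le_mul_of_nonneg_right (d2.trans (by gcongr)) (by linarith)) C).trans hP
    have q1 : 1 ≤ (D * X) ^ C := one_le_pow₀ (by nlinarith)
    have q2 : (D * X) ^ C * R ≤ P ^ (i + 1) := by
      rw [pow_succ']; exact mul_le_mul q r2 (by linarith) (by linarith)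
    have b0 : 0 < b := (Real.exp_pos _).trans_le hb
    have b1 : b ≤ (1 + η) ^ i * b := le_mul_of_one_le_left b0.le (one_le_pow₀ (by linarith))
    refine ⟨D + X ^ C, (D * X) ^ C * R, by linarith, by push_cast; linarith, by nlinarith, q2, ?_⟩
    rw [pow_succ', mul_assoc]
    exact h.rst X N A D R _ hX hA hF d1 r1 (hb.trans b1)
      (q2.trans ((pw_le P1 (by omega)).trans hN)) H

theorem epoch (h : Sys k η C Ho) (η0 : 0 < η) {X P : ℝ} {l N : ℕ} {A : Finset ℤ} {b : ℝ}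
    (hX : (C : ℝ) ≤ X) (X1 : 1 ≤ X) (hP : ((1 + l * X ^ C) * X) ^ C ≤ P) (P1 : 1 ≤ P)
    (N1 : 1 ≤ N) (hA : A ⊆ rg N) (hF : APF k A) (hb : Real.exp (-X) ≤ b) (hc : b * N ≤ A.card)
    (hN : P ^ (l + 1) ≤ Real.log N) :
    ∃ (L : ℕ) (A' : Finset ℤ), Lg N L P ∧ A' ⊆ rg L ∧ APF k A' ∧
      (1 + η) ^ l / 2 * b * L ≤ A'.card := by
  obtain ⟨D, R, d1, d2, r1, r2, H⟩ := steps h η0 hX X1 hP P1 N1 hA hF hb hc hN l le_rfl
  have q : (D * X) ^ C ≤ P := (pow_le_pow_left₀ (by positivity)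
    (mul_le_mul_of_nonneg_right d2 (by linarith)) C).trans hP
  have b0 : 0 < b := (Real.exp_pos _).trans_le hb
  have b1 : b ≤ (1 + η) ^ l * b := le_mul_of_one_le_left b0.le (one_le_pow₀ (by linarith))
  obtain ⟨L, A', a, b', c, d⟩ := h.kil X N A D R _ hX hA hF d1 r1 (hb.trans b1)
    (le_trans (by rw [pow_succ']; exact mul_le_mul q r2 (by linarith) (by linarith)) hN) H
  exact ⟨L, A', a.mono q, b', c, le_trans (le_of_eq (by ring)) d⟩

theorem epochs (h : Sys k η C Ho) (η0 : 0 < η) {X P : ℝ} {l : ℕ}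
    (hX : (C : ℝ) ≤ X) (X1 : 1 ≤ X) (hP : ((1 + l * X ^ C) * X) ^ C ≤ P) (P1 : 1 ≤ P)
    (hg : 1 ≤ (1 + η) ^ l / 2) (e : ℕ) : ∀ (N : ℕ) (A : Finset ℤ) (b : ℝ), A ⊆ rg N → APF k A →
      Real.exp (-X) ≤ b → b * N ≤ A.card → P ^ (l + 1 + e) ≤ Real.log N →
      ((1 + η) ^ l / 2) ^ e * b ≤ 1 := by
  induction e with
  | zero =>
    intro N A b hA _ _ hc hN
    have N1 : 1 ≤ N := one_le_of_log (by positivity) hN
    have a : (A.card : ℝ) ≤ N := by exact_mod_cast (card_le_card hA).trans (by simp [rg])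
    have n : (0 : ℝ) < N := by exact_mod_cast N1
    rw [pow_zero, one_mul]
    nlinarith
  | succ e ih =>
    intro N A b hA hF hb hc hN
    have N1 : 1 ≤ N := one_le_of_log (by positivity) hN
    obtain ⟨L, A', a, b', c, d⟩ := epoch h η0 hX X1 hP P1 N1 hA hF hb hc
      ((pw_le P1 (by omega)).trans hN)
    have b0 : 0 < b := (Real.exp_pos _).trans_le hb
    have := ih L A' _ b' c (hb.trans (le_mul_of_one_le_left b0.le hg)) d (by
      have k : P * P ^ (l + 1 + e) ≤ P * Real.log L := by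
        rw [← pow_succ']; exact hN.trans a.2
      exact le_of_mul_le_mul_left k (by linarith))
    rw [pow_succ, mul_assoc]
    exact this

/-- the bound for sets of integers -/
theorem bnd (h : Sys k η C Ho) (η0 : 0 < η) : ∃ K : ℕ, ∀ (l N : ℕ) (A : Finset ℤ), K ≤ l →
    A ⊆ rg N → APF k A → Real.exp (-(l : ℝ) ^ 2) * N ≤ A.card →
    Real.log N ≤ (l : ℝ) ^ (K * l) := by
  obtain ⟨M, hM⟩ := pow_unbounded_of_one_lt (Real.exp 2) (by linarith : 1 < 1 + η)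
  refine ⟨2 * ((C + 2) * C) * (M + 2) + M + C + 2, fun l N A hl hA hF hc => ?_⟩
  by_contra hN
  have l2 : (2 : ℝ) ≤ l := by exact_mod_cast (by omega : 2 ≤ l)
  have lC : (C : ℝ) ≤ l := by exact_mod_cast (by omega : C ≤ l)
  have lM : (M : ℝ) + 1 ≤ l := by exact_mod_cast (by omega : M + 1 ≤ l)
  have X1 : 1 ≤ (l : ℝ) ^ 2 := by nlinarith
  have x1 : 1 ≤ ((l : ℝ) ^ 2) ^ C := one_le_pow₀ X1
  have g1 : Real.exp l < ((1 + η) ^ l / 2) ^ M := by
    rw [div_pow, ← pow_mul, mul_comm l M, pow_mul, lt_div_iff₀ (by positivity)]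
    refine lt_of_lt_of_le ?_ (pow_le_pow_left₀ (Real.exp_pos _).le hM.le l)
    rw [← Real.exp_nat_mul]
    refine lt_of_le_of_lt (mul_le_mul_of_nonneg_left (two_pow_le_exp M) (Real.exp_pos _).le) ?_
    rw [← Real.exp_add]
    exact Real.exp_lt_exp.2 (by linarith)
  have g0 : 1 ≤ (1 + η) ^ l / 2 := by
    by_contra hh
    have := pow_le_one₀ (n := M) (by positivity : 0 ≤ (1 + η) ^ l / 2) (not_le.1 hh).le
    linarith [Real.one_le_exp (by linarith : (0 : ℝ) ≤ l)]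
  have := epochs h η0 (X := (l : ℝ) ^ 2) (P := ((l : ℝ) ^ 2) ^ ((C + 2) * C)) (l := l)
    (by nlinarith) X1 (by
      rw [pow_mul]
      refine pow_le_pow_left₀ (by positivity) ?_ C
      rw [pow_succ _ (C + 1), pow_succ _ C]
      refine mul_le_mul_of_nonneg_right ?_ (by linarith)
      have u : (l : ℝ) + 1 ≤ (l : ℝ) ^ 2 := by nlinarith
      nlinarith [mul_le_mul_of_nonneg_left u (by linarith : 0 ≤ ((l : ℝ) ^ 2) ^ C)])
    (one_le_pow₀ X1) g0 (M * l) N A _ hA hF le_rfl hc (by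
      rw [← pow_mul, ← pow_mul]
      refine (pw_le (by linarith) ?_).trans (not_le.1 hN).le
      have : l + 1 + M * l ≤ (M + 2) * l := by rw [add_mul]; omega
      calc 2 * ((C + 2) * C * (l + 1 + M * l)) ≤ 2 * ((C + 2) * C * ((M + 2) * l)) := by gcongr
        _ = 2 * ((C + 2) * C) * (M + 2) * l := by ring
        _ ≤ _ := Nat.mul_le_mul_right l (by omega))
  have g2 : Real.exp ((l : ℝ) ^ 2) < ((1 + η) ^ l / 2) ^ (M * l) := by
    rw [pow_mul, sq, Real.exp_nat_mul]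
    exact pow_lt_pow_left₀ g1 (Real.exp_pos _).le (by omega)
  rw [Real.exp_neg, ← div_eq_mul_inv, div_le_one (Real.exp_pos _)] at this
  linarith

theorem res (hk : 1 ≤ k) (h : Sys k η C Ho) (η0 : 0 < η) : Res k := by
  obtain ⟨K, h⟩ := bnd h η0
  intro c c0
  have t1 : Tendsto (fun N : ℕ => c * Real.log (Real.log N)) atTop atTop :=
    (Real.tendsto_log_atTop.comp (Real.tendsto_log_atTop.comp
      tendsto_natCast_atTop_atTop)).const_mul_atTop c0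
  have t2 : Tendsto (fun N : ℕ => Real.log N) atTop atTop :=
    Real.tendsto_log_atTop.comp tendsto_natCast_atTop_atTop
  obtain ⟨N₀, hN₀⟩ := eventually_atTop.1 (((t1.eventually_ge_atTop ((K + 1) ^ 2)).and
    (t1.eventually_gt_atTop ((8 * c * K) ^ 4))).and (t2.eventually_gt_atTop 0))
  refine ⟨N₀, fun N hN A hA hF => ?_⟩
  obtain ⟨⟨a1, a2⟩, l0⟩ := hN₀ N hN
  by_contra hc
  have inj : Function.Injective fun a : ℕ => (a : ℤ) - 1 := fun a b e => by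
    have : (a : ℤ) - 1 = b - 1 := e
    omega
  obtain ⟨X, hX⟩ : ∃ X, X = c * Real.log (Real.log N) := ⟨_, rfl⟩
  rw [← hX] at a1 a2
  have K0 : (0 : ℝ) ≤ K := by positivity
  have X1 : 1 ≤ X := by nlinarith
  obtain ⟨l, hl⟩ : ∃ l : ℕ, l = ⌈√X⌉₊ := ⟨_, rfl⟩
  have s1 : √X ≤ l := hl ▸ Nat.le_ceil _
  have s2 : (l : ℝ) ≤ √X + 1 := hl ▸ (Nat.ceil_lt_add_one (Real.sqrt_nonneg X)).le
  have s3 : √X * √X = X := Real.mul_self_sqrt (by linarith)
  have s4 : (K : ℝ) + 1 ≤ √X := Real.le_sqrt_of_sq_le a1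
  have s5 : X ≤ (l : ℝ) ^ 2 := by nlinarith
  have key := h l N (A.image fun a : ℕ => (a : ℤ) - 1) (by exact_mod_cast (by linarith : (K : ℝ) ≤ l))
    (by
      intro z hz
      obtain ⟨a, ha, rfl⟩ := mem_image.1 hz
      have := mem_Icc.1 (hA ha)
      rw [rg, mem_Ico]
      omega)
    (by
      intro a d hd H
      obtain ⟨a0, -, e0⟩ := mem_image.1 (H 0 (by omega))
      refine hF a0 d.toNat (by omega) fun i hi => ?_
      obtain ⟨b, hb, e⟩ := mem_image.1 (H i hi)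
      have e1 : ((a0 + i * d.toNat : ℕ) : ℤ) = b := by
        rw [Nat.cast_add, Nat.cast_mul, Int.toNat_of_nonneg hd.le]
        rw [Nat.cast_zero, zero_mul, add_zero] at e0
        linarith
      rwa [Nat.cast_injective e1])
    (by
      rw [card_image_of_injective _ inj]
      refine le_trans ?_ (not_le.1 hc).le
      rw [Real.rpow_def_of_pos l0, mul_comm (Real.log _) c, ← hX, div_eq_mul_inv, ← Real.exp_neg,
        mul_comm]
      exact mul_le_mul_of_nonneg_left (Real.exp_le_exp.2 (by linarith)) (by positivity))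
  have l1 : (1 : ℝ) ≤ l := by linarith
  have k1 := Real.log_le_log l0 key
  rw [Real.log_pow] at k1
  push_cast at k1
  have r0 : 0 < √(l : ℝ) := Real.sqrt_pos.2 (by linarith)
  have r1 : √(l : ℝ) * √(l : ℝ) = l := Real.mul_self_sqrt (by linarith)
  have k2 : Real.log l ≤ 2 * √(l : ℝ) := by
    have := Real.log_le_sub_one_of_pos r0
    rw [Real.log_sqrt (by linarith)] at this
    linarith
  have k3 : X ≤ c * (K * l * (2 * √(l : ℝ))) := by
    rw [hX]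
    exact mul_le_mul_of_nonneg_left (k1.trans (mul_le_mul_of_nonneg_left k2 (by positivity))) c0.le
  have k4 : (l : ℝ) * l ≤ 4 * X := by nlinarith
  have k5 : √(l : ℝ) ≤ 8 * c * K := by
    refine le_of_mul_le_mul_left (a := l * √(l : ℝ)) ?_ (by positivity)
    rw [mul_assoc, r1]
    nlinarith
  have k6 : (l : ℝ) ≤ (8 * c * K) ^ 2 := by
    rw [← r1, sq]; exact mul_self_le_mul_self r0.le k5
  have k7 := pow_le_pow_left₀ (by linarith) k6 2
  rw [← pow_mul] at k7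
  exact absurd (s5.trans k7) (not_le.2 a2)

open Classical in
theorem erdos (h : Res k) (A : Set ℕ) (hA : ¬ Summable fun a : A => 1 / ((a : ℕ) : ℝ)) :
    ∃ a d : ℕ, 0 < d ∧ ∀ i : ℕ, i < k → a + i * d ∈ A := by
  obtain ⟨N₀, h⟩ := h 2 (by norm_num)
  by_contra hn
  refine hA (((P057.H279.summable_series A (fun j => (Real.log 2 ^ 2)⁻¹ * ((j : ℝ) ^ 2)⁻¹)
    ((Real.summable_nat_pow_inv.2 one_lt_two).mul_left _) (fun _ => by positivity) N₀
    fun j hj => ?_).subtype A).congr fun a => if_pos a.2)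
  have := h (2 ^ j) (hj.trans Nat.lt_two_pow_self.le) _ (filter_subset (· ∈ A) _) fun a d hd H =>
    hn ⟨a, d, hd, fun i hi => (mem_filter.1 (H i hi)).2⟩
  rw [Nat.cast_pow, Real.log_pow, Nat.cast_ofNat, Real.rpow_two, div_eq_mul_inv, mul_pow,
    mul_inv, mul_comm ((j : ℝ) ^ 2)⁻¹] at this
  exact this

/-- the statement of the hand-in -/
def RESULT : Prop :=
  (∀ k : ℕ, 3 ≤ k → Res k) ∧
  ∀ A : Set ℕ, (∀ a ∈ A, 0 < a) → ¬ Summable (fun a : A => (1 : ℝ) / ((a : ℕ) : ℝ)) →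
    ∀ k : ℕ, 3 ≤ k → ∃ a d : ℕ, 0 < d ∧ ∀ i : ℕ, i < k → a + i * d ∈ A

theorem top (h : ∀ k : ℕ, 3 ≤ k → ∃ η : ℝ, 0 < η ∧ ∃ (C : ℕ)
    (Ho : ℕ → Finset ℤ → ℝ → ℝ → ℝ → Prop), Sys k η C Ho) : RESULT := by
  have r : ∀ k : ℕ, 3 ≤ k → Res k := fun k hk => by
    obtain ⟨η, η0, C, Ho, H⟩ := h k hk
    exact res (by omega) H η0
  exact ⟨r, fun A _ hA k hk => erdos (r k hk) A hA⟩

end Vale.Agent.P057T.H74
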