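import Mathlib

/-!
Shifts, scalings and first order Taylor expansion of real polynomials in several variables.
-/

open MvPolynomial

namespace Vale.Agent.P057T.UpgP

noncomputable section

set_option linter.unusedSectionVars false

variable {σ : Type*} [Fintype σ] [DecidableEq σ]

/-- All monomials have degree `< j`. -/
def Lo (j : ℕ) (P : MvPolynomial σ ℝ) : Prop := ∀ m : σ →₀ ℕ, j ≤ m.degree → coeff m P = 0

/-- The shift `P(x + h)`. -/
def sh (h : σ → ℝ) : MvPolynomial σ ℝ →ₐ[ℝ] MvPolynomial σ ℝ := aeval fun a => X a + C (h a)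

/-- The scaling `P(r x)`. -/
def sc (r : ℝ) : MvPolynomial σ ℝ →ₐ[ℝ] MvPolynomial σ ℝ := aeval fun a => C r * X a

/-- The directional derivative. -/
def dd (h : σ → ℝ) (P : MvPolynomial σ ℝ) : MvPolynomial σ ℝ := ∑ a, C (h a) * pderiv a P

theorem Lo.zero (j : ℕ) : Lo j (0 : MvPolynomial σ ℝ) := fun _ _ => by simp

theorem Lo.add {j : ℕ} {P Q : MvPolynomial σ ℝ} (hP : Lo j P) (hQ : Lo j Q) : Lo j (P + Q) :=
  fun m hm => by rw [coeff_add, hP m hm, hQ m hm, add_zero]

theorem Lo.sub {j : ℕ} {P Q : MvPolynomial σ ℝ} (hP : Lo j P) (hQ : Lo j Q) : Lo j (P - Q) :=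
  fun m hm => by rw [coeff_sub, hP m hm, hQ m hm, sub_zero]

theorem Lo.cmul {j : ℕ} {P : MvPolynomial σ ℝ} (hP : Lo j P) (r : ℝ) : Lo j (C r * P) :=
  fun m hm => by rw [coeff_C_mul, hP m hm, mul_zero]

theorem Lo.mono {i j : ℕ} {P : MvPolynomial σ ℝ} (hP : Lo i P) (h : i ≤ j) : Lo j P :=
  fun m hm => hP m (h.trans hm)

theorem Lo.sum {j : ℕ} {ι : Type*} (s : Finset ι) (f : ι → MvPolynomial σ ℝ)
    (h : ∀ i ∈ s, Lo j (f i)) : Lo j (∑ i ∈ s, f i) := fun m hm => by
  rw [coeff_sum]
  exact Finset.sum_eq_zero fun i hi => h i hi m hm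

theorem degree_add_single (m : σ →₀ ℕ) (a : σ) :
    (m + Finsupp.single a 1).degree = m.degree + 1 := by
  rw [map_add, Finsupp.degree_single]

theorem Lo.mulX {j : ℕ} {P : MvPolynomial σ ℝ} (hP : Lo j P) (a : σ) : Lo (j + 1) (P * X a) := by
  intro m hm
  rw [coeff_mul_X']
  split_ifs with ha
  · apply hP
    have h1 : m - Finsupp.single a 1 + Finsupp.single a 1 = m :=
      Finsupp.sub_add_single_one_cancel (Finsupp.mem_support_iff.1 ha)
    have h2 := degree_add_single (m - Finsupp.single a 1) a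
    rw [h1] at h2
    omega
  · rfl

theorem Lo.eq_zero {P : MvPolynomial σ ℝ} (hP : Lo 0 P) : P = 0 := by
  ext m
  rw [hP m (Nat.zero_le _), coeff_zero]

theorem Lo.eq_C {P : MvPolynomial σ ℝ} (hP : Lo 1 P) : P = C (coeff 0 P) := by
  ext m
  rw [coeff_C]
  split_ifs with h
  · rw [← h]
  · apply hP
    have : m.degree ≠ 0 := fun h0 => h ((Finsupp.degree_eq_zero_iff m).1 h0).symm
    omega

theorem Lo.pderiv {j : ℕ} {P : MvPolynomial σ ℝ} (hP : Lo (j + 1) P) (a : σ) :
    Lo j (pderiv a P) := fun m hm => by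
  rw [coeff_pderiv, hP _ (by rw [degree_add_single]; omega), zero_mul]

theorem Lo.dd {j : ℕ} {P : MvPolynomial σ ℝ} (hP : Lo (j + 1) P) (h : σ → ℝ) : Lo j (dd h P) :=
  Lo.sum _ _ fun a _ => (hP.pderiv a).cmul _

theorem lo_monomial (m : σ →₀ ℕ) (r : ℝ) : Lo (m.degree + 1) (monomial m r) := fun k hk => by
  rw [coeff_monomial]
  split_ifs with h
  · subst h; omega
  · rfl

theorem lo_of_totalDegree {d : ℕ} {P : MvPolynomial σ ℝ} (h : P.totalDegree ≤ d) :
    Lo (d + 1) P := fun m hm => by
  apply coeff_eq_zero_of_totalDegree_lt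
  have : m.degree = ∑ i ∈ m.support, m i := rfl
  omega

theorem mono_ind (Φ : (σ →₀ ℕ) → Prop) (h0 : Φ 0)
    (hs : ∀ m a, Φ m → Φ (m + Finsupp.single a 1)) (m : σ →₀ ℕ) : Φ m := by
  induction m using Finsupp.induction_linear with
  | zero => exact h0
  | add f g _ _ =>
    have key : ∀ (n : ℕ) (k : σ →₀ ℕ), k.degree = n → Φ k := by
      intro n
      induction n with
      | zero => intro k hk; rw [(Finsupp.degree_eq_zero_iff k).1 hk]; exact h0
      | succ n ih =>
        intro k hk
        have hne : k ≠ 0 := by rintro rfl; simp at hk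
        obtain ⟨a, ha⟩ := Finsupp.support_nonempty_iff.2 hne
        have h1 : k - Finsupp.single a 1 + Finsupp.single a 1 = k :=
          Finsupp.sub_add_single_one_cancel (Finsupp.mem_support_iff.1 ha)
        have h2 := degree_add_single (k - Finsupp.single a 1) a
        rw [h1] at h2
        rw [← h1]
        exact hs _ _ (ih _ (by omega))
    exact key _ _ rfl
  | single a b =>
    induction b with
    | zero => simpa using h0
    | succ b ih => rw [Finsupp.single_add]; exact hs _ _ ih

theorem dd_mulX (h : σ → ℝ) (P : MvPolynomial σ ℝ) (a : σ) :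
    dd h (P * X a) = dd h P * X a + C (h a) * P := by
  unfold dd
  have : ∀ b, C (h b) * pderiv b (P * X a)
      = C (h b) * pderiv b P * X a + (if b = a then C (h a) * P else 0) := by
    intro b
    rw [pderiv_mul]
    split_ifs with hb
    · subst hb; rw [pderiv_X_self]; ring
    · rw [pderiv_X_of_ne (Ne.symm hb)]; ring
  simp only [this, Finset.sum_add_distrib, Finset.sum_ite_eq', Finset.mem_univ, if_true,
    Finset.sum_mul]

theorem dd_add (h : σ → ℝ) (P Q : MvPolynomial σ ℝ) : dd h (P + Q) = dd h P + dd h Q := by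
  simp only [dd, map_add, mul_add, Finset.sum_add_distrib]

theorem dd_cmul (h : σ → ℝ) (r : ℝ) (P : MvPolynomial σ ℝ) : dd h (C r * P) = C r * dd h P := by
  unfold dd
  rw [Finset.mul_sum]
  refine Finset.sum_congr rfl fun a _ => ?_
  rw [pderiv_mul, pderiv_C]; ring

theorem dd_sum (h : σ → ℝ) {ι : Type*} (s : Finset ι) (f : ι → MvPolynomial σ ℝ) :
    dd h (∑ i ∈ s, f i) = ∑ i ∈ s, dd h (f i) := by
  classical
  induction s using Finset.induction_on with
  | empty => simp [dd]
  | insert i s hi ih => rw [Finset.sum_insert hi, Finset.sum_insert hi, dd_add, ih]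

theorem tay_monomial (h : σ → ℝ) (m : σ →₀ ℕ) :
    Lo m.degree (sh h (monomial m 1) - monomial m 1) ∧
      Lo (m.degree - 1) (sh h (monomial m 1) - monomial m 1 - dd h (monomial m 1)) := by
  induction m using mono_ind with
  | h0 =>
    have : (monomial (0 : σ →₀ ℕ) (1 : ℝ)) = 1 := rfl
    rw [this, map_one, sub_self]
    refine ⟨Lo.zero _, ?_⟩
    have : dd h (1 : MvPolynomial σ ℝ) = 0 := by simp [dd]
    rw [this, sub_zero]
    exact Lo.zero _
  | hs m a ih =>
    have e1 : (monomial (m + Finsupp.single a 1) (1 : ℝ)) = monomial m 1 * X a := by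
      rw [X, monomial_mul, mul_one]
    have e2 : sh h (X a) = X a + C (h a) := by simp [sh]
    rw [e1, map_mul, e2, dd_mulX, degree_add_single]
    set A := (monomial m (1 : ℝ) : MvPolynomial σ ℝ) with hA
    have hA1 : Lo (m.degree + 1) A := lo_monomial m 1
    constructor
    · have : sh h A * (X a + C (h a)) - A * X a
          = (sh h A - A) * X a + (C (h a) * (sh h A - A) + C (h a) * A) := by ring
      rw [this]
      exact (ih.1.mulX a).add (((ih.1.mono (Nat.le_succ _)).cmul _).add (hA1.cmul _))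
    · have : sh h A * (X a + C (h a)) - A * X a - (dd h A * X a + C (h a) * A)
          = (sh h A - A - dd h A) * X a + C (h a) * (sh h A - A) := by ring
      rw [this, Nat.add_sub_cancel]
      refine Lo.add ?_ (ih.1.cmul _)
      rcases Nat.eq_zero_or_pos m.degree with h0 | h0
      · have := ih.2
        rw [h0] at this
        rw [this.eq_zero, zero_mul]
        exact Lo.zero _
      · exact (ih.2.mulX a).mono (by omega)

theorem as_sum' (P : MvPolynomial σ ℝ) :
    P = ∑ m ∈ P.support, C (coeff m P) * monomial m 1 := by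
  conv_lhs => rw [P.as_sum]
  refine Finset.sum_congr rfl fun m _ => ?_
  rw [C_mul_monomial, mul_one]

theorem sh_C (h : σ → ℝ) (r : ℝ) : sh h (C r) = C r := by simp [sh]

theorem Lo.delta {j : ℕ} {P : MvPolynomial σ ℝ} (hP : Lo (j + 1) P) (h : σ → ℝ) :
    Lo j (sh h P - P) := by
  have : sh h P - P
      = ∑ m ∈ P.support, C (coeff m P) * (sh h (monomial m 1) - monomial m 1) := by
    conv_lhs => rw [as_sum' P]
    rw [map_sum, ← Finset.sum_sub_distrib]
    refine Finset.sum_congr rfl fun m _ => ?_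
    rw [map_mul, sh_C]; ring
  rw [this]
  refine Lo.sum _ _ fun m hm => ((tay_monomial h m).1.mono ?_).cmul _
  by_contra hc
  exact mem_support_iff.1 hm (hP m (by omega))

theorem Lo.tay {j : ℕ} {P : MvPolynomial σ ℝ} (hP : Lo (j + 2) P) (h : σ → ℝ) :
    Lo j (sh h P - P - UpgP.dd h P) := by
  have : sh h P - P - UpgP.dd h P = ∑ m ∈ P.support,
      C (coeff m P) * (sh h (monomial m 1) - monomial m 1 - UpgP.dd h (monomial m 1)) := by
    conv_lhs => rw [as_sum' P]
    rw [map_sum, dd_sum, ← Finset.sum_sub_distrib, ← Finset.sum_sub_distrib]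
    refine Finset.sum_congr rfl fun m _ => ?_
    rw [map_mul, sh_C, dd_cmul]; ring
  rw [this]
  refine Lo.sum _ _ fun m hm => ((tay_monomial h m).2.mono ?_).cmul _
  by_contra hc
  exact mem_support_iff.1 hm (hP m (by omega))

theorem Lo.sh {j : ℕ} {P : MvPolynomial σ ℝ} (hP : Lo j P) (h : σ → ℝ) : Lo j (sh h P) := by
  rcases j with _ | j
  · rw [hP.eq_zero, map_zero]; exact Lo.zero _
  · have : UpgP.sh h P = (UpgP.sh h P - P) + P := by ring
    rw [this]
    exact ((hP.delta h).mono (Nat.le_succ _)).add hP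

theorem sc_monomial (r : ℝ) (m : σ →₀ ℕ) (c : ℝ) :
    sc r (monomial m c) = monomial m (r ^ m.degree * c) := by
  induction m using mono_ind with
  | h0 =>
    have : ∀ c : ℝ, (monomial (0 : σ →₀ ℕ) c) = C c := fun _ => rfl
    rw [this, this]
    simp [sc]
  | hs m a ih =>
    have e1 : ∀ c : ℝ, (monomial (m + Finsupp.single a 1) c) = monomial m c * X a := by
      intro c
      rw [X, monomial_mul, mul_one]
    have e2 : sc r (X a) = C r * X a := by simp [sc]
    rw [e1, e1, map_mul, ih, e2, degree_add_single, ← mul_assoc, mul_comm _ (C r), C_mul_monomial,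
      pow_succ]
    congr 2
    ring

theorem coeff_sc (r : ℝ) (P : MvPolynomial σ ℝ) (m : σ →₀ ℕ) :
    coeff m (sc r P) = r ^ m.degree * coeff m P := by
  induction P using MvPolynomial.induction_on' with
  | monomial u c =>
    rw [sc_monomial, coeff_monomial, coeff_monomial]
    split_ifs with h
    · rw [h]
    · rw [mul_zero]
  | add p q hp hq => rw [map_add, coeff_add, coeff_add, hp, hq, mul_add]

theorem Lo.sc {j : ℕ} {P : MvPolynomial σ ℝ} (hP : Lo j P) (r : ℝ) : Lo j (sc r P) :=
  fun m hm => by rw [coeff_sc, hP m hm, mul_zero]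

theorem eval_sh (h x : σ → ℝ) (P : MvPolynomial σ ℝ) : eval x (sh h P) = eval (x + h) P := by
  induction P using MvPolynomial.induction_on with
  | C c => simp [sh]
  | add p q hp hq => simp only [map_add, hp, hq]
  | mul_X p a hp => rw [map_mul, map_mul, map_mul, hp]; simp [sh]

theorem eval_sc (r : ℝ) (x : σ → ℝ) (P : MvPolynomial σ ℝ) :
    eval x (sc r P) = eval (r • x) P := by
  induction P using MvPolynomial.induction_on with
  | C c => simp [sc]
  | add p q hp hq => simp only [map_add, hp, hq]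
  | mul_X p a hp => rw [map_mul, map_mul, map_mul, hp]; simp [sc]

theorem sh_sh (h k : σ → ℝ) (P : MvPolynomial σ ℝ) : sh h (sh k P) = sh (h + k) P := by
  induction P using MvPolynomial.induction_on with
  | C c => simp [sh]
  | add p q hp hq => simp only [map_add, hp, hq]
  | mul_X p a hp => rw [map_mul, map_mul, map_mul, hp]; simp [sh, add_assoc]

theorem sh_zero (P : MvPolynomial σ ℝ) : sh 0 P = P := by
  induction P using MvPolynomial.induction_on with
  | C c => simp [sh]
  | add p q hp hq => simp only [map_add, hp, hq]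
  | mul_X p a hp => rw [map_mul, hp]; simp [sh]

theorem coeff_dd (h : σ → ℝ) (P : MvPolynomial σ ℝ) (m : σ →₀ ℕ) :
    coeff m (dd h P) = ∑ a, h a * (coeff (m + Finsupp.single a 1) P * (m a + 1)) := by
  unfold dd
  rw [coeff_sum]
  refine Finset.sum_congr rfl fun a _ => ?_
  rw [coeff_C_mul, coeff_pderiv]

theorem lo_sub_top {j : ℕ} {P : MvPolynomial σ ℝ} (hP : Lo (j + 1) P) :
    Lo j (P - homogeneousComponent j P) := fun m hm => by
  rw [coeff_sub, coeff_homogeneousComponent]
  split_ifs with h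
  · exact sub_self _
  · rw [hP m (by omega), sub_zero]

end

end Vale.Agent.P057T.UpgP
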