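import Vale.Agent.P057L.Defs
import Vale.Agent.P057L.WeylA

/-! Vinogradov lemma for products of several variables and for multilinear forms on boxes. -/

set_option linter.all false

open Finset
open scoped BigOperators

namespace Vale.Agent.P057T.Vsm

open Vale.Agent.P057L Vale.Agent.P057L.WA

theorem mem_bz {m N : ℕ} {x : Vz m} : x ∈ bz m N ↔ ∀ i, 0 ≤ x i ∧ x i < N := by
  simp [bz, rg, Fintype.mem_piFinset]

theorem mem_rg {N : ℕ} {x : ℤ} : x ∈ rg N ↔ 0 ≤ x ∧ x < N := by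
  simp [rg]

theorem card_rg (N : ℕ) : (rg N).card = N := by simp [rg]

theorem card_bz (m N : ℕ) : (bz m N).card = N ^ m := by
  simp [bz, rg, Fintype.card_piFinset]

theorem card_bp (d m N : ℕ) : (bp d m N).card = (N ^ m) ^ d := by
  simp [bp, card_bz, Fintype.card_piFinset]

/-- two fibres that meet densely -/
theorem fib {α β : Type} [DecidableEq α] [DecidableEq β] (A : Finset α) (B : Finset β)
    (F : α → Finset β) (Q : ℝ) (hQ : 0 < Q) (hA : 0 < A.card) (hB : 0 < B.card)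
    (hF : ∀ t, F t ⊆ B)
    (h : (A.card : ℝ) * B.card ≤ Q * ∑ t ∈ A, ((F t).card : ℝ)) :
    ∃ t' : α, t' ∈ A ∧ ∃ T : Finset α, T ⊆ A ∧ (A.card : ℝ) ≤ 2 * Q ^ 2 * T.card ∧
      ∀ t ∈ T, (B.card : ℝ) ≤ 2 * Q ^ 2 * (F t ∩ F t').card := by
  classical
  have hA' : (0 : ℝ) < A.card := by exact_mod_cast hA
  have hB' : (0 : ℝ) < B.card := by exact_mod_cast hB
  set w : α → β → ℝ := fun t y => if y ∈ F t then 1 else 0 with hw
  have h1 : ∀ t, ((F t).card : ℝ) = ∑ y ∈ B, w t y := by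
    intro t
    simp only [hw]
    rw [sum_boole, filter_mem_eq_inter, inter_eq_right.2 (hF t)]
  have h2 : ∀ t t', ((F t ∩ F t').card : ℝ) = ∑ y ∈ B, w t y * w t' y := by
    intro t t'
    have : ∀ y, w t y * w t' y = if y ∈ F t ∩ F t' then 1 else 0 := by
      intro y
      simp only [hw, mem_inter]
      by_cases a : y ∈ F t <;> by_cases b : y ∈ F t' <;> simp [a, b]
    simp only [this]
    rw [sum_boole, filter_mem_eq_inter,
      inter_eq_right.2 (subset_trans inter_subset_left (hF t))]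
  have h3 : (∑ t ∈ A, ((F t).card : ℝ)) ^ 2 ≤
      B.card * ∑ t' ∈ A, ∑ t ∈ A, ((F t ∩ F t').card : ℝ) := by
    simp only [h1, h2]
    rw [sum_comm]
    refine (sq_sum_le_card_mul_sum_sq).trans (le_of_eq ?_)
    congr 1
    have : ∀ y, (∑ t ∈ A, w t y) ^ 2 = ∑ t' ∈ A, ∑ t ∈ A, w t y * w t' y := by
      intro y
      rw [sq, sum_mul_sum, sum_comm]
    simp only [this]
    rw [sum_comm]
    refine sum_congr rfl fun t' _ => ?_
    rw [sum_comm]
  have h4 : ∑ t' ∈ A, ((A.card : ℝ) * B.card) ≤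
      ∑ t' ∈ A, Q ^ 2 * ∑ t ∈ A, ((F t ∩ F t').card : ℝ) := by
    rw [sum_const, nsmul_eq_mul, ← mul_sum]
    have h5 : ((A.card : ℝ) * B.card) ^ 2 ≤ (Q * ∑ t ∈ A, ((F t).card : ℝ)) ^ 2 :=
      pow_le_pow_left₀ (by positivity) h 2
    have h6 : (Q * ∑ t ∈ A, ((F t).card : ℝ)) ^ 2 ≤
        Q ^ 2 * (B.card * ∑ t' ∈ A, ∑ t ∈ A, ((F t ∩ F t').card : ℝ)) := by
      rw [mul_pow]
      exact mul_le_mul_of_nonneg_left h3 (by positivity)
    have h7 := h5.trans h6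
    have h8 : (B.card : ℝ) * (A.card * (A.card * B.card)) ≤
        B.card * (Q ^ 2 * ∑ t' ∈ A, ∑ t ∈ A, ((F t ∩ F t').card : ℝ)) := by nlinarith [h7]
    exact le_of_mul_le_mul_left h8 hB'
  obtain ⟨t', ht', h9⟩ := exists_le_of_sum_le (card_pos.1 hA) h4
  refine ⟨t', ht', A.filter fun t => (B.card : ℝ) ≤ 2 * Q ^ 2 * (F t ∩ F t').card,
    filter_subset _ _, ?_, fun t ht => (mem_filter.1 ht).2⟩
  set T := A.filter fun t => (B.card : ℝ) ≤ 2 * Q ^ 2 * (F t ∩ F t').card with hT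
  have h10 : ∑ t ∈ A, Q ^ 2 * ((F t ∩ F t').card : ℝ) ≤
      ∑ t ∈ A, ((if t ∈ T then 1 else 0) * (Q ^ 2 * B.card) + (B.card : ℝ) / 2) := by
    refine sum_le_sum fun t ht => ?_
    by_cases c : t ∈ T
    · have : ((F t ∩ F t').card : ℝ) ≤ B.card := by
        exact_mod_cast card_le_card (subset_trans inter_subset_left (hF t))
      have := mul_le_mul_of_nonneg_left this (sq_nonneg Q)
      simp only [c, if_true]
      linarith
    · have : ¬ (B.card : ℝ) ≤ 2 * Q ^ 2 * (F t ∩ F t').card := fun h => c (mem_filter.2 ⟨ht, h⟩)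
      simp only [c, if_false]
      linarith
  rw [← mul_sum, sum_add_distrib, ← sum_mul, sum_boole, filter_mem_eq_inter,
    inter_eq_right.2 (filter_subset _ _), sum_const, nsmul_eq_mul] at h10
  have h11 : (B.card : ℝ) * A.card ≤ B.card * (2 * Q ^ 2 * T.card) := by nlinarith [h9, h10]
  exact le_of_mul_le_mul_left h11 hB'

/-- a popular value of a natural number -/
theorem pop {α : Type} (T : Finset α) (n : α → ℕ) (M : ℝ) (hM : 1 ≤ M)
    (hn : ∀ t ∈ T, 1 ≤ n t ∧ (n t : ℝ) ≤ M) :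
    ∃ k : ℕ, 1 ≤ k ∧ (k : ℝ) ≤ M ∧ ∃ U : Finset α, U ⊆ T ∧ (T.card : ℝ) ≤ M * U.card ∧
      ∀ t ∈ U, n t = k := by
  classical
  have hf : 1 ≤ ⌊M⌋₊ := Nat.le_floor (by simpa using hM)
  have hne : (Icc 1 ⌊M⌋₊).Nonempty := ⟨1, mem_Icc.2 ⟨le_rfl, hf⟩⟩
  have h1 : T.card = ∑ k ∈ Icc 1 ⌊M⌋₊, (T.filter fun t => n t = k).card :=
    card_eq_sum_card_fiberwise fun t ht =>
      mem_coe.2 (mem_Icc.2 ⟨(hn t ht).1, Nat.le_floor (hn t ht).2⟩)
  have h2 : ∑ k ∈ Icc 1 ⌊M⌋₊, T.card ≤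
      ∑ k ∈ Icc 1 ⌊M⌋₊, ⌊M⌋₊ * (T.filter fun t => n t = k).card := by
    rw [← mul_sum, ← h1, sum_const, Nat.card_Icc]
    simp
  obtain ⟨k, hk, h3⟩ := exists_le_of_sum_le hne h2
  have hk' := mem_Icc.1 hk
  have hfl : (⌊M⌋₊ : ℝ) ≤ M := Nat.floor_le (by linarith)
  refine ⟨k, hk'.1, le_trans (by exact_mod_cast hk'.2) hfl, T.filter fun t => n t = k,
    filter_subset _ _, ?_, fun t ht => (mem_filter.1 ht).2⟩
  have h4 : (T.card : ℝ) ≤ ⌊M⌋₊ * ((T.filter fun t => n t = k).card : ℝ) := by exact_mod_cast h3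
  exact h4.trans (mul_le_mul_of_nonneg_right hfl (by positivity))

/-- the one variable lemma with a shift -/
theorem vsh (α σ P : ℝ) (L : ℕ) (U : Finset ℤ) (t' : ℤ) (ht' : t' ∈ rg L) (hU : U ⊆ rg L)
    (hP : 1 ≤ P) (hσ : 0 ≤ σ) (hc : (L : ℝ) ≤ P * U.card)
    (good : ∀ t ∈ U, nz (((t - t' : ℤ) : ℝ) * α) ≤ σ) (h1 : 16 * P * σ ≤ 1) (h2 : 4 * P < L) :
    ∃ q : ℕ, 1 ≤ q ∧ (q : ℝ) ≤ 4 * P ∧ nz (q * α) * L ≤ 192 * P ^ 2 * σ := by
  classical
  have hP0 : 0 < P := by linarith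
  set S : Finset ℕ := U.image fun t => (t - t').natAbs with hS
  have hSr : S ⊆ range L := by
    intro h hh
    obtain ⟨t, ht, rfl⟩ := mem_image.1 hh
    have a := mem_rg.1 (hU ht)
    have b := mem_rg.1 ht'
    rw [mem_range]
    omega
  have hg : ∀ h ∈ S, nz (h * α) ≤ σ := by
    intro h hh
    obtain ⟨t, ht, rfl⟩ := mem_image.1 hh
    have := good t ht
    rcases Int.natAbs_eq (t - t') with e | e
    · rw [e] at this
      simpa using this
    · rw [e, Int.cast_neg, neg_mul, nz_neg] at this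
      simpa using this
  have hcard : U.card ≤ 2 * S.card := by
    refine card_le_mul_card_image U 2 fun h _ => ?_
    have : (U.filter fun t => (t - t').natAbs = h) ⊆ {t' + h, t' - h} := by
      intro t ht
      have := (mem_filter.1 ht).2
      simp only [mem_insert, mem_singleton]
      omega
    exact (card_le_card this).trans card_le_two
  have hcard' : (U.card : ℝ) ≤ 2 * S.card := by exact_mod_cast hcard
  have hδ : (0 : ℝ) < 1 / (2 * P) := by positivity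
  obtain ⟨q, q1, q2, q3⟩ := vino α σ (1 / (2 * P)) L S hSr hσ hg hδ
    (by rw [div_le_one (by positivity)]; linarith)
    (by rw [div_mul_eq_mul_div, div_le_iff₀ (by positivity)]; nlinarith)
    (by rw [div_div, le_div_iff₀ (by positivity)]; linarith)
    (by rw [div_mul_eq_mul_div, lt_div_iff₀ (by positivity)]; linarith)
  refine ⟨q, q1, ?_, ?_⟩
  · rw [div_mul_eq_mul_div, div_le_iff₀ (by positivity)] at q2
    linarith
  · have : nz (q * α) * L = (nz (q * α) * ((1 / (2 * P)) ^ 2 * L)) * (4 * P ^ 2) := by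
      field_simp
      ring
    rw [this]
    nlinarith [mul_le_mul_of_nonneg_right q3 (show (0 : ℝ) ≤ 4 * P ^ 2 by positivity)]

/-- the statement for products of r variables -/
def SMs (r C : ℕ) : Prop :=
  ∀ (L : ℕ) (θ ε Q : ℝ) (g : Fin r → Vz r → ℝ) (S : Finset (Vz r)), 2 ≤ Q → 0 ≤ ε →
    (∀ i x t, g i (Function.update x i t) = g i x) → S ⊆ bz r L → (L : ℝ) ^ r ≤ Q * S.card →
    (∀ x ∈ S, nz (θ * ∏ i, (x i : ℝ) + ∑ i, g i x) ≤ ε) → Q ^ C * ε ≤ 1 → Q ^ C ≤ L →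
    ∃ n : ℕ, 1 ≤ n ∧ (n : ℝ) ≤ Q ^ C ∧ nz (n * θ) * (L : ℝ) ^ r ≤ Q ^ C * ε

theorem sm0 : SMs 0 0 := by
  intro L θ ε Q g S hQ hε _ _ hc hg _ _
  have hne : S.Nonempty := by
    rw [← card_pos]
    by_contra h
    have : S.card = 0 := by omega
    rw [this] at hc
    norm_num at hc
  obtain ⟨x, hx⟩ := hne
  refine ⟨1, le_rfl, by simp, ?_⟩
  simpa using hg x hx

theorem card_le_fib {r L : ℕ} (S : Finset (Vz (r + 1))) (hS : S ⊆ bz (r + 1) L) :
    (S.card : ℝ) ≤ ∑ t ∈ rg L,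
      (((bz r L).filter fun y => (Fin.cons t y : Vz (r + 1)) ∈ S).card : ℝ) := by
  classical
  have h1 : S.card = ∑ t ∈ rg L, (S.filter fun x => x 0 = t).card :=
    card_eq_sum_card_fiberwise fun x hx => mem_coe.2 (mem_rg.2 (mem_bz.1 (hS hx) 0))
  rw [h1]
  push_cast
  refine sum_le_sum fun t _ => ?_
  have : (S.filter fun x => x 0 = t).card ≤
      ((bz r L).filter fun y => (Fin.cons t y : Vz (r + 1)) ∈ S).card := by
    refine card_le_card_of_injOn (fun x => Fin.tail x) (fun x hx => ?_) (fun x hx y hy e => ?_)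
    · have hx' := mem_filter.1 (mem_coe.1 hx)
      refine mem_coe.2 (mem_filter.2 ⟨mem_bz.2 fun i => mem_bz.1 (hS hx'.1) i.succ, ?_⟩)
      rw [← hx'.2, Fin.cons_self_tail]
      exact hx'.1
    · have hx' := (mem_filter.1 (mem_coe.1 hx)).2
      have hy' := (mem_filter.1 (mem_coe.1 hy)).2
      rw [← Fin.cons_self_tail x, ← Fin.cons_self_tail y, hx', hy']
      exact congrArg _ e
  exact_mod_cast this

theorem diff_eq {r : ℕ} (θ : ℝ) (g : Fin (r + 1) → Vz (r + 1) → ℝ)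
    (hg : ∀ i x t, g i (Function.update x i t) = g i x) (t t' : ℤ) (y : Vz r) :
    (θ * ((t - t' : ℤ) : ℝ)) * ∏ i, (y i : ℝ) +
        ∑ i : Fin r, (g i.succ (Fin.cons t y) - g i.succ (Fin.cons t' y)) =
      (θ * ∏ i, (((Fin.cons t y : Vz (r + 1)) i : ℤ) : ℝ) + ∑ i, g i (Fin.cons t y)) -
      (θ * ∏ i, (((Fin.cons t' y : Vz (r + 1)) i : ℤ) : ℝ) + ∑ i, g i (Fin.cons t' y)) := by
  have h0 : g 0 (Fin.cons t y) = g 0 (Fin.cons t' y) := by
    rw [← hg 0 (Fin.cons t y) t', Fin.update_cons_zero]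
  simp only [Fin.prod_univ_succ, Fin.sum_univ_succ, Fin.cons_zero, Fin.cons_succ, h0,
    sum_sub_distrib]
  push_cast
  ring

theorem pw {Q : ℝ} (hQ : 2 ≤ Q) (c : ℝ) (a b e : ℕ) (hc : c ≤ 2 ^ a) (h : a + 3 * b ≤ e) :
    c * (2 * Q ^ 2) ^ b ≤ Q ^ e := by
  have h1 : 2 * Q ^ 2 ≤ Q ^ 3 := by nlinarith [sq_nonneg Q]
  have h2 : (2 * Q ^ 2) ^ b ≤ (Q ^ 3) ^ b := pow_le_pow_left₀ (by positivity) h1 b
  have h3 : (2 : ℝ) ^ a ≤ Q ^ a := pow_le_pow_left₀ (by norm_num) hQ a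
  calc c * (2 * Q ^ 2) ^ b ≤ Q ^ a * (Q ^ 3) ^ b :=
        mul_le_mul (hc.trans h3) h2 (by positivity) (by positivity)
    _ = Q ^ (a + 3 * b) := by rw [← pow_mul, ← pow_add]
    _ ≤ Q ^ e := pow_le_pow_right₀ (by linarith) h

theorem sm_succ {r C : ℕ} (ih : SMs r C) : SMs (r + 1) (9 * C + 15) := by
  classical
  intro L θ ε Q g S hQ hε hg hS hc hgood h1 h2
  set P : ℝ := 2 * Q ^ 2 with hP
  have hP2 : 2 ≤ P := by nlinarith
  have hP1 : 1 ≤ P := by linarith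
  have hL1 : (1 : ℝ) ≤ L := le_trans (one_le_pow₀ (by linarith)) h2
  have hL0 : 0 < L := by exact_mod_cast (lt_of_lt_of_le zero_lt_one hL1)
  set F : ℤ → Finset (Vz r) := fun t => (bz r L).filter fun y => (Fin.cons t y : Vz (r + 1)) ∈ S
    with hF
  obtain ⟨t', ht', T, hT, hTc, hTf⟩ := fib (rg L) (bz r L) F Q (by linarith)
    (by rw [card_rg]; exact hL0) (by rw [card_bz]; positivity) (fun t => filter_subset _ _) (by
      rw [card_rg, card_bz]
      push_cast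
      rw [← pow_succ']
      exact hc.trans (mul_le_mul_of_nonneg_left (card_le_fib S hS) (by linarith)))
  rw [card_rg] at hTc
  have key : ∀ t ∈ T, ∃ n : ℕ, 1 ≤ n ∧ (n : ℝ) ≤ P ^ C ∧
      nz (n * (θ * ((t - t' : ℤ) : ℝ))) * (L : ℝ) ^ r ≤ P ^ C * (2 * ε) := by
    intro t ht
    refine ih L (θ * ((t - t' : ℤ) : ℝ)) (2 * ε) P
      (fun i y => g i.succ (Fin.cons t y) - g i.succ (Fin.cons t' y)) (F t ∩ F t') hP2
      (by linarith) ?_ (subset_trans inter_subset_left (filter_subset _ _)) ?_ ?_ ?_ ?_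
    · intro i y u
      simp only [Fin.cons_update, hg]
    · have := hTf t ht
      rw [card_bz] at this
      exact_mod_cast this
    · intro y hy
      have a := hgood _ (mem_filter.1 (mem_inter.1 hy).1).2
      have b := hgood _ (mem_filter.1 (mem_inter.1 hy).2).2
      rw [diff_eq θ g hg]
      exact (nz_sub_le _ _).trans (by linarith)
    · have := mul_le_mul_of_nonneg_right (pw hQ 2 1 C (9 * C + 15) (by norm_num) (by omega)) hε
      linarith
    · have := pw hQ 1 0 C (9 * C + 15) (by norm_num) (by omega)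
      linarith
  choose! n hn using key
  have hPC : 1 ≤ P ^ C := one_le_pow₀ hP1
  obtain ⟨k, k1, k2, U, hU, hUc, hUk⟩ := pop T n (P ^ C) hPC fun t ht => ⟨(hn t ht).1, (hn t ht).2.1⟩
  have hLr : (1 : ℝ) ≤ (L : ℝ) ^ r := one_le_pow₀ hL1
  have hLr0 : (0 : ℝ) < (L : ℝ) ^ r := by linarith
  set σ : ℝ := P ^ C * (2 * ε) / (L : ℝ) ^ r with hσ
  have hσ0 : 0 ≤ σ := by positivity
  have hσ1 : σ ≤ P ^ C * (2 * ε) := div_le_self (by positivity) hLr
  obtain ⟨q, q1, q2, q3⟩ := vsh (k * θ) σ (P ^ (C + 1)) L U t' ht' (subset_trans hU hT)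
    (one_le_pow₀ hP1) hσ0 (by
      refine hTc.trans ?_
      rw [pow_succ' P, mul_assoc P]
      exact mul_le_mul_of_nonneg_left hUc (by linarith)) (by
      intro t ht
      have := (hn t (hU ht)).2.2
      rw [hUk t ht] at this
      rw [hσ, le_div_iff₀ hLr0]
      have e : ((t - t' : ℤ) : ℝ) * (k * θ) = k * (θ * ((t - t' : ℤ) : ℝ)) := by ring
      rw [e]
      exact this) (by
      have a := mul_le_mul_of_nonneg_right
        (pw hQ 32 5 (2 * C + 1) (9 * C + 15) (by norm_num) (by omega)) hε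
      have b : 16 * P ^ (C + 1) * σ ≤ 16 * P ^ (C + 1) * (P ^ C * (2 * ε)) :=
        mul_le_mul_of_nonneg_left hσ1 (by positivity)
      have e : 16 * P ^ (C + 1) * (P ^ C * (2 * ε)) = 32 * P ^ (2 * C + 1) * ε := by ring
      linarith) (by
      have a := pw hQ 8 3 (C + 1) (9 * C + 15) (by norm_num) (by omega)
      have b : 1 ≤ P ^ (C + 1) := one_le_pow₀ hP1
      linarith)
  refine ⟨q * k, Nat.mul_pos q1 k1, ?_, ?_⟩
  · have a := pw hQ 4 2 (2 * C + 1) (9 * C + 15) (by norm_num) (by omega)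
    have b : (q : ℝ) * k ≤ 4 * P ^ (C + 1) * P ^ C :=
      mul_le_mul q2 k2 (by positivity) (by positivity)
    have e : 4 * P ^ (C + 1) * P ^ C = 4 * P ^ (2 * C + 1) := by ring
    push_cast
    linarith
  · have a := mul_le_mul_of_nonneg_right
      (pw hQ 384 9 (3 * C + 2) (9 * C + 15) (by norm_num) (by omega)) hε
    have b := mul_le_mul_of_nonneg_right q3 hLr0.le
    have e : 192 * (P ^ (C + 1)) ^ 2 * σ * (L : ℝ) ^ r = 384 * P ^ (3 * C + 2) * ε := by
      rw [hσ]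
      field_simp
      ring
    have e2 : nz (((q * k : ℕ) : ℝ) * θ) * (L : ℝ) ^ (r + 1) =
        nz (q * (k * θ)) * L * (L : ℝ) ^ r := by
      push_cast
      rw [mul_assoc (q : ℝ)]
      ring
    rw [e2]
    linarith

/-- SM : Vinogradov for a product of r variables, up to terms missing a variable -/
theorem sm (r : ℕ) : ∃ C : ℕ, SMs r C := by
  induction r with
  | zero => exact ⟨0, sm0⟩
  | succ r ih =>
    obtain ⟨C, h⟩ := ih
    exact ⟨_, sm_succ h⟩

/-- the multilinear form with coefficients c -/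
noncomputable def ml {d m : ℕ} (c : (Fin d → Fin m) → ℝ) (x : Pt d m) : ℝ :=
  ∑ a : Fin d → Fin m, c a * ∏ i, (x i (a i) : ℝ)

/-- replace the coordinates (i, a i) -/
def up {d m : ℕ} (a : Fin d → Fin m) (x : Pt d m) (y : Vz d) : Pt d m :=
  fun i => Function.update (x i) (a i) (y i)

theorem up_self {d m : ℕ} (a : Fin d → Fin m) (x : Pt d m) (y : Vz d) (i : Fin d) :
    up a x y i (a i) = y i := by simp [up]

theorem up_update {d m : ℕ} (a : Fin d → Fin m) (x : Pt d m) (y : Vz d) (i : Fin d) (t : ℤ) :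
    up a x (Function.update y i t) =
      Function.update (up a x y) i (Function.update (x i) (a i) t) := by
  funext j
  by_cases h : j = i
  · subst h
    simp [up]
  · simp [up, h]

theorem mem_bp {d m L : ℕ} {x : Pt d m} : x ∈ bp d m L ↔ ∀ i l, 0 ≤ x i l ∧ x i l < L := by
  simp only [bp, Fintype.mem_piFinset, mem_bz]

theorem up_mem {d m L : ℕ} (a : Fin d → Fin m) {x : Pt d m} {y : Vz d} (hx : x ∈ bp d m L)
    (hy : y ∈ bz d L) : up a x y ∈ bp d m L := by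
  refine mem_bp.2 fun i l => ?_
  by_cases h : l = a i
  · subst h
    rw [up_self]
    exact mem_bz.1 hy i
  · simp only [up, Function.update_of_ne h]
    exact mem_bp.1 hx i l

theorem up_up {d m : ℕ} (a : Fin d → Fin m) (x : Pt d m) (y : Vz d) :
    up a (up a x y) (fun i => x i (a i)) = x := by
  funext i
  simp [up]

/-- some slice in the coordinates (i, a i) is dense -/
theorem slice {d m L : ℕ} (hL : 0 < L) (a : Fin d → Fin m) (S : Finset (Pt d m))
    (hS : S ⊆ bp d m L) (Q : ℝ) (hQ : 0 ≤ Q) (hc : ((L : ℝ) ^ m) ^ d ≤ Q * S.card) :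
    ∃ x : Pt d m, (L : ℝ) ^ d ≤ Q * ((bz d L).filter fun y => up a x y ∈ S).card := by
  classical
  have h1 : (S ×ˢ bz d L).card ≤
      ((bp d m L ×ˢ bz d L).filter fun p => up a p.1 p.2 ∈ S).card := by
    refine card_le_card_of_injOn (fun p => (up a p.1 p.2, fun i => p.1 i (a i)))
      (fun p hp => ?_) (fun p hp p' hp' e => ?_)
    · have hp' := mem_product.1 (mem_coe.1 hp)
      refine mem_coe.2 (mem_filter.2 ⟨mem_product.2 ⟨up_mem a (hS hp'.1) hp'.2,
        mem_bz.2 fun i => mem_bp.1 (hS hp'.1) i (a i)⟩, ?_⟩)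
      simp only [up_up]
      exact hp'.1
    · have e1 : up a p.1 p.2 = up a p'.1 p'.2 := congrArg Prod.fst e
      have e2 : (fun i => p.1 i (a i)) = fun i => p'.1 i (a i) := congrArg Prod.snd e
      refine Prod.ext ?_ (funext fun i => ?_)
      · rw [← up_up a p.1 p.2, ← up_up a p'.1 p'.2, e1, e2]
      · rw [← up_self a p.1 p.2 i, ← up_self a p'.1 p'.2 i, e1]
  have h2 : ((bp d m L ×ˢ bz d L).filter fun p => up a p.1 p.2 ∈ S).card =
      ∑ x ∈ bp d m L, ((bz d L).filter fun y => up a x y ∈ S).card := by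
    simp only [card_filter]
    rw [sum_product]
  rw [h2, card_product, card_bz] at h1
  have h3 : (S.card : ℝ) * (L : ℝ) ^ d ≤
      ∑ x ∈ bp d m L, (((bz d L).filter fun y => up a x y ∈ S).card : ℝ) := by exact_mod_cast h1
  have hne : (bp d m L).Nonempty := by
    rw [← card_pos, card_bp]
    positivity
  have h4 : ∑ x ∈ bp d m L, (L : ℝ) ^ d ≤
      ∑ x ∈ bp d m L, Q * (((bz d L).filter fun y => up a x y ∈ S).card : ℝ) := by
    rw [sum_const, nsmul_eq_mul, ← mul_sum, card_bp]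
    push_cast
    have a1 := mul_le_mul_of_nonneg_left h3 hQ
    have a2 := mul_le_mul_of_nonneg_right hc (show (0 : ℝ) ≤ (L : ℝ) ^ d by positivity)
    linarith
  obtain ⟨x, _, hx⟩ := exists_le_of_sum_le hne h4
  exact ⟨x, hx⟩

/-- on a slice the form is a product plus terms missing a variable -/
theorem ml_up {d m : ℕ} (c : (Fin d → Fin m) → ℝ) (a : Fin d → Fin m) (x : Pt d m) :
    ∃ g : Fin d → Vz d → ℝ, (∀ i y t, g i (Function.update y i t) = g i y) ∧
      ∀ y, ml c (up a x y) = c a * ∏ i, (y i : ℝ) + ∑ i, g i y := by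
  classical
  have hx : ∀ b : Fin d → Fin m, b ∈ univ.erase a → ∃ i, b i ≠ a i := fun b hb =>
    Function.ne_iff.1 (mem_erase.1 hb).1
  rcases Nat.eq_zero_or_pos d with h0 | h0
  · subst h0
    refine ⟨fun _ _ => 0, fun _ _ _ => rfl, fun y => ?_⟩
    simp [ml, Subsingleton.elim a default]
  haveI : Nonempty (Fin d) := ⟨⟨0, h0⟩⟩
  choose! κ hκ using hx
  refine ⟨fun i y => ∑ b ∈ (univ.erase a).filter fun b => κ b = i,
    c b * ∏ j, (up a x y j (b j) : ℝ), fun i y t => ?_, fun y => ?_⟩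
  · refine sum_congr rfl fun b hb => ?_
    have hb' := mem_filter.1 hb
    have hne : b i ≠ a i := hb'.2 ▸ hκ b hb'.1
    congr 1
    refine prod_congr rfl fun j _ => ?_
    by_cases h : j = i
    · subst h
      simp only [up, Function.update_of_ne hne]
    · simp only [up, Function.update_of_ne h]
  · rw [sum_fiberwise_of_maps_to (fun b _ => mem_univ (κ b)), ml,
      ← add_sum_erase _ _ (mem_univ a)]
    simp only [up_self]

/-- VSM for one coefficient -/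
theorem vsm1 (d : ℕ) : ∃ C : ℕ, ∀ (m L : ℕ) (c : (Fin d → Fin m) → ℝ) (ε Q : ℝ)
    (g : Fin d → Pt d m → ℝ) (S : Finset (Pt d m)), 2 ≤ Q → 0 ≤ ε →
    (∀ i x t, g i (Function.update x i t) = g i x) → S ⊆ bp d m L →
    ((L : ℝ) ^ m) ^ d ≤ Q * S.card → (∀ x ∈ S, nz (ml c x + ∑ i, g i x) ≤ ε) →
    Q ^ C * ε ≤ 1 → Q ^ C ≤ L → ∀ a : Fin d → Fin m,
    ∃ n : ℕ, 1 ≤ n ∧ (n : ℝ) ≤ Q ^ C ∧ nz (n * c a) * (L : ℝ) ^ d ≤ Q ^ C * ε := by
  classical
  obtain ⟨C, hC⟩ := sm d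
  refine ⟨C, fun m L c ε Q g S hQ hε hg hS hc hgood h1 h2 a => ?_⟩
  have hL1 : (1 : ℝ) ≤ L := le_trans (one_le_pow₀ (by linarith)) h2
  have hL0 : 0 < L := by exact_mod_cast (lt_of_lt_of_le zero_lt_one hL1)
  obtain ⟨x, hx⟩ := slice hL0 a S hS Q (by linarith) hc
  obtain ⟨g', hg', he⟩ := ml_up c a x
  refine hC L (c a) ε Q (fun i y => g' i y + g i (up a x y)) _ hQ hε ?_ (filter_subset _ _) hx ?_
    h1 h2
  · intro i y t
    simp only [hg', up_update, hg]
  · intro y hy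
    have := hgood _ (mem_filter.1 hy).2
    rw [he] at this
    rw [sum_add_distrib, ← add_assoc]
    exact this

/-- a common denominator -/
theorem common {ι : Type} [Fintype ι] (c : ι → ℝ) (M W E : ℝ) (hM : 1 ≤ M) (hW : 0 ≤ W)
    (hE : 0 ≤ E) (h : ∀ a, ∃ n : ℕ, 1 ≤ n ∧ (n : ℝ) ≤ M ∧ nz (n * c a) * W ≤ E) :
    ∃ n : ℕ, 1 ≤ n ∧ (n : ℝ) ≤ M ^ Fintype.card ι ∧
      ∀ a, nz (n * c a) * W ≤ M ^ Fintype.card ι * E := by
  classical
  choose n hn using h
  have hb : ∀ s : Finset ι, ((∏ a ∈ s, n a : ℕ) : ℝ) ≤ M ^ Fintype.card ι := by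
    intro s
    push_cast
    refine (prod_le_prod (fun a _ => by positivity) fun a _ => (hn a).2.1).trans ?_
    rw [prod_const]
    exact pow_le_pow_right₀ hM (card_le_univ s)
  refine ⟨∏ a, n a, Nat.succ_le_of_lt (prod_pos fun a _ => (hn a).1), hb _, fun a => ?_⟩
  rw [← prod_erase_mul _ _ (mem_univ a), Nat.cast_mul, mul_assoc]
  have h1 := mul_le_mul_of_nonneg_right (nz_nat_mul_le (∏ b ∈ univ.erase a, n b) (n a * c a)) hW
  refine h1.trans ?_
  rw [mul_assoc]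
  exact mul_le_mul (hb _) (hn a).2.2 (mul_nonneg (nz_nonneg _) hW) (by positivity)

/-- VSM : all coefficients of a multilinear form that is often small are major arc -/
theorem vsm (d : ℕ) : ∃ C : ℕ, ∀ (m L : ℕ) (c : (Fin d → Fin m) → ℝ) (ε Q : ℝ)
    (g : Fin d → Pt d m → ℝ) (S : Finset (Pt d m)), 2 ≤ Q → 0 ≤ ε →
    (∀ i x t, g i (Function.update x i t) = g i x) → S ⊆ bp d m L →
    ((L : ℝ) ^ m) ^ d ≤ Q * S.card → (∀ x ∈ S, nz (ml c x + ∑ i, g i x) ≤ ε) →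
    Q ^ C * ε ≤ 1 → Q ^ C ≤ L →
    ∃ n : ℕ, 1 ≤ n ∧ (n : ℝ) ≤ (Q ^ C) ^ (m ^ d) ∧
      ∀ a, nz (n * c a) * (L : ℝ) ^ d ≤ (Q ^ C) ^ (m ^ d) * (Q ^ C * ε) := by
  obtain ⟨C, hC⟩ := vsm1 d
  refine ⟨C, fun m L c ε Q g S hQ hε hg hS hc hgood h1 h2 => ?_⟩
  have := common c (Q ^ C) ((L : ℝ) ^ d) (Q ^ C * ε) (one_le_pow₀ (by linarith)) (by positivity)
    (by positivity) (hC m L c ε Q g S hQ hε hg hS hc hgood h1 h2)
  simpa using this

end Vale.Agent.P057T.Vsm
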